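import Mathlib

set_option linter.all false

section

/-! P054, block R: definitions and black box statements.

`R(X,Y) = ∑ ρ(M_g)³` over all isometries `g` of `ℝ³` (proper and improper) with `ρ(M_g) ≥ K1`,
`M_g = {x ∈ X : g x ∈ Y}`, `ρ(M) = ` least number of points of `M` off a line. -/

set_option linter.all false
set_option autoImplicit false

namespace Vale.Agent.P054.R

open Finset Matrix

abbrev V3 := Fin 3 → ℝ

/-- `g = (Q, v)` -/
abbrev Iso := Matrix (Fin 3) (Fin 3) ℝ × V3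

/-- `g` is an isometry -/
def Orth (g : Iso) : Prop := g.1ᵀ * g.1 = 1

def act (g : Iso) (x : V3) : V3 := g.1.mulVec x + g.2

open scoped Classical in
/-- the points of `X` moved into `Y` -/
noncomputable def M (g : Iso) (X Y : Finset V3) : Finset V3 := X.filter (fun x => act g x ∈ Y)

/-- `a` is on the line through `x` with direction `b` -/
def OnL (x b a : V3) : Prop := crossProduct (a - x) b = 0

open scoped Classical in
/-- number of points of `S` off the line `(x, b)` -/
noncomputable def off (S : Finset V3) (x b : V3) : ℕ := (S.filter (fun a => ¬ OnL x b a)).card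

open scoped Classical in
/-- number of points of `S` on the line `(x, b)` -/
noncomputable def on (S : Finset V3) (x b : V3) : ℕ := (S.filter (fun a => OnL x b a)).card

/-- least number of points of `S` off a line -/
noncomputable def rho (S : Finset V3) : ℕ := sInf {k | ∃ x b : V3, b ≠ 0 ∧ off S x b = k}

/-- `a` is on the plane `n ⬝ y = d` -/
def OnP (n : V3) (d : ℝ) (a : V3) : Prop := n ⬝ᵥ a = d

/-- reflection in the plane `n ⬝ y = d` -/
noncomputable def refl (n : V3) (d : ℝ) (a : V3) : V3 := a - (2 * (n ⬝ᵥ a - d) / (n ⬝ᵥ n)) • n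

/-- partner of `g`: first the reflection in the plane, then `g` -/
noncomputable def prt (g : Iso) (n : V3) (d : ℝ) : Iso :=
  (g.1 * (1 - (2 / (n ⬝ᵥ n)) • Matrix.vecMulVec n n), g.1.mulVec ((2 * d / (n ⬝ᵥ n)) • n) + g.2)

/-- the line `(x, b)` is contained in the plane `(n, d)` -/
def LinP (x b n : V3) (d : ℝ) : Prop := n ⬝ᵥ x = d ∧ n ⬝ᵥ b = 0

/-- the two lines are different -/
def DiffL (x b x' b' : V3) : Prop := ¬ (∀ a, OnL x b a ↔ OnL x' b' a)

/-- the functional -/
noncomputable def Rf (K1 : ℕ) (G : Finset Iso) (X Y : Finset V3) : ℝ :=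
  ∑ g ∈ G, (if K1 ≤ rho (M g X Y) then ((rho (M g X Y) : ℕ) : ℝ) ^ 3 else 0)

/-! ### Black boxes -/

/-- spanning motions (from block J) -/
def SpanStmt : Prop := ∀ (X Y : Finset V3) (G : Finset Iso), (∀ g ∈ G, Orth g) →
  (∀ g ∈ G, 1 ≤ rho (M g X Y) ∧ ∀ (n : V3) (d : ℝ), n ≠ 0 → ∃ a ∈ M g X Y, ¬ OnP n d a) →
  (G.card : ℝ) ≤ 10 * ((X.card : ℝ) * Y.card) ^ 2

/-- doubly planar motions of bounded richness (from block PL) -/
def PlanarStmt : Prop := ∀ ε : ℝ, 0 < ε → ∃ K1 : ℕ, ∀ K2 : ℕ, ∃ C : ℝ, 0 < C ∧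
  ∀ (X Y : Finset V3) (G : Finset Iso), (∀ g ∈ G, Orth g) →
  (∀ g ∈ G, K1 ≤ rho (M g X Y) ∧ ∃ (n : V3) (d : ℝ), n ≠ 0 ∧ (∀ a ∈ M g X Y, OnP n d a) ∧
    rho (M (prt g n d) X Y) ≤ K2) →
  (G.card : ℝ) ≤ C * ((X.card : ℝ) * Y.card) ^ (2 + ε)

/-- two rich lines, skew or coplanar with comparable partner (from L3, J, PL-BIP) -/
def TwoStmt : Prop := ∀ ε : ℝ, 0 < ε → ∀ K3 : ℕ, ∃ K2 : ℕ, ∃ C : ℝ, 0 < C ∧
  ∀ (X Y : Finset V3) (G : Finset Iso), (∀ g ∈ G, Orth g) →
  ∀ (k : Iso → ℕ) (x1 b1 x2 b2 : Iso → V3),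
  (∀ g ∈ G, K2 ≤ k g ∧ b1 g ≠ 0 ∧ b2 g ≠ 0 ∧ DiffL (x1 g) (b1 g) (x2 g) (b2 g) ∧
    k g ≤ on (M g X Y) (x1 g) (b1 g) ∧ k g ≤ on (M g X Y) (x2 g) (b2 g) ∧
    ∀ (n : V3) (d : ℝ), n ≠ 0 → LinP (x1 g) (b1 g) n d → LinP (x2 g) (b2 g) n d →
      rho (M (prt g n d) X Y) ≤ K3 * k g) →
  ∑ g ∈ G, ((k g : ℕ) : ℝ) ^ 3 ≤ C * ((X.card : ℝ) * Y.card) ^ (2 + ε)

/-- absorption (Szemeredi-Trotter): planes with two rich lines -/
def AbsorbStmt : Prop := ∃ C : ℝ, 0 < C ∧ ∀ (S : Finset V3) (K2 K3 : ℕ), 16 ≤ K2 → 1 ≤ K3 →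
  ∀ (ι : Type) (I : Finset ι) (n : ι → V3) (d : ι → ℝ) (k : ι → ℕ),
  (∀ i ∈ I, n i ≠ 0) →
  (∀ i ∈ I, ∀ j ∈ I, i ≠ j → ¬ (∀ a, OnP (n i) (d i) a ↔ OnP (n j) (d j) a)) →
  (∀ i ∈ I, K2 ≤ k i ∧ K3 * k i ≤ rho S ∧ ∃ x1 b1 x2 b2 : V3, b1 ≠ 0 ∧ b2 ≠ 0 ∧
    DiffL x1 b1 x2 b2 ∧ LinP x1 b1 (n i) (d i) ∧ LinP x2 b2 (n i) (d i) ∧
    k i ≤ on S x1 b1 ∧ k i ≤ on S x2 b2) →
  ∑ i ∈ I, ((k i : ℕ) : ℝ) ^ 3 ≤ C * (rho S : ℝ) ^ 3 * (1 / K2 + 1 / K3)

/-- output -/
def RStmt : Prop := ∀ ε : ℝ, 0 < ε → ∃ K1 : ℕ, ∃ C : ℝ, 0 < C ∧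
  ∀ (X Y : Finset V3) (G : Finset Iso), (∀ g ∈ G, Orth g) →
  Rf K1 G X Y ≤ C * ((X.card : ℝ) * Y.card) ^ (2 + ε)

end Vale.Agent.P054.R
end

section

/-!
Block J of the n^(2/3-eps) project (helper54): motions with four affinely independent matched
points.  Final output (J/Main.lean): at most `5 * |S1| * |S2|` motions.
Vocabulary: `ptI x` the ideal of the point `x`, `VV n S x m` the polynomials of degree at most `n`
that vanish to order at least `m g` at `x g` for every `g` in `S`, `DD` its dimension.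
-/

set_option linter.all false

namespace Vale.Agent.P054.J

open MvPolynomial Finset

/-- The ideal of all polynomials vanishing at the point `x`. -/
noncomputable def ptI {σ : Type} (x : σ → ℝ) : Ideal (MvPolynomial σ ℝ) :=
  RingHom.ker (MvPolynomial.eval x)

/-- Pull back along the affine map `z ↦ M z + v`. -/
noncomputable def pull {a b : ℕ} (M : Matrix (Fin b) (Fin a) ℝ) (v : Fin b → ℝ) :
    MvPolynomial (Fin b) ℝ →ₐ[ℝ] MvPolynomial (Fin a) ℝ :=
  aeval (fun j => (∑ k, C (M j k) * X k) + C (v j))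

/-- Polynomials in three variables of degree at most `n`, order at least `m g` at `x g`, `g ∈ S`. -/
noncomputable def VV {ι : Type} (n : ℕ) (S : Finset ι) (x : ι → Fin 3 → ℝ) (m : ι → ℕ) :
    Submodule ℝ (MvPolynomial (Fin 3) ℝ) :=
  MvPolynomial.restrictTotalDegree (Fin 3) ℝ n ⊓
    ⨅ g ∈ S, ((ptI (x g)) ^ (m g)).restrictScalars ℝ

/-- The dimension of `VV`. -/
noncomputable def DD {ι : Type} (n : ℕ) (S : Finset ι) (x : ι → Fin 3 → ℝ) (m : ι → ℕ) : ℕ :=
  Module.finrank ℝ (VV n S x m)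

/-- `T n`, the dimension of the polynomials of degree at most `n` in three variables. -/
def TT (n : ℕ) : ℕ := (n + 3).choose 3

/-- The three edges at the vertex `i` of the tetrahedron; the edges are
`0 = 12, 1 = 13, 2 = 14, 3 = 23, 4 = 24, 5 = 34`. -/
def tri (i : Fin 4) : Fin 3 → Fin 6 :=
  match i with
  | 0 => ![0, 1, 2]
  | 1 => ![0, 3, 4]
  | 2 => ![1, 3, 5]
  | 3 => ![2, 4, 5]

/-- The inclusion `R^3 → R^6` of the coordinate space of the vertex `i`. -/
def Ext (i : Fin 4) : Matrix (Fin 6) (Fin 3) ℝ := fun e k => if e = tri i k then 1 else 0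

/-- `mlt γ t g`: the orders known to be attained before the pair `(g, time t)` is treated. -/
def mlt {ι : Type} [LinearOrder ι] (γ : ι → ℕ) (t : ℕ) (g : ι) : ι → ℕ :=
  fun g' => if g' < g then t + 1 - γ g' else t - γ g'

/-- `mle γ t g`: the orders attained after the pair `(g, time t)`. -/
def mle {ι : Type} [LinearOrder ι] (γ : ι → ℕ) (t : ℕ) (g : ι) : ι → ℕ :=
  fun g' => if g' ≤ g then t + 1 - γ g' else t - γ g'

/-- A configuration: points `pt g` of `R^6`; flats `κ` with direction matrix `M`; four flats through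
every point, whose directions are the coordinate spaces `tri i` in the basis `A g` of `R^6`. -/
structure Conf (ι κ : Type) where
  pt : ι → Fin 6 → ℝ
  fl : ι → Fin 4 → κ
  lab : κ → Bool
  M : κ → Matrix (Fin 6) (Fin 3) ℝ
  y : κ → ι → Fin 3 → ℝ
  A : ι → Matrix (Fin 6) (Fin 6) ℝ
  Ai : ι → Matrix (Fin 6) (Fin 6) ℝ
  B : ι → Fin 4 → Matrix (Fin 3) (Fin 3) ℝ
  Bi : ι → Fin 4 → Matrix (Fin 3) (Fin 3) ℝ
  hA : ∀ g, A g * Ai g = 1
  hA' : ∀ g, Ai g * A g = 1
  hB : ∀ g i, B g i * Bi g i = 1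
  hB' : ∀ g i, Bi g i * B g i = 1
  hMB : ∀ g i, M (fl g i) * B g i = A g * Ext i
  hpt : ∀ g i g' i', fl g i = fl g' i' →
    pt g' - pt g = (M (fl g i)).mulVec (y (fl g i) g' - y (fl g i) g)
  hinj : Function.Injective pt
  hfl : ∀ g, Function.Injective (fl g)
  hlab : ∀ g i, lab (fl g i) = decide (2 ≤ i.val)

variable {ι κ : Type}

/-- The points of `G` on the flat `l`. -/
noncomputable def Conf.inc (c : Conf ι κ) (G : Finset ι) (l : κ) : Finset ι := by
  classical exact G.filter (fun g => ∃ i, c.fl g i = l)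

/-- The flats with label `b` used by `G`. -/
noncomputable def Conf.used (c : Conf ι κ) (G : Finset ι) (b : Bool) : Finset κ := by
  classical exact (G.biUnion (fun g => Finset.univ.image (c.fl g))).filter (fun l => c.lab l = b)

/-- Coordinates of the points of the flat `fl g i`, centred at `g`. -/
noncomputable def Conf.Z (c : Conf ι κ) (g : ι) (i : Fin 4) (g' : ι) : Fin 3 → ℝ :=
  (c.Bi g i).mulVec (c.y (c.fl g i) g' - c.y (c.fl g i) g)

/-- Weight of an exponent on the coordinates of the vertex `i`. -/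
def wt3 (n : ℕ) (i : Fin 4) (β : Fin 3 →₀ ℕ) : ℕ := ∑ k, β k * (n + 1) ^ (tri i k).val

/-- Total degree of an exponent in three variables. -/
def deg3 (β : Fin 3 →₀ ℕ) : ℕ := ∑ k, β k

/-- The leading exponents at `g` on the flat `fl g i`. -/
def Conf.EE [LinearOrder ι] (c : Conf ι κ) (G : Finset ι) (γ : ι → ℕ) (n : ℕ) (g : ι) (i : Fin 4) :
    Set (Fin 3 →₀ ℕ) :=
  {β | ∃ t, γ g ≤ t ∧ deg3 β + γ g = t ∧
    ∃ q ∈ VV n (c.inc G (c.fl g i)) (c.Z g i) (mlt γ t g), coeff β q ≠ 0 ∧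
      ∀ β', deg3 β' = deg3 β → coeff β' q ≠ 0 → wt3 n i β' ≤ wt3 n i β}

/-- Restriction of an exponent in six variables to the vertex `i`. -/
noncomputable def res3 (i : Fin 4) (α : Fin 6 →₀ ℕ) : Fin 3 →₀ ℕ :=
  Finsupp.equivFunOnFinite.symm (fun k => α (tri i k))

/-- The allocation of the flat with data `D` to the point `g`. -/
def ball {ι : Type} [LinearOrder ι] (D : (ι → ℕ) → ℕ) (γ : ι → ℕ) (R : ℕ) (g : ι) : ℕ :=
  ∑ t ∈ Finset.range R, (D (mlt γ t g) - D (mle γ t g))

end Vale.Agent.P054.J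
end

section

/-! Block J, file PtIA: affine substitutions. -/

set_option linter.all false

namespace Vale.Agent.P054.J

open MvPolynomial Finset

theorem mem_ptI {σ : Type} (x : σ → ℝ) (p : MvPolynomial σ ℝ) : p ∈ ptI x ↔ eval x p = 0 := by
  simp [ptI, RingHom.mem_ker]

theorem pull_eval {a b : ℕ} (M : Matrix (Fin b) (Fin a) ℝ) (v : Fin b → ℝ) (z : Fin a → ℝ)
    (P : MvPolynomial (Fin b) ℝ) : eval z (pull M v P) = eval (M.mulVec z + v) P := by
  have h : (eval z).comp (pull M v).toRingHom = eval (M.mulVec z + v) := by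
    apply MvPolynomial.ringHom_ext
    · intro r
      simp [pull]
    · intro j
      simp [pull, Matrix.mulVec, dotProduct]
  exact RingHom.congr_fun h P

theorem pull_pull {a a' b : ℕ} (M : Matrix (Fin b) (Fin a) ℝ) (v : Fin b → ℝ)
    (M' : Matrix (Fin a) (Fin a') ℝ) (v' : Fin a → ℝ) (P : MvPolynomial (Fin b) ℝ) :
    pull M' v' (pull M v P) = pull (M * M') (M.mulVec v' + v) P := by
  have h : (pull M' v').comp (pull M v) = pull (M * M') (M.mulVec v' + v) := by
    apply MvPolynomial.algHom_ext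
    intro j
    simp only [pull, AlgHom.comp_apply, aeval_X, map_add, map_sum, map_mul, algHom_C,
      MvPolynomial.algebraMap_eq, Matrix.mul_apply, Matrix.mulVec, dotProduct, Pi.add_apply,
      mul_add, Finset.mul_sum, Finset.sum_add_distrib, Finset.sum_mul]
    rw [Finset.sum_comm]
    simp only [mul_assoc]
    ring
  exact DFunLike.congr_fun h P

theorem pull_one {a : ℕ} (P : MvPolynomial (Fin a) ℝ) : pull 1 0 P = P := by
  have h : pull (1 : Matrix (Fin a) (Fin a) ℝ) 0 = AlgHom.id ℝ _ := by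
    apply MvPolynomial.algHom_ext
    intro j
    simp only [pull, aeval_X, Pi.zero_apply, map_zero, add_zero, AlgHom.id_apply]
    rw [Finset.sum_eq_single j]
    · simp
    · intro k _ hk
      simp [Matrix.one_apply_ne (Ne.symm hk)]
    · simp
  rw [h]; rfl

theorem pull_totalDegree_le {a b : ℕ} (M : Matrix (Fin b) (Fin a) ℝ) (v : Fin b → ℝ)
    (P : MvPolynomial (Fin b) ℝ) : (pull M v P).totalDegree ≤ P.totalDegree := by
  have hf : ∀ j, ((∑ k, C (M j k) * X k) + C (v j) : MvPolynomial (Fin a) ℝ).totalDegree ≤ 1 := by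
    intro j
    refine (totalDegree_add _ _).trans (max_le ?_ (by simp))
    refine totalDegree_finsetSum_le fun k _ => ?_
    refine (totalDegree_mul _ _).trans ?_
    simp
  rw [pull, aeval_def, eval₂_eq']
  refine totalDegree_finsetSum_le fun d hd => ?_
  refine (totalDegree_mul _ _).trans ?_
  have h1 : (algebraMap ℝ (MvPolynomial (Fin a) ℝ) (coeff d P)).totalDegree = 0 := by
    rw [MvPolynomial.algebraMap_eq]; exact totalDegree_C _
  rw [h1, zero_add]
  refine (totalDegree_finset_prod _ _).trans ?_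
  refine le_trans (Finset.sum_le_sum (g := fun i => d i) fun i _ => ?_) ?_
  · refine (totalDegree_pow _ _).trans ?_
    calc d i * _ ≤ d i * 1 := Nat.mul_le_mul_left _ (hf i)
      _ = d i := mul_one _
  · have := le_totalDegree hd
    rwa [Finsupp.sum_fintype _ _ (fun _ => rfl)] at this

theorem pull_mem {a b : ℕ} (M : Matrix (Fin b) (Fin a) ℝ) (v : Fin b → ℝ) (z : Fin a → ℝ) (k : ℕ)
    (P : MvPolynomial (Fin b) ℝ) (h : P ∈ ptI (M.mulVec z + v) ^ k) :
    pull M v P ∈ ptI z ^ k := by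
  have h1 : Ideal.map (pull M v).toRingHom (ptI (M.mulVec z + v)) ≤ ptI z := by
    rw [Ideal.map_le_iff_le_comap]
    intro q hq
    rw [Ideal.mem_comap, mem_ptI]
    have := pull_eval M v z q
    rw [mem_ptI] at hq
    rw [hq] at this
    exact this
  have h2 := Ideal.mem_map_of_mem (pull M v).toRingHom h
  rw [Ideal.map_pow] at h2
  exact Ideal.pow_right_mono h1 k h2

end Vale.Agent.P054.J
end

section

/-! Block J, file PtIB: orders of vanishing.
`pderiv_mem`: induction on `k` (Submodule.pow_induction / Leibniz).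
`mem_zero_pow_iff`: `ptI 0` is generated by the variables.
`not_mem_of_degree`, `mul_mem_cancel`: translate to the point 0 by `pull 1 x` and compare the lowest
homogeneous components (`MvPolynomial` over a field is a domain; e.g. take the exponent of lowest
degree and, among those, largest for a monomial order / use `homogeneousComponent`). -/

set_option linter.all false

namespace Vale.Agent.P054.J

open MvPolynomial Finset

theorem pderiv_mem {σ : Type} (x : σ → ℝ) (e : σ) (k : ℕ) (P : MvPolynomial σ ℝ)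
    (h : P ∈ ptI x ^ (k + 1)) : pderiv e P ∈ ptI x ^ k := by
  induction k generalizing P with
  | zero => simp
  | succ k ih =>
    rw [pow_succ] at h
    refine Submodule.mul_induction_on h ?_ ?_
    · intro p hp q hq
      rw [Derivation.leibniz]
      refine Ideal.add_mem _ ?_ ?_
      · rw [smul_eq_mul]
        exact Ideal.mul_mem_right _ _ hp
      · rw [smul_eq_mul]
        have h1 := Ideal.mul_mem_mul (ih p hp) hq
        rw [← pow_succ, mul_comm] at h1
        exact h1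
    · intro p q hp hq
      rw [map_add]
      exact Ideal.add_mem _ hp hq

theorem ptI_zero_eq (a : ℕ) : ptI (0 : Fin a → ℝ) = idealOfVars (Fin a) ℝ := by
  ext p
  rw [mem_ptI]
  have h1 := mem_pow_idealOfVars_iff' (σ := Fin a) (R := ℝ) 1 p
  rw [pow_one] at h1
  rw [h1]
  constructor
  · intro h y hy
    have hy0 : y = 0 := by
      have : Finsupp.degree y = 0 := by omega
      exact (Finsupp.degree_eq_zero_iff y).1 this
    rw [hy0]
    have h2 : eval (0 : Fin a → ℝ) p = constantCoeff p := by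
      simp [MvPolynomial.eval_zero]
    rw [h2] at h
    exact h
  · intro h
    have h3 := h 0 (by simp)
    have h2 : eval (0 : Fin a → ℝ) p = constantCoeff p := by
      simp [MvPolynomial.eval_zero]
    rw [h2]
    exact h3

theorem mem_zero_pow_iff {a : ℕ} (p : MvPolynomial (Fin a) ℝ) (k : ℕ) :
    p ∈ ptI (0 : Fin a → ℝ) ^ k ↔ ∀ α : Fin a →₀ ℕ, (∑ i, α i) < k → coeff α p = 0 := by
  rw [ptI_zero_eq, mem_pow_idealOfVars_iff']
  simp only [Finsupp.degree_eq_sum]

theorem not_mem_of_degree {a : ℕ} (x : Fin a → ℝ) (p : MvPolynomial (Fin a) ℝ) (hp : p ≠ 0)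
    (n : ℕ) (hdeg : p.totalDegree ≤ n) : p ∉ ptI x ^ (n + 1) := by
  intro hmem
  apply hp
  have h1 : pull (1 : Matrix (Fin a) (Fin a) ℝ) x p ∈ ptI (0 : Fin a → ℝ) ^ (n + 1) := by
    apply pull_mem
    simpa using hmem
  rw [mem_zero_pow_iff] at h1
  have h2 : pull (1 : Matrix (Fin a) (Fin a) ℝ) x p = 0 := by
    ext α
    rw [coeff_zero]
    by_cases hα : (∑ i, α i) < n + 1
    · exact h1 α hα
    · apply coeff_eq_zero_of_totalDegree_lt
      refine lt_of_le_of_lt ((pull_totalDegree_le 1 x p).trans hdeg) ?_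
      have : (∑ i ∈ α.support, α i) = ∑ i, α i := by
        apply Finset.sum_subset (Finset.subset_univ _)
        intro i _ hi
        simpa using hi
      rw [this]
      omega
  have h3 : pull (1 : Matrix (Fin a) (Fin a) ℝ) (-x)
      (pull (1 : Matrix (Fin a) (Fin a) ℝ) x p) = p := by
    rw [pull_pull]
    have : (1 : Matrix (Fin a) (Fin a) ℝ) * 1 = 1 := by simp
    rw [this]
    have h4 : (1 : Matrix (Fin a) (Fin a) ℝ).mulVec (-x) + x = 0 := by simp
    rw [h4]
    exact pull_one p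
  rw [← h3, h2, map_zero]

theorem mul_mem_cancel {a : ℕ} (x : Fin a → ℝ) (q p : MvPolynomial (Fin a) ℝ) (k : ℕ)
    (hq : eval x q ≠ 0) (h : q * p ∈ ptI x ^ k) : p ∈ ptI x ^ k := by
  have h1 : IsCoprime (Ideal.span {q}) (ptI x) := by
    rw [Ideal.isCoprime_iff_exists]
    refine ⟨C (eval x q)⁻¹ * q, Ideal.mul_mem_left _ _ (Ideal.subset_span rfl),
      1 - C (eval x q)⁻¹ * q, ?_, by ring⟩
    rw [mem_ptI]
    simp [hq]
  have h2 : IsCoprime (Ideal.span {q}) (ptI x ^ k) := h1.pow_right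
  rw [Ideal.isCoprime_iff_exists] at h2
  obtain ⟨i, hi, j, hj, hij⟩ := h2
  rw [Ideal.mem_span_singleton'] at hi
  obtain ⟨c, rfl⟩ := hi
  have h3 : p = c * (q * p) + j * p := by
    calc p = 1 * p := (one_mul p).symm
      _ = (c * q + j) * p := by rw [hij]
      _ = c * (q * p) + j * p := by ring
  rw [h3]
  exact Ideal.add_mem _ (Ideal.mul_mem_left _ _ h) (Ideal.mul_mem_right _ _ hj)

end Vale.Agent.P054.J
end

section

end

section

/-!
Block J, file KeyA (helper275): iterated derivatives and restriction to the coordinate space of a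
vertex; interface for `key`.
-/

set_option linter.all false

namespace Vale.Agent.P054.J

open MvPolynomial Finset

theorem tri_inj (i : Fin 4) : Function.Injective (tri i) := by
  revert i
  decide

theorem totalDegree_pderiv_le' {σ : Type} (e : σ) (f : MvPolynomial σ ℝ) :
    (pderiv e f).totalDegree ≤ f.totalDegree := by
  refine Finset.sup_le fun m hm => ?_
  have h1 : coeff m (pderiv e f) ≠ 0 := mem_support_iff.1 hm
  rw [coeff_pderiv] at h1
  have h2 : coeff (m + Finsupp.single e 1) f ≠ 0 := left_ne_zero_of_mul h1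
  have h3 := le_totalDegree (mem_support_iff.2 h2)
  rw [Finsupp.sum_add_index' (fun _ => rfl) (fun _ _ _ => rfl)] at h3
  exact (Nat.le_add_right _ _).trans h3

theorem pderiv_mem' {σ : Type} (x : σ → ℝ) (e : σ) (k : ℕ) (P : MvPolynomial σ ℝ)
    (h : P ∈ ptI x ^ k) : pderiv e P ∈ ptI x ^ (k - 1) := by
  rcases k with _ | k
  · simp
  · exact pderiv_mem x e k P h

/-- iterated derivatives -/
theorem keyA_der (f : MvPolynomial (Fin 6) ℝ) (δ : Fin 6 →₀ ℕ) :
    ∃ f1 : MvPolynomial (Fin 6) ℝ, f1.totalDegree ≤ f.totalDegree ∧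
      (∀ (x : Fin 6 → ℝ) (k : ℕ), f ∈ ptI x ^ k → f1 ∈ ptI x ^ (k - ∑ e, δ e)) ∧
      ∀ α : Fin 6 →₀ ℕ, coeff α f1 ≠ 0 ↔ coeff (α + δ) f ≠ 0 := by
  obtain ⟨n, hn⟩ : ∃ n, ∑ e, δ e = n := ⟨_, rfl⟩
  induction n generalizing f δ with
  | zero =>
    have hδ : δ = 0 := by
      ext e
      exact (Finset.sum_eq_zero_iff.1 hn) e (Finset.mem_univ e)
    subst hδ
    exact ⟨f, le_rfl, fun x k h => by simpa using h, fun α => by rw [add_zero]⟩
  | succ n ih =>
    obtain ⟨e, he⟩ : ∃ e, δ e ≠ 0 := by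
      by_contra hcon
      push Not at hcon
      simp [hcon] at hn
    obtain ⟨δ', hδ'⟩ : ∃ δ' : Fin 6 →₀ ℕ, δ = δ' + Finsupp.single e 1 := by
      refine ⟨δ - Finsupp.single e 1, ?_⟩
      rw [tsub_add_cancel_of_le]
      rw [Finsupp.single_le_iff]
      omega
    have hs : ∑ a, δ a = (∑ a, δ' a) + 1 := by
      rw [hδ']
      simp [Finset.sum_add_distrib, Finsupp.single_apply]
    obtain ⟨f1, h1, h2, h3⟩ := ih (pderiv e f) δ' (by omega)
    refine ⟨f1, h1.trans (totalDegree_pderiv_le' e f), fun x k h => ?_, fun α => ?_⟩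
    · have h4 := h2 x (k - 1) (pderiv_mem' x e k f h)
      rw [hs]
      have h5 : k - ((∑ a, δ' a) + 1) = k - 1 - ∑ a, δ' a := by omega
      rw [h5]
      exact h4
    · rw [h3, coeff_pderiv, hδ', ← add_assoc]
      have h6 : (((α + δ') e : ℕ) : ℝ) + 1 ≠ 0 := by positivity
      constructor
      · intro h
        exact left_ne_zero_of_mul h
      · intro h
        exact mul_ne_zero h h6

theorem pull_Ext_X (i : Fin 4) (k : Fin 3) : pull (Ext i) 0 (X (tri i k)) = X k := by
  simp only [pull, aeval_X, Pi.zero_apply, map_zero, add_zero, Ext]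
  rw [Finset.sum_eq_single k]
  · simp
  · intro b _ hb
    rw [if_neg fun h => hb (tri_inj i h).symm]
    simp
  · simp

theorem pull_Ext_X' (i : Fin 4) (e : Fin 6) (he : ∀ k, e ≠ tri i k) :
    pull (Ext i) 0 (X e) = 0 := by
  simp only [pull, aeval_X, Pi.zero_apply, map_zero, add_zero, Ext]
  refine Finset.sum_eq_zero fun k _ => ?_
  rw [if_neg (he k)]
  simp

theorem pull_Ext_rename (i : Fin 4) (q : MvPolynomial (Fin 3) ℝ) :
    pull (Ext i) 0 (rename (tri i) q) = q := by
  have h : (pull (Ext i) 0).comp (rename (tri i)) = AlgHom.id ℝ (MvPolynomial (Fin 3) ℝ) := by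
    apply MvPolynomial.algHom_ext
    intro k
    rw [AlgHom.comp_apply, rename_X, pull_Ext_X]
    rfl
  exact DFunLike.congr_fun h q

/-- the exponents off the coordinate space of the vertex `i` -/
noncomputable def off3 (i : Fin 4) (α : Fin 6 →₀ ℕ) : Fin 6 →₀ ℕ := by
  classical exact Finsupp.equivFunOnFinite.symm (fun e => if ∃ k, tri i k = e then 0 else α e)

theorem off3_tri (i : Fin 4) (α : Fin 6 →₀ ℕ) (k : Fin 3) : off3 i α (tri i k) = 0 := by
  classical
  simp [off3]

theorem off3_of (i : Fin 4) (α : Fin 6 →₀ ℕ) {e : Fin 6} (he : ∀ k, e ≠ tri i k) : off3 i α e = α e := by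
  classical
  simp only [off3, Finsupp.equivFunOnFinite_symm_apply_apply]
  rw [if_neg]
  rintro ⟨k, hk⟩
  exact he k hk.symm

theorem mapDomain_tri_apply (i : Fin 4) (β : Fin 3 →₀ ℕ) (k : Fin 3) :
    (β.mapDomain (tri i)) (tri i k) = β k := Finsupp.mapDomain_apply (tri_inj i) β k

theorem mapDomain_tri_of (i : Fin 4) (β : Fin 3 →₀ ℕ) {e : Fin 6} (he : ∀ k, e ≠ tri i k) :
    (β.mapDomain (tri i)) e = 0 := by
  refine Finsupp.mapDomain_notin_range β e ?_
  rintro ⟨k, hk⟩
  exact he k hk.symm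

/-- decomposition of an exponent -/
theorem mapDomain_tri (i : Fin 4) (α : Fin 6 →₀ ℕ) :
    (res3 i α).mapDomain (tri i) + off3 i α = α := by
  ext e
  rw [Finsupp.add_apply]
  by_cases he : ∃ k, e = tri i k
  · obtain ⟨k, rfl⟩ := he
    rw [mapDomain_tri_apply, off3_tri, add_zero]
    rfl
  · push Not at he
    rw [mapDomain_tri_of i _ he, off3_of i _ he, zero_add]

theorem sum_mapDomain_tri (i : Fin 4) (β : Fin 3 →₀ ℕ) (g : Fin 6 → ℕ) :
    ∑ e, (β.mapDomain (tri i)) e * g e = ∑ k, β k * g (tri i k) := by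
  symm
  refine Finset.sum_of_injOn (tri i) (tri_inj i).injOn (fun _ _ => Finset.mem_coe.2 (Finset.mem_univ _)) ?_ ?_
  · intro e _ he
    rw [mapDomain_tri_of i β, zero_mul]
    intro k hk
    exact he ⟨k, Finset.mem_coe.2 (Finset.mem_univ k), hk.symm⟩
  · intro k _
    rw [mapDomain_tri_apply]

/-- degree -/
theorem deg_mapDomain_tri (i : Fin 4) (β : Fin 3 →₀ ℕ) : ∑ e, (β.mapDomain (tri i)) e = deg3 β := by
  have h := sum_mapDomain_tri i β (fun _ => 1)
  simpa [deg3] using h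

/-- weight -/
theorem wt_mapDomain_tri (n : ℕ) (i : Fin 4) (β : Fin 3 →₀ ℕ) :
    ∑ e, (β.mapDomain (tri i)) e * (n + 1) ^ e.val = wt3 n i β :=
  sum_mapDomain_tri i β (fun e => (n + 1) ^ e.val)

/-- coefficients of the restriction to the coordinate space -/
theorem coeff_pull_Ext (i : Fin 4) (f : MvPolynomial (Fin 6) ℝ) (β : Fin 3 →₀ ℕ) :
    coeff β (pull (Ext i) 0 f) = coeff (β.mapDomain (tri i)) f := by
  induction f using MvPolynomial.induction_on' with
  | monomial d c =>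
    by_cases hd : ∃ e, (∀ k, e ≠ tri i k) ∧ d e ≠ 0
    · obtain ⟨e, he, hde⟩ := hd
      have h1 : monomial d c = monomial (d - Finsupp.single e 1) c * X e := by
        rw [X, monomial_mul, mul_one, tsub_add_cancel_of_le]
        rw [Finsupp.single_le_iff]
        omega
      have h2 : pull (Ext i) 0 (monomial d c) = 0 := by
        rw [h1, map_mul, pull_Ext_X' i e he, mul_zero]
      rw [h2, coeff_zero, coeff_monomial, if_neg]
      intro h
      have h3 := congrArg (fun t : Fin 6 →₀ ℕ => t e) h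
      simp only [mapDomain_tri_of i β he] at h3
      exact hde h3
    · push Not at hd
      have h1 : (res3 i d).mapDomain (tri i) = d := by
        ext e
        by_cases he : ∃ k, e = tri i k
        · obtain ⟨k, rfl⟩ := he
          rw [mapDomain_tri_apply]
          rfl
        · push Not at he
          rw [mapDomain_tri_of i _ he, hd e he]
      have h2 : pull (Ext i) 0 (monomial d c) = monomial (res3 i d) c := by
        have h3 := pull_Ext_rename i (monomial (res3 i d) c)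
        rw [rename_monomial, h1] at h3
        exact h3
      rw [h2, coeff_monomial, coeff_monomial]
      by_cases hb : res3 i d = β
      · rw [if_pos hb, if_pos (by rw [← hb, h1])]
      · rw [if_neg hb, if_neg]
        intro h
        rw [← h1] at h
        exact hb (Finsupp.mapDomain_injective (tri_inj i) h)
  | add p q hp hq => rw [map_add, coeff_add, coeff_add, hp, hq]

/-- **KeyA**: derivative with multiplicities `δ`, then restriction to the coordinate space `tri i`. -/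
theorem keyA (i : Fin 4) (δ : Fin 6 →₀ ℕ) (f : MvPolynomial (Fin 6) ℝ) :
    ∃ q : MvPolynomial (Fin 3) ℝ, q.totalDegree ≤ f.totalDegree ∧
      (∀ (z : Fin 3 → ℝ) (k : ℕ), f ∈ ptI ((Ext i).mulVec z) ^ k → q ∈ ptI z ^ (k - ∑ e, δ e)) ∧
      ∀ β : Fin 3 →₀ ℕ, coeff β q ≠ 0 ↔ coeff (β.mapDomain (tri i) + δ) f ≠ 0 := by
  obtain ⟨f1, h1, h2, h3⟩ := keyA_der f δ
  refine ⟨pull (Ext i) 0 f1, (pull_totalDegree_le _ _ _).trans h1, fun z k h => ?_, fun β => ?_⟩
  · refine pull_mem (Ext i) 0 z _ f1 ?_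
    rw [add_zero]
    exact h2 _ k h
  · rw [coeff_pull_Ext, h3]

end Vale.Agent.P054.J
end

section

/-! Block J, file DimA: properties of the dimension function. -/

set_option linter.all false

namespace Vale.Agent.P054.J

open MvPolynomial Finset

variable {ι : Type}

theorem dimA_mem {n : ℕ} {S : Finset ι} {x : ι → Fin 3 → ℝ} {m : ι → ℕ}
    {p : MvPolynomial (Fin 3) ℝ} :
    p ∈ VV n S x m ↔ p ∈ MvPolynomial.restrictTotalDegree (Fin 3) ℝ n ∧
      ∀ g ∈ S, p ∈ ptI (x g) ^ m g := by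
  unfold VV
  rw [Submodule.mem_inf]
  simp only [Submodule.mem_iInf]
  rfl

instance dimA_fin (n : ℕ) (S : Finset ι) (x : ι → Fin 3 → ℝ) (m : ι → ℕ) :
    Module.Finite ℝ (VV n S x m) := by
  have h : VV n S x m ≤ MvPolynomial.restrictTotalDegree (Fin 3) ℝ n := inf_le_left
  exact Module.Finite.of_injective (Submodule.inclusion h) (Submodule.inclusion_injective h)

theorem dimA_anti {n n' : ℕ} {S : Finset ι} {x : ι → Fin 3 → ℝ} {m m' : ι → ℕ}
    (hn : n ≤ n') (h : ∀ g ∈ S, m g ≤ m' g) : VV n S x m' ≤ VV n' S x m := by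
  intro p hp
  rw [dimA_mem] at hp ⊢
  refine ⟨?_, fun g hg => Ideal.pow_le_pow_right (h g hg) (hp.2 g hg)⟩
  rw [MvPolynomial.mem_restrictTotalDegree] at hp ⊢
  exact hp.1.trans hn

theorem DD_congr (n : ℕ) (S : Finset ι) (x : ι → Fin 3 → ℝ) (m m' : ι → ℕ)
    (h : ∀ g ∈ S, m g = m' g) : DD n S x m = DD n S x m' := by
  unfold DD
  rw [le_antisymm (dimA_anti le_rfl fun g hg => (h g hg).ge)
    (dimA_anti le_rfl fun g hg => (h g hg).le)]

theorem DD_anti (n : ℕ) (S : Finset ι) (x : ι → Fin 3 → ℝ) (m m' : ι → ℕ)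
    (h : ∀ g, m g ≤ m' g) : DD n S x m' ≤ DD n S x m :=
  Submodule.finrank_mono (dimA_anti le_rfl fun g _ => h g)

theorem dimA_four {V V1 V2 V3 : Submodule ℝ (MvPolynomial (Fin 3) ℝ)} [Module.Finite ℝ V]
    (h1 : V1 ≤ V) (h2 : V2 ≤ V) (h3 : V1 ⊓ V2 = V3) :
    Module.finrank ℝ V1 + Module.finrank ℝ V2 ≤ Module.finrank ℝ V + Module.finrank ℝ V3 := by
  have : Module.Finite ℝ V1 :=
    Module.Finite.of_injective (Submodule.inclusion h1) (Submodule.inclusion_injective h1)
  have : Module.Finite ℝ V2 :=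
    Module.Finite.of_injective (Submodule.inclusion h2) (Submodule.inclusion_injective h2)
  rw [← Submodule.finrank_sup_add_finrank_inf_eq, h3]
  exact Nat.add_le_add_right (Submodule.finrank_mono (sup_le h1 h2)) _

/-- `VV m' ⊓ VV (m + e_g) = VV (m' + e_g)`, both are contained in `VV m`. -/
theorem DD_submod [DecidableEq ι] (n : ℕ) (S : Finset ι) (x : ι → Fin 3 → ℝ) (m m' : ι → ℕ) (g : ι)
    (h : ∀ g', m g' ≤ m' g') (hg : m g = m' g) :
    DD n S x m' + DD n S x (Function.update m g (m g + 1)) ≤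
      DD n S x m + DD n S x (Function.update m' g (m' g + 1)) := by
  refine dimA_four (dimA_anti le_rfl fun g' _ => h g') (dimA_anti le_rfl fun g' _ => ?_) ?_
  · by_cases hgg : g' = g
    · rw [hgg, Function.update_self]; omega
    · rw [Function.update_of_ne hgg]
  · refine le_antisymm ?_ (le_inf (dimA_anti le_rfl fun g' _ => ?_)
      (dimA_anti le_rfl fun g' _ => ?_))
    · rintro p ⟨hp1, hp2⟩
      rw [SetLike.mem_coe, dimA_mem] at hp1 hp2
      rw [dimA_mem]
      refine ⟨hp1.1, fun g' hg' => ?_⟩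
      by_cases hgg : g' = g
      · have h1 := hp2.2 g' hg'
        rw [hgg, Function.update_self] at h1 ⊢
        rw [← hg]
        exact h1
      · rw [Function.update_of_ne hgg]
        exact hp1.2 g' hg'
    · by_cases hgg : g' = g
      · rw [hgg, Function.update_self]; omega
      · rw [Function.update_of_ne hgg]
    · by_cases hgg : g' = g
      · rw [hgg, Function.update_self, Function.update_self, hg]
      · rw [Function.update_of_ne hgg, Function.update_of_ne hgg]
        exact h g'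

/-- `VV n m ⊓ VV n' m' = VV n m'`, both are contained in `VV n' m`. -/
theorem DD_mono (n n' : ℕ) (S : Finset ι) (x : ι → Fin 3 → ℝ) (m m' : ι → ℕ)
    (hn : n ≤ n') (h : ∀ g, m g ≤ m' g) :
    DD n S x m + DD n' S x m' ≤ DD n' S x m + DD n S x m' := by
  refine dimA_four (dimA_anti hn fun g' _ => le_rfl) (dimA_anti le_rfl fun g' _ => h g') ?_
  refine le_antisymm ?_ (le_inf (dimA_anti le_rfl fun g' _ => h g')
    (dimA_anti hn fun g' _ => le_rfl))
  rintro p ⟨hp1, hp2⟩
  rw [SetLike.mem_coe, dimA_mem] at hp1 hp2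
  rw [dimA_mem]
  exact ⟨hp1.1, hp2.2⟩

theorem dimA_card (n : ℕ) :
    Nat.card {α : Fin 3 →₀ ℕ | (α.sum fun _ e => e) ≤ n} = (n + 3).choose 3 := by
  classical
  induction n with
  | zero =>
    have h : {α : Fin 3 →₀ ℕ | (α.sum fun _ e => e) ≤ 0} = {0} := by
      ext α
      simp only [Set.mem_setOf_eq, Nat.le_zero, Set.mem_singleton_iff]
      rw [Finsupp.sum_fintype _ _ (fun _ => rfl)]
      constructor
      · intro h
        ext i
        exact (Finset.sum_eq_zero_iff.1 h) i (Finset.mem_univ i)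
      · rintro rfl
        simp
    rw [h]
    simp
  | succ n ih =>
    have h1 : {α : Fin 3 →₀ ℕ | (α.sum fun _ e => e) ≤ n + 1} =
        {α : Fin 3 →₀ ℕ | (α.sum fun _ e => e) ≤ n} ∪
          (Finset.finsuppAntidiag (Finset.univ : Finset (Fin 3)) (n + 1) : Set (Fin 3 →₀ ℕ)) := by
      ext α
      simp only [Set.mem_setOf_eq, Set.mem_union, Finset.mem_coe, Finset.mem_finsuppAntidiag]
      rw [Finsupp.sum_fintype _ _ (fun _ => rfl)]
      constructor
      · intro h
        rcases Nat.lt_or_ge n (∑ i, α i) with h2 | h2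
        · exact Or.inr ⟨le_antisymm h h2, Finset.subset_univ _⟩
        · exact Or.inl h2
      · rintro (h | h)
        · omega
        · rw [h.1]
    have hfin : {α : Fin 3 →₀ ℕ | (α.sum fun _ e => e) ≤ n}.Finite := by
      refine Set.Finite.subset (Set.toFinite
        (↑((Finset.range (n + 1)).biUnion fun k =>
          Finset.finsuppAntidiag (Finset.univ : Finset (Fin 3)) k) : Set (Fin 3 →₀ ℕ))) ?_
      intro α hα
      simp only [Set.mem_setOf_eq] at hα
      rw [Finsupp.sum_fintype _ _ (fun _ => rfl)] at hα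
      rw [Finset.mem_coe, Finset.mem_biUnion]
      exact ⟨_, Finset.mem_range.2 (Nat.lt_succ_of_le hα),
        Finset.mem_finsuppAntidiag.2 ⟨rfl, Finset.subset_univ _⟩⟩
    rw [Nat.card_coe_set_eq] at ih ⊢
    rw [h1, Set.ncard_union_eq ?_ hfin (Finset.finite_toSet _), ih, Set.ncard_coe_finset,
      Finset.card_finsuppAntidiag_nat_eq_choose]
    · rw [Finset.card_univ, Fintype.card_fin]
      have h2 : (3 + (n + 1) - 1).choose (n + 1) = (n + 3).choose 2 := by
        rw [show 3 + (n + 1) - 1 = n + 3 by omega]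
        exact (Nat.choose_symm_of_eq_add (show n + 3 = n + 1 + 2 by omega))
      rw [h2, show n + 1 + 3 = (n + 3) + 1 by ring, Nat.choose_succ_succ (n + 3) 2]
      ring
    · rw [Set.disjoint_left]
      intro α hα hα'
      simp only [Set.mem_setOf_eq] at hα
      rw [Finsupp.sum_fintype _ _ (fun _ => rfl)] at hα
      rw [Finset.mem_coe, Finset.mem_finsuppAntidiag] at hα'
      rw [hα'.1] at hα
      omega

theorem DD_zero (n : ℕ) (S : Finset ι) (x : ι → Fin 3 → ℝ) : DD n S x (fun _ => 0) = TT n := by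
  have h : VV n S x (fun _ => 0) = MvPolynomial.restrictTotalDegree (Fin 3) ℝ n := by
    ext p
    rw [dimA_mem]
    refine ⟨fun h => h.1, fun h => ⟨h, fun g _ => ?_⟩⟩
    rw [pow_zero, Ideal.one_eq_top]
    trivial
  unfold DD TT
  rw [h, ← dimA_card]
  exact Module.finrank_eq_nat_card_basis (basisRestrictSupport ℝ _)

theorem DD_top (n : ℕ) (S : Finset ι) (x : ι → Fin 3 → ℝ) (m : ι → ℕ) (g : ι) (hg : g ∈ S)
    (h : n + 1 ≤ m g) : DD n S x m = 0 := by
  have h1 : VV n S x m = ⊥ := by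
    rw [eq_bot_iff]
    intro p hp
    rw [dimA_mem] at hp
    rw [Submodule.mem_bot]
    by_contra hne
    exact not_mem_of_degree (x g) p hne n ((mem_restrictTotalDegree _ _ _).1 hp.1)
      (Ideal.pow_le_pow_right h (hp.2 g hg))
  unfold DD
  rw [h1, finrank_bot]

end Vale.Agent.P054.J
end

section

/-!
Block J, file Shearer: the Finner/Shearer inequality for the four vertices of the tetrahedron
(every one of the six coordinates `0..5` occurs in exactly two of the triples `tri i`).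

PROOF.  For fixed values of the coordinates `0` (= edge 12, in the triples 0 and 1) and `5`
(= edge 34, in the triples 2 and 3) the elements of `A` are determined by the restrictions 0, 1,
and by the restrictions 2, 3; so the number is at most
`min(|f0||f1|, |f2||f3|) ≤ (|f0||f1||f2||f3|)^(1/2)`.
Then sum over the coordinates 0 and 5, and use Cauchy-Schwarz twice.
-/

set_option linter.all false

namespace Vale.Agent.P054.J

open Finset

theorem sum_fib_le (E : Finset (Fin 3 →₀ ℕ)) (k : Fin 3) (X : Finset ℕ) :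
    ∑ x ∈ X, ((E.filter (fun β => β k = x)).card : ℝ) ≤ E.card := by
  have h := Finset.sum_card_fiberwise_eq_card_filter E X (fun β : Fin 3 →₀ ℕ => β k)
  have h2 : (E.filter (fun β => β k ∈ X)).card ≤ E.card := Finset.card_filter_le _ _
  rw [← h] at h2
  exact_mod_cast h2

theorem cs_fib (E F : Finset (Fin 3 →₀ ℕ)) (k : Fin 3) (X : Finset ℕ) :
    (∑ x ∈ X, √((E.filter (fun β => β k = x)).card : ℝ) *
      √((F.filter (fun β => β k = x)).card : ℝ)) ^ 2 ≤ (E.card : ℝ) * F.card := by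
  refine (Finset.sum_mul_sq_le_sq_mul_sq _ _ _).trans ?_
  have e : ∀ G : Finset (Fin 3 →₀ ℕ), ∑ x ∈ X, √((G.filter (fun β => β k = x)).card : ℝ) ^ 2 =
      ∑ x ∈ X, ((G.filter (fun β => β k = x)).card : ℝ) := fun G =>
    Finset.sum_congr rfl fun x _ => Real.sq_sqrt (Nat.cast_nonneg _)
  rw [e, e]
  exact mul_le_mul (sum_fib_le E k X) (sum_fib_le F k X)
    (Finset.sum_nonneg fun x _ => Nat.cast_nonneg _) (Nat.cast_nonneg _)

theorem res3_apply (i : Fin 4) (α : Fin 6 →₀ ℕ) (k : Fin 3) : res3 i α k = α (tri i k) := rfl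

theorem slice_le1 (E : Fin 4 → Finset (Fin 3 →₀ ℕ)) (A : Finset (Fin 6 →₀ ℕ))
    (hA : ∀ α ∈ A, ∀ i, res3 i α ∈ E i) (x y : ℕ) :
    (A.filter (fun α => α 0 = x ∧ α 5 = y)).card ≤
      ((E 0).filter (fun β => β 0 = x)).card * ((E 1).filter (fun β => β 0 = x)).card := by
  rw [← Finset.card_product]
  refine Finset.card_le_card_of_injOn (fun α => (res3 0 α, res3 1 α)) ?_ ?_
  · intro α hα
    have hα' := Finset.mem_coe.1 hα
    rw [Finset.mem_filter] at hα'
    rw [Finset.mem_coe, Finset.mem_product, Finset.mem_filter, Finset.mem_filter]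
    exact ⟨⟨hA α hα'.1 0, hα'.2.1⟩, ⟨hA α hα'.1 1, hα'.2.1⟩⟩
  · intro α hα β hβ hab
    have hα' := (Finset.mem_filter.1 (Finset.mem_coe.1 hα)).2
    have hβ' := (Finset.mem_filter.1 (Finset.mem_coe.1 hβ)).2
    rw [Prod.mk.injEq] at hab
    have h0 : ∀ k, α (tri 0 k) = β (tri 0 k) := fun k => DFunLike.congr_fun hab.1 k
    have h1 : ∀ k, α (tri 1 k) = β (tri 1 k) := fun k => DFunLike.congr_fun hab.2 k
    have a1 : α 1 = β 1 := h0 1
    have a2 : α 2 = β 2 := h0 2
    have a3 : α 3 = β 3 := h1 1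
    have a4 : α 4 = β 4 := h1 2
    have a0 : α 0 = β 0 := h0 0
    have a5 : α 5 = β 5 := hα'.2.trans hβ'.2.symm
    ext j
    fin_cases j
    · exact a0
    · exact a1
    · exact a2
    · exact a3
    · exact a4
    · exact a5

theorem slice_le2 (E : Fin 4 → Finset (Fin 3 →₀ ℕ)) (A : Finset (Fin 6 →₀ ℕ))
    (hA : ∀ α ∈ A, ∀ i, res3 i α ∈ E i) (x y : ℕ) :
    (A.filter (fun α => α 0 = x ∧ α 5 = y)).card ≤
      ((E 2).filter (fun β => β 2 = y)).card * ((E 3).filter (fun β => β 2 = y)).card := by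
  rw [← Finset.card_product]
  refine Finset.card_le_card_of_injOn (fun α => (res3 2 α, res3 3 α)) ?_ ?_
  · intro α hα
    have hα' := Finset.mem_coe.1 hα
    rw [Finset.mem_filter] at hα'
    rw [Finset.mem_coe, Finset.mem_product, Finset.mem_filter, Finset.mem_filter]
    exact ⟨⟨hA α hα'.1 2, hα'.2.2⟩, ⟨hA α hα'.1 3, hα'.2.2⟩⟩
  · intro α hα β hβ hab
    have hα' := (Finset.mem_filter.1 (Finset.mem_coe.1 hα)).2
    have hβ' := (Finset.mem_filter.1 (Finset.mem_coe.1 hβ)).2
    rw [Prod.mk.injEq] at hab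
    have h0 : ∀ k, α (tri 2 k) = β (tri 2 k) := fun k => DFunLike.congr_fun hab.1 k
    have h1 : ∀ k, α (tri 3 k) = β (tri 3 k) := fun k => DFunLike.congr_fun hab.2 k
    have a1 : α 1 = β 1 := h0 0
    have a3 : α 3 = β 3 := h0 1
    have a5 : α 5 = β 5 := h0 2
    have a2 : α 2 = β 2 := h1 0
    have a4 : α 4 = β 4 := h1 1
    have a0 : α 0 = β 0 := hα'.1.trans hβ'.1.symm
    ext j
    fin_cases j
    · exact a0
    · exact a1
    · exact a2
    · exact a3
    · exact a4
    · exact a5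

theorem shearer (E : Fin 4 → Finset (Fin 3 →₀ ℕ)) (A : Finset (Fin 6 →₀ ℕ))
    (hA : ∀ α ∈ A, ∀ i, res3 i α ∈ E i) : A.card ^ 2 ≤ ∏ i, (E i).card := by
  classical
  set X := A.image (fun α => α 0) with hX
  set Y := A.image (fun α => α 5) with hY
  set S : ℝ := ∑ x ∈ X, √(((E 0).filter (fun β => β 0 = x)).card : ℝ) *
      √(((E 1).filter (fun β => β 0 = x)).card : ℝ) with hS
  set T : ℝ := ∑ y ∈ Y, √(((E 2).filter (fun β => β 2 = y)).card : ℝ) *
      √(((E 3).filter (fun β => β 2 = y)).card : ℝ) with hT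
  have hcard : A.card = ∑ p ∈ X ×ˢ Y, (A.filter (fun α => (α 0, α 5) = p)).card := by
    refine Finset.card_eq_sum_card_fiberwise (f := fun α : Fin 6 →₀ ℕ => (α 0, α 5)) ?_
    intro α hα
    rw [Finset.mem_coe, Finset.mem_product]
    exact ⟨Finset.mem_image_of_mem _ (Finset.mem_coe.1 hα),
      Finset.mem_image_of_mem _ (Finset.mem_coe.1 hα)⟩
  have hle : (A.card : ℝ) ≤ S * T := by
    rw [hcard, hS, hT, Finset.sum_mul_sum, Finset.sum_product]
    push_cast
    refine Finset.sum_le_sum fun x _ => Finset.sum_le_sum fun y _ => ?_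
    have h1 := slice_le1 E A hA x y
    have h2 := slice_le2 E A hA x y
    have e : (A.filter (fun α => (α 0, α 5) = (x, y))) =
        A.filter (fun α => α 0 = x ∧ α 5 = y) := by
      apply Finset.filter_congr
      intro α _
      rw [Prod.mk.injEq]
    rw [e]
    set N := (A.filter (fun α => α 0 = x ∧ α 5 = y)).card
    set a := ((E 0).filter (fun β => β 0 = x)).card
    set b := ((E 1).filter (fun β => β 0 = x)).card
    set c := ((E 2).filter (fun β => β 2 = y)).card
    set d := ((E 3).filter (fun β => β 2 = y)).card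
    have h1' : (N : ℝ) ≤ a * b := by exact_mod_cast h1
    have h2' : (N : ℝ) ≤ c * d := by exact_mod_cast h2
    have hN : (0 : ℝ) ≤ N := Nat.cast_nonneg N
    rw [← Real.sqrt_mul (Nat.cast_nonneg _), ← Real.sqrt_mul (Nat.cast_nonneg _),
      ← Real.sqrt_mul (by (clear * -; positivity))]
    refine Real.le_sqrt_of_sq_le ?_
    rw [sq]
    exact mul_le_mul h1' h2' hN (by (clear * -; positivity))
  have hS2 : S ^ 2 ≤ ((E 0).card : ℝ) * (E 1).card := cs_fib (E 0) (E 1) 0 X
  have hT2 : T ^ 2 ≤ ((E 2).card : ℝ) * (E 3).card := cs_fib (E 2) (E 3) 2 Y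
  have hfin : (A.card : ℝ) ^ 2 ≤ ((E 0).card : ℝ) * (E 1).card * (((E 2).card : ℝ) * (E 3).card) := by
    calc (A.card : ℝ) ^ 2 ≤ (S * T) ^ 2 := pow_le_pow_left₀ (Nat.cast_nonneg _) hle 2
      _ = S ^ 2 * T ^ 2 := by ring
      _ ≤ _ := mul_le_mul hS2 hT2 (sq_nonneg _) (by (clear * -; positivity))
  rw [Fin.prod_univ_four]
  have : ((A.card ^ 2 : ℕ) : ℝ) ≤ (((E 0).card * (E 1).card * (E 2).card * (E 3).card : ℕ) : ℝ) := by
    push_cast
    linarith
  exact_mod_cast this

end Vale.Agent.P054.J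
end

section

/-! P054, block W (Warren's bound), part 1: a finite set of points of R^d on which every
coordinate satisfies `z_i^(K_i) = q_i(z)` with all monomials of `q_i` of weight smaller than
the weight of `x_i^(K_i)` has at most `prod K_i` points. -/

namespace Vale.Agent.P054.W

open MvPolynomial

variable {d : ℕ}

/-- evaluation on a finite set of points -/
noncomputable def ev (Z : Finset (Fin d → ℝ)) : MvPolynomial (Fin d) ℝ →ₗ[ℝ] (Z → ℝ) where
  toFun p z := eval z.1 p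
  map_add' := by intro p q; ext z; simp
  map_smul' := by intro c p; ext z; simp [smul_eval]

@[simp] theorem ev_apply (Z : Finset (Fin d → ℝ)) (p : MvPolynomial (Fin d) ℝ) (z : Z) :
    ev Z p z = eval z.1 p := rfl

/-- separating polynomial -/
noncomputable def sep (a b : Fin d → ℝ) : MvPolynomial (Fin d) ℝ :=
  ∑ i, C (a i - b i) * (X i - C (b i))

theorem eval_sep_self (a b : Fin d → ℝ) : eval b (sep a b) = 0 := by
  simp [sep]

theorem eval_sep_ne (a b : Fin d → ℝ) (h : a ≠ b) : eval a (sep a b) ≠ 0 := by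
  have h1 : eval a (sep a b) = ∑ i, (a i - b i) ^ 2 := by
    simp only [sep, map_sum, map_mul, eval_C, map_sub, eval_X]
    exact Finset.sum_congr rfl fun i _ => by ring
  rw [h1]
  obtain ⟨i, hi⟩ := Function.ne_iff.mp h
  have : 0 < ∑ i, (a i - b i) ^ 2 :=
    Finset.sum_pos' (fun i _ => sq_nonneg _) ⟨i, Finset.mem_univ i, by
      have := sub_ne_zero.mpr hi
      positivity⟩
  exact this.ne'

theorem ev_surjective (Z : Finset (Fin d → ℝ)) : Function.Surjective (ev Z) := by
  classical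
  intro f
  refine ⟨∑ z : Z, C (f z / eval z.1 (∏ w ∈ Z.erase z.1, sep z.1 w)) *
    ∏ w ∈ Z.erase z.1, sep z.1 w, ?_⟩
  ext y
  rw [ev_apply, map_sum, Finset.sum_eq_single y]
  · rw [map_mul, eval_C]
    have : eval y.1 (∏ w ∈ Z.erase y.1, sep y.1 w) ≠ 0 := by
      rw [map_prod]
      refine Finset.prod_ne_zero_iff.mpr fun w hw => eval_sep_ne _ _ ?_
      exact fun h => (Finset.mem_erase.mp hw).1 h.symm
    field_simp
  · intro z _ hzy
    have h0 : ∏ w ∈ Z.erase z.1, eval y.1 (sep z.1 w) = 0 :=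
      Finset.prod_eq_zero (i := y.1)
        (Finset.mem_erase.mpr ⟨fun h => hzy (Subtype.ext h.symm), y.2⟩) (eval_sep_self _ _)
    rw [map_mul, map_prod (eval y.1) (fun w => sep z.1 w) (Z.erase z.1), h0, mul_zero]
  · simp

/-- the weight of a monomial -/
def wt (w : Fin d → ℕ) (m : Fin d →₀ ℕ) : ℕ := ∑ j, w j * m j

theorem wt_add (w : Fin d → ℕ) (m m' : Fin d →₀ ℕ) : wt w (m + m') = wt w m + wt w m' := by
  simp [wt, mul_add, Finset.sum_add_distrib]

theorem wt_single (w : Fin d → ℕ) (i : Fin d) (k : ℕ) : wt w (Finsupp.single i k) = w i * k := by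
  classical
  simp [wt, Finsupp.single_apply]

/-- the reduced monomials -/
noncomputable def redMon (K : Fin d → ℕ) (α : ∀ i, Fin (K i)) : MvPolynomial (Fin d) ℝ :=
  monomial (Finsupp.equivFunOnFinite.symm fun i => (α i : ℕ)) 1

theorem ev_monomial_mem (Z : Finset (Fin d → ℝ)) (K w : Fin d → ℕ)
    (q : Fin d → MvPolynomial (Fin d) ℝ)
    (hq : ∀ i, ∀ m ∈ (q i).support, wt w m < w i * K i)
    (hZ : ∀ z ∈ Z, ∀ i, z i ^ K i = eval z (q i)) :
    ∀ (n : ℕ) (m : Fin d →₀ ℕ), wt w m < n → ∀ c : ℝ,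
      ev Z (monomial m c) ∈
        Submodule.span ℝ (Set.range fun α : ∀ i, Fin (K i) => ev Z (redMon K α)) := by
  intro n
  induction n with
  | zero => intro p hp; exact absurd hp (Nat.not_lt_zero _)
  | succ n ih =>
    intro m hm c
    by_cases hall : ∀ i, m i < K i
    · have : ev Z (monomial m c) = c • ev Z (redMon K fun i => ⟨m i, hall i⟩) := by
        ext z
        simp [redMon, eval_monomial, Finsupp.prod_fintype]
      rw [this]
      exact Submodule.smul_mem _ _ (Submodule.subset_span ⟨_, rfl⟩)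
    · push Not at hall
      obtain ⟨i, hi⟩ := hall
      have hle : Finsupp.single i (K i) ≤ m := Finsupp.single_le_iff.mpr hi
      obtain ⟨m', rfl⟩ : ∃ m', m = m' + Finsupp.single i (K i) :=
        ⟨m - Finsupp.single i (K i), (tsub_add_cancel_of_le hle).symm⟩
      have hev : ev Z (monomial (m' + Finsupp.single i (K i)) c) =
          ev Z (monomial m' c * q i) := by
        ext z
        have h1 : monomial (m' + Finsupp.single i (K i)) c = monomial m' c * (X i) ^ K i := by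
          rw [X_pow_eq_monomial, monomial_mul, mul_one]
        rw [ev_apply, ev_apply, h1, map_mul, map_mul, map_pow, eval_X, hZ z.1 z.2 i]
      rw [hev]
      conv => rw [(q i).as_sum]
      rw [Finset.mul_sum, map_sum]
      refine Submodule.sum_mem _ fun m'' hm'' => ?_
      rw [monomial_mul]
      apply ih
      have h3 := hq i m'' hm''
      rw [wt_add, wt_single] at hm
      rw [wt_add]
      omega

theorem card_le_prod (Z : Finset (Fin d → ℝ)) (K w : Fin d → ℕ)
    (q : Fin d → MvPolynomial (Fin d) ℝ)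
    (hq : ∀ i, ∀ m ∈ (q i).support, wt w m < w i * K i)
    (hZ : ∀ z ∈ Z, ∀ i, z i ^ K i = eval z (q i)) :
    Z.card ≤ ∏ i, K i := by
  classical
  have htop : Submodule.span ℝ (Set.range fun α : ∀ i, Fin (K i) => ev Z (redMon K α)) = ⊤ := by
    rw [eq_top_iff]
    intro f _
    obtain ⟨p, rfl⟩ := ev_surjective Z f
    rw [p.as_sum, map_sum]
    exact Submodule.sum_mem _ fun m _ =>
      ev_monomial_mem Z K w q hq hZ _ m (Nat.lt_succ_self _) _
  have h1 := finrank_range_le_card (R := ℝ) (fun α : ∀ i, Fin (K i) => ev Z (redMon K α))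
  have h2 : Set.finrank ℝ (Set.range fun α : ∀ i, Fin (K i) => ev Z (redMon K α)) = Z.card := by
    rw [Set.finrank, htop, finrank_top, Module.finrank_fintype_fun_eq_card, Fintype.card_coe]
  rw [h2] at h1
  simpa using h1

theorem wt_one_le_totalDegree (p : MvPolynomial (Fin d) ℝ) {m : Fin d →₀ ℕ}
    (hm : m ∈ p.support) : wt (fun _ => 1) m ≤ p.totalDegree := by
  have h := le_totalDegree hm
  rw [Finsupp.sum_fintype _ _ (fun _ => rfl)] at h
  simpa [wt] using h

theorem card_le_pow (Z : Finset (Fin d → ℝ)) (K : ℕ) (q : Fin d → MvPolynomial (Fin d) ℝ)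
    (hq : ∀ i, (q i).totalDegree < K) (hZ : ∀ z ∈ Z, ∀ i, z i ^ K = eval z (q i)) :
    Z.card ≤ K ^ d := by
  have h := card_le_prod Z (fun _ => K) (fun _ => 1) q
    (fun i m hm => by
      have := wt_one_le_totalDegree (q i) hm
      have := hq i
      omega) hZ
  simpa using h

end Vale.Agent.P054.W
end

section

/-! P054, block G, leaf (10): two different conics share at most four directions; packing (helper686) -/

set_option linter.all false
set_option autoImplicit false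

namespace Vale.Agent.P054.Y.G

open Finset Matrix

/-- the quadratic form of a `3 × 3` matrix -/
def qf (S : Matrix (Fin 3) (Fin 3) ℝ) (x : Fin 3 → ℝ) : ℝ := x ⬝ᵥ S *ᵥ x

/-- the bilinear form of a `3 × 3` matrix -/
def bf (S : Matrix (Fin 3) (Fin 3) ℝ) (x y : Fin 3 → ℝ) : ℝ := x ⬝ᵥ S *ᵥ y

/-- triple product -/
def ctrip (x y z : Fin 3 → ℝ) : ℝ :=
  x 0 * (y 1 * z 2 - y 2 * z 1) - x 1 * (y 0 * z 2 - y 2 * z 0) + x 2 * (y 0 * z 1 - y 1 * z 0)

/-- determinant of the Gram matrix of a form -/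
lemma det_gram (S : Matrix (Fin 3) (Fin 3) ℝ) (x y z : Fin 3 → ℝ) :
    (Matrix.of ![![bf S x x, bf S x y, bf S x z], ![bf S y x, bf S y y, bf S y z],
      ![bf S z x, bf S z y, bf S z z]]).det = S.det * ctrip x y z ^ 2 := by
  simp only [Matrix.det_fin_three, bf, mulVec, dotProduct, Fin.sum_univ_three, ctrip, Matrix.of_apply,
    Matrix.cons_val_zero, Matrix.cons_val_one, Matrix.cons_val]
  ring

lemma bf_comm {S : Matrix (Fin 3) (Fin 3) ℝ} (hS : Sᵀ = S) (x y : Fin 3 → ℝ) : bf S x y = bf S y x := by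
  have h01 : S 1 0 = S 0 1 := congrFun (congrFun hS 0) 1
  have h02 : S 2 0 = S 0 2 := congrFun (congrFun hS 0) 2
  have h12 : S 2 1 = S 1 2 := congrFun (congrFun hS 1) 2
  simp only [bf, mulVec, dotProduct, Fin.sum_univ_three, h01, h02, h12]
  ring

lemma bf_self (S : Matrix (Fin 3) (Fin 3) ℝ) (x : Fin 3 → ℝ) : bf S x x = qf S x := rfl

lemma crs_ne {x y : Fin 3 → ℝ} (h : crossProduct x y ≠ 0) :
    0 < (x 1 * y 2 - x 2 * y 1) ^ 2 + (x 2 * y 0 - x 0 * y 2) ^ 2 + (x 0 * y 1 - x 1 * y 0) ^ 2 := by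
  by_contra hn
  apply h
  have a0 := sq_nonneg (x 1 * y 2 - x 2 * y 1)
  have a1 := sq_nonneg (x 2 * y 0 - x 0 * y 2)
  have a2 := sq_nonneg (x 0 * y 1 - x 1 * y 0)
  have h0 : (x 1 * y 2 - x 2 * y 1) = 0 := by
    have : (x 1 * y 2 - x 2 * y 1) ^ 2 = 0 := by linarith
    exact pow_eq_zero_iff (two_ne_zero) |>.1 this
  have h1 : (x 2 * y 0 - x 0 * y 2) = 0 := by
    have : (x 2 * y 0 - x 0 * y 2) ^ 2 = 0 := by linarith
    exact pow_eq_zero_iff (two_ne_zero) |>.1 this
  have h2 : (x 0 * y 1 - x 1 * y 0) = 0 := by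
    have : (x 0 * y 1 - x 1 * y 0) ^ 2 = 0 := by linarith
    exact pow_eq_zero_iff (two_ne_zero) |>.1 this
  rw [cross_apply]
  ext i
  fin_cases i
  · simpa using h0
  · simpa using h1
  · simpa using h2

lemma crs_zero {x y : Fin 3 → ℝ} (h0 : x 1 * y 2 - x 2 * y 1 = 0) (h1 : x 2 * y 0 - x 0 * y 2 = 0)
    (h2 : x 0 * y 1 - x 1 * y 0 = 0) : crossProduct x y = 0 := by
  rw [cross_apply]
  ext i
  fin_cases i
  · simpa using h0
  · simpa using h1
  · simpa using h2

/-- three pairwise independent isotropic vectors of a nondegenerate symmetric form are independent -/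
lemma trip_ne_zero {S : Matrix (Fin 3) (Fin 3) ℝ} (hS : Sᵀ = S) (hd : S.det ≠ 0) {x y z : Fin 3 → ℝ}
    (hx : qf S x = 0) (hy : qf S y = 0) (hz : qf S z = 0)
    (hxy : crossProduct x y ≠ 0) (hxz : crossProduct x z ≠ 0) (hyz : crossProduct y z ≠ 0) :
    ctrip x y z ≠ 0 := by
  intro ht
  have hN := crs_ne hxy
  set N := (x 1 * y 2 - x 2 * y 1) ^ 2 + (x 2 * y 0 - x 0 * y 2) ^ 2 + (x 0 * y 1 - x 1 * y 0) ^ 2 with hNd
  -- `bf x y ≠ 0`
  have hb : bf S x y ≠ 0 := by
    intro hb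
    have h1 := det_gram S x y ![x 1 * y 2 - x 2 * y 1, x 2 * y 0 - x 0 * y 2, x 0 * y 1 - x 1 * y 0]
    have hb' : bf S y x = 0 := by rw [bf_comm hS]; exact hb
    rw [bf_self, bf_self, hx, hy, hb, hb'] at h1
    have h2 : ctrip x y ![x 1 * y 2 - x 2 * y 1, x 2 * y 0 - x 0 * y 2, x 0 * y 1 - x 1 * y 0] = N := by
      simp only [ctrip, Matrix.cons_val_zero, Matrix.cons_val_one, Matrix.cons_val, hNd]
      ring
    rw [h2] at h1
    have h3 : S.det * N ^ 2 = 0 := by
      rw [← h1, Matrix.det_fin_three]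
      simp only [Matrix.of_apply, Matrix.cons_val_zero, Matrix.cons_val_one, Matrix.cons_val]
      ring
    rcases mul_eq_zero.1 h3 with h4 | h4
    · exact hd h4
    · exact absurd (pow_eq_zero_iff (two_ne_zero) |>.1 h4) hN.ne'
  -- coordinates of `z`
  set c0 := x 1 * y 2 - x 2 * y 1 with hc0
  set c1 := x 2 * y 0 - x 0 * y 2 with hc1
  set c2 := x 0 * y 1 - x 1 * y 0 with hc2
  set p := (z 1 * y 2 - z 2 * y 1) * c0 + (z 2 * y 0 - z 0 * y 2) * c1 + (z 0 * y 1 - z 1 * y 0) * c2 with hp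
  set q := (x 1 * z 2 - x 2 * z 1) * c0 + (x 2 * z 0 - x 0 * z 2) * c1 + (x 0 * z 1 - x 1 * z 0) * c2 with hq
  have e0 : N * z 0 = p * x 0 + q * y 0 := by
    have : N * z 0 - (p * x 0 + q * y 0) = ctrip x y z * c0 := by
      simp only [hNd, hp, hq, hc0, hc1, hc2, ctrip]; ring
    rw [ht, zero_mul] at this; linarith
  have e1 : N * z 1 = p * x 1 + q * y 1 := by
    have : N * z 1 - (p * x 1 + q * y 1) = ctrip x y z * c1 := by
      simp only [hNd, hp, hq, hc0, hc1, hc2, ctrip]; ring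
    rw [ht, zero_mul] at this; linarith
  have e2 : N * z 2 = p * x 2 + q * y 2 := by
    have : N * z 2 - (p * x 2 + q * y 2) = ctrip x y z * c2 := by
      simp only [hNd, hp, hq, hc0, hc1, hc2, ctrip]; ring
    rw [ht, zero_mul] at this; linarith
  have h3 : N ^ 2 * qf S z = p ^ 2 * qf S x + q ^ 2 * qf S y + 2 * (p * q) * bf S x y := by
    have h01 : S 1 0 = S 0 1 := congrFun (congrFun hS 0) 1
    have h02 : S 2 0 = S 0 2 := congrFun (congrFun hS 0) 2
    have h12 : S 2 1 = S 1 2 := congrFun (congrFun hS 1) 2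
    have : N ^ 2 * qf S z = S 0 0 * (N * z 0) ^ 2 + S 1 1 * (N * z 1) ^ 2 + S 2 2 * (N * z 2) ^ 2 +
        2 * S 0 1 * ((N * z 0) * (N * z 1)) + 2 * S 0 2 * ((N * z 0) * (N * z 2)) +
        2 * S 1 2 * ((N * z 1) * (N * z 2)) := by
      simp only [qf, mulVec, dotProduct, Fin.sum_univ_three, h01, h02, h12]; ring
    rw [this, e0, e1, e2]
    simp only [qf, bf, mulVec, dotProduct, Fin.sum_univ_three, h01, h02, h12]
    ring
  rw [hx, hy, hz] at h3
  have h4 : p * q = 0 := by
    have : (p * q) * bf S x y = 0 := by linarith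
    rcases mul_eq_zero.1 this with h5 | h5
    · exact h5
    · exact absurd h5 hb
  rcases mul_eq_zero.1 h4 with h5 | h5
  · -- z parallel to y
    rw [h5] at e0 e1 e2
    apply hyz
    apply crs_zero
    · have : N * (y 1 * z 2 - y 2 * z 1) = y 1 * (N * z 2) - y 2 * (N * z 1) := by ring
      rw [e1, e2] at this
      have h6 : N * (y 1 * z 2 - y 2 * z 1) = 0 := by rw [this]; ring
      exact (mul_eq_zero.1 h6).resolve_left hN.ne'
    · have : N * (y 2 * z 0 - y 0 * z 2) = y 2 * (N * z 0) - y 0 * (N * z 2) := by ring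
      rw [e0, e2] at this
      have h6 : N * (y 2 * z 0 - y 0 * z 2) = 0 := by rw [this]; ring
      exact (mul_eq_zero.1 h6).resolve_left hN.ne'
    · have : N * (y 0 * z 1 - y 1 * z 0) = y 0 * (N * z 1) - y 1 * (N * z 0) := by ring
      rw [e0, e1] at this
      have h6 : N * (y 0 * z 1 - y 1 * z 0) = 0 := by rw [this]; ring
      exact (mul_eq_zero.1 h6).resolve_left hN.ne'
  · rw [h5] at e0 e1 e2
    apply hxz
    apply crs_zero
    · have : N * (x 1 * z 2 - x 2 * z 1) = x 1 * (N * z 2) - x 2 * (N * z 1) := by ring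
      rw [e1, e2] at this
      have h6 : N * (x 1 * z 2 - x 2 * z 1) = 0 := by rw [this]; ring
      exact (mul_eq_zero.1 h6).resolve_left hN.ne'
    · have : N * (x 2 * z 0 - x 0 * z 2) = x 2 * (N * z 0) - x 0 * (N * z 2) := by ring
      rw [e0, e2] at this
      have h6 : N * (x 2 * z 0 - x 0 * z 2) = 0 := by rw [this]; ring
      exact (mul_eq_zero.1 h6).resolve_left hN.ne'
    · have : N * (x 0 * z 1 - x 1 * z 0) = x 0 * (N * z 1) - x 1 * (N * z 0) := by ring
      rw [e0, e1] at this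
      have h6 : N * (x 0 * z 1 - x 1 * z 0) = 0 := by rw [this]; ring
      exact (mul_eq_zero.1 h6).resolve_left hN.ne'

/-- expansion of the form in a basis of isotropic vectors -/
lemma qf_basis {S : Matrix (Fin 3) (Fin 3) ℝ} (hS : Sᵀ = S) (x y z w : Fin 3 → ℝ) :
    ctrip x y z ^ 2 * qf S w = ctrip w y z ^ 2 * qf S x + ctrip x w z ^ 2 * qf S y + ctrip x y w ^ 2 * qf S z +
      2 * (ctrip w y z * ctrip x w z) * bf S x y + 2 * (ctrip w y z * ctrip x y w) * bf S x z +
      2 * (ctrip x w z * ctrip x y w) * bf S y z := by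
  have h01 : S 1 0 = S 0 1 := congrFun (congrFun hS 0) 1
  have h02 : S 2 0 = S 0 2 := congrFun (congrFun hS 0) 2
  have h12 : S 2 1 = S 1 2 := congrFun (congrFun hS 1) 2
  have e : ∀ i, ctrip x y z * w i = ctrip w y z * x i + ctrip x w z * y i + ctrip x y w * z i := by
    intro i
    fin_cases i <;> simp only [ctrip, Fin.zero_eta, Fin.mk_one, Fin.reduceFinMk] <;> ring
  have h1 : ctrip x y z ^ 2 * qf S w = S 0 0 * (ctrip x y z * w 0) ^ 2 + S 1 1 * (ctrip x y z * w 1) ^ 2 +
      S 2 2 * (ctrip x y z * w 2) ^ 2 + 2 * S 0 1 * ((ctrip x y z * w 0) * (ctrip x y z * w 1)) +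
      2 * S 0 2 * ((ctrip x y z * w 0) * (ctrip x y z * w 2)) +
      2 * S 1 2 * ((ctrip x y z * w 1) * (ctrip x y z * w 2)) := by
    simp only [qf, mulVec, dotProduct, Fin.sum_univ_three, h01, h02, h12]; ring
  rw [h1, e 0, e 1, e 2]
  generalize ctrip w y z = α
  generalize ctrip x w z = β
  generalize ctrip x y w = γ
  simp only [qf, bf, mulVec, dotProduct, Fin.sum_univ_three, h01, h02, h12]
  ring

lemma trip_swap12 (x y z : Fin 3 → ℝ) : ctrip y x z = -ctrip x y z := by simp only [ctrip]; ring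
lemma trip_swap23 (x y z : Fin 3 → ℝ) : ctrip x z y = -ctrip x y z := by simp only [ctrip]; ring

lemma qf_eq_iff {S S' : Matrix (Fin 3) (Fin 3) ℝ} (hS : Sᵀ = S) (hS' : S'ᵀ = S') {c : ℝ}
    (h : ∀ w, qf S' w = c * qf S w) : S' = c • S := by
  have h01 : S 1 0 = S 0 1 := congrFun (congrFun hS 0) 1
  have h02 : S 2 0 = S 0 2 := congrFun (congrFun hS 0) 2
  have h12 : S 2 1 = S 1 2 := congrFun (congrFun hS 1) 2
  have k01 : S' 1 0 = S' 0 1 := congrFun (congrFun hS' 0) 1
  have k02 : S' 2 0 = S' 0 2 := congrFun (congrFun hS' 0) 2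
  have k12 : S' 2 1 = S' 1 2 := congrFun (congrFun hS' 1) 2
  have e1 := h ![1, 0, 0]
  have e2 := h ![0, 1, 0]
  have e3 := h ![0, 0, 1]
  have e4 := h ![1, 1, 0]
  have e5 := h ![1, 0, 1]
  have e6 := h ![0, 1, 1]
  simp only [qf, mulVec, dotProduct, Fin.sum_univ_three, h01, h02, h12, k01, k02, k12,
    Matrix.cons_val_zero, Matrix.cons_val_one, Matrix.cons_val] at e1 e2 e3 e4 e5 e6
  ext i j
  fin_cases i <;> fin_cases j <;>
    simp only [Matrix.smul_apply, smul_eq_mul, Fin.zero_eta, Fin.mk_one, Fin.reduceFinMk, h01, h02, h12,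
      k01, k02, k12] <;> linarith

lemma conic_alg {a1 a2 a3 b1 b2 b3 p q r p' q' r' : ℝ} (ha2 : a2 ≠ 0) (ha3 : a3 ≠ 0)
    (hb2 : b2 ≠ 0) (hb3 : b3 ≠ 0)
    (e1 : a1 * a2 * p + a1 * a3 * q + a2 * a3 * r = 0) (e2 : b1 * b2 * p + b1 * b3 * q + b2 * b3 * r = 0)
    (f1 : a1 * a2 * p' + a1 * a3 * q' + a2 * a3 * r' = 0)
    (f2 : b1 * b2 * p' + b1 * b3 * q' + b2 * b3 * r' = 0)
    (hpar : ¬ (a1 * b2 = b1 * a2 ∧ a1 * b3 = b1 * a3)) (hne : ¬ (p = 0 ∧ q = 0 ∧ r = 0)) :
    ∃ c : ℝ, p' = c * p ∧ q' = c * q ∧ r' = c * r := by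
  by_cases hD : a1 * b2 = b1 * a2
  · have hF : a1 * b3 - b1 * a3 ≠ 0 := fun h => hpar ⟨hD, by linarith⟩
    have hp : p = 0 := by
      have : (a2 * b2 * (a1 * b3 - b1 * a3)) * p = 0 := by
        linear_combination (b2 * b3) * e1 - (a2 * a3) * e2 - (a3 * b3 * q) * hD
      exact (mul_eq_zero.1 this).resolve_left (mul_ne_zero (mul_ne_zero ha2 hb2) hF)
    have hp' : p' = 0 := by
      have : (a2 * b2 * (a1 * b3 - b1 * a3)) * p' = 0 := by
        linear_combination (b2 * b3) * f1 - (a2 * a3) * f2 - (a3 * b3 * q') * hD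
      exact (mul_eq_zero.1 this).resolve_left (mul_ne_zero (mul_ne_zero ha2 hb2) hF)
    have hr : a2 * r = -(a1 * q) := by
      have : a3 * (a2 * r + a1 * q) = 0 := by rw [hp] at e1; linarith
      have := (mul_eq_zero.1 this).resolve_left ha3
      linarith
    have hr' : a2 * r' = -(a1 * q') := by
      have : a3 * (a2 * r' + a1 * q') = 0 := by rw [hp'] at f1; linarith
      have := (mul_eq_zero.1 this).resolve_left ha3
      linarith
    have hq : q ≠ 0 := by
      intro h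
      apply hne
      refine ⟨hp, h, ?_⟩
      rw [h, mul_zero, neg_zero] at hr
      exact (mul_eq_zero.1 hr).resolve_left ha2
    refine ⟨q' / q, by rw [hp, hp', mul_zero], by field_simp, ?_⟩
    have : a2 * (r' - q' / q * r) = 0 := by
      have a : a2 * (r' - q' / q * r) = a2 * r' - q' / q * (a2 * r) := by ring
      rw [a, hr, hr']
      field_simp
      ring
    have := (mul_eq_zero.1 this).resolve_left ha2
    linarith
  · have hD' : a1 * b2 - b1 * a2 ≠ 0 := sub_ne_zero.2 hD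
    have hK : a3 * b3 * (a1 * b2 - b1 * a2) ≠ 0 := mul_ne_zero (mul_ne_zero ha3 hb3) hD'
    have hq : (a3 * b3 * (a1 * b2 - b1 * a2)) * q = -(a2 * b2 * (a1 * b3 - b1 * a3)) * p := by
      linear_combination (b2 * b3) * e1 - (a2 * a3) * e2
    have hq' : (a3 * b3 * (a1 * b2 - b1 * a2)) * q' = -(a2 * b2 * (a1 * b3 - b1 * a3)) * p' := by
      linear_combination (b2 * b3) * f1 - (a2 * a3) * f2
    have hr : (a3 * b3 * (a1 * b2 - b1 * a2)) * r = (a1 * b1 * (a2 * b3 - b2 * a3)) * p := by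
      linear_combination (-(b1 * b3)) * e1 + (a1 * a3) * e2
    have hr' : (a3 * b3 * (a1 * b2 - b1 * a2)) * r' = (a1 * b1 * (a2 * b3 - b2 * a3)) * p' := by
      linear_combination (-(b1 * b3)) * f1 + (a1 * a3) * f2
    have hp : p ≠ 0 := by
      intro h
      apply hne
      rw [h, mul_zero] at hq hr
      exact ⟨h, (mul_eq_zero.1 hq).resolve_left hK, (mul_eq_zero.1 hr).resolve_left hK⟩
    refine ⟨p' / p, by field_simp, ?_, ?_⟩
    · have : (a3 * b3 * (a1 * b2 - b1 * a2)) * (q' - p' / p * q) = 0 := by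
        have a : (a3 * b3 * (a1 * b2 - b1 * a2)) * (q' - p' / p * q) =
          (a3 * b3 * (a1 * b2 - b1 * a2)) * q' - p' / p * ((a3 * b3 * (a1 * b2 - b1 * a2)) * q) := by ring
        rw [a, hq, hq']
        field_simp
        ring
      have := (mul_eq_zero.1 this).resolve_left hK
      linarith
    · have : (a3 * b3 * (a1 * b2 - b1 * a2)) * (r' - p' / p * r) = 0 := by
        have a : (a3 * b3 * (a1 * b2 - b1 * a2)) * (r' - p' / p * r) =
          (a3 * b3 * (a1 * b2 - b1 * a2)) * r' - p' / p * ((a3 * b3 * (a1 * b2 - b1 * a2)) * r) := by ring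
        rw [a, hr, hr']
        field_simp
        ring
      have := (mul_eq_zero.1 this).resolve_left hK
      linarith

/-- two conics, one nondegenerate, with five common points are proportional -/
theorem conic_five {S S' : Matrix (Fin 3) (Fin 3) ℝ} (hS : Sᵀ = S) (hS' : S'ᵀ = S') (hd : S.det ≠ 0)
    {x y z w v : Fin 3 → ℝ} (hxy : crossProduct x y ≠ 0) (hxz : crossProduct x z ≠ 0)
    (hxw : crossProduct x w ≠ 0) (hxv : crossProduct x v ≠ 0) (hyz : crossProduct y z ≠ 0)
    (hyw : crossProduct y w ≠ 0) (hyv : crossProduct y v ≠ 0) (hzw : crossProduct z w ≠ 0)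
    (hzv : crossProduct z v ≠ 0) (hwv : crossProduct w v ≠ 0)
    (qx : qf S x = 0) (qy : qf S y = 0) (qz : qf S z = 0) (qw : qf S w = 0) (qv : qf S v = 0)
    (qx' : qf S' x = 0) (qy' : qf S' y = 0) (qz' : qf S' z = 0) (qw' : qf S' w = 0) (qv' : qf S' v = 0) :
    ∃ c : ℝ, S' = c • S := by
  have ng : ∀ {a b : Fin 3 → ℝ}, crossProduct a b ≠ 0 → crossProduct b a ≠ 0 := by
    intro a b h h1
    apply h
    rw [← cross_anticomm, h1, neg_zero]
  have T := trip_ne_zero hS hd qx qy qz hxy hxz hyz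
  have w1 := trip_ne_zero hS hd qw qy qz (ng hyw) (ng hzw) hyz
  have w2 := trip_ne_zero hS hd qx qw qz hxw hxz (ng hzw)
  have w3 := trip_ne_zero hS hd qx qy qw hxy hxw hyw
  have v1 := trip_ne_zero hS hd qv qy qz (ng hyv) (ng hzv) hyz
  have v2 := trip_ne_zero hS hd qx qv qz hxv hxz (ng hzv)
  have v3 := trip_ne_zero hS hd qx qy qv hxy hxv hyv
  -- equations
  have E1 := qf_basis hS x y z w
  have E2 := qf_basis hS x y z v
  have E1' := qf_basis hS' x y z w
  have E2' := qf_basis hS' x y z v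
  rw [qx, qy, qz, qw] at E1
  rw [qx, qy, qz, qv] at E2
  rw [qx', qy', qz', qw'] at E1'
  rw [qx', qy', qz', qv'] at E2'
  -- `w`, `v` are not parallel
  have hpar : ¬ (ctrip w y z * ctrip x v z = ctrip v y z * ctrip x w z ∧
      ctrip w y z * ctrip x y v = ctrip v y z * ctrip x y w) := by
    rintro ⟨p1, p2⟩
    apply hwv
    have e : ∀ i, ctrip x y z * w i = ctrip w y z * x i + ctrip x w z * y i + ctrip x y w * z i := by
      intro i
      fin_cases i <;> simp only [ctrip, Fin.zero_eta, Fin.mk_one, Fin.reduceFinMk] <;> ring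
    have e' : ∀ i, ctrip x y z * v i = ctrip v y z * x i + ctrip x v z * y i + ctrip x y v * z i := by
      intro i
      fin_cases i <;> simp only [ctrip, Fin.zero_eta, Fin.mk_one, Fin.reduceFinMk] <;> ring
    have k : ∀ i, ctrip v y z * w i = ctrip w y z * v i := by
      intro i
      have : ctrip x y z * (ctrip v y z * w i - ctrip w y z * v i) = 0 := by
        have a1 : ctrip x y z * (ctrip v y z * w i - ctrip w y z * v i) =
          ctrip v y z * (ctrip x y z * w i) - ctrip w y z * (ctrip x y z * v i) := by ring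
        rw [a1, e i, e' i]
        linear_combination (-(y i)) * p1 - (z i) * p2
      have := (mul_eq_zero.1 this).resolve_left T
      linarith
    have k2 : ∀ i j, w i * v j - w j * v i = 0 := by
      intro i j
      have : ctrip v y z * (w i * v j - w j * v i) = 0 := by
        have a1 : ctrip v y z * (w i * v j - w j * v i) = (ctrip v y z * w i) * v j - (ctrip v y z * w j) * v i := by
          ring
        rw [a1, k i, k j]; ring
      exact (mul_eq_zero.1 this).resolve_left v1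
    exact crs_zero (k2 1 2) (k2 2 0) (k2 0 1)
  have hne : ¬ (bf S x y = 0 ∧ bf S x z = 0 ∧ bf S y z = 0) := by
    rintro ⟨h1, h2, h3⟩
    have h4 : ∀ u, qf S u = 0 * qf S u := by
      intro u
      have h5 := qf_basis hS x y z u
      rw [qx, qy, qz, h1, h2, h3] at h5
      have h6 : ctrip x y z ^ 2 * qf S u = 0 := by rw [h5]; ring
      rw [(mul_eq_zero.1 h6).resolve_left (pow_ne_zero 2 T)]; ring
    have h5 := qf_eq_iff hS hS h4
    rw [zero_smul] at h5
    rw [h5, Matrix.det_zero] at hd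
    exact hd rfl
  obtain ⟨c, c1, c2, c3⟩ := conic_alg (a1 := ctrip w y z) (a2 := ctrip x w z) (a3 := ctrip x y w)
    (b1 := ctrip v y z) (b2 := ctrip x v z) (b3 := ctrip x y v) (p := bf S x y) (q := bf S x z) (r := bf S y z)
    (p' := bf S' x y) (q' := bf S' x z) (r' := bf S' y z) w2 w3 v2 v3 (by linarith) (by linarith)
    (by linarith) (by linarith) hpar hne
  refine ⟨c, qf_eq_iff hS hS' fun u => ?_⟩
  have h1 := qf_basis hS x y z u
  have h2 := qf_basis hS' x y z u
  rw [qx, qy, qz] at h1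
  rw [qx', qy', qz', c1, c2, c3] at h2
  have h3 : ctrip x y z ^ 2 * (qf S' u - c * qf S u) = 0 := by
    have : ctrip x y z ^ 2 * (qf S' u - c * qf S u) = ctrip x y z ^ 2 * qf S' u - c * (ctrip x y z ^ 2 * qf S u) := by
      ring
    rw [this, h1, h2]; ring
  have := (mul_eq_zero.1 h3).resolve_left (pow_ne_zero 2 T)
  linarith

/-- packing: few large sets with small pairwise intersections -/
theorem packing {ι α : Type} [DecidableEq α] (V : Finset α) (I : Finset ι) (A : ι → Finset α)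
    (hA : ∀ i ∈ I, A i ⊆ V) {h r : ℝ} (hr : 0 ≤ r) (hh : 0 < h) (hc : ∀ i ∈ I, h ≤ ((A i).card : ℝ))
    (hi : ∀ i ∈ I, ∀ j ∈ I, i ≠ j → (((A i) ∩ (A j)).card : ℝ) ≤ r)
    (hb : 2 * r * V.card ≤ h ^ 2) : (I.card : ℝ) * h ≤ 2 * V.card := by
  classical
  set S : ℝ := ∑ i ∈ I, ((A i).card : ℝ) with hS
  have hkS : (I.card : ℝ) * h ≤ S := by
    rw [hS, ← nsmul_eq_mul, ← Finset.sum_const]
    exact Finset.sum_le_sum hc
  -- `S = ∑ₓ d(x)`
  have h1 : S = ∑ x ∈ V, ((I.filter fun i => x ∈ A i).card : ℝ) := by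
    have : ∀ i ∈ I, ((A i).card : ℝ) = ∑ x ∈ V, if x ∈ A i then (1 : ℝ) else 0 := by
      intro i hi'
      rw [← Finset.sum_filter, Finset.sum_const, nsmul_eq_mul, mul_one]
      congr 2
      ext x
      simp only [Finset.mem_filter]
      exact ⟨fun hx => ⟨hA i hi' hx, hx⟩, fun hx => hx.2⟩
    rw [hS, Finset.sum_congr rfl this, Finset.sum_comm]
    refine Finset.sum_congr rfl fun x _ => ?_
    rw [← Finset.sum_filter, Finset.sum_const, nsmul_eq_mul, mul_one]
  have h2 : ∑ x ∈ V, ((I.filter fun i => x ∈ A i).card : ℝ) ^ 2 = ∑ i ∈ I, ∑ j ∈ I, (((A i) ∩ (A j)).card : ℝ) := by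
    have e1 : ∀ x, ((I.filter fun i => x ∈ A i).card : ℝ) ^ 2 =
        ∑ i ∈ I, ∑ j ∈ I, if x ∈ A i ∧ x ∈ A j then (1 : ℝ) else 0 := by
      intro x
      have : ((I.filter fun i => x ∈ A i).card : ℝ) = ∑ i ∈ I, if x ∈ A i then (1 : ℝ) else 0 := by
        rw [← Finset.sum_filter, Finset.sum_const, nsmul_eq_mul, mul_one]
      rw [this, sq, Finset.sum_mul_sum]
      refine Finset.sum_congr rfl fun i _ => Finset.sum_congr rfl fun j _ => ?_
      by_cases a : x ∈ A i <;> by_cases b : x ∈ A j <;> simp [a, b]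
    simp only [e1]
    rw [Finset.sum_comm]
    refine Finset.sum_congr rfl fun i hi' => ?_
    rw [Finset.sum_comm]
    refine Finset.sum_congr rfl fun j _ => ?_
    rw [← Finset.sum_filter, Finset.sum_const, nsmul_eq_mul, mul_one]
    congr 2
    ext x
    simp only [Finset.mem_filter, Finset.mem_inter]
    exact ⟨fun hx => hx.2, fun hx => ⟨hA i hi' hx.1, hx⟩⟩
  have h3 : S ^ 2 ≤ V.card * ∑ i ∈ I, ∑ j ∈ I, (((A i) ∩ (A j)).card : ℝ) := by
    rw [← h2, h1]
    exact sq_sum_le_card_mul_sum_sq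
  have h4 : ∑ i ∈ I, ∑ j ∈ I, (((A i) ∩ (A j)).card : ℝ) ≤ S + (I.card : ℝ) ^ 2 * r := by
    have e1 : ∀ i ∈ I, ∑ j ∈ I, (((A i) ∩ (A j)).card : ℝ) ≤ ((A i).card : ℝ) + (I.card : ℝ) * r := by
      intro i hi'
      rw [← Finset.add_sum_erase _ _ hi', Finset.inter_self]
      have : ∑ j ∈ I.erase i, (((A i) ∩ (A j)).card : ℝ) ≤ ∑ j ∈ I.erase i, r :=
        Finset.sum_le_sum fun j hj => hi i hi' j (Finset.mem_of_mem_erase hj) (Finset.ne_of_mem_erase hj).symm
      rw [Finset.sum_const, nsmul_eq_mul] at this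
      have h5 : ((I.erase i).card : ℝ) ≤ I.card := by exact_mod_cast Finset.card_erase_le
      linarith only [mul_le_mul_of_nonneg_right h5 hr, this]
    refine (Finset.sum_le_sum e1).trans ?_
    rw [Finset.sum_add_distrib, Finset.sum_const, nsmul_eq_mul, hS]
    linarith only []
  have hS0 : 0 ≤ S := by rw [hS]; exact Finset.sum_nonneg fun _ _ => by (clear * -; positivity)
  by_cases hS1 : S = 0
  · rw [hS1] at hkS
    have : (0 : ℝ) ≤ 2 * V.card := by (clear * -; positivity)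
    linarith
  have hSp : 0 < S := lt_of_le_of_ne hS0 (Ne.symm hS1)
  -- `k² r ≤ r S² / h²`
  have h5 : (I.card : ℝ) ^ 2 * r * h ^ 2 ≤ S ^ 2 * r := by
    have : ((I.card : ℝ) * h) ^ 2 ≤ S ^ 2 := by
      have : (0 : ℝ) ≤ I.card * h := by (clear * - hh; positivity)
      gcongr
    linarith only [mul_le_mul_of_nonneg_right this hr]
  have hV : (0 : ℝ) ≤ V.card := by (clear * -; positivity)
  have h6 : S ^ 2 * h ^ 2 ≤ V.card * S * h ^ 2 + V.card * (S ^ 2 * r) := by
    have a1 := h3.trans (mul_le_mul_of_nonneg_left h4 hV)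
    have a2 := mul_le_mul_of_nonneg_right a1 (sq_nonneg h)
    have a3 := mul_le_mul_of_nonneg_left h5 hV
    linarith only [a3, a2]
  have h7 : S ^ 2 * h ^ 2 ≤ V.card * S * h ^ 2 + S ^ 2 * h ^ 2 / 2 := by
    have a1 := mul_le_mul_of_nonneg_right hb (sq_nonneg S)
    linarith only [a1, h6]
  have h8 : S * (S * h ^ 2) ≤ S * (2 * V.card * h ^ 2) := by linarith only [h7]
  have h9 := le_of_mul_le_mul_left h8 hSp
  have h10 := le_of_mul_le_mul_right h9 (by positivity : (0 : ℝ) < h ^ 2)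
  linarith

end Vale.Agent.P054.Y.G
end

section

/-! P054, block G, leaf (1): equal Gram data / equal distances give an orthogonal matrix. -/

set_option linter.all false

namespace Vale.Agent.P054.Y.G.Gram

open Matrix

/-- Two families with the same Gram matrix differ by an orthogonal matrix. -/
theorem exists_orth {ι : Type*} (x y : ι → (Fin 3 → ℝ)) (h : ∀ i j, x i ⬝ᵥ x j = y i ⬝ᵥ y j) :
    ∃ Q : Matrix (Fin 3) (Fin 3) ℝ, Qᵀ * Q = 1 ∧ ∀ i, Q.mulVec (x i) = y i := by
  classical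
  let E := EuclideanSpace ℝ (Fin 3)
  let X : ι → E := fun i => WithLp.toLp 2 (x i)
  let Y : ι → E := fun i => WithLp.toLp 2 (y i)
  have hin : ∀ a b : (Fin 3 → ℝ), inner ℝ (WithLp.toLp 2 a : E) (WithLp.toLp 2 b : E) = a ⬝ᵥ b := by
    intro a b
    rw [EuclideanSpace.inner_eq_star_dotProduct]
    simp [dotProduct_comm]
  -- linear maps from finitely supported functions
  let LX : (ι →₀ ℝ) →ₗ[ℝ] E := Finsupp.linearCombination ℝ X
  let LY : (ι →₀ ℝ) →ₗ[ℝ] E := Finsupp.linearCombination ℝ Y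
  have hXY : ∀ f g : ι →₀ ℝ, inner ℝ (LX f) (LX g) = inner ℝ (LY f) (LY g) := by
    intro f g
    have hg : ∀ Z : ι → E, inner ℝ (Finsupp.linearCombination ℝ Z f) (Finsupp.linearCombination ℝ Z g)
        = ∑ i ∈ f.support, ∑ j ∈ g.support, f i * (g j * inner ℝ (Z i) (Z j)) := by
      intro Z
      rw [Finsupp.linearCombination_apply, Finsupp.linearCombination_apply, Finsupp.sum, Finsupp.sum,
        sum_inner]
      refine Finset.sum_congr rfl fun i _ => ?_
      rw [inner_sum]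
      refine Finset.sum_congr rfl fun j _ => ?_
      rw [real_inner_smul_left, real_inner_smul_right]
    show inner ℝ (Finsupp.linearCombination ℝ X f) (Finsupp.linearCombination ℝ X g) =
      inner ℝ (Finsupp.linearCombination ℝ Y f) (Finsupp.linearCombination ℝ Y g)
    rw [hg, hg]
    refine Finset.sum_congr rfl fun i _ => Finset.sum_congr rfl fun j _ => ?_
    show _ * (_ * inner ℝ (WithLp.toLp 2 (x i) : E) (WithLp.toLp 2 (x j) : E)) =
      _ * (_ * inner ℝ (WithLp.toLp 2 (y i) : E) (WithLp.toLp 2 (y j) : E))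
    rw [hin, hin, h]
  have hker : LinearMap.ker LX ≤ LinearMap.ker LY := by
    intro f hf
    rw [LinearMap.mem_ker] at hf ⊢
    have := hXY f f
    rw [hf, inner_zero_left] at this
    exact inner_self_eq_zero.1 this.symm
  -- the isometry on the range
  have hex : ∀ z : LinearMap.range LX, ∃ f, LX f = z := fun z => z.2
  choose s hs using hex
  have hwd : ∀ f g, LX f = LX g → LY f = LY g := by
    intro f g hfg
    have : f - g ∈ LinearMap.ker LX := by simp [hfg]
    have := hker this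
    rw [LinearMap.mem_ker, map_sub, sub_eq_zero] at this
    exact this
  let L : LinearMap.range LX →ₗ[ℝ] E :=
    { toFun := fun z => LY (s z)
      map_add' := by
        intro a b
        rw [← map_add]
        apply hwd
        rw [map_add, hs, hs, hs]; rfl
      map_smul' := by
        intro c a
        rw [RingHom.id_apply, ← map_smul]
        apply hwd
        rw [map_smul, hs, hs]; rfl }
  have hLn : ∀ z, ‖L z‖ = ‖z‖ := by
    intro z
    have h1 : ‖L z‖ ^ 2 = ‖z‖ ^ 2 := by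
      rw [← real_inner_self_eq_norm_sq, Submodule.coe_norm, ← real_inner_self_eq_norm_sq]
      show inner ℝ (LY (s z)) (LY (s z)) = _
      rw [← hXY, hs]
    exact (sq_eq_sq₀ (norm_nonneg _) (norm_nonneg _)).1 h1
  let Li : LinearMap.range LX →ₗᵢ[ℝ] E := ⟨L, hLn⟩
  let T : E →ₗᵢ[ℝ] E := Li.extend
  have hT : ∀ i, T (X i) = Y i := by
    intro i
    have hXi : LX (Finsupp.single i 1) = X i := by simp [LX]
    have hYi : LY (Finsupp.single i 1) = Y i := by simp [LY]
    have h1 := LinearIsometry.extend_apply Li ⟨X i, ⟨_, hXi⟩⟩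
    show Li.extend (X i) = Y i
    rw [h1]
    show LY (s _) = Y i
    rw [← hYi]
    apply hwd
    rw [hs, hXi]
  refine ⟨LinearMap.toMatrix' ((WithLp.linearEquiv 2 ℝ (Fin 3 → ℝ)).toLinearMap ∘ₗ T.toLinearMap ∘ₗ
    (WithLp.linearEquiv 2 ℝ (Fin 3 → ℝ)).symm.toLinearMap), ?_, ?_⟩
  · set Q := LinearMap.toMatrix' ((WithLp.linearEquiv 2 ℝ (Fin 3 → ℝ)).toLinearMap ∘ₗ T.toLinearMap ∘ₗ
      (WithLp.linearEquiv 2 ℝ (Fin 3 → ℝ)).symm.toLinearMap) with hQ
    have hQv : ∀ v : (Fin 3 → ℝ), Q.mulVec v = (T (WithLp.toLp 2 v)).ofLp := by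
      intro v
      rw [hQ, LinearMap.toMatrix'_mulVec]
      rfl
    have key : ∀ u v : (Fin 3 → ℝ), (Q.mulVec u) ⬝ᵥ (Q.mulVec v) = u ⬝ᵥ v := by
      intro u v
      rw [hQv, hQv, ← hin, ← hin u v]
      exact T.inner_map_map _ _
    ext i j
    have := key (Pi.single i 1) (Pi.single j 1)
    rw [← Matrix.vecMul_transpose, ← Matrix.dotProduct_mulVec, Matrix.mulVec_mulVec] at this
    simp only [single_dotProduct, one_mul] at this
    rw [Matrix.mulVec_single_one] at this
    simp only [Matrix.col_apply] at this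
    rw [this, Matrix.one_apply, Pi.single_apply]
  · intro i
    rw [LinearMap.toMatrix'_mulVec]
    have := hT i
    show (T (WithLp.toLp 2 (x i))).ofLp = y i
    exact congrArg WithLp.ofLp this

/-- Congruent families differ by an isometry `v ↦ Q v + w`. -/
theorem exists_isom {ι : Type*} (x y : ι → (Fin 3 → ℝ))
    (h : ∀ i j, (x i - x j) ⬝ᵥ (x i - x j) = (y i - y j) ⬝ᵥ (y i - y j)) :
    ∃ (Q : Matrix (Fin 3) (Fin 3) ℝ) (w : (Fin 3 → ℝ)), Qᵀ * Q = 1 ∧ ∀ i, Q.mulVec (x i) + w = y i := by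
  classical
  rcases isEmpty_or_nonempty ι with hι | ⟨⟨i0⟩⟩
  · exact ⟨1, 0, by simp, fun i => (hι.false i).elim⟩
  obtain ⟨Q, hQ, hx⟩ := exists_orth (fun i => x i - x i0) (fun i => y i - y i0) (by
    intro i j
    have e : ∀ a b : (Fin 3 → ℝ), a ⬝ᵥ b = (a ⬝ᵥ a + b ⬝ᵥ b - (a - b) ⬝ᵥ (a - b)) / 2 := by
      intro a b
      simp only [dotProduct_sub, sub_dotProduct]
      rw [dotProduct_comm b a]; ring
    show (x i - x i0) ⬝ᵥ (x j - x i0) = (y i - y i0) ⬝ᵥ (y j - y i0)
    rw [e (x i - x i0), e (y i - y i0)]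
    have e1 : x i - x i0 - (x j - x i0) = x i - x j := by abel
    have e2 : y i - y i0 - (y j - y i0) = y i - y j := by abel
    rw [e1, e2, h, h, h])
  refine ⟨Q, y i0 - Q.mulVec (x i0), hQ, fun i => ?_⟩
  have := hx i
  rw [Matrix.mulVec_sub] at this
  have h2 : Q.mulVec (x i) + (y i0 - Q.mulVec (x i0)) = (Q.mulVec (x i) - Q.mulVec (x i0)) + y i0 := by
    abel
  rw [h2, this]; abel

/-- determinant of an orthogonal matrix -/
theorem det_sq {Q : Matrix (Fin 3) (Fin 3) ℝ} (h : Qᵀ * Q = 1) : Q.det = 1 ∨ Q.det = -1 := by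
  have h1 : Q.det * Q.det = 1 := by
    have := congrArg Matrix.det h
    rwa [Matrix.det_mul, Matrix.det_transpose, Matrix.det_one] at this
  exact mul_self_eq_one_iff.1 h1

/-- the reflection `v ↦ v - 2 (n.v)/(n.n) n` -/
noncomputable def refl (n : (Fin 3 → ℝ)) : Matrix (Fin 3) (Fin 3) ℝ :=
  1 - (2 / (n ⬝ᵥ n)) • Matrix.vecMulVec n n

theorem refl_mulVec (n v : (Fin 3 → ℝ)) : (refl n).mulVec v = v - (2 * (n ⬝ᵥ v) / (n ⬝ᵥ n)) • n := by
  rw [refl, Matrix.sub_mulVec, Matrix.one_mulVec, Matrix.smul_mulVec, Matrix.vecMulVec_mulVec]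
  ext i
  simp
  ring

theorem refl_orth (n : (Fin 3 → ℝ)) (hn : n ≠ 0) : (refl n)ᵀ * refl n = 1 := by
  have h0 : n ⬝ᵥ n ≠ 0 := by
    intro h; exact hn (dotProduct_self_eq_zero.1 h)
  have ht : (refl n)ᵀ = refl n := by
    rw [refl, Matrix.transpose_sub, Matrix.transpose_one, Matrix.transpose_smul]
    congr 2
    ext i j
    simp [Matrix.vecMulVec_apply, mul_comm]
  rw [ht]
  apply Matrix.ext_of_mulVec_single
  intro j
  rw [← Matrix.mulVec_mulVec, refl_mulVec, refl_mulVec, Matrix.one_mulVec]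
  ext i
  simp only [Pi.sub_apply, Pi.smul_apply, smul_eq_mul, dotProduct_sub, dotProduct_smul]
  field_simp
  ring

theorem refl_det (n : (Fin 3 → ℝ)) (hn : n ≠ 0) : (refl n).det = -1 := by
  have h0 : n ⬝ᵥ n ≠ 0 := by
    intro h; exact hn (dotProduct_self_eq_zero.1 h)
  have h1 : n ⬝ᵥ n = n 0 * n 0 + n 1 * n 1 + n 2 * n 2 := by
    simp [dotProduct, Fin.sum_univ_three]
  rw [h1] at h0
  have hc : 2 / (n ⬝ᵥ n) * (n 0 * n 0 + n 1 * n 1 + n 2 * n 2) = 2 := by
    rw [h1]; exact div_mul_cancel₀ 2 h0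
  rw [refl, Matrix.det_fin_three]
  generalize 2 / (n ⬝ᵥ n) = c at hc
  simp [Matrix.vecMulVec_apply, Matrix.sub_apply, Matrix.one_apply]
  linear_combination (-1 : ℝ) * hc

/-- three points: both signs of the determinant are possible -/
theorem exists_isom_sign (x y : Fin 3 → (Fin 3 → ℝ))
    (h : ∀ i j, (x i - x j) ⬝ᵥ (x i - x j) = (y i - y j) ⬝ᵥ (y i - y j)) (s : ℝ)
    (hs : s = 1 ∨ s = -1) :
    ∃ (Q : Matrix (Fin 3) (Fin 3) ℝ) (w : (Fin 3 → ℝ)), Qᵀ * Q = 1 ∧ Q.det = s ∧
      ∀ i, Q.mulVec (x i) + w = y i := by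
  obtain ⟨Q, w, hQ, hx⟩ := exists_isom x y h
  by_cases hd : Q.det = s
  · exact ⟨Q, w, hQ, hd, hx⟩
  have hd' : Q.det = -s := by
    rcases det_sq hQ with h1 | h1 <;> rcases hs with h2 | h2 <;> subst h2 <;> simp_all
  -- a nonzero normal vector
  obtain ⟨n, hn, h1, h2⟩ : ∃ n : (Fin 3 → ℝ), n ≠ 0 ∧ n ⬝ᵥ (x 1 - x 0) = 0 ∧ n ⬝ᵥ (x 2 - x 0) = 0 := by
    obtain ⟨n, hn, hz⟩ : ∃ n : (Fin 3 → ℝ), n ≠ 0 ∧
        (Matrix.of ![x 1 - x 0, x 2 - x 0, 0] : Matrix (Fin 3) (Fin 3) ℝ).mulVec n = 0 := by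
      apply Matrix.exists_mulVec_eq_zero_iff.2
      rw [Matrix.det_fin_three]; simp
    refine ⟨n, hn, ?_, ?_⟩
    · have := congrFun hz 0
      rw [dotProduct_comm]
      exact this
    · have := congrFun hz 1
      rw [dotProduct_comm]
      exact this
  refine ⟨Q * refl n, w + Q.mulVec (x 0) - (Q * refl n).mulVec (x 0), ?_, ?_, ?_⟩
  · rw [Matrix.transpose_mul, Matrix.mul_assoc, ← Matrix.mul_assoc Qᵀ, hQ, Matrix.one_mul,
      refl_orth n hn]
  · rw [Matrix.det_mul, refl_det n hn, hd']; ring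
  · intro i
    have hi : n ⬝ᵥ (x i - x 0) = 0 := by
      fin_cases i
      · simp
      · exact h1
      · exact h2
    have h3 : (Q * refl n).mulVec (x i) = (Q * refl n).mulVec (x 0) + Q.mulVec (x i - x 0) := by
      have h4 : x i = x 0 + (x i - x 0) := by abel
      conv_lhs => rw [h4]
      rw [Matrix.mulVec_add]
      congr 1
      rw [← Matrix.mulVec_mulVec, refl_mulVec, hi]
      simp
    rw [h3, Matrix.mulVec_sub, ← hx i]
    abel

end Vale.Agent.P054.Y.G.Gram
end
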