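import Mathlib.LinearAlgebra.CrossProduct
import Mathlib.Algebra.MvPolynomial.PDeriv
import Mathlib.RingTheory.MvPolynomial.Basic
import Mathlib.Analysis.SpecialFunctions.Pow.Real
import Mathlib.Tactic
import Vale.Agent.P054.BdN.N1

set_option linter.all false

section

set_option linter.all false

namespace Vale.Agent.P054.J

open MvPolynomial Finset Matrix

/-- `g = (Q, v)` matches four affinely independent points, two from each family. -/
def Joint (S1 S2 : Finset ((Fin 3 → ℝ) × (Fin 3 → ℝ)))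
    (g : Matrix (Fin 3) (Fin 3) ℝ × (Fin 3 → ℝ)) : Prop :=
  g.1ᵀ * g.1 = 1 ∧ g.1.det = 1 ∧
    ∃ p : Fin 4 → (Fin 3 → ℝ) × (Fin 3 → ℝ), p 0 ∈ S1 ∧ p 1 ∈ S1 ∧ p 2 ∈ S2 ∧ p 3 ∈ S2 ∧
      (∀ i, g.1.mulVec (p i).1 + g.2 = (p i).2) ∧ AffineIndependent ℝ (fun i => (p i).1)

end Vale.Agent.P054.J
end

section

/-!
Block J, file KeyB (helper275): proof of `key`.
-/

set_option linter.all false

namespace Vale.Agent.P054.J

open MvPolynomial Finset

/-- the order of a polynomial at a point -/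
theorem key_order {a : ℕ} (x : Fin a → ℝ) (P : MvPolynomial (Fin a) ℝ) (hP : P ≠ 0) (n : ℕ)
    (hdeg : P.totalDegree ≤ n) : ∃ r : ℕ, P ∈ ptI x ^ r ∧ P ∉ ptI x ^ (r + 1) := by
  classical
  have h : ∃ r : ℕ, P ∉ ptI x ^ (r + 1) := ⟨n, not_mem_of_degree x P hP n hdeg⟩
  refine ⟨Nat.find h, ?_, Nat.find_spec h⟩
  rcases hk : Nat.find h with _ | k
  · simp
  · have h1 := Nat.find_min h (m := k) (by omega)
    exact not_not.1 h1

/-- the smallest element of `G` attaining the minimum of `w` -/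
theorem key_min {ι : Type} [LinearOrder ι] (G : Finset ι) (hG : G.Nonempty) (w : ι → ℕ) :
    ∃ g ∈ G, (∀ g' ∈ G, w g ≤ w g') ∧ ∀ g' ∈ G, g' < g → w g + 1 ≤ w g' := by
  obtain ⟨g₀, hg₀, hmin⟩ := G.exists_min_image w hG
  have hne : (G.filter (fun g => w g = w g₀)).Nonempty := ⟨g₀, Finset.mem_filter.2 ⟨hg₀, rfl⟩⟩
  obtain ⟨g, hg⟩ : ∃ g, g = (G.filter (fun g => w g = w g₀)).min' hne := ⟨_, rfl⟩
  have h1 : g ∈ G.filter (fun g => w g = w g₀) := by rw [hg]; exact Finset.min'_mem _ _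
  rw [Finset.mem_filter] at h1
  refine ⟨g, h1.1, fun g' hg' => ?_, fun g' hg' hlt => ?_⟩
  · rw [h1.2]
    exact hmin g' hg'
  · rw [h1.2]
    have h2 := hmin g' hg'
    by_contra hcon
    have h3 : w g' = w g₀ := by omega
    have h4 : g ≤ g' := by
      rw [hg]
      exact Finset.min'_le _ _ (Finset.mem_filter.2 ⟨hg', h3⟩)
    exact absurd hlt (not_lt.2 h4)

theorem key' {ι κ : Type} [LinearOrder ι] (c : Conf ι κ) (G : Finset ι) (hG : G.Nonempty)
    (γ : ι → ℕ) (n : ℕ) (P : MvPolynomial (Fin 6) ℝ) (hP : P ≠ 0) (hdeg : P.totalDegree ≤ n) :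
    ∃ g ∈ G, ∃ α : Fin 6 →₀ ℕ, coeff α (pull (c.A g) (c.pt g) P) ≠ 0 ∧
      ∀ i, res3 i α ∈ c.EE G γ n g i := by
  classical
  choose r hr1 hr2 using fun g : ι => key_order (c.pt g) P hP n hdeg
  obtain ⟨g, hgG, hmin, hlt⟩ := key_min G hG (fun g => r g + γ g)
  obtain ⟨t, ht⟩ : ∃ t, t = r g + γ g := ⟨_, rfl⟩
  have hmlt : ∀ g' ∈ G, mlt γ t g g' ≤ r g' := by
    intro g' hg'
    unfold mlt
    have h1 : r g + γ g ≤ r g' + γ g' := hmin g' hg'
    by_cases h : g' < g
    · rw [if_pos h]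
      have h2 : r g + γ g + 1 ≤ r g' + γ g' := hlt g' hg' h
      omega
    · rw [if_neg h]
      omega
  obtain ⟨f, hf⟩ : ∃ f, f = pull (c.A g) (c.pt g) P := ⟨_, rfl⟩
  have hfdeg : f.totalDegree ≤ n := by
    rw [hf]
    exact (pull_totalDegree_le _ _ _).trans hdeg
  -- the orders of `f`
  have hfm : ∀ g' ∈ G, ∀ z : Fin 6 → ℝ, (c.A g).mulVec z = c.pt g' - c.pt g → f ∈ ptI z ^ (mlt γ t g g') := by
    intro g' hg' z hz
    rw [hf]
    refine pull_mem (c.A g) (c.pt g) z _ P ?_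
    rw [hz, sub_add_cancel]
    exact Ideal.pow_le_pow_right (hmlt g' hg') (hr1 g')
  have hf0 : f ∉ ptI (0 : Fin 6 → ℝ) ^ (r g + 1) := by
    intro h
    apply hr2 g
    have h1 : pull (c.Ai g) (-((c.Ai g).mulVec (c.pt g))) f ∈ ptI (c.pt g) ^ (r g + 1) := by
      refine pull_mem _ _ _ _ f ?_
      rw [add_neg_cancel]
      exact h
    rw [hf, pull_pull, c.hA g, Matrix.mulVec_neg, Matrix.mulVec_mulVec, c.hA g, Matrix.one_mulVec,
      neg_add_cancel, pull_one] at h1
    exact h1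
  have hf1 : f ∈ ptI (0 : Fin 6 → ℝ) ^ (r g) := by
    have h1 := hfm g hgG 0 (by rw [Matrix.mulVec_zero, sub_self])
    have h2 : mlt γ t g g = r g := by
      unfold mlt
      rw [if_neg (lt_irrefl g), ht]
      omega
    rwa [h2] at h1
  rw [mem_zero_pow_iff] at hf0 hf1
  push Not at hf0
  obtain ⟨α₀, hα₀, hα₀'⟩ := hf0
  have hdg : ∀ α : Fin 6 →₀ ℕ, coeff α f ≠ 0 → r g ≤ ∑ e, α e := by
    intro α hα
    by_contra hcon
    exact hα (hf1 α (not_le.1 hcon))
  -- the exponent of largest weight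
  have hne : (f.support.filter (fun α => ∑ e, α e = r g)).Nonempty := by
    refine ⟨α₀, Finset.mem_filter.2 ⟨mem_support_iff.2 hα₀', ?_⟩⟩
    have := hdg α₀ hα₀'
    omega
  obtain ⟨α, hα, hmax⟩ := Finset.exists_max_image _ (fun α : Fin 6 →₀ ℕ => ∑ e, α e * (n + 1) ^ e.val) hne
  rw [Finset.mem_filter, mem_support_iff] at hα
  refine ⟨g, hgG, α, by rw [← hf]; exact hα.1, fun i => ?_⟩
  -- the vertex `i`
  obtain ⟨δ, hδ⟩ : ∃ δ, δ = off3 i α := ⟨_, rfl⟩
  obtain ⟨s, hs⟩ : ∃ s, s = ∑ e, δ e := ⟨_, rfl⟩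
  have hdec : (res3 i α).mapDomain (tri i) + δ = α := by rw [hδ]; exact mapDomain_tri i α
  have hsum : ∀ β : Fin 3 →₀ ℕ, ∑ e, (β.mapDomain (tri i) + δ) e = deg3 β + s := by
    intro β
    simp only [Finsupp.add_apply]
    rw [Finset.sum_add_distrib, deg_mapDomain_tri, hs]
  have hwt : ∀ β : Fin 3 →₀ ℕ, ∑ e, (β.mapDomain (tri i) + δ) e * (n + 1) ^ e.val =
      wt3 n i β + ∑ e, δ e * (n + 1) ^ e.val := by
    intro β
    simp only [Finsupp.add_apply, add_mul]
    rw [Finset.sum_add_distrib, wt_mapDomain_tri]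
  have hrs : deg3 (res3 i α) + s = r g := by rw [← hsum, hdec, hα.2]
  obtain ⟨q, hq1, hq2, hq3⟩ := keyA i δ f
  refine ⟨t - s, by omega, by omega, q, ?_, ?_, ?_⟩
  · refine Submodule.mem_inf.2 ⟨?_, ?_⟩
    · rw [mem_restrictTotalDegree]
      exact hq1.trans hfdeg
    · rw [Submodule.mem_iInf]
      intro g'
      rw [Submodule.mem_iInf]
      intro hg'
      rw [Submodule.restrictScalars_mem]
      have hg'' : g' ∈ G ∧ ∃ i', c.fl g' i' = c.fl g i := by
        unfold Conf.inc at hg'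
        exact Finset.mem_filter.1 hg'
      obtain ⟨hg'G, i', hi'⟩ := hg''
      have hM : c.M (c.fl g i) = c.A g * Ext i * c.Bi g i := by
        rw [← c.hMB, Matrix.mul_assoc, c.hB, Matrix.mul_one]
      have hX : (c.A g).mulVec ((Ext i).mulVec (c.Z g i g')) = c.pt g' - c.pt g := by
        rw [c.hpt g i g' i' hi'.symm, hM]
        unfold Conf.Z
        rw [Matrix.mulVec_mulVec, Matrix.mulVec_mulVec]
      have h1 := hq2 (c.Z g i g') _ (hfm g' hg'G _ hX)
      refine Ideal.pow_le_pow_right ?_ h1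
      rw [← hs]
      unfold mlt
      split_ifs <;> omega
  · rw [hq3, hdec]
    exact hα.1
  · intro β' hβ' hc
    rw [hq3] at hc
    have h1 : ∑ e, (β'.mapDomain (tri i) + δ) e * (n + 1) ^ e.val ≤ ∑ e, α e * (n + 1) ^ e.val :=
      hmax (β'.mapDomain (tri i) + δ) (Finset.mem_filter.2 ⟨mem_support_iff.2 hc, by rw [hsum, hβ', hrs]⟩)
    rw [hwt] at h1
    have h2 := hwt (res3 i α)
    rw [hdec] at h2
    rw [h2] at h1
    omega

end Vale.Agent.P054.J
end

section

/-!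
Block J, file Key: a nonzero polynomial has a nonzero coefficient in the exponent sets.

PROOF.  For `g ∈ G` let `r g` be the order of `P` at `pt g` (`P ∈ ptI (pt g) ^ (r g)`,
`P ∉ ptI (pt g) ^ (r g + 1)`; it exists and `r g ≤ n` by `not_mem_of_degree`).  Let
`t = min_{g ∈ G} (r g + γ g)` and let `g` be the smallest element of `G` attaining it.  Then
`P ∈ ptI (pt g') ^ (mlt γ t g g')` for all `g' ∈ G` (for `g' < g`: `r g' + γ g' ≥ t + 1`).
Put `f = pull (A g) (pt g) P`; by `pull_mem` (`A g *ᵥ X g' + pt g = pt g'` for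
`X g' = Ai g *ᵥ (pt g' - pt g)`) `f ∈ ptI (X g') ^ (mlt γ t g g')`, and `f ∉ ptI 0 ^ (r g + 1)`
(apply `pull (Ai g) (-(Ai g *ᵥ pt g))` back, `pull_pull`, `pull_one`), so by `mem_zero_pow_iff`
there is an exponent `α` with `∑ α = r g`, `coeff α f ≠ 0` (all coefficients of smaller degree
vanish); choose the one with the largest weight `∑_e α e * (n+1)^e`.
Fix `i`.  Let `δ` = `α` off `tri i`, `s = ∑ δ`, and let `f1` be the iterated `pderiv` of `f` with
multiplicities `δ`; by `pderiv_mem`, `f1 ∈ ptI (X g') ^ (mlt γ t g g' - s)`.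
Put `q = pull (Ext i) 0 f1`.  For `g' ∈ inc G (fl g i)`: `X g' = Ext i *ᵥ (Z g i g')` (from `hpt`,
`hMB`, `hA'`), so `q ∈ ptI (Z g i g') ^ (mlt γ t g g' - s)`, and
`mlt γ t g g' - s ≥ mlt γ (t - s) g g'` as natural numbers (`t ≥ s`: `s ≤ r g ≤ t`).
The coefficient of `β` (exponent of `tri i`) in `q` is a positive multiple (product of factorials
quotients, depending only on δ: it is `∏ (δ e)!` ) of the coefficient of `β + δ` in `f`.  Hence
`coeff (res3 i α) q ≠ 0`, and if `deg3 β' = deg3 (res3 i α)` and `coeff β' q ≠ 0` then `β' + δ` has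
degree `r g` and nonzero coefficient in `f`, so its weight is at most the weight of `α`, i.e.
`wt3 n i β' ≤ wt3 n i (res3 i α)`.  The time of `res3 i α` in the definition of `EE` is
`t - s = deg3 (res3 i α) + γ g`.  `totalDegree q ≤ n`.
-/

set_option linter.all false

namespace Vale.Agent.P054.J

open MvPolynomial Finset

theorem key {ι κ : Type} [LinearOrder ι] (c : Conf ι κ) (G : Finset ι) (hG : G.Nonempty)
    (γ : ι → ℕ) (n : ℕ) (P : MvPolynomial (Fin 6) ℝ) (hP : P ≠ 0) (hdeg : P.totalDegree ≤ n) :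
    ∃ g ∈ G, ∃ α : Fin 6 →₀ ℕ, coeff α (pull (c.A g) (c.pt g) P) ≠ 0 ∧
      ∀ i, res3 i α ∈ c.EE G γ n g i := key' c G hG γ n P hP hdeg

end Vale.Agent.P054.J
end

section

/-! Block J, file DimB: shift and affine invariance. -/

set_option linter.all false

namespace Vale.Agent.P054.J

open MvPolynomial Finset

variable {ι : Type}

theorem dimB_deg (k : Fin 3) (r : ℝ) : (X k - C r : MvPolynomial (Fin 3) ℝ).totalDegree ≤ 1 := by
  refine (totalDegree_sub _ _).trans (max_le ?_ ?_)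
  · exact (totalDegree_X k).le
  · rw [totalDegree_C]; exact Nat.zero_le _

/-- The product of the linear forms. -/
theorem dimB_form [DecidableEq ι] (h : ℕ) (S : Finset ι) (x : ι → Fin 3 → ℝ)
    (hx : Set.InjOn x S) (hh : S.card ≤ h) (g : ι) (hg : g ∈ S) :
    ∃ L : MvPolynomial (Fin 3) ℝ, L.totalDegree ≤ h ∧ eval (x g) L ≠ 0 ∧
      ∀ g' ∈ S, g' ≠ g → L ∈ ptI (x g') := by
  have h1 : ∀ g' : ι, ∃ k : Fin 3, g' ∈ S → g' ≠ g → x g' k ≠ x g k := by
    intro g'
    by_cases h2 : g' ∈ S ∧ g' ≠ g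
    · have h3 : x g' ≠ x g := fun h4 => h2.2 (hx h2.1 hg h4)
      obtain ⟨k, hk⟩ := Function.ne_iff.1 h3
      exact ⟨k, fun _ _ => hk⟩
    · exact ⟨0, fun a b => absurd ⟨a, b⟩ h2⟩
  choose k hk using h1
  refine ⟨∏ g' ∈ S.erase g, (X (k g') - C (x g' (k g'))), ?_, ?_, ?_⟩
  · refine (totalDegree_finset_prod _ _).trans ?_
    refine (Finset.sum_le_sum fun g' _ => dimB_deg (k g') _).trans ?_
    rw [Finset.sum_const, smul_eq_mul, mul_one]
    exact (Finset.card_le_card (Finset.erase_subset _ _)).trans hh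
  · rw [map_prod]
    refine Finset.prod_ne_zero_iff.2 fun g' hg' => ?_
    rw [Finset.mem_erase] at hg'
    simp only [map_sub, eval_X, eval_C]
    exact sub_ne_zero.2 (hk g' hg'.2 hg'.1).symm
  · intro g' hg' hne
    refine Ideal.mem_of_dvd _ (Finset.dvd_prod_of_mem _ (Finset.mem_erase.2 ⟨hne, hg'⟩)) ?_
    rw [mem_ptI]
    simp

/-- Multiply by a product of at most `h` affine linear forms that vanish at the points `x g'`,
`g' ∈ S`, `g' ≠ g`, and not at `x g` (`mul_mem_cancel` gives the injectivity on the quotients). -/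
theorem DD_shift [DecidableEq ι] (n h : ℕ) (S : Finset ι) (x : ι → Fin 3 → ℝ)
    (hx : Set.InjOn x S) (hh : S.card ≤ h) (m : ι → ℕ) (g : ι) (hg : g ∈ S) :
    DD n S x m + DD (n + h) S x (Function.update (fun g' => m g' + 1) g (m g + 1)) ≤
      DD (n + h) S x (Function.update (fun g' => m g' + 1) g (m g)) +
        DD n S x (Function.update m g (m g + 1)) := by
  obtain ⟨L, hL1, hL2, hL3⟩ := dimB_form h S x hx hh g hg
  have hL0 : L ≠ 0 := by
    rintro rfl
    exact hL2 (map_zero _)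
  have hinj : Function.Injective (LinearMap.mulLeft ℝ L) := by
    intro a b hab
    exact mul_left_cancel₀ hL0 hab
  have key := dimA_four
    (V := VV (n + h) S x (Function.update (fun g' => m g' + 1) g (m g)))
    (V1 := (VV n S x m).map (LinearMap.mulLeft ℝ L))
    (V2 := VV (n + h) S x (Function.update (fun g' => m g' + 1) g (m g + 1)))
    (V3 := (VV n S x (Function.update m g (m g + 1))).map (LinearMap.mulLeft ℝ L)) ?_ ?_ ?_
  · have hf : ∀ W : Submodule ℝ (MvPolynomial (Fin 3) ℝ),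
        Module.finrank ℝ (W.map (LinearMap.mulLeft ℝ L)) = Module.finrank ℝ W :=
      fun W => (Submodule.equivMapOfInjective _ hinj W).finrank_eq.symm
    rw [hf, hf] at key
    exact key
  · rintro q ⟨p, hp, rfl⟩
    rw [SetLike.mem_coe, dimA_mem] at hp
    rw [dimA_mem, LinearMap.mulLeft_apply]
    refine ⟨?_, fun g' hg' => ?_⟩
    · rw [MvPolynomial.mem_restrictTotalDegree] at hp ⊢
      refine (totalDegree_mul _ _).trans ?_
      have := hp.1
      omega
    · by_cases hgg : g' = g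
      · rw [hgg, Function.update_self]
        exact Ideal.mul_mem_left _ _ (hp.2 g hg)
      · rw [Function.update_of_ne hgg]
        have h2 := Ideal.mul_mem_mul (hL3 g' hg' hgg) (hp.2 g' hg')
        rwa [← pow_succ'] at h2
  · refine dimA_anti le_rfl fun g' _ => ?_
    by_cases hgg : g' = g
    · rw [hgg, Function.update_self, Function.update_self]; omega
    · rw [Function.update_of_ne hgg, Function.update_of_ne hgg]
  · apply le_antisymm
    · rintro q ⟨⟨p, hp, rfl⟩, hq⟩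
      refine ⟨p, ?_, rfl⟩
      rw [SetLike.mem_coe, dimA_mem] at hp hq ⊢
      refine ⟨hp.1, fun g' hg' => ?_⟩
      by_cases hgg : g' = g
      · have h2 := hq.2 g hg
        rw [Function.update_self, LinearMap.mulLeft_apply] at h2
        rw [hgg, Function.update_self]
        exact mul_mem_cancel _ _ _ _ hL2 h2
      · rw [Function.update_of_ne hgg]
        exact hp.2 g' hg'
    · rintro q ⟨p, hp, rfl⟩
      rw [SetLike.mem_coe, dimA_mem] at hp
      refine ⟨⟨p, ?_, rfl⟩, ?_⟩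
      · rw [SetLike.mem_coe, dimA_mem]
        refine ⟨hp.1, fun g' hg' => ?_⟩
        by_cases hgg : g' = g
        · have h2 := hp.2 g hg
          rw [Function.update_self] at h2
          rw [hgg]
          exact Ideal.pow_le_pow_right (Nat.le_succ _) h2
        · have h2 := hp.2 g' hg'
          rwa [Function.update_of_ne hgg] at h2
      · rw [SetLike.mem_coe, dimA_mem, LinearMap.mulLeft_apply]
        refine ⟨?_, fun g' hg' => ?_⟩
        · rw [MvPolynomial.mem_restrictTotalDegree] at hp ⊢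
          refine (totalDegree_mul _ _).trans ?_
          have := hp.1
          omega
        · by_cases hgg : g' = g
          · rw [hgg, Function.update_self]
            have h2 := hp.2 g hg
            rw [Function.update_self] at h2
            exact Ideal.mul_mem_left _ _ h2
          · rw [Function.update_of_ne hgg]
            have h3 := hp.2 g' hg'
            rw [Function.update_of_ne hgg] at h3
            have h2 := Ideal.mul_mem_mul (hL3 g' hg' hgg) h3
            rwa [← pow_succ'] at h2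

theorem dimB_le (n : ℕ) (S : Finset ι) (x x' : ι → Fin 3 → ℝ) (m : ι → ℕ)
    (B Bi : Matrix (Fin 3) (Fin 3) ℝ) (hB : B * Bi = 1) (v : Fin 3 → ℝ)
    (h : ∀ g ∈ S, x g = B.mulVec (x' g) + v) : DD n S x m ≤ DD n S x' m := by
  have h1 : ∀ p ∈ VV n S x m, (pull B v).toLinearMap p ∈ VV n S x' m := by
    intro p hp
    rw [dimA_mem] at hp ⊢
    refine ⟨?_, fun g hg => ?_⟩
    · rw [MvPolynomial.mem_restrictTotalDegree] at hp ⊢
      exact (pull_totalDegree_le B v p).trans hp.1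
    · refine pull_mem B v (x' g) (m g) p ?_
      rw [← h g hg]
      exact hp.2 g hg
  have h2 : Function.Injective ((pull B v).toLinearMap.restrict h1) := by
    intro p q hpq
    have h3 : pull B v p.1 = pull B v q.1 := congrArg Subtype.val hpq
    have h4 : ∀ P : MvPolynomial (Fin 3) ℝ, pull Bi (-(Bi.mulVec v)) (pull B v P) = P := by
      intro P
      rw [pull_pull, hB]
      have h5 : B.mulVec (-(Bi.mulVec v)) + v = 0 := by
        rw [Matrix.mulVec_neg, Matrix.mulVec_mulVec, hB, Matrix.one_mulVec]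
        exact neg_add_cancel v
      rw [h5, pull_one]
    apply Subtype.ext
    rw [← h4 p.1, ← h4 q.1, h3]
  exact LinearMap.finrank_le_finrank_of_injective h2

/-- Affine changes of coordinates do not change the dimension. -/
theorem DD_affine (n : ℕ) (S : Finset ι) (x x' : ι → Fin 3 → ℝ) (m : ι → ℕ)
    (B Bi : Matrix (Fin 3) (Fin 3) ℝ) (hB : B * Bi = 1) (hB' : Bi * B = 1) (v : Fin 3 → ℝ)
    (h : ∀ g ∈ S, x g = B.mulVec (x' g) + v) : DD n S x m = DD n S x' m := by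
  refine le_antisymm (dimB_le n S x x' m B Bi hB v h)
    (dimB_le n S x' x m Bi B hB' (-(Bi.mulVec v)) fun g hg => ?_)
  rw [h g hg, Matrix.mulVec_add, Matrix.mulVec_mulVec, hB', Matrix.one_mulVec,
    add_neg_cancel_right]

end Vale.Agent.P054.J
end

section

end

section

/-!
Block J, file ExpCount: the number of leading exponents is at most the allocation.
-/

set_option linter.all false

namespace Vale.Agent.P054.J

open MvPolynomial Finset

theorem expcount_digit {N a a' X X' : ℕ} (ha : a < N) (ha' : a' < N)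
    (h : a + N * X = a' + N * X') : a = a' ∧ X = X' := by
  have h1 : (a + N * X) % N = a := by rw [Nat.add_mul_mod_self_left, Nat.mod_eq_of_lt ha]
  have h2 : (a' + N * X') % N = a' := by rw [Nat.add_mul_mod_self_left, Nat.mod_eq_of_lt ha']
  have h3 : a = a' := by rw [← h1, ← h2, h]
  refine ⟨h3, ?_⟩
  subst h3
  have h4 : N * X = N * X' := by omega
  exact Nat.eq_of_mul_eq_mul_left (by omega) h4

theorem expcount_wt_inj (n : ℕ) (i : Fin 4) (β β' : Fin 3 →₀ ℕ) (h : ∀ k, β k ≤ n)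
    (h' : ∀ k, β' k ≤ n) (hw : wt3 n i β = wt3 n i β') : β = β' := by
  have key : ∀ e0 e1 e2 : ℕ, e0 < e1 → e1 < e2 →
      β 0 * (n + 1) ^ e0 + β 1 * (n + 1) ^ e1 + β 2 * (n + 1) ^ e2 =
        β' 0 * (n + 1) ^ e0 + β' 1 * (n + 1) ^ e1 + β' 2 * (n + 1) ^ e2 → β = β' := by
    intro e0 e1 e2 h01 h12 he
    obtain ⟨d, rfl⟩ := Nat.exists_eq_add_of_lt h01
    obtain ⟨d', rfl⟩ := Nat.exists_eq_add_of_lt h12
    have e : ∀ x y z : ℕ, x * (n + 1) ^ e0 + y * (n + 1) ^ (e0 + d + 1) +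
        z * (n + 1) ^ (e0 + d + 1 + d' + 1) =
        (n + 1) ^ e0 * (x + (n + 1) * ((n + 1) ^ d * (y + (n + 1) * ((n + 1) ^ d' * z)))) := by
      intros; ring
    rw [e, e] at he
    have p : ∀ u, 0 < (n + 1) ^ u := fun u => by positivity
    have he1 := Nat.eq_of_mul_eq_mul_left (p _) he
    obtain ⟨h0, he2⟩ := expcount_digit (Nat.lt_succ_of_le (h 0)) (Nat.lt_succ_of_le (h' 0)) he1
    have he3 := Nat.eq_of_mul_eq_mul_left (p _) he2
    obtain ⟨h1, he4⟩ := expcount_digit (Nat.lt_succ_of_le (h 1)) (Nat.lt_succ_of_le (h' 1)) he3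
    have h2 := Nat.eq_of_mul_eq_mul_left (p _) he4
    ext j
    fin_cases j
    · exact h0
    · exact h1
    · exact h2
  simp only [wt3, Fin.sum_univ_three] at hw
  fin_cases i
  · exact key 0 1 2 (by norm_num) (by norm_num) hw
  · exact key 0 3 4 (by norm_num) (by norm_num) hw
  · exact key 1 3 5 (by norm_num) (by norm_num) hw
  · exact key 2 4 5 (by norm_num) (by norm_num) hw

theorem expcount_level (n : ℕ) (i : Fin 4) (k : ℕ)
    (W W' : Submodule ℝ (MvPolynomial (Fin 3) ℝ)) [FiniteDimensional ℝ W] (hW : W' ≤ W)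
    (hdeg : ∀ q ∈ W, ∀ β, coeff β q ≠ 0 → ∀ j, β j ≤ n)
    (hW' : ∀ q ∈ W', ∀ β, deg3 β = k → coeff β q = 0)
    (E : Finset (Fin 3 →₀ ℕ))
    (hE : ∀ β ∈ E, deg3 β = k ∧ ∃ q ∈ W, coeff β q ≠ 0 ∧
      ∀ β', deg3 β' = k → coeff β' q ≠ 0 → wt3 n i β' ≤ wt3 n i β) :
    E.card + Module.finrank ℝ W' ≤ Module.finrank ℝ W := by
  classical
  choose q hqW hq0 hqm using fun β : E => (hE β.1 β.2).2
  have hk : ∀ β : E, deg3 β.1 = k := fun β => (hE β.1 β.2).1
  let Ψ : W →ₗ[ℝ] (E → ℝ) := LinearMap.pi (fun β => (lcoeff ℝ β.1).comp W.subtype)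
  have hΨ : ∀ (w : W) (β : E), Ψ w β = coeff β.1 w.1 := fun w β => rfl
  let v : E → LinearMap.range Ψ := fun β => ⟨Ψ ⟨q β, hqW β⟩, LinearMap.mem_range_self _ _⟩
  have hv : LinearIndependent ℝ v := by
    apply LinearIndependent.of_comp (LinearMap.range Ψ).subtype
    rw [linearIndependent_iff']
    intro s a ha
    by_contra hne
    push Not at hne
    obtain ⟨β₁, hβ₁, ha₁⟩ := hne
    obtain ⟨β₀, hβ₀, hmax⟩ := (s.filter (fun β => a β ≠ 0)).exists_max_image
      (fun β => wt3 n i β.1) ⟨β₁, by simp [hβ₁, ha₁]⟩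
    rw [Finset.mem_filter] at hβ₀
    have h1 := congrFun ha β₀
    simp only [Finset.sum_apply, Pi.smul_apply, Function.comp_apply, Pi.zero_apply] at h1
    rw [Finset.sum_eq_single β₀] at h1
    · have h2 : ((LinearMap.range Ψ).subtype (v β₀)) β₀ = coeff β₀.1 (q β₀) := rfl
      rw [h2, smul_eq_mul] at h1
      rcases mul_eq_zero.1 h1 with h3 | h3
      · exact hβ₀.2 h3
      · exact hq0 β₀ h3
    · intro β hβ hβne
      have h2 : ((LinearMap.range Ψ).subtype (v β)) β₀ = coeff β₀.1 (q β) := rfl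
      rw [h2, smul_eq_mul]
      by_cases h3 : a β = 0
      · rw [h3, zero_mul]
      · by_cases h4 : coeff β₀.1 (q β) = 0
        · rw [h4, mul_zero]
        · exfalso
          have h5 := hqm β β₀.1 (hk β₀) h4
          have h6 := hmax β (by rw [Finset.mem_filter]; exact ⟨hβ, h3⟩)
          have h7 : wt3 n i β.1 = wt3 n i β₀.1 := le_antisymm h6 h5
          have h8 := expcount_wt_inj n i β.1 β₀.1 (hdeg _ (hqW β) _ (hq0 β))
            (hdeg _ (hqW β) _ h4) h7
          exact hβne (Subtype.ext h8)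
    · intro h2
      exact absurd hβ₀.1 h2
  have hcard : E.card ≤ Module.finrank ℝ (LinearMap.range Ψ) := by
    have := hv.fintype_card_le_finrank
    rwa [Fintype.card_coe] at this
  have hker : Module.finrank ℝ W' ≤ Module.finrank ℝ (LinearMap.ker Ψ) := by
    have hmem : ∀ w : W', (Submodule.inclusion hW) w ∈ LinearMap.ker Ψ := by
      intro w
      rw [LinearMap.mem_ker]
      ext β
      exact hW' w.1 w.2 β.1 (hk β)
    let f : W' →ₗ[ℝ] LinearMap.ker Ψ := (Submodule.inclusion hW).codRestrict _ hmem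
    apply LinearMap.finrank_le_finrank_of_injective (f := f)
    intro x y hxy
    have h1 : (Submodule.inclusion hW) x = (Submodule.inclusion hW) y :=
      congrArg (fun z : LinearMap.ker Ψ => (z : W)) hxy
    exact Submodule.inclusion_injective hW h1
  have hrn := LinearMap.finrank_range_add_finrank_ker Ψ
  omega

theorem EE_count {ι κ : Type} [LinearOrder ι] (c : Conf ι κ) (G : Finset ι) (γ : ι → ℕ) (n : ℕ)
    (g : ι) (hg : g ∈ G) (i : Fin 4) (R : ℕ) (hR : ∀ g' ∈ G, n + γ g' + 2 ≤ R) :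
    (c.EE G γ n g i).Finite ∧ (c.EE G γ n g i).ncard ≤
      ball (fun m => DD n (c.inc G (c.fl g i)) (c.y (c.fl g i)) m) γ R g := by
  classical
  set S := c.inc G (c.fl g i) with hS
  set Z := c.Z g i with hZ
  have hDD : ∀ m, DD n S (c.y (c.fl g i)) m = DD n S Z m := by
    intro m
    apply DD_affine n S _ _ m (c.B g i) (c.Bi g i) (c.hB g i) (c.hB' g i) (c.y (c.fl g i) g)
    intro g' _
    rw [hZ, Conf.Z, Matrix.mulVec_mulVec, c.hB, Matrix.one_mulVec]
    simp
  have hgS : g ∈ S := by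
    rw [hS, Conf.inc, Finset.mem_filter]
    exact ⟨hg, i, rfl⟩
  have hZg : Z g = 0 := by
    rw [hZ, Conf.Z]; simp
  -- degree bound
  have hdegW : ∀ m, ∀ q ∈ VV n S Z m, ∀ β, coeff β q ≠ 0 → (∑ j, β j) ≤ n := by
    intro m q hq β hβ
    have h1 : q.totalDegree ≤ n := by
      rw [VV, Submodule.mem_inf, mem_restrictTotalDegree] at hq
      exact hq.1
    have h2 := le_totalDegree (p := q) (s := β) (by rwa [mem_support_iff])
    rw [Finsupp.sum_fintype _ _ (fun _ => rfl)] at h2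
    exact h2.trans h1
  have hle : ∀ β : Fin 3 →₀ ℕ, (∑ j, β j) ≤ n → ∀ j, β j ≤ n := by
    intro β hβ j
    exact (Finset.single_le_sum (f := fun j => β j) (fun _ _ => Nat.zero_le _)
      (Finset.mem_univ j)).trans hβ
  -- finiteness
  have hfin : (c.EE G γ n g i).Finite := by
    apply (Set.finite_Iic (Finsupp.equivFunOnFinite.symm (fun _ : Fin 3 => n))).subset
    rintro β ⟨t, _, _, q, hq, hβ, _⟩
    rw [Set.mem_Iic]
    intro j
    exact hle β (hdegW _ q hq β hβ) j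
  refine ⟨hfin, ?_⟩
  have hmono : ∀ t, VV n S Z (mle γ t g) ≤ VV n S Z (mlt γ t g) := by
    intro t q hq
    rw [VV, Submodule.mem_inf] at hq ⊢
    refine ⟨hq.1, ?_⟩
    have h1 := hq.2
    simp only [Submodule.mem_iInf, Submodule.restrictScalars_mem] at h1 ⊢
    intro g' hg'
    refine Ideal.pow_le_pow_right ?_ (h1 g' hg')
    unfold mlt mle
    split_ifs with ha hb hb
    · exact le_rfl
    · exact absurd ha.le hb
    · omega
    · exact le_rfl
  have hlow : ∀ k, ∀ q ∈ VV n S Z (mle γ (k + γ g) g), ∀ β, deg3 β = k → coeff β q = 0 := by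
    intro k q hq β hβ
    rw [VV, Submodule.mem_inf] at hq
    have h1 := hq.2
    simp only [Submodule.mem_iInf, Submodule.restrictScalars_mem] at h1
    have h2 := h1 g hgS
    rw [hZg] at h2
    have h3 : mle γ (k + γ g) g g = k + 1 := by
      unfold mle
      rw [if_pos le_rfl]
      omega
    rw [h3, mem_zero_pow_iff] at h2
    apply h2
    unfold deg3 at hβ
    omega
  have hfd : ∀ m, FiniteDimensional ℝ (VV n S Z m) := by
    intro m
    exact Submodule.finiteDimensional_of_le (show VV n S Z m ≤ restrictTotalDegree (Fin 3) ℝ n from inf_le_left)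
  have hlev : ∀ k, (hfin.toFinset.filter (fun β => deg3 β = k)).card ≤
      DD n S Z (mlt γ (k + γ g) g) - DD n S Z (mle γ (k + γ g) g) := by
    intro k
    haveI := hfd (mlt γ (k + γ g) g)
    have h1 := expcount_level n i k (VV n S Z (mlt γ (k + γ g) g)) (VV n S Z (mle γ (k + γ g) g))
      (hmono _) (fun q hq β hβ => hle β (hdegW _ q hq β hβ)) (hlow k)
      (hfin.toFinset.filter (fun β => deg3 β = k)) (by
        intro β hβ
        rw [Finset.mem_filter, Set.Finite.mem_toFinset] at hβ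
        obtain ⟨⟨t, _, ht, q, hq, hβ0, hβm⟩, hk⟩ := hβ
        refine ⟨hk, q, ?_, hβ0, ?_⟩
        · rw [← hk, ht]; exact hq
        · intro β' hβ' hc
          exact hβm β' (hβ'.trans hk.symm) hc)
    unfold DD
    omega
  rw [Set.ncard_eq_toFinset_card _ hfin]
  have hmaps : ∀ β ∈ hfin.toFinset, deg3 β ∈ Finset.range (n + 1) := by
    intro β hβ
    rw [Set.Finite.mem_toFinset] at hβ
    obtain ⟨t, _, _, q, hq, hβ0, _⟩ := hβ
    rw [Finset.mem_range]
    have := hdegW _ q hq β hβ0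
    unfold deg3
    omega
  rw [Finset.card_eq_sum_card_fiberwise hmaps]
  refine (Finset.sum_le_sum (fun k _ => hlev k)).trans ?_
  have himg : ∑ k ∈ Finset.range (n + 1), (DD n S Z (mlt γ (k + γ g) g) - DD n S Z (mle γ (k + γ g) g)) =
      ∑ t ∈ (Finset.range (n + 1)).image (fun k => k + γ g),
        (DD n S Z (mlt γ t g) - DD n S Z (mle γ t g)) := by
    rw [Finset.sum_image]
    intro a _ b _ hab
    simpa using hab
  rw [himg]
  unfold ball
  simp only [hDD]
  apply Finset.sum_le_sum_of_subset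
  intro t ht
  rw [Finset.mem_image] at ht
  obtain ⟨k, hk, rfl⟩ := ht
  rw [Finset.mem_range] at hk ⊢
  have := hR g hg
  omega

end Vale.Agent.P054.J
end

section

/-!
Block J, file Count: the dimension count.

PROOF.  Let `A_g` be the finite set of all `α : Fin 6 →₀ ℕ` with `res3 i α ∈ EE G γ n g i` for all `i`
(finite: `α` is determined by its restrictions).  By `key` the linear map
`P ↦ (coeff α (pull (A g) (pt g) P))_{g ∈ G, α ∈ A_g}` on `restrictTotalDegree (Fin 6) ℝ n` is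
injective, so `(n+6).choose 6 = finrank ≤ ∑_g |A_g|`, and `|A_g|^2 ≤ ∏_i |EE_i| ≤ ∏_i ball` by
`shearer`, `EE_count`.
-/

set_option linter.all false

namespace Vale.Agent.P054.J

open MvPolynomial Finset

theorem finrank_six (n : ℕ) :
    Module.finrank ℝ (MvPolynomial.restrictTotalDegree (Fin 6) ℝ n) = (n + 6).choose 6 := by
  classical
  have hset : {m : Fin 6 →₀ ℕ | (m.sum fun _ e => e) ≤ n} =
      (((Finset.range (n + 1)).biUnion fun j =>
        Finset.finsuppAntidiag (Finset.univ : Finset (Fin 6)) j : Finset (Fin 6 →₀ ℕ)) :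
        Set (Fin 6 →₀ ℕ)) := by
    ext m
    simp only [Set.mem_ofPred_eq, Finset.coe_biUnion, Set.mem_iUnion, Finset.mem_coe,
      Finset.mem_range, Finset.mem_finsuppAntidiag, Finset.subset_univ, and_true, exists_prop]
    rw [Finsupp.sum_fintype _ _ (fun _ => rfl)]
    constructor
    · intro h
      exact ⟨_, Nat.lt_succ_of_le h, rfl⟩
    · rintro ⟨j, hj, h⟩
      have h' : ∑ i, m i = j := h
      omega
  have h1 := Module.finrank_eq_nat_card_basis
    (basisRestrictSupport ℝ {m : Fin 6 →₀ ℕ | (m.sum fun _ e => e) ≤ n})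
  have h2 : Nat.card {m : Fin 6 →₀ ℕ | (m.sum fun _ e => e) ≤ n} = (n + 6).choose 6 := by
    rw [hset, Nat.card_coe_set_eq, Set.ncard_coe_finset, Finset.card_biUnion]
    · simp only [Finset.card_finsuppAntidiag_nat_eq_multichoose, Finset.card_univ, Fintype.card_fin]
      exact Nat.sum_range_multichoose n 6
    · intro i _ j _ hij
      rw [Function.onFun, Finset.disjoint_left]
      intro x hx hx'
      rw [Finset.mem_finsuppAntidiag] at hx hx'
      exact hij (hx.1.symm.trans hx'.1)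
  rw [h2] at h1
  exact h1

theorem cnt_res3_apply (i : Fin 4) (α : Fin 6 →₀ ℕ) (k : Fin 3) : res3 i α k = α (tri i k) := rfl

theorem cnt_res3_ext {α β : Fin 6 →₀ ℕ} (h : ∀ i, res3 i α = res3 i β) : α = β := by
  have h' : ∀ i k, α (tri i k) = β (tri i k) := by
    intro i k
    rw [← cnt_res3_apply, ← cnt_res3_apply, h i]
  ext e
  fin_cases e
  · exact h' 0 0
  · exact h' 0 1
  · exact h' 0 2
  · exact h' 1 1
  · exact h' 1 2
  · exact h' 2 2

theorem dim_le {ι κ : Type} [LinearOrder ι] (c : Conf ι κ) (G : Finset ι) (hG : G.Nonempty)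
    (γ : ι → ℕ) (n R : ℕ) (hR : ∀ g' ∈ G, n + γ g' + 2 ≤ R) :
    (((n + 6).choose 6 : ℕ) : ℝ) ≤ ∑ g ∈ G, Real.sqrt (∏ i : Fin 4,
      (ball (fun m => DD n (c.inc G (c.fl g i)) (c.y (c.fl g i)) m) γ R g : ℝ)) := by
  classical
  -- the finite sets of exponents
  have hfin : ∀ g ∈ G, {α : Fin 6 →₀ ℕ | ∀ i, res3 i α ∈ c.EE G γ n g i}.Finite := by
    intro g hg
    have hpi : {f : Fin 4 → (Fin 3 →₀ ℕ) | ∀ i, f i ∈ c.EE G γ n g i}.Finite :=
      Set.Finite.pi' (fun i => (EE_count c G γ n g hg i R hR).1)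
    refine Set.Finite.of_finite_image (f := fun α : Fin 6 →₀ ℕ => fun i : Fin 4 => res3 i α) ?_ ?_
    · refine hpi.subset ?_
      rintro _ ⟨α, hα, rfl⟩
      exact hα
    · intro α _ β _ hαβ
      exact cnt_res3_ext (fun i => congrFun hαβ i)
  let A : ι → Finset (Fin 6 →₀ ℕ) := fun g => if hg : g ∈ G then (hfin g hg).toFinset else ∅
  have hAmem : ∀ g ∈ G, ∀ α, α ∈ A g ↔ ∀ i, res3 i α ∈ c.EE G γ n g i := by
    intro g hg α
    simp only [A, dif_pos hg, Set.Finite.mem_toFinset, Set.mem_ofPred_eq]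
  -- the cardinality bound
  have hcard : ∀ g ∈ G, ((A g).card : ℝ) ≤ Real.sqrt (∏ i : Fin 4,
      (ball (fun m => DD n (c.inc G (c.fl g i)) (c.y (c.fl g i)) m) γ R g : ℝ)) := by
    intro g hg
    have hE : ∀ i, (c.EE G γ n g i).Finite := fun i => (EE_count c G γ n g hg i R hR).1
    have h1 := shearer (fun i => (hE i).toFinset) (A g) (by
      intro α hα i
      rw [Set.Finite.mem_toFinset]
      exact (hAmem g hg α).1 hα i)
    have h2 : ∏ i : Fin 4, ((hE i).toFinset).card ≤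
        ∏ i : Fin 4, ball (fun m => DD n (c.inc G (c.fl g i)) (c.y (c.fl g i)) m) γ R g := by
      apply Finset.prod_le_prod'
      intro i _
      rw [← Set.ncard_eq_toFinset_card _ (hE i)]
      exact (EE_count c G γ n g hg i R hR).2
    apply Real.le_sqrt_of_sq_le
    exact_mod_cast h1.trans h2
  -- the linear map
  let I : Type := Σ g : {g // g ∈ G}, {α // α ∈ A g.1}
  let Φ : MvPolynomial.restrictTotalDegree (Fin 6) ℝ n →ₗ[ℝ] (I → ℝ) :=
    LinearMap.pi (fun x : I => (MvPolynomial.lcoeff ℝ (x.2.1 : Fin 6 →₀ ℕ)).comp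
      ((pull (c.A x.1.1) (c.pt x.1.1)).toLinearMap.comp
        (MvPolynomial.restrictTotalDegree (Fin 6) ℝ n).subtype))
  have hinj : Function.Injective Φ := by
    rw [← LinearMap.ker_eq_bot, LinearMap.ker_eq_bot']
    intro P hP
    by_contra hne
    have hP0 : (P : MvPolynomial (Fin 6) ℝ) ≠ 0 := by
      intro h
      exact hne (Subtype.ext h)
    obtain ⟨g, hg, α, hα, hαE⟩ := key c G hG γ n P.1 hP0
      ((MvPolynomial.mem_restrictTotalDegree _ _ _).1 P.2)
    apply hα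
    have := congrFun hP (⟨⟨g, hg⟩, ⟨α, (hAmem g hg α).2 hαE⟩⟩ : I)
    exact this
  have hle := LinearMap.finrank_le_finrank_of_injective hinj
  rw [finrank_six, Module.finrank_fintype_fun_eq_card] at hle
  have hI : Fintype.card I = ∑ g ∈ G, (A g).card := by
    simp only [I, Fintype.card_sigma, Fintype.card_coe]
    exact Finset.sum_coe_sort G (fun g => (A g).card)
  rw [hI] at hle
  calc (((n + 6).choose 6 : ℕ) : ℝ) ≤ ((∑ g ∈ G, (A g).card : ℕ) : ℝ) := by exact_mod_cast hle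
    _ = ∑ g ∈ G, ((A g).card : ℝ) := by push_cast; rfl
    _ ≤ _ := Finset.sum_le_sum hcard

end Vale.Agent.P054.J
end

section

/-!
Block J, file Handicap: the choice of the handicaps by integer minimisation.

PROOF.  For `γ : ι → ℕ` put `m_t(γ) g = t - γ g` and `Y_l(γ) = ∑_{t < R} D l n (m_t γ)` for any
`R` with `n + γ g + 1 ≤ R` for some `g ∈ S l` (larger `R` add zeros, by `htop`), and
`Z(γ) = c * ∑_{g ∈ G} γ g - ∑_{l ∈ K} U l * Y_l(γ)` (an integer).
(1) `Y_l(γ) ≤ T n * (n + 1 + min_{S l} γ)` (`htop`, `hanti`, `hzero`).  Layer cake: with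
`A_j = {g ∈ G : j ≤ γ g}`, `∑_{g ∈ G} γ g = ∑_{j ≥ 1} |A_j|`, `min_{S l} γ = ∑_{j ≥ 1} [S l ⊆ A_j]`,
so `hHall` gives `Z(γ) ≥ -T n * (n + 1) * ∑_{l ∈ K} U l`.  Hence `Z` has a minimiser `γ`
(integer valued, bounded below).
(2) For `g ∈ G`: `Z(γ + e_g) ≥ Z(γ)` says
`∑_{l ∈ K, g ∈ S l} U l * (Y_l(γ + e_g) - Y_l(γ)) ≤ c` (for `g ∉ S l` the difference is 0 by `hcongr`).
(3) Fix `l` with `g ∈ S l`.  For every `t`, by `hsub` (`m_t γ ≤ mlt γ t g`, equal at `g`),
`D n (mlt γ t g) - D n (mle γ t g) ≤ D n (m_t γ) - D n (m_t γ, g := t + 1 - γ g)`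
(both sides are 0 when `t < γ g`); for `t ≥ γ g` by `hshift` and again `hsub` (now for degree `n + h`,
`t + 1 - γ g' ≤ (t - γ g') + 1`) this is
`≤ D (n+h) (m_{t+1} γ, g := t - γ g) - D (n+h) (m_{t+1} γ)`
`= D (n+h) (m_{t+1}(γ + e_g)) - D (n+h) (m_{t+1} γ)`  (`t + 1 - (γ g + 1) = t - γ g`).
(4) Put `a = m_t γ`, `a' = m_{t+1}(γ + e_g) `, `a'' = m_{t+1} γ`; `a ≤ a' ≤ a''`
(at `g`: `t - γ g`, `t - γ g`, `t + 1 - γ g`).  By `hmono` for `a ≤ a'`:
`(D' a' - D' a'') - (D a' - D a'') ≤ (D' a - D' a'') - (D a - D a'')` with `D' = D l (n+h)`,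
`D = D l n`.  Summing over `t < R` the right side telescopes to `T (n+h) - T n` (the last terms are
zero for large `R`; enlarge `R`), and `∑_t (D a' - D a'') = Y_l(γ + e_g) - Y_l(γ)`
(the term `t' = 0` is `T n - T n = 0`).  So `ball (D l n) γ R g ≤ Y_l(γ+e_g) - Y_l(γ) + (T (n+h) - T n)`.
Multiply by `U l`, sum over `l`, use (2).  For other `R` in the conclusion: terms with
`t ≥ n + 1 + γ g` vanish.
-/

set_option linter.all false

namespace Vale.Agent.P054.J

open Finset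

/-- the orders at time `t` -/
def hcM {ι : Type} (γ : ι → ℕ) (t : ℕ) : ι → ℕ := fun g => t - γ g

/-- sum of the dimensions up to time `R` -/
def hcY {ι : Type} (D : (ι → ℕ) → ℕ) (γ : ι → ℕ) (R : ℕ) : ℕ :=
  ∑ t ∈ Finset.range R, D (hcM γ t)

theorem hc_sum_eq {f : ℕ → ℕ} {a : ℕ} (h : ∀ t, a ≤ t → f t = 0) {R : ℕ} (hR : a ≤ R) :
    ∑ t ∈ Finset.range R, f t = ∑ t ∈ Finset.range a, f t := by
  symm
  apply Finset.sum_subset
  · intro x hx
    rw [Finset.mem_range] at hx ⊢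
    omega
  · intro x _ hx
    rw [Finset.mem_range] at hx
    exact h x (by omega)

theorem hc_step {ι : Type} [LinearOrder ι] (D D' : (ι → ℕ) → ℕ) (γ : ι → ℕ) (g : ι) (t : ℕ)
    (hanti' : ∀ m m', (∀ g, m g ≤ m' g) → D' m' ≤ D' m)
    (hsub : ∀ m m' g, (∀ g', m g' ≤ m' g') → m g = m' g →
      D m' + D (Function.update m g (m g + 1)) ≤ D m + D (Function.update m' g (m' g + 1)))
    (hsub' : ∀ m m' g, (∀ g', m g' ≤ m' g') → m g = m' g →
      D' m' + D' (Function.update m g (m g + 1)) ≤ D' m + D' (Function.update m' g (m' g + 1)))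
    (hshift : ∀ m,
      D m + D' (Function.update (fun g' => m g' + 1) g (m g + 1)) ≤
        D' (Function.update (fun g' => m g' + 1) g (m g)) + D (Function.update m g (m g + 1))) :
    (D (mlt γ t g) : ℤ) - D (mle γ t g) ≤
      D' (hcM (Function.update γ g (γ g + 1)) (t + 1)) - D' (hcM γ (t + 1)) := by
  rcases Nat.lt_or_ge t (γ g) with h | h
  · have h1 : mlt γ t g = mle γ t g := by
      funext g'
      simp only [mlt, mle]
      rcases lt_trichotomy g' g with h2 | h2 | h2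
      · rw [if_pos h2, if_pos h2.le]
      · subst h2
        rw [if_neg (lt_irrefl _), if_pos le_rfl]
        omega
      · rw [if_neg (not_lt.2 h2.le), if_neg (not_le.2 h2)]
    rw [h1, sub_self]
    have h3 : D' (hcM γ (t + 1)) ≤ D' (hcM (Function.update γ g (γ g + 1)) (t + 1)) := by
      apply hanti'
      intro g'
      simp only [hcM, Function.update_apply]
      split_ifs with h4
      · subst h4; omega
      · omega
    have : ((D' (hcM γ (t + 1)) : ℕ) : ℤ) ≤ D' (hcM (Function.update γ g (γ g + 1)) (t + 1)) := by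
      exact_mod_cast h3
    linarith
  · have e1 : Function.update (mlt γ t g) g (mlt γ t g g + 1) = mle γ t g := by
      funext g'
      simp only [mlt, mle, Function.update_apply, lt_irrefl, if_false]
      rcases lt_trichotomy g' g with h2 | h2 | h2
      · rw [if_neg h2.ne, if_pos h2, if_pos h2.le]
      · subst h2
        rw [if_pos rfl, if_pos le_rfl]
        omega
      · rw [if_neg h2.ne', if_neg (not_lt.2 h2.le), if_neg (not_le.2 h2)]
    have s1 := hsub (hcM γ t) (mlt γ t g) g (by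
      intro g'
      simp only [hcM, mlt]
      split_ifs <;> omega) (by simp [hcM, mlt])
    rw [e1] at s1
    have s2 := hshift (hcM γ t)
    have s3 := hsub' (hcM (Function.update γ g (γ g + 1)) (t + 1))
      (Function.update (fun g' => hcM γ t g' + 1) g (hcM γ t g)) g (by
      intro g'
      simp only [hcM, Function.update_apply]
      split_ifs with h4
      · subst h4; omega
      · omega) (by
      simp only [hcM, Function.update_self]
      omega)
    have e2 : Function.update (hcM (Function.update γ g (γ g + 1)) (t + 1)) g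
        (hcM (Function.update γ g (γ g + 1)) (t + 1) g + 1) = hcM γ (t + 1) := by
      funext g'
      simp only [hcM, Function.update_apply]
      split_ifs with h4
      · subst h4; omega
      · rfl
    have e3 : Function.update (Function.update (fun g' => hcM γ t g' + 1) g (hcM γ t g)) g
        (Function.update (fun g' => hcM γ t g' + 1) g (hcM γ t g) g + 1) =
        Function.update (fun g' => hcM γ t g' + 1) g (hcM γ t g + 1) := by
      rw [Function.update_idem, Function.update_self]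
    rw [e2, e3] at s3
    have t1 : ((D (mlt γ t g) : ℕ) : ℤ) + D (Function.update (hcM γ t) g (hcM γ t g + 1)) ≤
      D (hcM γ t) + D (mle γ t g) := by exact_mod_cast s1
    have t2 : ((D (hcM γ t) : ℕ) : ℤ) +
        D' (Function.update (fun g' => hcM γ t g' + 1) g (hcM γ t g + 1)) ≤
        D' (Function.update (fun g' => hcM γ t g' + 1) g (hcM γ t g)) +
          D (Function.update (hcM γ t) g (hcM γ t g + 1)) := by exact_mod_cast s2
    have t3 : ((D' (Function.update (fun g' => hcM γ t g' + 1) g (hcM γ t g)) : ℕ) : ℤ) +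
        D' (hcM γ (t + 1)) ≤ D' (hcM (Function.update γ g (γ g + 1)) (t + 1)) +
          D' (Function.update (fun g' => hcM γ t g' + 1) g (hcM γ t g + 1)) := by exact_mod_cast s3
    linarith

theorem hc_tele (f : ℕ → ℤ) (R : ℕ) :
    ∑ t ∈ Finset.range R, (f t - f (t + 1)) = f 0 - f R := by
  induction R with
  | zero => simp
  | succ R ih => rw [Finset.sum_range_succ, ih]; ring

theorem hc_ball {ι : Type} [LinearOrder ι] (D D' : (ι → ℕ) → ℕ) (γ : ι → ℕ) (g : ι) (R : ℕ)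
    (T T' : ℕ)
    (hanti : ∀ m m', (∀ g, m g ≤ m' g) → D m' ≤ D m)
    (hanti' : ∀ m m', (∀ g, m g ≤ m' g) → D' m' ≤ D' m)
    (hsub : ∀ m m' g, (∀ g', m g' ≤ m' g') → m g = m' g →
      D m' + D (Function.update m g (m g + 1)) ≤ D m + D (Function.update m' g (m' g + 1)))
    (hsub' : ∀ m m' g, (∀ g', m g' ≤ m' g') → m g = m' g →
      D' m' + D' (Function.update m g (m g + 1)) ≤ D' m + D' (Function.update m' g (m' g + 1)))
    (hmono : ∀ m m', (∀ g, m g ≤ m' g) → D m + D' m' ≤ D' m + D m')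
    (hshift : ∀ m,
      D m + D' (Function.update (fun g' => m g' + 1) g (m g + 1)) ≤
        D' (Function.update (fun g' => m g' + 1) g (m g)) + D (Function.update m g (m g + 1)))
    (hzero : D (fun _ => 0) = T) (hzero' : D' (fun _ => 0) = T') :
    (ball D γ R g : ℤ) ≤ T' - T + hcY D (Function.update γ g (γ g + 1)) (R + 1) - hcY D γ R := by
  have h1 : (ball D γ R g : ℤ) = ∑ t ∈ Finset.range R, ((D (mlt γ t g) : ℤ) - D (mle γ t g)) := by
    rw [ball, Nat.cast_sum]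
    refine Finset.sum_congr rfl fun t _ => ?_
    rw [Nat.cast_sub]
    apply hanti
    intro g'
    simp only [mlt, mle]
    rcases lt_trichotomy g' g with h2 | h2 | h2
    · rw [if_pos h2, if_pos h2.le]
    · subst h2
      rw [if_neg (lt_irrefl _), if_pos le_rfl]
      omega
    · rw [if_neg (not_lt.2 h2.le), if_neg (not_le.2 h2)]
  have h2 : ∀ t, (D (mlt γ t g) : ℤ) - D (mle γ t g) ≤
      ((D' (hcM γ t) : ℤ) - D' (hcM γ (t + 1))) +
        ((D (hcM (Function.update γ g (γ g + 1)) (t + 1)) : ℤ) - D (hcM γ t)) := by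
    intro t
    have s1 := hc_step D D' γ g t hanti' hsub hsub' hshift
    have s2 := hmono (hcM γ t) (hcM (Function.update γ g (γ g + 1)) (t + 1)) (by
      intro g'
      simp only [hcM, Function.update_apply]
      split_ifs with h4
      · subst h4; omega
      · omega)
    have t2 : ((D (hcM γ t) : ℕ) : ℤ) + D' (hcM (Function.update γ g (γ g + 1)) (t + 1)) ≤
      D' (hcM γ t) + D (hcM (Function.update γ g (γ g + 1)) (t + 1)) := by exact_mod_cast s2
    linarith
  have h3 : ∀ γ' : ι → ℕ, hcM γ' 0 = fun _ => 0 := by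
    intro γ'
    funext g'
    simp [hcM]
  rw [h1]
  refine (Finset.sum_le_sum fun t _ => h2 t).trans ?_
  rw [Finset.sum_add_distrib, hc_tele (fun t => (D' (hcM γ t) : ℤ)), Finset.sum_sub_distrib]
  have h4 : (hcY D (Function.update γ g (γ g + 1)) (R + 1) : ℤ) =
      ∑ t ∈ Finset.range R, (D (hcM (Function.update γ g (γ g + 1)) (t + 1)) : ℤ) + T := by
    rw [hcY, Finset.sum_range_succ']
    push_cast
    rw [h3, hzero]
  have h5 : (hcY D γ R : ℤ) = ∑ t ∈ Finset.range R, (D (hcM γ t) : ℤ) := by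
    rw [hcY]; push_cast; rfl
  have h6 : (D' (hcM γ 0) : ℤ) = T' := by rw [h3, hzero']
  have h7 : (0 : ℤ) ≤ D' (hcM γ R) := Nat.cast_nonneg _
  rw [h4, h5]
  simp only [h6]
  linarith

theorem handicap {ι κ : Type} [LinearOrder ι] [DecidableEq κ]
    (G : Finset ι) (K : Finset κ) (S : κ → Finset ι) (hS : ∀ l ∈ K, (S l).Nonempty)
    (hSG : ∀ l ∈ K, S l ⊆ G)
    (D : κ → ℕ → (ι → ℕ) → ℕ) (T : ℕ → ℕ) (n h : ℕ) (U : κ → ℕ) (c : ℕ)
    (hcongr : ∀ l ∈ K, ∀ n m m', (∀ g ∈ S l, m g = m' g) → D l n m = D l n m')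
    (hanti : ∀ l ∈ K, ∀ n m m', (∀ g, m g ≤ m' g) → D l n m' ≤ D l n m)
    (hsub : ∀ l ∈ K, ∀ n m m' g, (∀ g', m g' ≤ m' g') → m g = m' g →
      D l n m' + D l n (Function.update m g (m g + 1)) ≤
        D l n m + D l n (Function.update m' g (m' g + 1)))
    (hmono : ∀ l ∈ K, ∀ n n' m m', n ≤ n' → (∀ g, m g ≤ m' g) →
      D l n m + D l n' m' ≤ D l n' m + D l n m')
    (hshift : ∀ l ∈ K, ∀ m, ∀ g ∈ S l,
      D l n m + D l (n + h) (Function.update (fun g' => m g' + 1) g (m g + 1)) ≤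
        D l (n + h) (Function.update (fun g' => m g' + 1) g (m g)) +
          D l n (Function.update m g (m g + 1)))
    (hzero : ∀ l ∈ K, ∀ n, D l n (fun _ => 0) = T n)
    (htop : ∀ l ∈ K, ∀ n m, ∀ g ∈ S l, n + 1 ≤ m g → D l n m = 0)
    (hHall : ∀ A ⊆ G, T n * ∑ l ∈ K.filter (fun l => S l ⊆ A), U l ≤ c * A.card) :
    ∃ γ : ι → ℕ, ∀ R, (∀ g ∈ G, n + γ g + 2 ≤ R) → ∀ g ∈ G,
      ∑ l ∈ K.filter (fun l => g ∈ S l), U l * ball (D l n) γ R g ≤
        c + (∑ l ∈ K.filter (fun l => g ∈ S l), U l) * (T (n + h) - T n) := by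
  classical
  -- the potential
  let Y : κ → (ι → ℕ) → ℕ := fun l γ => hcY (D l n) γ (n + 2 + ∑ g ∈ G, γ g)
  let Z : (ι → ℕ) → ℤ := fun γ => (c : ℤ) * ∑ g ∈ G, (γ g : ℤ) - ∑ l ∈ K, (U l : ℤ) * Y l γ
  have hYeq : ∀ l ∈ K, ∀ γ : ι → ℕ, ∀ g ∈ S l, ∀ R, n + 1 + γ g ≤ R →
      hcY (D l n) γ R = Y l γ := by
    intro l hl γ g hg R hR
    have h0 : ∀ t, n + 1 + γ g ≤ t → D l n (hcM γ t) = 0 := by
      intro t ht
      apply htop l hl n _ g hg
      simp only [hcM]
      omega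
    have h1 : γ g ≤ ∑ g ∈ G, γ g := Finset.single_le_sum (f := γ) (fun _ _ => Nat.zero_le _)
      (hSG l hl hg)
    change ∑ t ∈ Finset.range R, D l n (hcM γ t) =
      ∑ t ∈ Finset.range (n + 2 + ∑ g ∈ G, γ g), D l n (hcM γ t)
    have h2 : n + 1 + γ g ≤ n + 2 + ∑ g ∈ G, γ g := by omega
    rw [hc_sum_eq h0 hR, hc_sum_eq h0 h2]
  -- lower bound
  let B : ℕ := T n * (n + 1) * ∑ l ∈ K, U l
  have hlow : ∀ γ : ι → ℕ, -(B : ℤ) ≤ Z γ := by
    intro γ
    -- the minimum over `S l`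
    have hmin : ∀ l : κ, ∃ μ : ℕ, l ∈ K → (∃ g ∈ S l, γ g = μ) ∧ ∀ g ∈ S l, μ ≤ γ g := by
      intro l
      by_cases hl : l ∈ K
      · obtain ⟨g, hg, hmin⟩ := Finset.exists_min_image (S l) γ (hS l hl)
        exact ⟨γ g, fun _ => ⟨⟨g, hg, rfl⟩, hmin⟩⟩
      · exact ⟨0, fun h => absurd h hl⟩
    choose μ hμ using hmin
    have hY : ∀ l ∈ K, Y l γ ≤ T n * (n + 1 + μ l) := by
      intro l hl
      obtain ⟨⟨g, hg, hgμ⟩, -⟩ := hμ l hl
      rw [← hYeq l hl γ g hg (n + 1 + μ l) (by omega)]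
      calc hcY (D l n) γ (n + 1 + μ l) ≤ ∑ t ∈ Finset.range (n + 1 + μ l), T n := by
            refine Finset.sum_le_sum fun t _ => ?_
            rw [← hzero l hl n]
            exact hanti l hl n _ _ (fun g => Nat.zero_le _)
        _ = T n * (n + 1 + μ l) := by
            rw [Finset.sum_const, Finset.card_range, smul_eq_mul, mul_comm]
    let N : ℕ := ∑ g ∈ G, γ g
    let A : ℕ → Finset ι := fun j => G.filter (fun g => j < γ g)
    have hcard : ∑ j ∈ Finset.range N, (A j).card ≤ ∑ g ∈ G, γ g := by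
      have h1 : ∑ j ∈ Finset.range N, (A j).card =
          ∑ g ∈ G, ((Finset.range N).filter (fun j => j < γ g)).card := by
        simp only [A, Finset.card_filter]
        rw [Finset.sum_comm]
      rw [h1]
      refine Finset.sum_le_sum fun g _ => ?_
      calc ((Finset.range N).filter (fun j => j < γ g)).card ≤ (Finset.range (γ g)).card := by
            apply Finset.card_le_card
            intro j hj
            rw [Finset.mem_filter] at hj
            exact Finset.mem_range.2 hj.2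
        _ = γ g := Finset.card_range _
    have hμN : ∀ l ∈ K, μ l ≤ ∑ j ∈ Finset.range N, (if S l ⊆ A j then 1 else 0) := by
      intro l hl
      obtain ⟨⟨g, hg, hgμ⟩, hle⟩ := hμ l hl
      have h1 : γ g ≤ N := Finset.single_le_sum (f := γ) (fun _ _ => Nat.zero_le _) (hSG l hl hg)
      rw [← Finset.card_filter]
      calc μ l = (Finset.range (μ l)).card := (Finset.card_range _).symm
        _ ≤ _ := by
            apply Finset.card_le_card
            intro j hj
            rw [Finset.mem_range] at hj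
            rw [Finset.mem_filter, Finset.mem_range]
            refine ⟨by omega, fun g' hg' => ?_⟩
            rw [Finset.mem_filter]
            exact ⟨hSG l hl hg', lt_of_lt_of_le hj (hle g' hg')⟩
    have hmain : T n * ∑ l ∈ K, U l * μ l ≤ c * ∑ g ∈ G, γ g := by
      calc T n * ∑ l ∈ K, U l * μ l
          ≤ T n * ∑ l ∈ K, U l * ∑ j ∈ Finset.range N, (if S l ⊆ A j then 1 else 0) :=
            Nat.mul_le_mul_left _ (Finset.sum_le_sum fun l hl =>
              Nat.mul_le_mul_left _ (hμN l hl))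
        _ = ∑ j ∈ Finset.range N, T n * ∑ l ∈ K.filter (fun l => S l ⊆ A j), U l := by
            rw [← Finset.mul_sum]
            congr 1
            simp only [Finset.mul_sum, Finset.sum_filter]
            rw [Finset.sum_comm]
            refine Finset.sum_congr rfl fun j _ => Finset.sum_congr rfl fun l _ => ?_
            split_ifs <;> simp
        _ ≤ ∑ j ∈ Finset.range N, c * (A j).card :=
            Finset.sum_le_sum fun j _ => hHall (A j) (Finset.filter_subset _ _)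
        _ = c * ∑ j ∈ Finset.range N, (A j).card := by rw [Finset.mul_sum]
        _ ≤ c * ∑ g ∈ G, γ g := Nat.mul_le_mul_left _ hcard
    have hsumY : ∑ l ∈ K, U l * Y l γ ≤ B + c * ∑ g ∈ G, γ g := by
      calc ∑ l ∈ K, U l * Y l γ ≤ ∑ l ∈ K, U l * (T n * (n + 1 + μ l)) :=
            Finset.sum_le_sum fun l hl => Nat.mul_le_mul_left _ (hY l hl)
        _ = B + T n * ∑ l ∈ K, U l * μ l := by
            simp only [B, Finset.mul_sum]
            rw [← Finset.sum_add_distrib]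
            refine Finset.sum_congr rfl fun l _ => ?_
            ring
        _ ≤ B + c * ∑ g ∈ G, γ g := Nat.add_le_add_left hmain _
    have h2 : ((∑ l ∈ K, U l * Y l γ : ℕ) : ℤ) ≤ ((B + c * ∑ g ∈ G, γ g : ℕ) : ℤ) := by
      exact_mod_cast hsumY
    push_cast at h2
    change -(B : ℤ) ≤ (c : ℤ) * ∑ g ∈ G, (γ g : ℤ) - ∑ l ∈ K, (U l : ℤ) * (Y l γ : ℤ)
    linarith
  -- the minimiser
  obtain ⟨γ, hγ⟩ : ∃ γ : ι → ℕ, ∀ γ', Z γ ≤ Z γ' := by
    let f : (ι → ℕ) → ℕ := fun γ => (Z γ + B).toNat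
    refine ⟨Function.argmin f, fun γ' => ?_⟩
    have h1 : f (Function.argmin f) ≤ f γ' := Function.argmin_le f γ'
    have h2 := hlow (Function.argmin f)
    have h3 := hlow γ'
    change (Z (Function.argmin f) + B).toNat ≤ (Z γ' + B).toNat at h1
    omega
  refine ⟨γ, fun R hR g hg => ?_⟩
  let γ' : ι → ℕ := Function.update γ g (γ g + 1)
  have hsum : ∑ x ∈ G, (γ' x : ℤ) = ∑ x ∈ G, (γ x : ℤ) + 1 := by
    have h1 : ∀ x, (γ' x : ℤ) = γ x + (if x = g then 1 else 0) := by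
      intro x
      simp only [γ', Function.update_apply]
      split_ifs with h
      · subst h; push_cast; rfl
      · simp
    simp only [h1]
    rw [Finset.sum_add_distrib, Finset.sum_ite_eq' G g, if_pos hg]
  have hZ := hγ γ'
  have hZ1 : (∑ l ∈ K, (U l : ℤ) * ((Y l γ' : ℤ) - Y l γ)) ≤ c := by
    change (c : ℤ) * ∑ g ∈ G, (γ g : ℤ) - ∑ l ∈ K, (U l : ℤ) * (Y l γ : ℤ) ≤
      (c : ℤ) * ∑ g ∈ G, (γ' g : ℤ) - ∑ l ∈ K, (U l : ℤ) * (Y l γ' : ℤ) at hZ
    rw [hsum] at hZ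
    simp only [mul_sub, Finset.sum_sub_distrib]
    linarith
  -- flats not containing `g`
  have hne : ∀ l ∈ K, 0 ≤ (U l : ℤ) * ((Y l γ' : ℤ) - Y l γ) := by
    intro l hl
    obtain ⟨g₁, hg₁⟩ := hS l hl
    have hle : ∀ x, γ x ≤ γ' x := by
      intro x
      simp only [γ', Function.update_apply]
      split_ifs with h
      · subst h; omega
      · exact le_rfl
    have h1 : hcY (D l n) γ (n + 1 + γ' g₁) ≤ hcY (D l n) γ' (n + 1 + γ' g₁) := by
      refine Finset.sum_le_sum fun t _ => hanti l hl n _ _ fun x => ?_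
      have := hle x
      simp only [hcM]
      omega
    rw [hYeq l hl γ g₁ hg₁ _ (by have := hle g₁; omega), hYeq l hl γ' g₁ hg₁ _ le_rfl] at h1
    have h2 : ((Y l γ : ℕ) : ℤ) ≤ Y l γ' := by exact_mod_cast h1
    exact mul_nonneg (Nat.cast_nonneg _) (by linarith)
  have hZ2 : (∑ l ∈ K.filter (fun l => g ∈ S l), (U l : ℤ) * ((Y l γ' : ℤ) - Y l γ)) ≤ c :=
    (Finset.sum_le_sum_of_subset_of_nonneg (Finset.filter_subset _ _)
      (fun l hl _ => hne l hl)).trans hZ1
  have hball : ∀ l ∈ K.filter (fun l => g ∈ S l), (U l : ℤ) * (ball (D l n) γ R g : ℤ) ≤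
      (U l : ℤ) * ((T (n + h) - T n : ℕ) : ℤ) + (U l : ℤ) * ((Y l γ' : ℤ) - Y l γ) := by
    intro l hl
    rw [Finset.mem_filter] at hl
    obtain ⟨hl, hgl⟩ := hl
    have hRg := hR g hg
    have h1 := hc_ball (D l n) (D l (n + h)) γ g R (T n) (T (n + h)) (hanti l hl n)
      (hanti l hl (n + h)) (hsub l hl n) (hsub l hl (n + h))
      (fun m m' hm => hmono l hl n (n + h) m m' (Nat.le_add_right _ _) hm)
      (fun m => hshift l hl m g hgl) (hzero l hl n) (hzero l hl (n + h))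
    have h2 : hcY (D l n) γ' (R + 1) = Y l γ' := by
      apply hYeq l hl γ' g hgl
      simp only [γ', Function.update_self]
      omega
    have h3 : hcY (D l n) γ R = Y l γ := hYeq l hl γ g hgl R (by omega)
    have h4 : T n ≤ T (n + h) := by
      have h5 := hmono l hl n (n + h) (fun _ => 0) (fun _ => n + h + 1) (Nat.le_add_right _ _)
        (fun _ => Nat.zero_le _)
      rw [hzero l hl, hzero l hl, htop l hl (n + h) _ g hgl (by omega),
        htop l hl n _ g hgl (by omega)] at h5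
      omega
    rw [← mul_add]
    apply mul_le_mul_of_nonneg_left _ (Nat.cast_nonneg _)
    rw [Nat.cast_sub h4]
    have h6 : (hcY (D l n) (Function.update γ g (γ g + 1)) (R + 1) : ℤ) = Y l γ' := by
      exact_mod_cast h2
    have h7 : (hcY (D l n) γ R : ℤ) = Y l γ := by exact_mod_cast h3
    rw [h6, h7] at h1
    linarith
  have hfin : (∑ l ∈ K.filter (fun l => g ∈ S l), (U l : ℤ) * (ball (D l n) γ R g : ℤ)) ≤
      c + (∑ l ∈ K.filter (fun l => g ∈ S l), (U l : ℤ)) * ((T (n + h) - T n : ℕ) : ℤ) := by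
    refine (Finset.sum_le_sum hball).trans ?_
    rw [Finset.sum_add_distrib, ← Finset.sum_mul]
    linarith
  exact_mod_cast hfin

end Vale.Agent.P054.J
end

section

/-! Block J, file LimitStep: divide by n^6 and let n tend to infinity
(T n / n^3 -> 1/6, (TT (n+J) - TT n)/n^3 -> 0, choose (n+6) 6 / n^6 -> 1/720). -/

set_option linter.all false

namespace Vale.Agent.P054.J

open MvPolynomial Finset

private theorem ls_ch3 (n : ℕ) : (((n + 3).choose 3 : ℕ) : ℝ) = (n + 1) * (n + 2) * (n + 3) / 6 := by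
  have h := Nat.ascFactorial_eq_factorial_mul_choose n 3
  have h1 : n.succ.ascFactorial 3 = (n + 1) * (n + 2) * (n + 3) := by
    simp [Nat.ascFactorial]; ring
  have h2 : (n + 1).ascFactorial 3 = (n + 1) * (n + 2) * (n + 3) := h1
  rw [h2] at h
  have h3 : (Nat.factorial 3) = 6 := rfl
  rw [h3] at h
  have h4 : (((n + 1) * (n + 2) * (n + 3) : ℕ) : ℝ) = ((6 * (n + 3).choose 3 : ℕ) : ℝ) := by rw [h]
  push_cast at h4
  linarith

private theorem ls_ch6 (n : ℕ) : (((n + 6).choose 6 : ℕ) : ℝ) =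
    (n + 1) * (n + 2) * (n + 3) * (n + 4) * (n + 5) * (n + 6) / 720 := by
  have h := Nat.ascFactorial_eq_factorial_mul_choose n 6
  have h1 : n.succ.ascFactorial 6 = (n + 1) * (n + 2) * (n + 3) * (n + 4) * (n + 5) * (n + 6) := by
    simp [Nat.ascFactorial]; ring
  have h2 : (n + 1).ascFactorial 6 = (n + 1) * (n + 2) * (n + 3) * (n + 4) * (n + 5) * (n + 6) := h1
  rw [h2] at h
  have h3 : (Nat.factorial 6) = 720 := rfl
  rw [h3] at h
  have h4 : (((n + 1) * (n + 2) * (n + 3) * (n + 4) * (n + 5) * (n + 6) : ℕ) : ℝ) =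
      ((720 * (n + 6).choose 6 : ℕ) : ℝ) := by rw [h]
  push_cast at h4
  linarith

/-- The limit step. -/
theorem limit_step (J N : ℕ) (hJ : 1 ≤ J)
    (h : ∀ n : ℕ, (((n + 6).choose 6 : ℕ) : ℝ) ≤
      J * N * (2 * (TT n : ℝ) / J + 4 * ((TT (n + J) : ℝ) - TT n)) ^ 2 / 16) : J ≤ 5 * N := by
  have hJ0 : (0 : ℝ) < J := by exact_mod_cast hJ
  let f : ℝ → ℝ := fun x => (1 + x) * (1 + 2 * x) * (1 + 3 * x) * (1 + 4 * x) * (1 + 5 * x) *
    (1 + 6 * x) / 720
  let g : ℝ → ℝ := fun x => J * N * (2 * ((1 + x) * (1 + 2 * x) * (1 + 3 * x) / 6) / J +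
    4 * ((1 + (J + 1) * x) * (1 + (J + 2) * x) * (1 + (J + 3) * x) / 6 -
      (1 + x) * (1 + 2 * x) * (1 + 3 * x) / 6)) ^ 2 / 16
  have hf : Continuous f := by
    simp only [f]
    fun_prop
  have hg : Continuous g := by
    simp only [g]
    fun_prop
  have hx : Filter.Tendsto (fun n : ℕ => (1 : ℝ) / n) Filter.atTop (nhds 0) :=
    tendsto_one_div_atTop_nhds_zero_nat
  have h1 : Filter.Tendsto (fun n : ℕ => f ((1 : ℝ) / n)) Filter.atTop (nhds (f 0)) :=
    (hf.tendsto 0).comp hx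
  have h2 : Filter.Tendsto (fun n : ℕ => g ((1 : ℝ) / n)) Filter.atTop (nhds (g 0)) :=
    (hg.tendsto 0).comp hx
  have h3 : ∀ᶠ n : ℕ in Filter.atTop, f ((1 : ℝ) / n) ≤ g ((1 : ℝ) / n) := by
    filter_upwards [Filter.eventually_ge_atTop 1] with n hn
    have hn0 : (0 : ℝ) < n := by exact_mod_cast hn
    have h4 := h n
    unfold TT at h4
    rw [ls_ch6, ls_ch3, ls_ch3] at h4
    push_cast at h4
    have e1 : f ((1 : ℝ) / n) = (n + 1) * (n + 2) * (n + 3) * (n + 4) * (n + 5) * (n + 6) / 720 /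
        (n : ℝ) ^ 6 := by
      simp only [f]
      field_simp
    have e2 : g ((1 : ℝ) / n) = J * N * (2 * (((n : ℝ) + 1) * (n + 2) * (n + 3) / 6) / J +
        4 * (((n : ℝ) + J + 1) * (n + J + 2) * (n + J + 3) / 6 -
        (n + 1) * (n + 2) * (n + 3) / 6)) ^ 2 / 16 / (n : ℝ) ^ 6 := by
      simp only [g]
      field_simp
      ring
    rw [e1, e2]
    exact div_le_div_of_nonneg_right h4 (by positivity)
  have h5 := le_of_tendsto_of_tendsto h1 h2 h3
  simp only [f, g] at h5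
  have h6 : (1 : ℝ) / 720 ≤ N / (144 * J) := by
    have e3 : (J : ℝ) * N * (2 * ((1 + 0) * (1 + 2 * 0) * (1 + 3 * 0) / 6) / J +
        4 * ((1 + (J + 1) * 0) * (1 + (J + 2) * 0) * (1 + (J + 3) * 0) / 6 -
        (1 + 0) * (1 + 2 * 0) * (1 + 3 * 0) / 6)) ^ 2 / 16 = N / (144 * J) := by
      field_simp
      ring
    rw [e3] at h5
    norm_num at h5 ⊢
    exact h5
  rw [div_le_div_iff₀ (by norm_num) (by positivity)] at h6
  have h7 : (J : ℝ) ≤ 5 * N := by linarith only [h6]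
  exact_mod_cast h7

end Vale.Agent.P054.J
end

section

/-!
Block J, file ConfBound: `|G| ≤ 5 * N1 * N2`, `N1`, `N2` the numbers of used flats with label
false, true.

PROOF.  Strong induction on `|G|`.  Let `J = |G| ≥ 1` and suppose `J > 5 N1 N2`.  For every
`B ⊊ G`: `|B| ≤ 5 N1(B) N2(B)`, hence `|B|/J ≤ N1(B)N2(B)/(N1 N2) ≤ (x+y)/2` with
`x = N1(B)/N1 ≤ 1`, `y = N2(B)/N2 ≤ 1` (`x*y ≤ ((x+y)/2)^2 ≤ (x+y)/2`), i.e.
(H) `2 |B| N1 N2 ≤ J (N1(B) N2 + N2(B) N1)`, also true for `B = G`.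
For a flat `l` used by `G` put `U l = J N2` (label false), `J N1` (label true), `S l = inc G l`,
`c = 2 T n N1 N2`.  `∑_{l used} U l = 2 J N1 N2`.  For `A ⊆ G`, `B = G \ A`: a flat with `S l ⊆ A` is a
used flat that is not used by `B`, so `∑_{S l ⊆ A} U l = 2 J N1 N2 - J (N1(B) N2 + N2(B) N1)
≤ 2 J N1 N2 - 2 |B| N1 N2 = 2 |A| N1 N2`: this is `hHall`.  `handicap` with
`D l n m = DD n (S l) (y l) m`, `h = J` (`DD_congr, DD_anti, DD_submod, DD_mono, DD_shift, DD_zero,
DD_top`; the parameters `y l g`, `g ∈ S l`, are distinct by `hpt`, `hinj`) gives `γ`.  Let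
`b_i` be the allocation of `fl g i` at `g` (the flats containing `g` are exactly the four distinct `fl g i`):
`J N2 (b_0 + b_1) + J N1 (b_2 + b_3) ≤ 2 T n N1 N2 + 2 J (N1 + N2) Δ`, `Δ = T (n+J) - T n`.
With `p = (b_0+b_1)/N1`, `q = (b_2+b_3)/N2`: `p + q ≤ 2 T n / J + 4 Δ` (`N_i ≥ 1`), and
`sqrt(b_0 b_1 b_2 b_3) ≤ (b_0+b_1)(b_2+b_3)/4 = N1 N2 p q / 4 ≤ N1 N2 (p+q)^2/16`.  So by `dim_le`
`(n+6).choose 6 ≤ J N1 N2 (2 T n / J + 4 Δ_n)^2 / 16` for all `n`.  Divide by `n^6` and let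
`n → ∞` (`T n / n^3 → 1/6`, `Δ_n / n^3 → 0`, `(n+6).choose 6 / n^6 → 1/720`):
`1/720 ≤ N1 N2/(144 J)`, i.e. `J ≤ 5 N1 N2`.
-/

set_option linter.all false

namespace Vale.Agent.P054.J

open MvPolynomial Finset

section ConfBound

variable {ι κ : Type}

private theorem cfb_mem_inc (c : Conf ι κ) (G : Finset ι) (l : κ) (g : ι) :
    g ∈ c.inc G l ↔ g ∈ G ∧ ∃ i, c.fl g i = l := by
  classical
  unfold Conf.inc
  rw [Finset.mem_filter]

private theorem cfb_mem_used (c : Conf ι κ) (G : Finset ι) (b : Bool) (l : κ) :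
    l ∈ c.used G b ↔ (∃ g ∈ G, ∃ i, c.fl g i = l) ∧ c.lab l = b := by
  classical
  unfold Conf.used
  rw [Finset.mem_filter, Finset.mem_biUnion]
  simp only [Finset.mem_image, Finset.mem_univ, true_and]

private theorem cfb_used_mono (c : Conf ι κ) {B G : Finset ι} (h : B ⊆ G) (b : Bool) :
    c.used B b ⊆ c.used G b := by
  intro l hl
  rw [cfb_mem_used] at hl ⊢
  obtain ⟨⟨g, hg, i, hi⟩, hb⟩ := hl
  exact ⟨⟨g, h hg, i, hi⟩, hb⟩

private theorem cfb_TT_mono {a b : ℕ} (h : a ≤ b) : TT a ≤ TT b := by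
  unfold TT
  exact Nat.choose_le_choose 3 (by omega)

private theorem cfb_injOn (c : Conf ι κ) (G : Finset ι) (l : κ) :
    Set.InjOn (c.y l) (c.inc G l : Set ι) := by
  intro g hg g' hg' h
  rw [Finset.mem_coe, cfb_mem_inc] at hg hg'
  obtain ⟨-, i, hi⟩ := hg
  obtain ⟨-, i', hi'⟩ := hg'
  have h1 := c.hpt g i g' i' (hi.trans hi'.symm)
  rw [hi, ← h, sub_self, Matrix.mulVec_zero, sub_eq_zero] at h1
  exact (c.hinj h1).symm

/-- (H) -/
private theorem cfb_H {b n1 n2 N1 N2 J : ℕ} (h1 : n1 ≤ N1) (h2 : n2 ≤ N2) (hb : b ≤ 5 * n1 * n2)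
    (hJ : 5 * N1 * N2 ≤ J) : 2 * b * N1 * N2 ≤ J * (n1 * N2 + n2 * N1) := by
  have e1 : 2 * b * N1 * N2 ≤ 2 * (5 * n1 * n2) * N1 * N2 := by gcongr
  have e2 : 5 * N1 * N2 * (n1 * N2 + n2 * N1) ≤ J * (n1 * N2 + n2 * N1) := by gcongr
  have e3 : n1 * n2 ≤ n1 * N2 := Nat.mul_le_mul_left _ h2
  have e4 : n1 * n2 ≤ n2 * N1 := by rw [mul_comm]; exact Nat.mul_le_mul_left _ h1
  have e5 : 2 * (5 * n1 * n2) * N1 * N2 = 5 * N1 * N2 * (n1 * n2 + n1 * n2) := by ring
  have e6 : 5 * N1 * N2 * (n1 * n2 + n1 * n2) ≤ 5 * N1 * N2 * (n1 * N2 + n2 * N1) :=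
    Nat.mul_le_mul_left _ (Nat.add_le_add e3 e4)
  omega

/-- the Hall type inequality -/
private theorem cfb_hall [DecidableEq κ] [DecidableEq ι] (c : Conf ι κ) (G : Finset ι) (N1 N2 : ℕ)
    (hN1 : (c.used G false).card = N1) (hN2 : (c.used G true).card = N2)
    (hB : ∀ B ⊆ G, 2 * B.card * N1 * N2 ≤
      G.card * ((c.used B false).card * N2 + (c.used B true).card * N1))
    (K : Finset κ) (hK : K = c.used G false ∪ c.used G true) (A : Finset ι) (hA : A ⊆ G) :
    ∑ l ∈ K.filter (fun l => c.inc G l ⊆ A), (if c.lab l = false then G.card * N2 else G.card * N1) ≤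
      2 * N1 * N2 * A.card := by
  set U : κ → ℕ := fun l => if c.lab l = false then G.card * N2 else G.card * N1 with hU
  have hdisj : Disjoint ((c.used G false).filter (fun l => c.inc G l ⊆ A))
      ((c.used G true).filter (fun l => c.inc G l ⊆ A)) := by
    rw [Finset.disjoint_left]
    intro l h1 h2
    rw [Finset.mem_filter, cfb_mem_used] at h1 h2
    rw [h1.1.2] at h2
    exact absurd h2.1.2 (by decide)
  rw [hK, Finset.filter_union, Finset.sum_union hdisj]
  have hf : ∀ b : Bool, ((c.used G b).filter (fun l => c.inc G l ⊆ A)).card +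
      (c.used (G \ A) b).card ≤ (c.used G b).card := by
    intro b
    rw [← Finset.card_union_of_disjoint]
    · refine Finset.card_le_card (Finset.union_subset (Finset.filter_subset _ _)
        (cfb_used_mono c Finset.sdiff_subset b))
    · rw [Finset.disjoint_left]
      intro l h1 h2
      rw [Finset.mem_filter] at h1
      rw [cfb_mem_used] at h2
      obtain ⟨⟨g, hg, i, hi⟩, -⟩ := h2
      rw [Finset.mem_sdiff] at hg
      exact hg.2 (h1.2 ((cfb_mem_inc c G l g).2 ⟨hg.1, i, hi⟩))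
  have s1 : ∑ l ∈ (c.used G false).filter (fun l => c.inc G l ⊆ A), U l =
      ((c.used G false).filter (fun l => c.inc G l ⊆ A)).card * (G.card * N2) := by
    rw [Finset.sum_const_nat]
    intro l hl
    rw [Finset.mem_filter, cfb_mem_used] at hl
    simp only [hU, hl.1.2, if_true]
  have s2 : ∑ l ∈ (c.used G true).filter (fun l => c.inc G l ⊆ A), U l =
      ((c.used G true).filter (fun l => c.inc G l ⊆ A)).card * (G.card * N1) := by
    rw [Finset.sum_const_nat]
    intro l hl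
    rw [Finset.mem_filter, cfb_mem_used] at hl
    simp only [hU, hl.1.2]
    rfl
  have h1 := hf false
  have h2 := hf true
  rw [hN1] at h1
  rw [hN2] at h2
  have h3 := hB (G \ A) Finset.sdiff_subset
  have h4 : (G \ A).card + A.card = G.card := Finset.card_sdiff_add_card_eq_card hA
  change ∑ l ∈ _, U l + ∑ l ∈ _, U l ≤ _
  rw [s1, s2]
  set f1 := ((c.used G false).filter (fun l => c.inc G l ⊆ A)).card
  set f2 := ((c.used G true).filter (fun l => c.inc G l ⊆ A)).card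
  set n1 := (c.used (G \ A) false).card
  set n2 := (c.used (G \ A) true).card
  set J := G.card
  set b := (G \ A).card
  set a := A.card
  have e1 : f1 * (J * N2) + n1 * (J * N2) ≤ N1 * (J * N2) := by
    rw [← add_mul]
    exact Nat.mul_le_mul_right _ h1
  have e2 : f2 * (J * N1) + n2 * (J * N1) ≤ N2 * (J * N1) := by
    rw [← add_mul]
    exact Nat.mul_le_mul_right _ h2
  have e3 : J * (n1 * N2 + n2 * N1) = n1 * (J * N2) + n2 * (J * N1) := by ring
  have e4 : N1 * (J * N2) + N2 * (J * N1) = 2 * b * N1 * N2 + 2 * N1 * N2 * a := by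
    rw [← h4]
    ring
  omega

/-- the bound of one point -/
private theorem cfb_point (b : Fin 4 → ℕ) (N1 N2 J t D : ℕ) (h1 : 1 ≤ N1) (h2 : 1 ≤ N2) (hJ : 1 ≤ J)
    (h : J * N2 * (b 0 + b 1) + J * N1 * (b 2 + b 3) ≤
      2 * t * N1 * N2 + 2 * J * (N1 + N2) * D) :
    Real.sqrt (∏ i : Fin 4, (b i : ℝ)) ≤
      (N1 * N2 : ℝ) * (2 * (t : ℝ) / J + 4 * (D : ℝ)) ^ 2 / 16 := by
  have hJ' : (1 : ℝ) ≤ J := by exact_mod_cast hJ
  have h1' : (1 : ℝ) ≤ N1 := by exact_mod_cast h1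
  have h2' : (1 : ℝ) ≤ N2 := by exact_mod_cast h2
  have hR : (J * N2 * (b 0 + b 1) + J * N1 * (b 2 + b 3) : ℝ) ≤
      2 * t * N1 * N2 + 2 * J * (N1 + N2) * D := by exact_mod_cast h
  have hb : ∀ i, (0 : ℝ) ≤ b i := fun i => Nat.cast_nonneg _
  have hD : (0 : ℝ) ≤ D := Nat.cast_nonneg _
  have ht : (0 : ℝ) ≤ t := Nat.cast_nonneg _
  set p : ℝ := (b 0 + b 1) / N1 with hp
  set q : ℝ := (b 2 + b 3) / N2 with hq
  have hp0 : 0 ≤ p := div_nonneg (add_nonneg (hb 0) (hb 1)) (by linarith)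
  have hq0 : 0 ≤ q := div_nonneg (add_nonneg (hb 2) (hb 3)) (by linarith)
  have ep : (b 0 + b 1 : ℝ) = N1 * p := by
    rw [hp]; field_simp
  have eq : (b 2 + b 3 : ℝ) = N2 * q := by
    rw [hq]; field_simp
  rw [ep, eq] at hR
  have hN : (0 : ℝ) < J * N1 * N2 := by positivity
  have hpq : p + q ≤ 2 * (t : ℝ) / J + 4 * (D : ℝ) := by
    have e1 : (J * N1 * N2 : ℝ) * (p + q) ≤ (J * N1 * N2 : ℝ) * (2 * (t : ℝ) / J + 4 * (D : ℝ)) := by
      have e2 : (J * N1 * N2 : ℝ) * (2 * (t : ℝ) / J + 4 * (D : ℝ)) =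
          2 * t * N1 * N2 + 4 * (J * N1 * N2) * D := by
        field_simp
      rw [e2]
      have e3 : (N1 + N2 : ℝ) ≤ 2 * (N1 * N2) := by nlinarith
      have e4 : (2 * J * (N1 + N2) * D : ℝ) ≤ 4 * (J * N1 * N2) * D := by
        have : (2 * J * (N1 + N2) : ℝ) ≤ 4 * (J * N1 * N2) := by nlinarith
        exact mul_le_mul_of_nonneg_right this hD
      linarith only [e4, hR]
    exact le_of_mul_le_mul_left e1 hN
  have hs : ∏ i : Fin 4, (b i : ℝ) ≤ ((b 0 + b 1) * (b 2 + b 3) / 4 : ℝ) ^ 2 := by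
    rw [Fin.prod_univ_four]
    have e1 : (b 0 * b 1 : ℝ) ≤ ((b 0 + b 1) / 2) ^ 2 := by linarith only [sq_nonneg ((b 0 : ℝ) - b 1)]
    have e2 : (b 2 * b 3 : ℝ) ≤ ((b 2 + b 3) / 2) ^ 2 := by linarith only [sq_nonneg ((b 2 : ℝ) - b 3)]
    calc (b 0 * b 1 * b 2 * b 3 : ℝ) = (b 0 * b 1) * (b 2 * b 3) := by ring
      _ ≤ ((b 0 + b 1) / 2) ^ 2 * ((b 2 + b 3) / 2) ^ 2 :=
        mul_le_mul e1 e2 (mul_nonneg (hb 2) (hb 3)) (sq_nonneg _)
      _ = ((b 0 + b 1) * (b 2 + b 3) / 4 : ℝ) ^ 2 := by ring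
  have hs2 : Real.sqrt (∏ i : Fin 4, (b i : ℝ)) ≤ (b 0 + b 1) * (b 2 + b 3) / 4 := by
    refine (Real.sqrt_le_sqrt hs).trans (le_of_eq (Real.sqrt_sq ?_))
    exact div_nonneg (mul_nonneg (add_nonneg (hb 0) (hb 1)) (add_nonneg (hb 2) (hb 3))) (by norm_num)
  refine hs2.trans ?_
  rw [ep, eq]
  have e5 : p * q ≤ (p + q) ^ 2 / 4 := by linarith only [sq_nonneg (p - q)]
  have e6 : (p + q) ^ 2 ≤ (2 * (t : ℝ) / J + 4 * (D : ℝ)) ^ 2 :=
    pow_le_pow_left₀ (add_nonneg hp0 hq0) hpq 2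
  have e7 : (0 : ℝ) ≤ N1 * N2 := by positivity
  calc (N1 * p * (N2 * q) / 4 : ℝ) = N1 * N2 * (p * q) / 4 := by ring
    _ ≤ N1 * N2 * ((2 * (t : ℝ) / J + 4 * (D : ℝ)) ^ 2 / 4) / 4 := by
      have : (N1 * N2 : ℝ) * (p * q) ≤ N1 * N2 * ((2 * (t : ℝ) / J + 4 * (D : ℝ)) ^ 2 / 4) :=
        mul_le_mul_of_nonneg_left (by linarith only [e6, e5]) e7
      linarith only [this]
    _ = _ := by ring

end ConfBound

theorem conf_bound {ι κ : Type} [LinearOrder ι] (c : Conf ι κ) (G : Finset ι) :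
    G.card ≤ 5 * (c.used G false).card * (c.used G true).card := by
  classical
  induction G using Finset.strongInduction with
  | H G ih =>
    by_contra hcon
    have hcon := not_le.1 hcon
    have hG : G.Nonempty := by
      rw [← Finset.card_pos]
      omega
    have hJ : 1 ≤ G.card := Finset.card_pos.2 hG
    set N1 := (c.used G false).card with hN1
    set N2 := (c.used G true).card with hN2
    obtain ⟨g0, hg0⟩ := hG
    have h1 : 1 ≤ N1 := Finset.card_pos.2 ⟨c.fl g0 0, (cfb_mem_used c G false _).2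
      ⟨⟨g0, hg0, 0, rfl⟩, by rw [c.hlab]; rfl⟩⟩
    have h2 : 1 ≤ N2 := Finset.card_pos.2 ⟨c.fl g0 2, (cfb_mem_used c G true _).2
      ⟨⟨g0, hg0, 2, rfl⟩, by rw [c.hlab]; rfl⟩⟩
    have hB : ∀ B ⊆ G, 2 * B.card * N1 * N2 ≤
        G.card * ((c.used B false).card * N2 + (c.used B true).card * N1) := by
      intro B hB
      rcases eq_or_ne B G with h | h
      · subst h
        rw [← hN1, ← hN2]
        apply le_of_eq
        ring
      · exact cfb_H (Finset.card_le_card (cfb_used_mono c hB false))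
          (Finset.card_le_card (cfb_used_mono c hB true)) (ih B (Finset.ssubset_iff_subset_ne.2 ⟨hB, h⟩)) hcon.le
    refine absurd (limit_step G.card (N1 * N2) hJ ?_) (by rw [← mul_assoc]; omega)
    intro n
    set K : Finset κ := c.used G false ∪ c.used G true with hK
    have memK : ∀ l, l ∈ K ↔ ∃ g ∈ G, ∃ i, c.fl g i = l := by
      intro l
      rw [hK, Finset.mem_union, cfb_mem_used, cfb_mem_used]
      constructor
      · rintro (h | h) <;> exact h.1
      · intro h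
        cases hb : c.lab l
        · exact Or.inl ⟨h, rfl⟩
        · exact Or.inr ⟨h, rfl⟩
    obtain ⟨γ, hγ⟩ := handicap G K (fun l => c.inc G l)
      (fun l hl => by
        obtain ⟨g, hg, i, hi⟩ := (memK l).1 hl
        exact ⟨g, (cfb_mem_inc c G l g).2 ⟨hg, i, hi⟩⟩)
      (fun l hl g hg => ((cfb_mem_inc c G l g).1 hg).1)
      (fun l n m => DD n (c.inc G l) (c.y l) m) TT n G.card
      (fun l => if c.lab l = false then G.card * N2 else G.card * N1) (2 * TT n * N1 * N2)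
      (fun l hl n m m' h => DD_congr n _ _ m m' h)
      (fun l hl n m m' h => DD_anti n _ _ m m' h)
      (fun l hl n m m' g h hg => DD_submod n _ _ m m' g h hg)
      (fun l hl n n' m m' hn h => DD_mono n n' _ _ m m' hn h)
      (fun l hl m g hg => DD_shift n G.card _ _ (cfb_injOn c G l)
        (Finset.card_le_card fun g' hg' => ((cfb_mem_inc c G l g').1 hg').1) m g hg)
      (fun l hl n => DD_zero n _ _)
      (fun l hl n m g hg h => DD_top n _ _ m g hg h)
      (fun A hA => by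
        have h := cfb_hall c G N1 N2 hN1.symm hN2.symm hB K hK A hA
        calc TT n * _ ≤ TT n * (2 * N1 * N2 * A.card) := Nat.mul_le_mul_left _ h
          _ = _ := by ring)
    set R := ∑ g ∈ G, (n + γ g + 2) with hR
    have hR' : ∀ g' ∈ G, n + γ g' + 2 ≤ R := fun g' hg' =>
      Finset.single_le_sum (f := fun g => n + γ g + 2) (fun _ _ => Nat.zero_le _) hg'
    refine (dim_le c G ⟨g0, hg0⟩ γ n R hR').trans ?_
    have hpt : ∀ g ∈ G, Real.sqrt (∏ i : Fin 4,
        (ball (fun m => DD n (c.inc G (c.fl g i)) (c.y (c.fl g i)) m) γ R g : ℝ)) ≤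
        (N1 * N2 : ℝ) * (2 * (TT n : ℝ) / G.card + 4 * ((TT (n + G.card) - TT n : ℕ) : ℝ)) ^ 2 / 16 := by
      intro g hg
      have hb := hγ R hR' g hg
      have hfil : K.filter (fun l => g ∈ c.inc G l) = Finset.univ.image (c.fl g) := by
        ext l
        rw [Finset.mem_filter, memK, cfb_mem_inc, Finset.mem_image]
        constructor
        · rintro ⟨-, -, i, hi⟩
          exact ⟨i, Finset.mem_univ _, hi⟩
        · rintro ⟨i, -, hi⟩
          exact ⟨⟨g, hg, i, hi⟩, hg, i, hi⟩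
      rw [hfil, Finset.sum_image (fun a _ b _ h => c.hfl g h),
        Finset.sum_image (fun a _ b _ h => c.hfl g h), Fin.sum_univ_four, Fin.sum_univ_four] at hb
      have l0 : c.lab (c.fl g 0) = false := by rw [c.hlab]; rfl
      have l1 : c.lab (c.fl g 1) = false := by rw [c.hlab]; rfl
      have l2 : c.lab (c.fl g 2) = true := by rw [c.hlab]; rfl
      have l3 : c.lab (c.fl g 3) = true := by rw [c.hlab]; rfl
      simp only [l0, l1, l2, l3, if_true, reduceCtorEq, if_false] at hb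
      refine cfb_point (fun i => ball (fun m => DD n (c.inc G (c.fl g i)) (c.y (c.fl g i)) m) γ R g)
        N1 N2 G.card (TT n) (TT (n + G.card) - TT n) h1 h2 hJ ?_
      refine le_trans (le_of_eq ?_) (hb.trans (le_of_eq ?_))
      · ring
      · ring
    refine (Finset.sum_le_sum hpt).trans (le_of_eq ?_)
    rw [Finset.sum_const, nsmul_eq_mul, Nat.cast_sub (cfb_TT_mono (Nat.le_add_right _ _)), Nat.cast_mul]
    ring

end Vale.Agent.P054.J
end

section

/-!
Block J, file Cayley: from motions to configurations (Cayley coordinates).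

PROOF of `joints_cayley` (no motion has the eigenvalue -1).  For `g = (Q, v)`, `Q` a rotation with
`det (1 + Q) ≠ 0`, put `P = (1 + Q)^{-1}`, `W = 1 - 2 P` (antisymmetric), `W = [ω]`, `w = 2 P v`.
If `Q a + v = c` then `c - a = ω × (a + c) + w`.  The coordinates of `g` are `pt g = (ω, w)` in `R^6`
(injective).  For a pair `q = (a, c)` the flat is `{(ω, c - a - ω × (a + c))}`, parametrised by
`y = ω`: `M q = [1 ; ω ↦ -(ω × (a + c))]`.  `κ = pairs × Bool`, `lab` the side.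
At `g` with the chosen points `p i = (a_i, c_i)` put `m_i = a_i + c_i = (1 + Q) a_i + v` (affinely
independent because `1 + Q` is invertible).  The columns of `A g` are
`e_{ij} = (m_i - m_j, -(m_i - m_j) × m_i)` for the edges `01, 02, 03, 12, 13, 23` in this order (= 0..5).
-/

set_option linter.all false

namespace Vale.Agent.P054.J

open MvPolynomial Finset Matrix

/-! ### vectors and matrices -/

/-- cross product -/
def cyCr (a b : Fin 3 → ℝ) : Fin 3 → ℝ :=
  ![a 1 * b 2 - a 2 * b 1, a 2 * b 0 - a 0 * b 2, a 0 * b 1 - a 1 * b 0]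

/-- six coordinates -/
def cySix (u w : Fin 3 → ℝ) : Fin 6 → ℝ := ![u 0, u 1, u 2, w 0, w 1, w 2]

/-- the direction matrix of a flat -/
def cyM (m : Fin 3 → ℝ) : Matrix (Fin 6) (Fin 3) ℝ :=
  !![1, 0, 0; 0, 1, 0; 0, 0, 1; 0, -m 2, m 1; m 2, 0, -m 0; -m 1, m 0, 0]

/-- first vertex of an edge -/
def cyF : Fin 6 → Fin 4 := ![0, 0, 0, 1, 1, 2]

/-- second vertex of an edge -/
def cyS : Fin 6 → Fin 4 := ![1, 2, 3, 2, 3, 3]

/-- edge vector -/
def cyU (m : Fin 4 → Fin 3 → ℝ) (e : Fin 6) : Fin 3 → ℝ := fun r => m (cyF e) r - m (cyS e) r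

/-- the basis of the six edges -/
def cyA (m : Fin 4 → Fin 3 → ℝ) : Matrix (Fin 6) (Fin 6) ℝ :=
  fun r e => cySix (cyU m e) (fun k => -cyCr (cyU m e) (m (cyF e)) k) r

/-- the three edges at a vertex -/
def cyB (m : Fin 4 → Fin 3 → ℝ) (i : Fin 4) : Matrix (Fin 3) (Fin 3) ℝ :=
  fun r k => cyU m (tri i k) r

/-- the determinant of the tetrahedron -/
noncomputable def cyD (m : Fin 4 → Fin 3 → ℝ) : ℝ :=
  (m 0 0 - m 3 0) * ((m 1 1 - m 3 1) * (m 2 2 - m 3 2) - (m 1 2 - m 3 2) * (m 2 1 - m 3 1)) -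
  (m 0 1 - m 3 1) * ((m 1 0 - m 3 0) * (m 2 2 - m 3 2) - (m 1 2 - m 3 2) * (m 2 0 - m 3 0)) +
  (m 0 2 - m 3 2) * ((m 1 0 - m 3 0) * (m 2 1 - m 3 1) - (m 1 1 - m 3 1) * (m 2 0 - m 3 0))

theorem cyM_mulVec (m x : Fin 3 → ℝ) :
    (cyM m).mulVec x = cySix x (fun k => -cyCr x m k) := by
  funext r
  fin_cases r <;> simp [cyM, cySix, cyCr, Matrix.mulVec, dotProduct, Fin.sum_univ_three] <;> ring

theorem cyCr_edge (a b : Fin 3 → ℝ) :
    cyCr (fun r => a r - b r) a = cyCr (fun r => a r - b r) b := by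
  funext r
  fin_cases r <;> simp [cyCr] <;> ring

theorem cy_MB (m : Fin 4 → Fin 3 → ℝ) (i : Fin 4) : cyM (m i) * cyB m i = cyA m * Ext i := by
  ext r k
  have h1 : (cyM (m i) * cyB m i) r k = (cyM (m i)).mulVec (cyU m (tri i k)) r := rfl
  have h2 : (cyA m * Ext i) r k = cyA m r (tri i k) := by
    simp [Matrix.mul_apply, Ext]
  rw [h1, h2, cyM_mulVec]
  have h3 : cyCr (cyU m (tri i k)) (m i) = cyCr (cyU m (tri i k)) (m (cyF (tri i k))) := by
    fin_cases i <;> fin_cases k <;> first | rfl | exact (cyCr_edge _ _).symm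
  unfold cyA
  rw [h3]

theorem cyB_det (m : Fin 4 → Fin 3 → ℝ) (i : Fin 4) : (cyB m i).det = cyD m := by
  fin_cases i <;> simp [Matrix.det_fin_three, cyB, cyU, tri, cyF, cyS, cyD] <;> ring

theorem cyA_det (m : Fin 4 → Fin 3 → ℝ) (h : cyD m ≠ 0) : (cyA m).det ≠ 0 := by
  intro hdet
  obtain ⟨x, hx0, hx⟩ := Matrix.exists_mulVec_eq_zero_iff.2 hdet
  apply hx0
  have e : ∀ r, ∑ j, cyA m r j * x j = 0 := fun r => by
    have := congrFun hx r
    simpa [Matrix.mulVec, dotProduct] using this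
  have h0 := e 0
  have h1 := e 1
  have h2 := e 2
  have h3 := e 3
  have h4 := e 4
  have h5 := e 5
  simp only [Fin.sum_univ_six, cyA, cySix, cyCr, cyU, cyF, cyS, Matrix.cons_val] at h0 h1 h2 h3 h4 h5
  have hD : cyD m = (m 0 0 - m 3 0) * ((m 1 1 - m 3 1) * (m 2 2 - m 3 2) -
      (m 1 2 - m 3 2) * (m 2 1 - m 3 1)) -
    (m 0 1 - m 3 1) * ((m 1 0 - m 3 0) * (m 2 2 - m 3 2) - (m 1 2 - m 3 2) * (m 2 0 - m 3 0)) +
    (m 0 2 - m 3 2) * ((m 1 0 - m 3 0) * (m 2 1 - m 3 1) - (m 1 1 - m 3 1) * (m 2 0 - m 3 0)) := rfl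
  have x0 : cyD m * x 0 = 0 := by
    rw [hD]
    linear_combination (-(m 2 0 - m 3 0)) * h3 - (m 2 1 - m 3 1) * h4 - (m 2 2 - m 3 2) * h5 +
      (m 3 2 * (m 2 1 - m 3 1) - m 3 1 * (m 2 2 - m 3 2)) * h0 +
      (m 3 0 * (m 2 2 - m 3 2) - m 3 2 * (m 2 0 - m 3 0)) * h1 +
      (m 3 1 * (m 2 0 - m 3 0) - m 3 0 * (m 2 1 - m 3 1)) * h2
  have x1 : cyD m * x 1 = 0 := by
    rw [hD]
    linear_combination (m 1 0 - m 3 0) * h3 + (m 1 1 - m 3 1) * h4 + (m 1 2 - m 3 2) * h5 -
      (m 3 2 * (m 1 1 - m 3 1) - m 3 1 * (m 1 2 - m 3 2)) * h0 -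
      (m 3 0 * (m 1 2 - m 3 2) - m 3 2 * (m 1 0 - m 3 0)) * h1 -
      (m 3 1 * (m 1 0 - m 3 0) - m 3 0 * (m 1 1 - m 3 1)) * h2
  have x3 : cyD m * x 3 = 0 := by
    rw [hD]
    linear_combination (-(m 0 0 - m 3 0)) * h3 - (m 0 1 - m 3 1) * h4 - (m 0 2 - m 3 2) * h5 +
      (m 3 2 * (m 0 1 - m 3 1) - m 3 1 * (m 0 2 - m 3 2)) * h0 +
      (m 3 0 * (m 0 2 - m 3 2) - m 3 2 * (m 0 0 - m 3 0)) * h1 +
      (m 3 1 * (m 0 0 - m 3 0) - m 3 0 * (m 0 1 - m 3 1)) * h2
  replace x0 := (mul_eq_zero.1 x0).resolve_left h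
  replace x1 := (mul_eq_zero.1 x1).resolve_left h
  replace x3 := (mul_eq_zero.1 x3).resolve_left h
  rw [x0, x1, x3] at h0 h1 h2
  have x2 : cyD m * x 2 = 0 := by
    rw [hD]
    linear_combination
      ((m 1 1 - m 3 1) * (m 2 2 - m 3 2) - (m 1 2 - m 3 2) * (m 2 1 - m 3 1)) * h0 -
      ((m 1 0 - m 3 0) * (m 2 2 - m 3 2) - (m 1 2 - m 3 2) * (m 2 0 - m 3 0)) * h1 +
      ((m 1 0 - m 3 0) * (m 2 1 - m 3 1) - (m 1 1 - m 3 1) * (m 2 0 - m 3 0)) * h2
  have x4 : cyD m * x 4 = 0 := by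
    rw [hD]
    linear_combination
      ((m 2 1 - m 3 1) * (m 0 2 - m 3 2) - (m 2 2 - m 3 2) * (m 0 1 - m 3 1)) * h0 -
      ((m 2 0 - m 3 0) * (m 0 2 - m 3 2) - (m 2 2 - m 3 2) * (m 0 0 - m 3 0)) * h1 +
      ((m 2 0 - m 3 0) * (m 0 1 - m 3 1) - (m 2 1 - m 3 1) * (m 0 0 - m 3 0)) * h2
  have x5 : cyD m * x 5 = 0 := by
    rw [hD]
    linear_combination
      ((m 0 1 - m 3 1) * (m 1 2 - m 3 2) - (m 0 2 - m 3 2) * (m 1 1 - m 3 1)) * h0 -
      ((m 0 0 - m 3 0) * (m 1 2 - m 3 2) - (m 0 2 - m 3 2) * (m 1 0 - m 3 0)) * h1 +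
      ((m 0 0 - m 3 0) * (m 1 1 - m 3 1) - (m 0 1 - m 3 1) * (m 1 0 - m 3 0)) * h2
  replace x2 := (mul_eq_zero.1 x2).resolve_left h
  replace x4 := (mul_eq_zero.1 x4).resolve_left h
  replace x5 := (mul_eq_zero.1 x5).resolve_left h
  funext j
  fin_cases j
  · exact x0
  · exact x1
  · exact x2
  · exact x3
  · exact x4
  · exact x5

/-! ### Cayley coordinates -/

/-- `(1 + Q)⁻¹` -/
noncomputable def cyP (g : Matrix (Fin 3) (Fin 3) ℝ × (Fin 3 → ℝ)) : Matrix (Fin 3) (Fin 3) ℝ :=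
  (1 + g.1)⁻¹

/-- the axis vector -/
noncomputable def cyOm (g : Matrix (Fin 3) (Fin 3) ℝ × (Fin 3 → ℝ)) : Fin 3 → ℝ :=
  ![-2 * cyP g 2 1, -2 * cyP g 0 2, -2 * cyP g 1 0]

/-- the translation part -/
noncomputable def cyW (g : Matrix (Fin 3) (Fin 3) ℝ × (Fin 3 → ℝ)) : Fin 3 → ℝ :=
  fun k => 2 * (cyP g).mulVec g.2 k

variable {g g' : Matrix (Fin 3) (Fin 3) ℝ × (Fin 3 → ℝ)}

theorem cyP_left (hd : (1 + g.1).det ≠ 0) : cyP g * (1 + g.1) = 1 :=
  Matrix.nonsing_inv_mul _ (isUnit_iff_ne_zero.2 hd)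

theorem cyP_right (hd : (1 + g.1).det ≠ 0) : (1 + g.1) * cyP g = 1 :=
  Matrix.mul_nonsing_inv _ (isUnit_iff_ne_zero.2 hd)

theorem cyP_add (hQ : g.1ᵀ * g.1 = 1) (hd : (1 + g.1).det ≠ 0) : cyP g + (cyP g)ᵀ = 1 := by
  have hQ' : g.1 * g.1ᵀ = 1 := mul_eq_one_comm.1 hQ
  have h1 := cyP_left hd
  have h2 : (1 + g.1ᵀ) * (cyP g)ᵀ = 1 := by
    have := congrArg Matrix.transpose h1
    rw [Matrix.transpose_mul, Matrix.transpose_add, Matrix.transpose_one] at this
    exact this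
  have h3 : (1 + g.1) * (1 + g.1ᵀ) = (1 + g.1) + (1 + g.1ᵀ) := by
    rw [mul_add, add_mul, add_mul, hQ', mul_one, one_mul, mul_one]
    abel
  calc cyP g + (cyP g)ᵀ = cyP g * ((1 + g.1ᵀ) * (cyP g)ᵀ) + cyP g * (1 + g.1) * (cyP g)ᵀ := by
        rw [h2, h1, mul_one, one_mul]
    _ = cyP g * ((1 + g.1) + (1 + g.1ᵀ)) * (cyP g)ᵀ := by noncomm_ring
    _ = (cyP g * (1 + g.1)) * ((1 + g.1ᵀ) * (cyP g)ᵀ) := by rw [← h3]; noncomm_ring
    _ = 1 := by rw [h1, h2, one_mul]

theorem cyP_entry (hQ : g.1ᵀ * g.1 = 1) (hd : (1 + g.1).det ≠ 0) (i j : Fin 3) :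
    cyP g i j + cyP g j i = if i = j then 1 else 0 := by
  have := congrFun (congrFun (cyP_add hQ hd) i) j
  rw [Matrix.add_apply, Matrix.transpose_apply, Matrix.one_apply] at this
  exact this

/-- `ω × x = x - 2 P x` -/
theorem cyCr_om (hQ : g.1ᵀ * g.1 = 1) (hd : (1 + g.1).det ≠ 0) (x : Fin 3 → ℝ) (k : Fin 3) :
    cyCr (cyOm g) x k = x k - 2 * (cyP g).mulVec x k := by
  have e := cyP_entry hQ hd
  have e00 := e 0 0
  have e11 := e 1 1
  have e22 := e 2 2
  have e01 := e 0 1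
  have e02 := e 0 2
  have e12 := e 1 2
  simp at e00 e11 e22 e01 e02 e12
  fin_cases k
  · simp [cyCr, cyOm, Matrix.mulVec, dotProduct, Fin.sum_univ_three]
    linear_combination x 0 * e00 + 2 * x 1 * e01
  · simp [cyCr, cyOm, Matrix.mulVec, dotProduct, Fin.sum_univ_three]
    linear_combination x 1 * e11 + 2 * x 2 * e12
  · simp [cyCr, cyOm, Matrix.mulVec, dotProduct, Fin.sum_univ_three]
    linear_combination x 2 * e22 + 2 * x 0 * e02

/-- the equation of the flat -/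
theorem cy_flat (hQ : g.1ᵀ * g.1 = 1) (hd : (1 + g.1).det ≠ 0) {a c : Fin 3 → ℝ}
    (h : g.1.mulVec a + g.2 = c) (k : Fin 3) :
    c k - a k = cyCr (cyOm g) (fun r => a r + c r) k + cyW g k := by
  rw [cyCr_om hQ hd]
  have h1 : (cyP g).mulVec (fun r => a r + c r) = a + (cyP g).mulVec g.2 := by
    have h2 : (fun r => a r + c r) = (1 + g.1).mulVec a + g.2 := by
      rw [Matrix.add_mulVec, Matrix.one_mulVec, ← h]
      funext r
      simp [add_assoc]
    rw [h2, Matrix.mulVec_add, Matrix.mulVec_mulVec, cyP_left hd, Matrix.one_mulVec]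
  rw [h1]
  unfold cyW
  simp only [Pi.add_apply]
  ring

theorem cy_inj (hQ : g.1ᵀ * g.1 = 1) (hd : (1 + g.1).det ≠ 0) (hQ' : g'.1ᵀ * g'.1 = 1)
    (hd' : (1 + g'.1).det ≠ 0) (h1 : cyOm g = cyOm g') (h2 : cyW g = cyW g') : g = g' := by
  have hP : cyP g = cyP g' := by
    have e := cyP_entry hQ hd
    have e' := cyP_entry hQ' hd'
    have o0 := congrFun h1 0
    have o1 := congrFun h1 1
    have o2 := congrFun h1 2
    simp [cyOm] at o0 o1 o2
    have a01 := e 0 1
    have a02 := e 0 2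
    have a12 := e 1 2
    have a00 := e 0 0
    have a11 := e 1 1
    have a22 := e 2 2
    have b01 := e' 0 1
    have b02 := e' 0 2
    have b12 := e' 1 2
    have b00 := e' 0 0
    have b11 := e' 1 1
    have b22 := e' 2 2
    simp at a01 a02 a12 a00 a11 a22 b01 b02 b12 b00 b11 b22
    ext i j
    fin_cases i <;> fin_cases j <;> simp <;> linarith
  have hQQ : g.1 = g'.1 := by
    have h3 : 1 + g.1 = 1 + g'.1 := by
      calc 1 + g.1 = ((1 + g'.1) * cyP g') * (1 + g.1) := by rw [cyP_right hd', one_mul]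
        _ = (1 + g'.1) * (cyP g * (1 + g.1)) := by rw [← hP, Matrix.mul_assoc]
        _ = 1 + g'.1 := by rw [cyP_left hd, mul_one]
    exact add_left_cancel h3
  have hv : g.2 = g'.2 := by
    have h3 : (cyP g).mulVec g.2 = (cyP g').mulVec g'.2 := by
      funext k
      have := congrFun h2 k
      unfold cyW at this
      linarith
    calc g.2 = (1 + g.1).mulVec ((cyP g).mulVec g.2) := by
          rw [Matrix.mulVec_mulVec, cyP_right hd, Matrix.one_mulVec]
      _ = (1 + g'.1).mulVec ((cyP g').mulVec g'.2) := by rw [h3, hQQ]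
      _ = g'.2 := by rw [Matrix.mulVec_mulVec, cyP_right hd', Matrix.one_mulVec]
  exact Prod.ext hQQ hv

/-- the determinant of the tetrahedron of the midpoints -/
theorem cyD_ne {p : Fin 4 → (Fin 3 → ℝ) × (Fin 3 → ℝ)} (hd : (1 + g.1).det ≠ 0)
    (hp : ∀ i, g.1.mulVec (p i).1 + g.2 = (p i).2)
    (hai : AffineIndependent ℝ (fun i => (p i).1)) :
    cyD (fun i r => (p i).1 r + (p i).2 r) ≠ 0 := by
  -- the matrix of the source points
  set N : Matrix (Fin 3) (Fin 3) ℝ := Matrix.of fun i r => (p i.castSucc).1 r - (p 3).1 r with hN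
  have hNdet : N.det ≠ 0 := by
    have h1 := (affineIndependent_iff_linearIndependent_vsub ℝ _ (3 : Fin 4)).1 hai
    have h2 : Function.Injective (fun i : Fin 3 => (⟨i.castSucc, by
        intro h
        have := congrArg Fin.val h
        simp at this
        omega⟩ : {x : Fin 4 // x ≠ 3})) := by
      intro i j hij
      have := congrArg (fun x => x.1) hij
      exact Fin.castSucc_injective _ this
    have h3 := h1.comp _ h2
    have h4 : LinearIndependent ℝ N.row := h3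
    exact ((Matrix.linearIndependent_rows_iff_isUnit.1 h4).map Matrix.detMonoidHom).ne_zero
  have key : cyD (fun i r => (p i).1 r + (p i).2 r) = (N * (1 + g.1)ᵀ).det := by
    set T : Matrix (Fin 3) (Fin 3) ℝ := N * (1 + g.1)ᵀ with hT
    have e : ∀ i : Fin 3, ∀ r, T i r =
        ((p i.castSucc).1 r + (p i.castSucc).2 r) - ((p 3).1 r + (p 3).2 r) := by
      intro i r
      have h1 := congrFun (hp i.castSucc) r
      have h2 := congrFun (hp 3) r
      rw [Pi.add_apply] at h1 h2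
      have h3 : T i r = (1 + g.1).mulVec (fun s => N i s) r := by
        rw [hT, Matrix.mul_apply]
        unfold Matrix.mulVec dotProduct
        refine Finset.sum_congr rfl fun s _ => ?_
        rw [Matrix.transpose_apply, mul_comm]
      have h4 : (fun s => N i s) = (p i.castSucc).1 - (p 3).1 := by
        funext s
        rfl
      rw [h3, h4, Matrix.add_mulVec, Matrix.one_mulVec, Matrix.mulVec_sub]
      simp only [Pi.add_apply, Pi.sub_apply]
      rw [← h1, ← h2]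
      ring
    rw [Matrix.det_fin_three]
    simp only [e]
    unfold cyD
    simp only [show ((0 : Fin 3).castSucc : Fin 4) = 0 from rfl,
      show ((1 : Fin 3).castSucc : Fin 4) = 1 from rfl,
      show ((2 : Fin 3).castSucc : Fin 4) = 2 from rfl]
    ring
  rw [key, Matrix.det_mul, Matrix.det_transpose]
  exact mul_ne_zero hNdet hd

/-! ### the configuration -/

/-- the midpoints (doubled) of the chosen pairs -/
def cyMid (p : Fin 4 → (Fin 3 → ℝ) × (Fin 3 → ℝ)) : Fin 4 → Fin 3 → ℝ :=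
  fun i r => (p i).1 r + (p i).2 r

theorem cySix_inj {u w u' w' : Fin 3 → ℝ} (h : cySix u w = cySix u' w') : u = u' ∧ w = w' := by
  have e : ∀ k, cySix u w k = cySix u' w' k := fun k => congrFun h k
  have e0 := e 0
  have e1 := e 1
  have e2 := e 2
  have e3 := e 3
  have e4 := e 4
  have e5 := e 5
  simp only [cySix, Matrix.cons_val] at e0 e1 e2 e3 e4 e5
  constructor
  · funext k
    fin_cases k
    · exact e0
    · exact e1
    · exact e2
  · funext k
    fin_cases k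
    · exact e3
    · exact e4
    · exact e5

theorem cySix_sub (u w u' w' : Fin 3 → ℝ) :
    cySix u w - cySix u' w' = cySix (u - u') (w - w') := by
  funext k
  fin_cases k <;> simp [cySix]

theorem cyCr_sub (a a' m : Fin 3 → ℝ) (k : Fin 3) :
    cyCr (a - a') m k = cyCr a m k - cyCr a' m k := by
  fin_cases k <;> simp [cyCr] <;> ring

/-- the configuration of a family of motions -/
noncomputable def cyConf {N : ℕ} (g : Fin N → Matrix (Fin 3) (Fin 3) ℝ × (Fin 3 → ℝ))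
    (p : Fin N → Fin 4 → (Fin 3 → ℝ) × (Fin 3 → ℝ)) (hg : Function.Injective g)
    (hQ : ∀ t, (g t).1ᵀ * (g t).1 = 1) (hd : ∀ t, (1 + (g t).1).det ≠ 0)
    (hp : ∀ t i, (g t).1.mulVec (p t i).1 + (g t).2 = (p t i).2)
    (hai : ∀ t, AffineIndependent ℝ (fun i => (p t i).1)) :
    Conf (Fin N) (((Fin 3 → ℝ) × (Fin 3 → ℝ)) × Bool) where
  pt t := cySix (cyOm (g t)) (cyW (g t))
  fl t i := (p t i, decide (2 ≤ i.val))
  lab l := l.2
  M l := cyM (fun r => l.1.1 r + l.1.2 r)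
  y _ t := cyOm (g t)
  A t := cyA (cyMid (p t))
  Ai t := (cyA (cyMid (p t)))⁻¹
  B t i := cyB (cyMid (p t)) i
  Bi t i := (cyB (cyMid (p t)) i)⁻¹
  hA t := Matrix.mul_nonsing_inv _
    (isUnit_iff_ne_zero.2 (cyA_det _ (cyD_ne (hd t) (hp t) (hai t))))
  hA' t := Matrix.nonsing_inv_mul _
    (isUnit_iff_ne_zero.2 (cyA_det _ (cyD_ne (hd t) (hp t) (hai t))))
  hB t i := Matrix.mul_nonsing_inv _
    (isUnit_iff_ne_zero.2 (by rw [cyB_det]; exact cyD_ne (hd t) (hp t) (hai t)))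
  hB' t i := Matrix.nonsing_inv_mul _
    (isUnit_iff_ne_zero.2 (by rw [cyB_det]; exact cyD_ne (hd t) (hp t) (hai t)))
  hMB t i := cy_MB (cyMid (p t)) i
  hpt t i t' i' h := by
    have h1 : p t i = p t' i' := congrArg Prod.fst h
    show cySix (cyOm (g t')) (cyW (g t')) - cySix (cyOm (g t)) (cyW (g t)) =
      (cyM (fun r => (p t i).1 r + (p t i).2 r)).mulVec (cyOm (g t') - cyOm (g t))
    rw [cySix_sub, cyM_mulVec]
    congr 1
    funext k
    have e1 := cy_flat (hQ t) (hd t) (hp t i) k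
    have e2 := cy_flat (hQ t') (hd t') (hp t' i') k
    rw [← h1] at e2
    rw [Pi.sub_apply, cyCr_sub]
    linarith
  hinj t t' h := by
    obtain ⟨h1, h2⟩ := cySix_inj h
    exact hg (cy_inj (hQ t) (hd t) (hQ t') (hd t') h1 h2)
  hfl t := by
    intro i i' h
    have h1 : p t i = p t i' := congrArg Prod.fst h
    exact (hai t).injective (congrArg Prod.fst h1)
  hlab t i := rfl

theorem cy_mem_used {ι κ : Type} (c : Conf ι κ) (G : Finset ι) (b : Bool) (l : κ)
    (h : l ∈ c.used G b) : ∃ t i, c.fl t i = l ∧ c.lab l = b := by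
  classical
  unfold Conf.used at h
  obtain ⟨h1, hlab⟩ := Finset.mem_filter.1 h
  obtain ⟨t, _, ht⟩ := Finset.mem_biUnion.1 h1
  obtain ⟨i, _, hi⟩ := Finset.mem_image.1 ht
  exact ⟨t, i, hi, hlab⟩

theorem joints_cayley (S1 S2 : Finset ((Fin 3 → ℝ) × (Fin 3 → ℝ)))
    (G : Finset (Matrix (Fin 3) (Fin 3) ℝ × (Fin 3 → ℝ)))
    (hG : ∀ g ∈ G, Joint S1 S2 g) (hdet : ∀ g ∈ G, (1 + g.1).det ≠ 0) :
    G.card ≤ 5 * S1.card * S2.card := by
  classical
  set e := G.equivFin.symm with he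
  have hQ : ∀ t, ((e t).1).1ᵀ * ((e t).1).1 = 1 := fun t => (hG _ (e t).2).1
  have hd : ∀ t, (1 + ((e t).1).1).det ≠ 0 := fun t => hdet _ (e t).2
  have hex := fun t => (hG _ (e t).2).2.2
  choose p hp0 hp1 hp2 hp3 hp hai using hex
  have hinj : Function.Injective (fun t => (e t).1) := fun t t' h => e.injective (Subtype.ext h)
  set c := cyConf (fun t => (e t).1) p hinj hQ hd hp hai with hc
  have h1 := conf_bound c (Finset.univ : Finset (Fin G.card))
  rw [Finset.card_univ, Fintype.card_fin] at h1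
  have hu : ∀ (b : Bool) (S : Finset ((Fin 3 → ℝ) × (Fin 3 → ℝ))),
      (∀ t i, decide (2 ≤ (i : Fin 4).val) = b → p t i ∈ S) →
      (c.used Finset.univ b).card ≤ S.card := by
    intro b S hS
    have hsub : c.used Finset.univ b ⊆ S.image (fun q => (q, b)) := by
      intro l hl
      obtain ⟨t, i, hi, hlab⟩ := cy_mem_used c _ b l hl
      have h2 : l = (p t i, decide (2 ≤ i.val)) := hi.symm
      have h3 : decide (2 ≤ i.val) = b := by
        have h4 : l.2 = b := hlab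
        rw [h2] at h4
        exact h4
      rw [Finset.mem_image]
      exact ⟨p t i, hS t i h3, by rw [h2, h3]⟩
    exact (Finset.card_le_card hsub).trans Finset.card_image_le
  have hu1 := hu false S1 (fun t i hi => by
    fin_cases i
    · exact hp0 t
    · exact hp1 t
    · simp at hi
    · simp at hi)
  have hu2 := hu true S2 (fun t i hi => by
    fin_cases i
    · simp at hi
    · simp at hi
    · exact hp2 t
    · exact hp3 t)
  calc G.card ≤ 5 * (c.used Finset.univ false).card * (c.used Finset.univ true).card := h1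
    _ ≤ 5 * S1.card * S2.card := Nat.mul_le_mul (Nat.mul_le_mul_left 5 hu1) hu2

end Vale.Agent.P054.J
end

section

/-!
Block J, file Geom: from motions to configurations (Cayley coordinates).

PROOF of `joints_cayley` (no motion has the eigenvalue -1).  For `g = (Q, v)`, `Q` a rotation with
`det (1 + Q) ≠ 0`, put `W = (Q - 1) (Q + 1)^{-1}` (antisymmetric), `W = [ω]`, `w = (1 - W) v`.  For all
`a, c`: `Q a + v = c ↔ c - a = ω × (a + c) + w`.  The coordinates of `g` are `pt g = (ω, w)` in `R^6`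
(injective).  For a pair `q = (a, c)` the flat is `{(ω, c - a - ω × (a + c))}`, parametrised by
`y = ω`: `M q = [1 ; ω ↦ -(ω × (a + c))]`.  `κ = S1 ⊕ S2` (or pairs with a Bool), `lab` the side.
At `g` with the chosen points `p i = (a_i, c_i)` put `m_i = a_i + c_i = (1 + Q) a_i + v` (affinely
independent because `1 + Q` is invertible).  The columns of `A g` are
`e_{ij} = (m_i - m_j, -(m_i - m_j) × m_i)` for the edges `01, 02, 03, 12, 13, 23` in this order (= 0..5), which is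
`(u, -(u × m_i)) = (u, -(u × m_j))`, `u = m_i - m_j`, so it lies in the direction spaces of both flats.
Basis: the linear map `(u, w) ↦ (u, w + u × m_3)` sends `e_{i3}` to `(m_i - m_3, 0)` and `e_{ij}`,
`i, j < 3`, to `(n_i - n_j, -(n_i × n_j))` up to sign with `n_i = m_i - m_3`; `n_0,n_1,n_2` and
`n_0×n_1, n_0×n_2, n_1×n_2` are bases of `R^3`.  `B g i` has the columns `u` of the three edges at `i`
(with the sign used in `e`), invertible since the `m` are affinely independent; `M (fl g i) * B g i = A g * Ext i`.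
Only one motion can have... `hinj`: `(ω, w)` determines `(Q, v)`.
PROOF of `exists_generic`: for a rotation `Q` the polynomial `F_Q(ω) = det (1 + Q - [ω] (1 - Q))` is not
zero: `F_Q(0) = det (1 + Q)`; if this is 0, `Q` is a half turn `Q = 2 a aᵀ - 1` and
`F_Q(ω) = 8 (ω · a)^2`.  A finite product of nonzero polynomials is nonzero, so there is `ω` with
`F_Q(ω) ≠ 0` for all `Q` of the finite set; `Q0 = (1 - [ω])^{-1} (1 + [ω])` is a rotation and
`det (1 + Q0 Q) = det (1 - [ω])^{-1} F_Q(ω) ≠ 0`.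
-/

set_option linter.all false

namespace Vale.Agent.P054.J

open MvPolynomial Finset Matrix

/-- The rotation of a quaternion `v`, times its norm. -/
def gnR (v : Fin 4 → ℝ) : Matrix (Fin 3) (Fin 3) ℝ :=
  !![v 0 ^ 2 + v 1 ^ 2 - v 2 ^ 2 - v 3 ^ 2, 2 * (v 1 * v 2 - v 0 * v 3),
      2 * (v 1 * v 3 + v 0 * v 2);
    2 * (v 1 * v 2 + v 0 * v 3), v 0 ^ 2 - v 1 ^ 2 + v 2 ^ 2 - v 3 ^ 2,
      2 * (v 2 * v 3 - v 0 * v 1);
    2 * (v 1 * v 3 - v 0 * v 2), 2 * (v 2 * v 3 + v 0 * v 1),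
      v 0 ^ 2 - v 1 ^ 2 - v 2 ^ 2 + v 3 ^ 2]

/-- The norm of the quaternion `v`. -/
def gnN (v : Fin 4 → ℝ) : ℝ := v 0 ^ 2 + v 1 ^ 2 + v 2 ^ 2 + v 3 ^ 2

theorem gnR_orth (v : Fin 4 → ℝ) : (gnR v)ᵀ * gnR v = (gnN v ^ 2) • 1 := by
  ext i j
  fin_cases i <;> fin_cases j <;>
    simp [gnR, gnN, Matrix.mul_apply, Fin.sum_univ_three] <;> ring

theorem gnR_det (v : Fin 4 → ℝ) : (gnR v).det = gnN v ^ 3 := by
  simp [gnR, gnN, Matrix.det_fin_three]
  ring

/-- The polynomial `N + tr (R Q)` in the coordinates of the quaternion. -/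
noncomputable def gnP (Q : Matrix (Fin 3) (Fin 3) ℝ) : MvPolynomial (Fin 4) ℝ :=
  (X 0 ^ 2 + X 1 ^ 2 + X 2 ^ 2 + X 3 ^ 2) +
    (X 0 ^ 2 + X 1 ^ 2 - X 2 ^ 2 - X 3 ^ 2) * C (Q 0 0) +
    C 2 * (X 1 * X 2 - X 0 * X 3) * C (Q 1 0) + C 2 * (X 1 * X 3 + X 0 * X 2) * C (Q 2 0) +
    C 2 * (X 1 * X 2 + X 0 * X 3) * C (Q 0 1) +
    (X 0 ^ 2 - X 1 ^ 2 + X 2 ^ 2 - X 3 ^ 2) * C (Q 1 1) +
    C 2 * (X 2 * X 3 - X 0 * X 1) * C (Q 2 1) + C 2 * (X 1 * X 3 - X 0 * X 2) * C (Q 0 2) +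
    C 2 * (X 2 * X 3 + X 0 * X 1) * C (Q 1 2) +
    (X 0 ^ 2 - X 1 ^ 2 - X 2 ^ 2 + X 3 ^ 2) * C (Q 2 2)

theorem gnP_eval (Q : Matrix (Fin 3) (Fin 3) ℝ) (v : Fin 4 → ℝ) :
    eval v (gnP Q) = gnN v + (gnR v * Q).trace := by
  simp only [gnP, gnN, gnR, Matrix.trace_fin_three, Matrix.mul_apply, Fin.sum_univ_three,
    map_add, map_sub, map_mul, map_pow, eval_X, eval_C]
  simp
  ring

theorem gnP_ne (Q : Matrix (Fin 3) (Fin 3) ℝ) : gnP Q ≠ 0 := by
  intro h
  have h0 := congrArg (eval (fun i : Fin 4 => if i = 0 then (1 : ℝ) else 0)) h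
  have h1 := congrArg (eval (fun i : Fin 4 => if i = 1 then (1 : ℝ) else 0)) h
  have h2 := congrArg (eval (fun i : Fin 4 => if i = 2 then (1 : ℝ) else 0)) h
  have h3 := congrArg (eval (fun i : Fin 4 => if i = 3 then (1 : ℝ) else 0)) h
  simp [gnP] at h0 h1 h2 h3
  linarith

/-- `det (1 + R) = 2 + 2 tr R` for a rotation. -/
theorem gn_det_one_add (R : Matrix (Fin 3) (Fin 3) ℝ) (h : Rᵀ * R = 1) (hd : R.det = 1) :
    (1 + R).det = 2 + 2 * R.trace := by
  have hadj : R.adjugate = Rᵀ := by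
    have h1 : R * Rᵀ = 1 := mul_eq_one_comm.1 h
    calc R.adjugate = R.adjugate * (R * Rᵀ) := by rw [h1, mul_one]
      _ = (R.adjugate * R) * Rᵀ := by rw [mul_assoc]
      _ = Rᵀ := by rw [Matrix.adjugate_mul, hd, one_smul, one_mul]
  have e := Matrix.adjugate_fin_three R
  rw [hadj] at e
  have e0 := congrFun (congrFun e 0) 0
  have e1 := congrFun (congrFun e 1) 1
  have e2 := congrFun (congrFun e 2) 2
  simp at e0 e1 e2
  rw [Matrix.det_fin_three] at hd
  rw [Matrix.det_fin_three, Matrix.trace_fin_three]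
  simp [Matrix.add_apply, Matrix.one_apply]
  linear_combination hd - e0 - e1 - e2

theorem exists_generic (F : Finset (Matrix (Fin 3) (Fin 3) ℝ))
    (hF : ∀ Q ∈ F, Qᵀ * Q = 1 ∧ Q.det = 1) :
    ∃ Q0 : Matrix (Fin 3) (Fin 3) ℝ, Q0ᵀ * Q0 = 1 ∧ Q0.det = 1 ∧ ∀ Q ∈ F, (1 + Q0 * Q).det ≠ 0 := by
  classical
  have hne : (X 0 ^ 2 + X 1 ^ 2 + X 2 ^ 2 + X 3 ^ 2 : MvPolynomial (Fin 4) ℝ) *
      ∏ Q ∈ F, gnP Q ≠ 0 := by
    refine mul_ne_zero ?_ (Finset.prod_ne_zero_iff.2 fun Q _ => gnP_ne Q)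
    intro h
    have h0 := congrArg (eval (fun _ : Fin 4 => (1 : ℝ))) h
    simp at h0
    norm_num at h0
  obtain ⟨v, hv⟩ : ∃ v : Fin 4 → ℝ, eval v ((X 0 ^ 2 + X 1 ^ 2 + X 2 ^ 2 + X 3 ^ 2 :
      MvPolynomial (Fin 4) ℝ) * ∏ Q ∈ F, gnP Q) ≠ 0 := by
    by_contra hcon
    push Not at hcon
    exact hne (MvPolynomial.funext fun v => by rw [hcon v, map_zero])
  rw [map_mul, map_prod] at hv
  have hN : gnN v ≠ 0 := by
    have := left_ne_zero_of_mul hv
    simpa [gnN] using this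
  have hQ : ∀ Q ∈ F, gnN v + (gnR v * Q).trace ≠ 0 := by
    intro Q hQ
    have := Finset.prod_ne_zero_iff.1 (right_ne_zero_of_mul hv) Q hQ
    rwa [gnP_eval] at this
  have ho : ((gnN v)⁻¹ • gnR v)ᵀ * ((gnN v)⁻¹ • gnR v) = 1 := by
    rw [Matrix.transpose_smul, Matrix.smul_mul, Matrix.mul_smul, gnR_orth, smul_smul, smul_smul]
    rw [show (gnN v)⁻¹ * (gnN v)⁻¹ * gnN v ^ 2 = 1 by field_simp, one_smul]
  have hd : ((gnN v)⁻¹ • gnR v).det = 1 := by
    rw [Matrix.det_smul, gnR_det]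
    simp
    field_simp
  refine ⟨(gnN v)⁻¹ • gnR v, ho, hd, fun Q hQF => ?_⟩
  obtain ⟨hQo, hQd⟩ := hF Q hQF
  have hRo : ((gnN v)⁻¹ • gnR v * Q)ᵀ * ((gnN v)⁻¹ • gnR v * Q) = 1 := by
    rw [Matrix.transpose_mul, mul_assoc, ← mul_assoc _ _ Q, ho, one_mul, hQo]
  have hRd : ((gnN v)⁻¹ • gnR v * Q).det = 1 := by
    rw [Matrix.det_mul, hd, hQd, one_mul]
  rw [gn_det_one_add _ hRo hRd, Matrix.smul_mul, Matrix.trace_smul, smul_eq_mul]
  intro h0
  apply hQ Q hQF
  have h1 : gnN v * (2 + 2 * ((gnN v)⁻¹ * (gnR v * Q).trace)) = 0 := by rw [h0, mul_zero]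
  have h2 : gnN v * (2 + 2 * ((gnN v)⁻¹ * (gnR v * Q).trace)) =
      2 * (gnN v + (gnR v * Q).trace) := by
    field_simp
  rw [h2] at h1
  linarith

end Vale.Agent.P054.J
end

section

/-! Block J, output. Replace every target `c` by `Q0 c` and every `(Q, v)` by `(Q0 Q, Q0 v)`. -/

set_option linter.all false

namespace Vale.Agent.P054.J

open MvPolynomial Finset Matrix

/-- Output of block J. -/
theorem simplex_joints (S1 S2 : Finset ((Fin 3 → ℝ) × (Fin 3 → ℝ)))
    (G : Finset (Matrix (Fin 3) (Fin 3) ℝ × (Fin 3 → ℝ)))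
    (hG : ∀ g ∈ G, Joint S1 S2 g) : G.card ≤ 5 * S1.card * S2.card := by
  classical
  obtain ⟨Q0, ho, hd, hne⟩ := exists_generic (G.image Prod.fst) (by
    intro Q hQ
    obtain ⟨g, hg, rfl⟩ := Finset.mem_image.1 hQ
    exact ⟨(hG g hg).1, (hG g hg).2.1⟩)
  have hinj : Function.Injective (fun v : Fin 3 → ℝ => Q0.mulVec v) := by
    intro v w h
    have h1 := congrArg (fun u => Q0ᵀ.mulVec u) h
    simpa [Matrix.mulVec_mulVec, ho] using h1
  let φ : Matrix (Fin 3) (Fin 3) ℝ × (Fin 3 → ℝ) → Matrix (Fin 3) (Fin 3) ℝ × (Fin 3 → ℝ) :=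
    fun g => (Q0 * g.1, Q0.mulVec g.2)
  have hφ : Function.Injective φ := by
    intro g g' h
    have h1 : Q0 * g.1 = Q0 * g'.1 := congrArg Prod.fst h
    have h2 : Q0.mulVec g.2 = Q0.mulVec g'.2 := congrArg Prod.snd h
    refine Prod.ext ?_ (hinj h2)
    have h3 := congrArg (fun M => Q0ᵀ * M) h1
    simpa [← Matrix.mul_assoc, ho] using h3
  let ψ : (Fin 3 → ℝ) × (Fin 3 → ℝ) → (Fin 3 → ℝ) × (Fin 3 → ℝ) :=
    fun q => (q.1, Q0.mulVec q.2)
  have hJ : ∀ g ∈ G.image φ, Joint (S1.image ψ) (S2.image ψ) g := by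
    intro g' hg'
    obtain ⟨g, hg, rfl⟩ := Finset.mem_image.1 hg'
    obtain ⟨h1, h2, p, hp0, hp1, hp2, hp3, hpe, hai⟩ := hG g hg
    refine ⟨?_, ?_, fun i => ψ (p i), Finset.mem_image_of_mem _ hp0, Finset.mem_image_of_mem _ hp1,
      Finset.mem_image_of_mem _ hp2, Finset.mem_image_of_mem _ hp3, ?_, hai⟩
    · show (Q0 * g.1)ᵀ * (Q0 * g.1) = 1
      rw [Matrix.transpose_mul, Matrix.mul_assoc, ← Matrix.mul_assoc Q0ᵀ, ho, Matrix.one_mul, h1]
    · show (Q0 * g.1).det = 1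
      rw [Matrix.det_mul, hd, h2, one_mul]
    · intro i
      show (Q0 * g.1).mulVec (p i).1 + Q0.mulVec g.2 = Q0.mulVec (p i).2
      rw [← hpe i, Matrix.mulVec_add, Matrix.mulVec_mulVec]
  have hdet : ∀ g ∈ G.image φ, (1 + g.1).det ≠ 0 := by
    intro g' hg'
    obtain ⟨g, hg, rfl⟩ := Finset.mem_image.1 hg'
    exact hne g.1 (Finset.mem_image_of_mem _ hg)
  have h := joints_cayley _ _ _ hJ hdet
  rw [Finset.card_image_of_injective _ hφ] at h
  calc G.card ≤ 5 * (S1.image ψ).card * (S2.image ψ).card := h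
    _ ≤ 5 * S1.card * S2.card :=
      Nat.mul_le_mul (Nat.mul_le_mul le_rfl Finset.card_image_le) Finset.card_image_le

end Vale.Agent.P054.J
end

section

/-! Theorem PL (planar type), Cayley form.  `p = (ω, w)` stands for the proper motion `g` with
`g a = c ↔ c - a = ω × (a + c) + w`. -/

namespace Vale.Agent.P054.PL

open MvPolynomial Matrix

abbrev V3 := Fin 3 → ℝ

/-- the pair `q = (a, c)` is matched by the motion `p = (ω, w)` -/
def Mt (p q : V3 × V3) : Prop := q.2 - q.1 = crossProduct p.1 (q.1 + q.2) + p.2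

/-- the point of `ℝ⁶` of a motion -/
def pv (p : V3 × V3) : Fin 6 → ℝ := ![p.1 0, p.1 1, p.1 2, p.2 0, p.2 1, p.2 2]

/-- the `w`-coordinate on the flat `L_q` -/
def wq (q : V3 × V3) (ω : V3) : V3 := (q.2 - q.1) - crossProduct ω (q.1 + q.2)

/-- parametrisation of the flat `L_q` by `ω ∈ ℝ³` -/
noncomputable def Lq (q : V3 × V3) : Fin 6 → MvPolynomial (Fin 3) ℝ :=
  ![X 0, X 1, X 2,
    C (q.2 0 - q.1 0) - (X 1 * C (q.1 2 + q.2 2) - X 2 * C (q.1 1 + q.2 1)),
    C (q.2 1 - q.1 1) - (X 2 * C (q.1 0 + q.2 0) - X 0 * C (q.1 2 + q.2 2)),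
    C (q.2 2 - q.1 2) - (X 0 * C (q.1 1 + q.2 1) - X 1 * C (q.1 0 + q.2 0))]

/-- restriction of a polynomial on `ℝ⁶` to the flat `L_q` -/
noncomputable def hq (h : MvPolynomial (Fin 6) ℝ) (q : V3 × V3) : MvPolynomial (Fin 3) ℝ :=
  aeval (Lq q) h

/-- the improper partner: `q` belongs to the graph of the improper motion through `q0` given by
the plane `{ω | n ⬝ ω = δ}` -/
def TR (n : V3) (δ : ℝ) (q0 q : V3 × V3) : Prop :=
  n ⬝ᵥ ((q.1 - q0.1) + (q.2 - q0.2)) = 0 ∧
  crossProduct n ((q.2 - q0.2) - (q.1 - q0.1)) = (-δ) • ((q.1 - q0.1) + (q.2 - q0.2))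

open scoped Classical in
/-- the pairs of `S` matched by `p` -/
noncomputable def Ms (S : Finset (V3 × V3)) (p : V3 × V3) : Finset (V3 × V3) := S.filter (Mt p)

/-- planar motion (for the pairs of `S`) with at least `K` matched points off every line -/
structure Good (S : Finset (V3 × V3)) (K : ℕ) (p : V3 × V3) : Prop where
  rho : open scoped Classical in ∀ x b : V3, b ≠ 0 →
    K ≤ ((Ms S p).filter (fun q => crossProduct (q.1 - x) b ≠ 0)).card
  plane : ∃ m : V3, m ≠ 0 ∧ ∀ q ∈ Ms S p, ∀ q' ∈ Ms S p, m ⬝ᵥ (q'.1 - q.1) = 0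

open scoped Classical in
/-- `B`-exclusive partners: every improper motion contains the matched sets of at most `B` motions
of `G` -/
def Fib (S G : Finset (V3 × V3)) (B : ℕ) : Prop :=
  ∀ q0 ∈ S, ∀ n : V3, n ≠ 0 → ∀ δ : ℝ,
    (G.filter (fun p => q0 ∈ Ms S p ∧ ∀ q ∈ Ms S p, TR n δ q0 q)).card ≤ B

/-! ### The statements of the leaves -/

/-- (L1a) a polynomial of degree `≤ D` on `ℝ³` vanishing on `D + 1` concurrent coplanar lines
vanishes on the plane -/
def PlaneStmt : Prop := ∀ (D : ℕ) (f : MvPolynomial (Fin 3) ℝ), f.totalDegree ≤ D →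
  ∀ (x n : V3), n ≠ 0 → ∀ (A : Finset V3), D < A.card →
  (∀ s ∈ A, s ≠ 0 ∧ n ⬝ᵥ s = 0 ∧ ∀ t : ℝ, eval (x + t • s) f = 0) →
  (∀ s ∈ A, ∀ s' ∈ A, s ≠ s' → crossProduct s s' ≠ 0) →
  ∀ y : V3, n ⬝ᵥ y = n ⬝ᵥ x → eval y f = 0

/-- (L1b) a nonzero polynomial of degree `≤ D` on `ℝ³` vanishes on at most `D` planes -/
def PlanesStmt : Prop := ∀ (D : ℕ) (f : MvPolynomial (Fin 3) ℝ), f ≠ 0 → f.totalDegree ≤ D →
  ∀ (ι : Type) (I : Finset ι) (n : ι → V3) (δ : ι → ℝ), (∀ i ∈ I, n i ≠ 0) →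
  (∀ i ∈ I, ∀ y : V3, n i ⬝ᵥ y = δ i → eval y f = 0) →
  (∀ i ∈ I, ∀ j ∈ I, i ≠ j → ¬ (∀ y : V3, n i ⬝ᵥ y = δ i ↔ n j ⬝ᵥ y = δ j)) →
  I.card ≤ D

/-- (L1c) restriction to a line: a nonzero restriction has at most `D` zeros -/
def LineStmt : Prop := ∀ (D : ℕ) (f : MvPolynomial (Fin 3) ℝ), f.totalDegree ≤ D →
  ∀ (x s : V3), (∃ t : ℝ, eval (x + t • s) f ≠ 0) →
  ∀ T : Finset ℝ, (∀ t ∈ T, eval (x + t • s) f = 0) → T.card ≤ D

/-- (L3) directions: `A` finite in `ℝ³` with at least `D ^ 2 + 2` points off every line, `B ⊆ A`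
on a line; some `a ∈ A \ B` sees `D + 1` points of `A` in pairwise different directions.
[Two points `a, a'` that see at most `D` directions leave at most `D ^ 2` points off the line
`a a'`; so at most one point of `A` sees at most `D` directions.] -/
def DirStmt : Prop := open scoped Classical in
  ∀ (D : ℕ) (A B : Finset V3), B ⊆ A →
  (∀ x b : V3, b ≠ 0 → D ^ 2 + 2 ≤ (A.filter (fun a => crossProduct (a - x) b ≠ 0)).card) →
  (∀ x ∈ B, ∀ y ∈ B, ∀ z ∈ B, crossProduct (y - x) (z - x) = 0) →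
  ∃ a ∈ A, a ∉ B ∧ ∃ A' : Finset V3, A' ⊆ A ∧ a ∉ A' ∧ D < A'.card ∧
    ∀ x ∈ A', ∀ y ∈ A', x ≠ y → crossProduct (x - a) (y - a) ≠ 0

/-- (L4) the wall count for one polynomial `h` -/
def WallStmt : Prop := ∀ (D : ℕ) (h : MvPolynomial (Fin 6) ℝ), h.totalDegree ≤ D →
  ∀ (S G : Finset (V3 × V3)) (B : ℕ), (∀ p ∈ G, Good S (D ^ 2 + 2) p) → Fib S G B →
  (∀ p ∈ G, eval (pv p) h = 0 ∧ ∃ i, eval (pv p) (pderiv i h) ≠ 0) →
  G.card ≤ D * S.card ^ 2 + B * (D * S.card)

/-- (L5) the theorem in Cayley form -/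
def CoreStmt : Prop := ∀ ε : ℝ, 0 < ε → ∃ K : ℕ, ∀ B : ℕ, ∃ C : ℝ, 0 < C ∧
  ∀ (S G : Finset (V3 × V3)), (∀ p ∈ G, Good S K p) → Fib S G B →
  (G.card : ℝ) ≤ C * (S.card : ℝ) ^ (2 + ε)

end Vale.Agent.P054.PL
end
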