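import Mathlib

set_option linter.all false

section

set_option autoImplicit false

open Finset

namespace Vale.Agent.P054

/-! ### trapezoids of a line arrangement -/

/-- incidence of the point `z` with the line `y = l.1 x + l.2` -/
def Onl (l z : ℝ × ℝ) : Prop := z.2 = l.1 * z.1 + l.2

/-- order of the lines just to the right of abscissa `x` -/
noncomputable def key (x : ℝ) (l : ℝ × ℝ) : ℝ ×ₗ ℝ := toLex (l.1 * x + l.2, l.1)

/-- crossing abscissa -/
noncomputable def xc (c l : ℝ × ℝ) : ℝ := (l.2 - c.2) / (c.1 - l.1)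

theorem xc_symm (c l : ℝ × ℝ) : xc c l = xc l c := by
  unfold xc
  rw [← neg_div_neg_eq, neg_sub, neg_sub]

theorem key_lt {x : ℝ} {c l : ℝ × ℝ} :
    key x c < key x l ↔ c.1 * x + c.2 < l.1 * x + l.2 ∨
      (c.1 * x + c.2 = l.1 * x + l.2 ∧ c.1 < l.1) := by
  unfold key
  rw [Prod.Lex.toLex_lt_toLex]

theorem key_inj {x : ℝ} {c l : ℝ × ℝ} (h : key x c = key x l) : c = l := by
  unfold key at h
  have h2 := toLex.injective h
  rw [Prod.mk.injEq] at h2
  obtain ⟨h3, h4⟩ := h2
  rw [h4] at h3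
  exact Prod.ext h4 (by linarith)

theorem key_lt_iff_of_slope_lt {x : ℝ} {c l : ℝ × ℝ} (h : c.1 < l.1) :
    key x c < key x l ↔ xc c l ≤ x := by
  rw [key_lt]
  have hp : c.1 - l.1 < 0 := by linarith
  have h1 : xc c l ≤ x ↔ x * (c.1 - l.1) ≤ l.2 - c.2 := by
    unfold xc
    rw [div_le_iff_of_neg hp]
  rw [h1]
  constructor
  · rintro (h2 | ⟨h2, _⟩) <;> nlinarith
  · intro h2
    rcases lt_or_eq_of_le h2 with h3 | h3
    · left; nlinarith
    · right; exact ⟨by nlinarith, h⟩

theorem key_lt_iff_of_slope_gt {x : ℝ} {c l : ℝ × ℝ} (h : l.1 < c.1) :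
    key x c < key x l ↔ x < xc c l := by
  rw [key_lt]
  have hp : 0 < c.1 - l.1 := by linarith
  have h1 : x < xc c l ↔ x * (c.1 - l.1) < l.2 - c.2 := by
    unfold xc
    rw [lt_div_iff₀ hp]
  rw [h1]
  constructor
  · rintro (h2 | ⟨_, h2⟩)
    · linarith only [h2]
    · linarith
  · intro h2
    left; nlinarith

theorem noncross {c l : ℝ × ℝ} {x x' : ℝ} (hxx : x ≤ x')
    (h : c.1 ≠ l.1 → ¬ (x < xc c l ∧ xc c l ≤ x')) :
    key x c < key x l ↔ key x' c < key x' l := by
  rcases lt_trichotomy c.1 l.1 with h1 | h1 | h1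
  · rw [key_lt_iff_of_slope_lt h1, key_lt_iff_of_slope_lt h1]
    have h2 := h h1.ne
    constructor
    · intro h3; exact h3.trans hxx
    · intro h3
      by_contra h4
      push Not at h4
      exact h2 ⟨h4, h3⟩
  · rw [key_lt, key_lt, h1]
    simp
  · rw [key_lt_iff_of_slope_gt h1, key_lt_iff_of_slope_gt h1]
    have h2 := h h1.ne'
    constructor
    · intro h3
      by_contra h4
      push Not at h4
      exact h2 ⟨h3, h4⟩
    · intro h3; exact lt_of_le_of_lt hxx h3

open scoped Classical in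
/-- optional maximum -/
noncomputable def omax {α β : Type} [LinearOrder β] (F : Finset α) (k : α → β) : Option α :=
  if h : F.Nonempty then some (Classical.choose (F.exists_max_image k h)) else none

theorem omax_mem {α β : Type} [LinearOrder β] {F : Finset α} {k : α → β} {l : α}
    (h : l ∈ omax F k) : l ∈ F := by
  unfold omax at h
  split_ifs at h with hF
  · rw [Option.mem_some_iff] at h
    rw [← h]
    exact (Classical.choose_spec (F.exists_max_image k hF)).1
  · simp at h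

theorem omax_le {α β : Type} [LinearOrder β] {F : Finset α} {k : α → β} {l : α}
    (h : l ∈ F) : ∃ c ∈ omax F k, k l ≤ k c := by
  unfold omax
  have hF : F.Nonempty := ⟨l, h⟩
  rw [dif_pos hF]
  exact ⟨_, rfl, (Classical.choose_spec (F.exists_max_image k hF)).2 l h⟩

/-- optional minimum -/
noncomputable def omin {α β : Type} [LinearOrder β] (F : Finset α) (k : α → β) : Option α :=
  omax F (fun a => OrderDual.toDual (k a))

theorem omin_mem {α β : Type} [LinearOrder β] {F : Finset α} {k : α → β} {l : α}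
    (h : l ∈ omin F k) : l ∈ F := omax_mem h

theorem omin_le {α β : Type} [LinearOrder β] {F : Finset α} {k : α → β} {l : α}
    (h : l ∈ F) : ∃ c ∈ omin F k, k c ≤ k l := by
  obtain ⟨c, hc, hc2⟩ := omax_le (k := fun a => OrderDual.toDual (k a)) h
  exact ⟨c, hc, hc2⟩

theorem omax_congr {α β : Type} [LinearOrder β] {F : Finset α} {k k' : α → β}
    (hk : ∀ a ∈ F, ∀ b ∈ F, k a = k b → a = b)
    (h : ∀ c ∈ omax F k', ∀ l ∈ F, k l ≤ k c) : omax F k = omax F k' := by
  rcases F.eq_empty_or_nonempty with hF | hF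
  · subst hF
    unfold omax
    simp
  · obtain ⟨l, hl⟩ := hF
    obtain ⟨c, hc, _⟩ := omax_le (k := k') hl
    have hcF := omax_mem hc
    obtain ⟨c', hc', h2⟩ := omax_le (k := k) hcF
    have h3 := h c hc c' (omax_mem hc')
    have h4 := hk c hcF c' (omax_mem hc') (le_antisymm h2 h3)
    subst h4
    rw [Option.mem_def] at hc hc'
    rw [hc, hc']

theorem omin_congr {α β : Type} [LinearOrder β] {F : Finset α} {k k' : α → β}
    (hk : ∀ a ∈ F, ∀ b ∈ F, k a = k b → a = b)
    (h : ∀ c ∈ omin F k', ∀ l ∈ F, k c ≤ k l) : omin F k = omin F k' := by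
  unfold omin
  apply omax_congr
  · intro a ha b hb hab
    exact hk a ha b hb hab
  · intro c hc l hl
    exact h c hc l hl

open scoped Classical in
/-- crossing abscissas of the optional line `b` with the lines of `G` -/
noncomputable def crs (G : Finset (ℝ × ℝ)) (b : Option (ℝ × ℝ)) : Finset ℝ :=
  ((b.toFinset ×ˢ G).filter (fun p => p.1.1 ≠ p.2.1)).image (fun p => xc p.1 p.2)

theorem mem_crs {G : Finset (ℝ × ℝ)} {b : Option (ℝ × ℝ)} {a : ℝ} :
    a ∈ crs G b ↔ ∃ c ∈ b, ∃ l ∈ G, c.1 ≠ l.1 ∧ xc c l = a := by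
  unfold crs
  simp only [mem_image, mem_filter, mem_product, Option.mem_toFinset, Prod.exists]
  constructor
  · rintro ⟨c1, c2, l1, l2, ⟨⟨h1, h2⟩, h3⟩, h4⟩
    exact ⟨c1, c2, h1, l1, l2, h2, h3, h4⟩
  · rintro ⟨c1, c2, h1, l1, l2, h2, h3, h4⟩
    exact ⟨c1, c2, l1, l2, ⟨⟨h1, h2⟩, h3⟩, h4⟩

open scoped Classical in
/-- lines of `G` strictly below `z` -/
noncomputable def Fb (G : Finset (ℝ × ℝ)) (z : ℝ × ℝ) : Finset (ℝ × ℝ) :=
  G.filter (fun l => l.1 * z.1 + l.2 < z.2)

open scoped Classical in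
/-- lines of `G` strictly above `z` -/
noncomputable def Ft (G : Finset (ℝ × ℝ)) (z : ℝ × ℝ) : Finset (ℝ × ℝ) :=
  G.filter (fun l => z.2 < l.1 * z.1 + l.2)

noncomputable def bot (G : Finset (ℝ × ℝ)) (z : ℝ × ℝ) : Option (ℝ × ℝ) :=
  omax (Fb G z) (key z.1)

noncomputable def top (G : Finset (ℝ × ℝ)) (z : ℝ × ℝ) : Option (ℝ × ℝ) :=
  omin (Ft G z) (key z.1)

noncomputable def crz (G : Finset (ℝ × ℝ)) (b t : Option (ℝ × ℝ)) : Finset ℝ :=
  crs G b ∪ crs G t

open scoped Classical in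
noncomputable def lft (G : Finset (ℝ × ℝ)) (z : ℝ × ℝ) : Option ℝ :=
  omax ((crz G (bot G z) (top G z)).filter (fun a => a ≤ z.1)) id

open scoped Classical in
noncomputable def rgt (G : Finset (ℝ × ℝ)) (z : ℝ × ℝ) : Option ℝ :=
  omin ((crz G (bot G z) (top G z)).filter (fun a => z.1 < a)) id

/-- trapezoid data: bottom, top, left, right -/
noncomputable def tra (G : Finset (ℝ × ℝ)) (z : ℝ × ℝ) :
    Option (ℝ × ℝ) × Option (ℝ × ℝ) × Option ℝ × Option ℝ :=
  (bot G z, top G z, lft G z, rgt G z)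

/-- the line `l` crosses the open trapezoid `τ` -/
def Cr (τ : Option (ℝ × ℝ) × Option (ℝ × ℝ) × Option ℝ × Option ℝ) (l : ℝ × ℝ) : Prop :=
  ∃ x : ℝ, (∀ a ∈ τ.2.2.1, a < x) ∧ (∀ a ∈ τ.2.2.2, x < a) ∧
    (∀ c ∈ τ.1, c.1 * x + c.2 < l.1 * x + l.2) ∧ (∀ c ∈ τ.2.1, l.1 * x + l.2 < c.1 * x + c.2)

/-- `z` is on no line of `G` -/
def Off (G : Finset (ℝ × ℝ)) (z : ℝ × ℝ) : Prop := ∀ l ∈ G, ¬ Onl l z

theorem off_cases {G : Finset (ℝ × ℝ)} {z : ℝ × ℝ} (hz : Off G z) {l : ℝ × ℝ} (hl : l ∈ G) :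
    l.1 * z.1 + l.2 < z.2 ∨ z.2 < l.1 * z.1 + l.2 := by
  have := hz l hl
  unfold Onl at this
  rcases lt_trichotomy (l.1 * z.1 + l.2) z.2 with h | h | h
  · left; exact h
  · exact absurd h.symm this
  · right; exact h

theorem bot_lt {G : Finset (ℝ × ℝ)} {z c : ℝ × ℝ} (hc : c ∈ bot G z) :
    c ∈ G ∧ c.1 * z.1 + c.2 < z.2 := by
  have := omax_mem hc
  unfold Fb at this
  rw [mem_filter] at this
  exact this

theorem lt_top' {G : Finset (ℝ × ℝ)} {z c : ℝ × ℝ} (hc : c ∈ top G z) :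
    c ∈ G ∧ z.2 < c.1 * z.1 + c.2 := by
  have := omin_mem hc
  unfold Ft at this
  rw [mem_filter] at this
  exact this

theorem above_iff {G : Finset (ℝ × ℝ)} {z : ℝ × ℝ} (hz : Off G z) {t : ℝ × ℝ} (ht : t ∈ G) :
    z.2 < t.1 * z.1 + t.2 ↔ ∀ c ∈ bot G z, key z.1 c < key z.1 t := by
  constructor
  · intro h c hc
    rw [key_lt]; left
    exact (bot_lt hc).2.trans h
  · intro h
    rcases off_cases hz ht with h1 | h1
    · exfalso
      have h2 : t ∈ Fb G z := by unfold Fb; rw [mem_filter]; exact ⟨ht, h1⟩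
      obtain ⟨c, hc, hc2⟩ := omax_le (k := key z.1) h2
      exact absurd (h c hc) (not_lt.mpr hc2)
    · exact h1

theorem below_iff {G : Finset (ℝ × ℝ)} {z : ℝ × ℝ} (hz : Off G z) {t : ℝ × ℝ} (ht : t ∈ G) :
    t.1 * z.1 + t.2 < z.2 ↔ ∀ c ∈ top G z, key z.1 t < key z.1 c := by
  constructor
  · intro h c hc
    rw [key_lt]; left
    exact h.trans (lt_top' hc).2
  · intro h
    rcases off_cases hz ht with h1 | h1
    · exact h1
    · exfalso
      have h2 : t ∈ Ft G z := by unfold Ft; rw [mem_filter]; exact ⟨ht, h1⟩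
      obtain ⟨c, hc, hc2⟩ := omin_le (k := key z.1) h2
      exact absurd (h c hc) (not_lt.mpr hc2)

theorem Ft_congr {G : Finset (ℝ × ℝ)} {z z' : ℝ × ℝ} (hz : Off G z) (hz' : Off G z')
    (hx : z.1 ≤ z'.1) (hb : bot G z = bot G z')
    (hn : ∀ a ∈ crs G (bot G z'), ¬ (z.1 < a ∧ a ≤ z'.1)) : Ft G z = Ft G z' := by
  unfold Ft
  apply Finset.filter_congr
  intro t ht
  rw [above_iff hz ht, above_iff hz' ht, hb]
  apply forall₂_congr
  intro c hc
  apply noncross hx
  intro h
  exact hn _ (mem_crs.mpr ⟨c, hc, t, ht, h, rfl⟩)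

theorem Fb_congr {G : Finset (ℝ × ℝ)} {z z' : ℝ × ℝ} (hz : Off G z) (hz' : Off G z')
    (hx : z.1 ≤ z'.1) (hb : top G z = top G z')
    (hn : ∀ a ∈ crs G (top G z'), ¬ (z.1 < a ∧ a ≤ z'.1)) : Fb G z = Fb G z' := by
  unfold Fb
  apply Finset.filter_congr
  intro t ht
  rw [below_iff hz ht, below_iff hz' ht, hb]
  apply forall₂_congr
  intro c hc
  apply noncross hx
  intro h
  rw [xc_symm]
  exact hn _ (mem_crs.mpr ⟨c, hc, t, ht, h.symm, rfl⟩)

theorem top_congr {G : Finset (ℝ × ℝ)} {z z' : ℝ × ℝ} (hz : Off G z) (hz' : Off G z')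
    (hx : z.1 ≤ z'.1) (hb : bot G z = bot G z')
    (hn : ∀ a ∈ crz G (bot G z') (top G z'), ¬ (z.1 < a ∧ a ≤ z'.1)) : top G z = top G z' := by
  have h1 := Ft_congr hz hz' hx hb (fun a ha => hn a (mem_union_left _ ha))
  have h2 : top G z' = omin (Ft G z) (key z'.1) := by unfold top; rw [h1]
  rw [h2]
  unfold top
  apply omin_congr
  · intro a _ b _ hab; exact key_inj hab
  · intro c hc l hl
    by_contra h
    push Not at h
    have hcG : c ∈ G := by
      have := omin_mem hc
      unfold Ft at this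
      exact (mem_filter.mp this).1
    have hlG : l ∈ G := by
      unfold Ft at hl
      exact (mem_filter.mp hl).1
    have hct : c ∈ top G z' := by rw [h2]; exact hc
    have h3 : key z'.1 l < key z'.1 c := by
      rw [← noncross hx]
      · exact h
      · intro hne
        rw [xc_symm]
        exact hn _ (mem_union_right _ (mem_crs.mpr ⟨c, hct, l, hlG, hne.symm, rfl⟩))
    obtain ⟨c', hc', h4⟩ := omin_le (k := key z'.1) hl
    rw [Option.mem_def] at hc hc'
    rw [hc] at hc'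
    obtain rfl := Option.some.inj hc'
    exact absurd h3 (not_lt.mpr h4)

theorem bot_congr {G : Finset (ℝ × ℝ)} {z z' : ℝ × ℝ} (hz : Off G z) (hz' : Off G z')
    (hx : z.1 ≤ z'.1) (hb : top G z = top G z')
    (hn : ∀ a ∈ crz G (bot G z') (top G z'), ¬ (z.1 < a ∧ a ≤ z'.1)) : bot G z = bot G z' := by
  have h1 := Fb_congr hz hz' hx hb (fun a ha => hn a (mem_union_right _ ha))
  have h2 : bot G z' = omax (Fb G z) (key z'.1) := by unfold bot; rw [h1]
  rw [h2]
  unfold bot
  apply omax_congr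
  · intro a _ b _ hab; exact key_inj hab
  · intro c hc l hl
    by_contra h
    push Not at h
    have hcG : c ∈ G := by
      have := omax_mem hc
      unfold Fb at this
      exact (mem_filter.mp this).1
    have hlG : l ∈ G := by
      unfold Fb at hl
      exact (mem_filter.mp hl).1
    have hct : c ∈ bot G z' := by rw [h2]; exact hc
    have h3 : key z'.1 c < key z'.1 l := by
      rw [← noncross hx]
      · exact h
      · intro hne
        exact hn _ (mem_union_left _ (mem_crs.mpr ⟨c, hct, l, hlG, hne, rfl⟩))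
    obtain ⟨c', hc', h4⟩ := omax_le (k := key z'.1) hl
    rw [Option.mem_def] at hc hc'
    rw [hc] at hc'
    obtain rfl := Option.some.inj hc'
    exact absurd h3 (not_lt.mpr h4)

theorem lft_le {G : Finset (ℝ × ℝ)} {z : ℝ × ℝ} {a : ℝ} (h : a ∈ lft G z) : a ≤ z.1 :=
  (mem_filter.mp (omax_mem h)).2

theorem lt_rgt {G : Finset (ℝ × ℝ)} {z : ℝ × ℝ} {a : ℝ} (h : a ∈ rgt G z) : z.1 < a :=
  (mem_filter.mp (omin_mem h)).2

theorem no_cross_of_lft {G : Finset (ℝ × ℝ)} {z z' : ℝ × ℝ} (hl : lft G z = lft G z') :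
    ∀ a ∈ crz G (bot G z') (top G z'), ¬ (z.1 < a ∧ a ≤ z'.1) := by
  rintro a ha ⟨h1, h2⟩
  have h3 : a ∈ (crz G (bot G z') (top G z')).filter (fun a => a ≤ z'.1) := by
    rw [mem_filter]; exact ⟨ha, h2⟩
  obtain ⟨u, hu, hu2⟩ := omax_le (k := id) h3
  have hu3 : u ∈ lft G z := by rw [hl]; exact hu
  have := lft_le hu3
  simp only [id] at hu2
  linarith

theorem tra_congr_aux {G : Finset (ℝ × ℝ)} {z z' : ℝ × ℝ} (hz : Off G z) (hz' : Off G z')
    (hx : z.1 ≤ z'.1) (hl : lft G z = lft G z')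
    (h : bot G z = bot G z' ∨ top G z = top G z') : tra G z = tra G z' := by
  have hn := no_cross_of_lft hl
  have hb : bot G z = bot G z' := by
    rcases h with h | h
    · exact h
    · exact bot_congr hz hz' hx h hn
  have ht : top G z = top G z' := by
    rcases h with h | h
    · exact top_congr hz hz' hx h hn
    · exact h
  have hr : rgt G z = rgt G z' := by
    unfold rgt
    rw [hb, ht]
    congr 1
    apply Finset.filter_congr
    intro a ha
    constructor
    · intro h1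
      by_contra h2
      push Not at h2
      exact hn a ha ⟨h1, h2⟩
    · intro h1; linarith
  unfold tra
  rw [hb, ht, hl, hr]

theorem tra_congr {G : Finset (ℝ × ℝ)} {z z' : ℝ × ℝ} (hz : Off G z) (hz' : Off G z')
    (hl : lft G z = lft G z') (h : bot G z = bot G z' ∨ top G z = top G z') :
    tra G z = tra G z' := by
  rcases le_total z.1 z'.1 with hx | hx
  · exact tra_congr_aux hz hz' hx hl h
  · exact (tra_congr_aux hz' hz hx hl.symm (h.imp Eq.symm Eq.symm)).symm

end Vale.Agent.P054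
end

section

set_option autoImplicit false

open Finset

namespace Vale.Agent.P054

open scoped Classical in
/-- greedy choice of `k` elements hitting most objects -/
theorem greedy_hitting {β ι : Type} (Bad : Finset β) (S : Finset ι) (w : ι → ℝ)
    (hw : ∀ σ ∈ S, 0 < w σ) (hS : S.Nonempty) (hit : ι → β → Prop) (ε : ℝ) (hε1 : ε ≤ 1)
    (hbad : ∀ b ∈ Bad, ε * ∑ σ ∈ S, w σ ≤ ∑ σ ∈ S with hit σ b, w σ) (k : ℕ) :
    ∃ g : Fin k → ι, (∀ i, g i ∈ S) ∧
      ((Bad.filter (fun b => ∀ i, ¬ hit (g i) b)).card : ℝ) ≤ Bad.card * (1 - ε) ^ k := by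
  induction k with
  | zero =>
    refine ⟨fun i => i.elim0, fun i => i.elim0, ?_⟩
    simp
  | succ k ih =>
    obtain ⟨g, hg, hcard⟩ := ih
    set U := Bad.filter (fun b => ∀ i, ¬ hit (g i) b) with hU
    have hUsub : U ⊆ Bad := filter_subset _ _
    have hswap : ∑ σ ∈ S, w σ * ((U.filter (fun b => hit σ b)).card : ℝ)
        = ∑ b ∈ U, ∑ σ ∈ S with hit σ b, w σ := by
      have h1 : ∀ σ ∈ S, w σ * ((U.filter (fun b => hit σ b)).card : ℝ)
          = ∑ b ∈ U, if hit σ b then w σ else 0 := by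
        intro σ _
        rw [Finset.sum_ite, Finset.sum_const, Finset.sum_const_zero, nsmul_eq_mul]
        ring
      rw [Finset.sum_congr rfl h1, Finset.sum_comm]
      apply Finset.sum_congr rfl
      intro b _
      rw [Finset.sum_filter]
    have hge : (U.card : ℝ) * (ε * ∑ σ ∈ S, w σ)
        ≤ ∑ σ ∈ S, w σ * ((U.filter (fun b => hit σ b)).card : ℝ) := by
      rw [hswap, ← nsmul_eq_mul]
      apply Finset.card_nsmul_le_sum
      intro b hb
      exact hbad b (hUsub hb)
    have hex : ∃ σ ∈ S, ε * (U.card : ℝ) ≤ ((U.filter (fun b => hit σ b)).card : ℝ) := by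
      by_contra hcon
      push Not at hcon
      have : ∑ σ ∈ S, w σ * ((U.filter (fun b => hit σ b)).card : ℝ)
          < ∑ σ ∈ S, w σ * (ε * (U.card : ℝ)) := by
        apply Finset.sum_lt_sum_of_nonempty hS
        intro σ hσ
        exact mul_lt_mul_of_pos_left (hcon σ hσ) (hw σ hσ)
      rw [← Finset.sum_mul] at this
      linarith only [this, hge]
    obtain ⟨σ, hσ, hσU⟩ := hex
    refine ⟨Fin.cons σ g, ?_, ?_⟩
    · intro i
      refine Fin.cases ?_ ?_ i
      · simpa using hσ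
      · intro j; simpa using hg j
    · have heq : Bad.filter (fun b => ∀ i, ¬ hit ((Fin.cons σ g : Fin (k+1) → ι) i) b)
          = U.filter (fun b => ¬ hit σ b) := by
        ext b
        simp only [hU, mem_filter, Fin.forall_fin_succ, Fin.cons_zero, Fin.cons_succ]
        tauto
      rw [heq]
      have hsplit : ((U.filter (fun b => hit σ b)).card : ℝ)
          + ((U.filter (fun b => ¬ hit σ b)).card : ℝ) = U.card := by
        exact_mod_cast Finset.card_filter_add_card_filter_not (s := U) (fun b => hit σ b)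
      have h1 : ((U.filter (fun b => ¬ hit σ b)).card : ℝ) ≤ (1 - ε) * U.card := by linarith
      calc ((U.filter (fun b => ¬ hit σ b)).card : ℝ) ≤ (1 - ε) * U.card := h1
        _ ≤ (1 - ε) * (Bad.card * (1 - ε) ^ k) := by
            apply mul_le_mul_of_nonneg_left hcard; linarith
        _ = Bad.card * (1 - ε) ^ (k + 1) := by ring

open scoped Classical in
theorem exists_net {α ι : Type} (P : Finset α) (hP : P.Nonempty) (S : Finset ι) (hS : S.Nonempty)
    (R : ι → α → Bool) (w : ι → ℝ) (hw : ∀ σ ∈ S, 0 < w σ) (s : ℕ) (hs : 1 ≤ s) :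
    ∃ g : Fin s → ι, (∀ k, g k ∈ S) ∧ ∀ q ∈ P, ∀ q' ∈ P, (∀ k, R (g k) q = R (g k) q') →
      ∑ σ ∈ S with R σ q ≠ R σ q', w σ ≤ ((2 * Real.log P.card + 1) / s) * ∑ σ ∈ S, w σ := by
  set ε : ℝ := (2 * Real.log P.card + 1) / s with hε
  have hn : (1:ℝ) ≤ P.card := by exact_mod_cast hP.card_pos
  have hlog : 0 ≤ Real.log P.card := Real.log_nonneg hn
  have hs' : (0:ℝ) < s := by exact_mod_cast hs
  have hW : 0 < ∑ σ ∈ S, w σ := Finset.sum_pos hw hS
  rcases le_or_gt 1 ε with h1 | h1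
  · obtain ⟨σ₀, hσ₀⟩ := hS
    refine ⟨fun _ => σ₀, fun _ => hσ₀, ?_⟩
    intro q _ q' _ _
    calc ∑ σ ∈ S with R σ q ≠ R σ q', w σ ≤ ∑ σ ∈ S, w σ := by
          apply Finset.sum_le_sum_of_subset_of_nonneg (filter_subset _ _)
          intro σ hσ _
          exact (hw σ hσ).le
      _ ≤ ε * ∑ σ ∈ S, w σ := le_mul_of_one_le_left hW.le h1
  · set Bad := (P ×ˢ P).filter (fun p => ε * ∑ σ ∈ S, w σ < ∑ σ ∈ S with R σ p.1 ≠ R σ p.2, w σ)
      with hBad
    obtain ⟨g, hg, hcard⟩ := greedy_hitting Bad S w hw hS (fun σ p => R σ p.1 ≠ R σ p.2) ε h1.le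
      (fun b hb => by
        rw [hBad, mem_filter] at hb
        refine (hb.2.le).trans (le_of_eq ?_)
        congr) s
    refine ⟨g, hg, ?_⟩
    intro q hq q' hq' hqq
    by_contra hcon
    push Not at hcon
    have hmem : (q, q') ∈ Bad.filter (fun b => ∀ i, ¬ (R (g i) b.1 ≠ R (g i) b.2)) := by
      rw [mem_filter, hBad, mem_filter, mem_product]
      refine ⟨⟨⟨hq, hq'⟩, hcon⟩, ?_⟩
      intro i
      simpa using hqq i
    have hpos : (1:ℝ) ≤ ((Bad.filter (fun b => ∀ i, ¬ (R (g i) b.1 ≠ R (g i) b.2))).card : ℝ) := by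
      exact_mod_cast Finset.card_pos.mpr ⟨_, hmem⟩
    have hBadcard : (Bad.card : ℝ) ≤ (P.card : ℝ) ^ 2 := by
      have : Bad.card ≤ (P ×ˢ P).card := card_filter_le _ _
      rw [card_product] at this
      calc (Bad.card : ℝ) ≤ ((P.card * P.card : ℕ) : ℝ) := by exact_mod_cast this
        _ = (P.card : ℝ) ^ 2 := by push_cast; ring
    have hpow : (1 - ε) ^ s ≤ Real.exp (-(2 * Real.log P.card + 1)) := by
      have h2 : 1 - ε ≤ Real.exp (-ε) := Real.one_sub_le_exp_neg ε
      calc (1 - ε) ^ s ≤ (Real.exp (-ε)) ^ s := by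
            apply pow_le_pow_left₀ _ h2; linarith
        _ = Real.exp (-(2 * Real.log P.card + 1)) := by
            rw [← Real.exp_nat_mul]
            congr 1
            rw [hε]; field_simp
    have hexp : Real.exp (-(2 * Real.log P.card + 1)) * (P.card : ℝ) ^ 2 = Real.exp (-1) := by
      have h3 : (P.card : ℝ) ^ 2 = Real.exp (2 * Real.log P.card) := by
        rw [mul_comm, Real.exp_mul, Real.exp_log (by linarith)]
        norm_cast
      rw [h3, ← Real.exp_add]; congr 1; ring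
    have hlt : Real.exp (-1) < 1 := by
      rw [Real.exp_lt_one_iff]; norm_num
    have hε0 : 0 ≤ (1 - ε) ^ s := pow_nonneg (by linarith) s
    have : (1:ℝ) < 1 := by
      calc (1:ℝ) ≤ _ := hpos
        _ ≤ Bad.card * (1 - ε) ^ s := by convert hcard
        _ ≤ (P.card : ℝ) ^ 2 * (1 - ε) ^ s := by gcongr
        _ ≤ (P.card : ℝ) ^ 2 * Real.exp (-(2 * Real.log P.card + 1)) := by gcongr
        _ = Real.exp (-1) := by rw [mul_comm]; exact hexp
        _ < 1 := hlt
    exact lt_irrefl _ this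

open scoped Classical in
theorem exists_class {α ι : Type} (P Q : Finset α) (hQ : Q ⊆ P) (hP : P.Nonempty)
    (S : Finset ι) (hS : S.Nonempty)
    (R : ι → α → Bool) (w : ι → ℝ) (hw : ∀ σ ∈ S, 0 < w σ) (B x s : ℕ) (hs : 1 ≤ s) (hx : 1 ≤ x)
    (hB : ∀ g : Fin s → ι, (∀ k, g k ∈ S) →
      (P.image (fun y => fun k => R (g k) y)).card ≤ B) (hB1 : 1 ≤ B)
    (hcard : x * B ≤ Q.card) :
    ∃ X ⊆ Q, X.card = x ∧ ∀ q ∈ X, ∀ q' ∈ X,
      ∑ σ ∈ S with R σ q ≠ R σ q', w σ ≤ ((2 * Real.log P.card + 1) / s) * ∑ σ ∈ S, w σ := by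
  obtain ⟨g, hg, hsep⟩ := exists_net P hP S hS R w hw s hs
  have hQne : Q.Nonempty := by
    rw [← Finset.card_pos]
    exact lt_of_lt_of_le (Nat.mul_pos hx hB1) hcard
  have hcard2 : (Q.image (fun y => fun k => R (g k) y)).card * x ≤ Q.card := by
    calc (Q.image (fun y => fun k => R (g k) y)).card * x
        ≤ (P.image (fun y => fun k => R (g k) y)).card * x :=
          Nat.mul_le_mul_right x (card_le_card (image_subset_image hQ))
      _ ≤ B * x := Nat.mul_le_mul_right x (hB g hg)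
      _ = x * B := mul_comm _ _
      _ ≤ Q.card := hcard
  obtain ⟨c, _, hc⟩ := exists_le_card_fiber_of_mul_le_card_of_maps_to
    (f := fun y => fun k => R (g k) y) (fun a ha => mem_image_of_mem _ ha)
    (hQne.image _) hcard2
  obtain ⟨X, hXsub, hXcard⟩ := exists_subset_card_eq hc
  refine ⟨X, hXsub.trans (filter_subset _ _), hXcard, ?_⟩
  intro q hq q' hq'
  have h1 := mem_filter.mp (hXsub hq)
  have h2 := mem_filter.mp (hXsub hq')
  apply hsep q (hQ h1.1) q' (hQ h2.1)
  intro k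
  have := h1.2.trans h2.2.symm
  exact congrFun this k


open scoped Classical in
/-- number of ordered pairs of `X` separated by the range `σ` -/
noncomputable def sepc {α ι : Type} (R : ι → α → Bool) (σ : ι) (X : Finset α) : ℝ :=
  (((X ×ˢ X).filter (fun p => R σ p.1 ≠ R σ p.2)).card : ℝ)

theorem sepc_nonneg {α ι : Type} (R : ι → α → Bool) (σ : ι) (X : Finset α) :
    0 ≤ sepc R σ X := by
  unfold sepc; positivity

theorem sepc_le {α ι : Type} (R : ι → α → Bool) (σ : ι) (X : Finset α) :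
    sepc R σ X ≤ (X.card : ℝ) ^ 2 := by
  classical
  unfold sepc
  calc (((X ×ˢ X).filter (fun p => R σ p.1 ≠ R σ p.2)).card : ℝ) ≤ ((X ×ˢ X).card : ℝ) := by
        exact_mod_cast card_filter_le _ _
    _ = (X.card : ℝ) ^ 2 := by rw [card_product]; push_cast; ring

open scoped Classical in
theorem sum_mul_sepc {α ι : Type} (S : Finset ι) (R : ι → α → Bool) (w : ι → ℝ) (X : Finset α)
    (D : ℝ) (hX : ∀ q ∈ X, ∀ q' ∈ X, ∑ σ ∈ S with R σ q ≠ R σ q', w σ ≤ D) :
    ∑ σ ∈ S, w σ * sepc R σ X ≤ (X.card : ℝ) ^ 2 * D := by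
  have h1 : ∀ σ ∈ S, w σ * sepc R σ X
      = ∑ p ∈ X ×ˢ X, if R σ p.1 ≠ R σ p.2 then w σ else 0 := by
    intro σ _
    rw [Finset.sum_ite, Finset.sum_const, Finset.sum_const_zero, nsmul_eq_mul]
    unfold sepc
    ring
  rw [Finset.sum_congr rfl h1, Finset.sum_comm]
  have h2 : ∀ p ∈ X ×ˢ X, ∑ σ ∈ S, (if R σ p.1 ≠ R σ p.2 then w σ else 0) ≤ D := by
    intro p hp
    rw [mem_product] at hp
    have := hX p.1 hp.1 p.2 hp.2
    rwa [Finset.sum_filter] at this
  calc ∑ p ∈ X ×ˢ X, ∑ σ ∈ S, (if R σ p.1 ≠ R σ p.2 then w σ else 0)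
      ≤ (X ×ˢ X).card • D := Finset.sum_le_card_nsmul _ _ _ h2
    _ = (X.card : ℝ) ^ 2 * D := by
        rw [nsmul_eq_mul, card_product]; push_cast; ring

theorem half_le_log {φ : ℝ} (h0 : 0 ≤ φ) (h1 : φ ≤ 1) : φ / 2 ≤ Real.log (1 + φ) := by
  refine le_trans ?_ (Real.le_log_one_add_of_nonneg h0)
  rw [div_le_div_iff₀ (by norm_num) (by linarith)]
  nlinarith

open scoped Classical in
/-- iteration of `exists_class` -/
theorem partition_aux {α ι : Type} (P : Finset α) (S : Finset ι) (hS : S.Nonempty)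
    (R : ι → α → Bool) (B x s : ℕ) (hs : 1 ≤ s) (hx : 1 ≤ x)
    (hB : ∀ g : Fin s → ι, (∀ k, g k ∈ S) →
      (P.image (fun y => fun k => R (g k) y)).card ≤ B) (hB1 : 1 ≤ B) (hP : P.Nonempty)
    (hcard : 2 * x * B ≤ P.card) (i : ℕ) (hi : 2 * (i * x) ≤ P.card + 2 * x) (hi' : i = 0 ∨ 2 * ((i - 1) * x) ≤ P.card) :
    ∃ (X : Fin i → Finset α), (∀ k, X k ⊆ P) ∧ (∀ k, (X k).card = x) ∧
      (∀ k l, k ≠ l → Disjoint (X k) (X l)) ∧
      ∑ σ ∈ S, ∏ k, (1 + sepc R σ (X k) / (x:ℝ) ^ 2)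
        ≤ S.card * (1 + (2 * Real.log P.card + 1) / s) ^ i := by
  set ε : ℝ := (2 * Real.log P.card + 1) / s with hε
  have hn : (1:ℝ) ≤ P.card := by exact_mod_cast hP.card_pos
  have hlog : 0 ≤ Real.log P.card := Real.log_nonneg hn
  have hs' : (0:ℝ) < s := by exact_mod_cast hs
  have hε0 : 0 ≤ ε := by rw [hε]; positivity
  induction i with
  | zero =>
    refine ⟨fun k => k.elim0, fun k => k.elim0, fun k => k.elim0, fun k => k.elim0, ?_⟩
    simp
  | succ i ih =>
    have hi2 : 2 * (i * x) ≤ P.card := by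
      rcases hi' with h | h
      · omega
      · simpa using h
    obtain ⟨X, hXP, hXc, hXd, hXpot⟩ := ih (by omega) (by
      rcases Nat.eq_zero_or_pos i with h | h
      · left; exact h
      · right
        have : (i - 1) * x ≤ i * x := Nat.mul_le_mul_right x (by omega)
        omega)
    set Q := P \ (Finset.univ.biUnion X) with hQ
    have hbi : (Finset.univ.biUnion X).card = i * x := by
      rw [Finset.card_biUnion (fun k _ l _ hkl => hXd k l hkl)]
      simp [hXc]
    have hbisub : Finset.univ.biUnion X ⊆ P := by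
      intro y hy
      rw [mem_biUnion] at hy
      obtain ⟨k, _, hk⟩ := hy
      exact hXP k hk
    have hQcard : Q.card = P.card - i * x := by
      rw [hQ, card_sdiff_of_subset hbisub, hbi]
    have hQcard2 : x * B ≤ Q.card := by
      rw [hQcard]
      have : 2 * x * B = 2 * (x * B) := by ring
      omega
    set w : ι → ℝ := fun σ => ∏ k, (1 + sepc R σ (X k) / (x:ℝ) ^ 2) with hw
    have hwpos : ∀ σ ∈ S, 0 < w σ := by
      intro σ _
      apply Finset.prod_pos
      intro k _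
      have := sepc_nonneg R σ (X k)
      positivity
    obtain ⟨Y, hYQ, hYc, hYsep⟩ := exists_class P Q sdiff_subset hP S hS R w hwpos B x s hs hx hB
      hB1 hQcard2
    refine ⟨Fin.snoc X Y, ?_, ?_, ?_, ?_⟩
    · intro k
      refine Fin.lastCases ?_ (fun k => ?_) k
      · simpa using hYQ.trans sdiff_subset
      · simpa using hXP k
    · intro k
      refine Fin.lastCases ?_ (fun k => ?_) k
      · simpa using hYc
      · simpa using hXc k
    · have hdis : ∀ k, Disjoint (X k) Y := by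
        intro k
        rw [Finset.disjoint_left]
        intro y hy hyY
        have := hYQ hyY
        rw [hQ, mem_sdiff, mem_biUnion] at this
        exact this.2 ⟨k, mem_univ _, hy⟩
      intro k l
      refine Fin.lastCases ?_ (fun k => ?_) k
      · refine Fin.lastCases ?_ (fun l => ?_) l
        · intro h; exact absurd rfl h
        · intro _
          simpa using (hdis l).symm
      · refine Fin.lastCases ?_ (fun l => ?_) l
        · intro _
          simpa using hdis k
        · intro h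
          have h' : k ≠ l := by
            intro hkl; apply h; rw [hkl]
          simpa using hXd k l h'
    · have h1 : ∀ σ ∈ S, ∏ k, (1 + sepc R σ ((Fin.snoc X Y : Fin (i+1) → Finset α) k) / (x:ℝ) ^ 2)
          = w σ + (w σ * sepc R σ Y) / (x:ℝ) ^ 2 := by
        intro σ _
        rw [Fin.prod_univ_castSucc]
        simp only [Fin.snoc_castSucc, Fin.snoc_last, hw]
        ring
      rw [Finset.sum_congr rfl h1, Finset.sum_add_distrib, ← Finset.sum_div]
      have h2 := sum_mul_sepc S R w Y (ε * ∑ σ ∈ S, w σ) hYsep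
      rw [hYc] at h2
      have hx' : (0:ℝ) < x := by exact_mod_cast hx
      have h3 : (∑ σ ∈ S, w σ * sepc R σ Y) / (x:ℝ) ^ 2 ≤ ε * ∑ σ ∈ S, w σ := by
        rw [div_le_iff₀ (by positivity)]
        linarith only [h2]
      have h4 : ∑ σ ∈ S, w σ ≤ S.card * (1 + ε) ^ i := hXpot
      calc ∑ σ ∈ S, w σ + (∑ σ ∈ S, w σ * sepc R σ Y) / (x:ℝ) ^ 2
          ≤ ∑ σ ∈ S, w σ + ε * ∑ σ ∈ S, w σ := by linarith
        _ = (1 + ε) * ∑ σ ∈ S, w σ := by ring
        _ ≤ (1 + ε) * (S.card * (1 + ε) ^ i) := by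
            apply mul_le_mul_of_nonneg_left h4; linarith only [hε0]
        _ = S.card * (1 + ε) ^ (i + 1) := by ring

/-- partition: `r` disjoint classes of size `x`, every range in `S` separates few same-class pairs -/
theorem partition {α ι : Type} (P : Finset α) (S : Finset ι) (hS : S.Nonempty)
    (R : ι → α → Bool) (B x s : ℕ) (hs : 1 ≤ s) (hx : 1 ≤ x)
    (hB : open scoped Classical in ∀ g : Fin s → ι, (∀ k, g k ∈ S) →
      (P.image (fun y => fun k => R (g k) y)).card ≤ B)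
    (hcard : 2 * x * B ≤ P.card) (hcard2 : 4 * x ≤ P.card) :
    ∃ (r : ℕ) (X : Fin r → Finset α), (∀ i, X i ⊆ P) ∧ (∀ i, (X i).card = x) ∧
      (∀ i j, i ≠ j → Disjoint (X i) (X j)) ∧ P.card ≤ 4 * (r * x) ∧
      ∀ σ ∈ S, ∑ i, sepc R σ (X i) ≤
        (x:ℝ) ^ 2 * (2 * (Real.log S.card + r * ((2 * Real.log P.card + 1) / s))) := by
  classical
  have hP : P.Nonempty := by
    rw [← Finset.card_pos]; omega
  have hB1 : 1 ≤ B := by
    obtain ⟨σ₀, hσ₀⟩ := hS
    have h := hB (fun _ => σ₀) (fun _ => hσ₀)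
    refine le_trans ?_ h
    exact Finset.card_pos.mpr (hP.image _)
  set r := P.card / (2 * x) with hr
  have hr1 : 2 * (r * x) ≤ P.card := by
    have := Nat.div_mul_le_self P.card (2 * x)
    rw [← hr] at this
    calc 2 * (r * x) = r * (2 * x) := by ring
      _ ≤ P.card := this
  have hr2 : P.card ≤ 4 * (r * x) := by
    have h1 := Nat.lt_div_mul_add (a := P.card) (b := 2 * x) (by omega)
    rw [← hr] at h1
    have h2 : 2 ≤ r := by
      rw [hr, Nat.le_div_iff_mul_le (by omega)]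
      omega
    have h3 : r * (2 * x) = 2 * (r * x) := by ring
    have h4 : 2 * x ≤ r * x := Nat.mul_le_mul_right x h2
    omega
  have hr3 : r = 0 ∨ 2 * ((r - 1) * x) ≤ P.card := by
    right
    have : (r - 1) * x ≤ r * x := Nat.mul_le_mul_right x (Nat.sub_le r 1)
    omega
  obtain ⟨X, hXP, hXc, hXd, hXpot⟩ := partition_aux P S hS R B x s hs hx
    (fun g hg => by convert hB g hg) hB1 hP hcard r (by omega) hr3
  refine ⟨r, X, hXP, hXc, hXd, hr2, ?_⟩
  intro σ hσ
  set ε : ℝ := (2 * Real.log P.card + 1) / s with hε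
  have hn : (1:ℝ) ≤ P.card := by exact_mod_cast hP.card_pos
  have hlog : 0 ≤ Real.log P.card := Real.log_nonneg hn
  have hs' : (0:ℝ) < s := by exact_mod_cast hs
  have hε0 : 0 ≤ ε := by rw [hε]; positivity
  have hx' : (0:ℝ) < x := by exact_mod_cast hx
  have hφ0 : ∀ k, 0 ≤ sepc R σ (X k) / (x:ℝ) ^ 2 := fun k => by
    have := sepc_nonneg R σ (X k); positivity
  have hφ1 : ∀ k, sepc R σ (X k) / (x:ℝ) ^ 2 ≤ 1 := fun k => by
    rw [div_le_one (by positivity)]
    have := sepc_le R σ (X k)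
    rwa [hXc k] at this
  have hprodpos : ∀ τ ∈ S, 0 < ∏ k, (1 + sepc R τ (X k) / (x:ℝ) ^ 2) := by
    intro τ _
    apply Finset.prod_pos
    intro k _
    have := sepc_nonneg R τ (X k)
    positivity
  have h1 : ∏ k, (1 + sepc R σ (X k) / (x:ℝ) ^ 2) ≤ S.card * (1 + ε) ^ r := by
    refine le_trans ?_ hXpot
    exact Finset.single_le_sum (f := fun τ => ∏ k, (1 + sepc R τ (X k) / (x:ℝ) ^ 2))
      (fun τ hτ => (hprodpos τ hτ).le) hσ
  have hScard : (0:ℝ) < S.card := by exact_mod_cast hS.card_pos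
  have h2 : ∑ k, Real.log (1 + sepc R σ (X k) / (x:ℝ) ^ 2) ≤ Real.log S.card + r * ε := by
    rw [← Real.log_prod (fun k _ => by have := hφ0 k; positivity)]
    calc Real.log (∏ k, (1 + sepc R σ (X k) / (x:ℝ) ^ 2))
        ≤ Real.log (S.card * (1 + ε) ^ r) := Real.log_le_log (hprodpos σ hσ) h1
      _ = Real.log S.card + r * Real.log (1 + ε) := by
          rw [Real.log_mul hScard.ne' (by positivity), Real.log_pow]
      _ ≤ Real.log S.card + r * ε := by
          have h3 : Real.log (1 + ε) ≤ ε := by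
            have := Real.log_le_sub_one_of_pos (show 0 < 1 + ε by linarith only [hε0])
            linarith
          have h4 : (0:ℝ) ≤ r := by positivity
          linarith only [mul_nonneg (sub_nonneg.2 h3) (sub_nonneg.2 h4)]
  have h3 : ∑ k, (sepc R σ (X k) / (x:ℝ) ^ 2) / 2
      ≤ ∑ k, Real.log (1 + sepc R σ (X k) / (x:ℝ) ^ 2) :=
    Finset.sum_le_sum (fun k _ => half_le_log (hφ0 k) (hφ1 k))
  rw [← Finset.sum_div, ← Finset.sum_div] at h3
  have h4 : (∑ k, sepc R σ (X k)) / (x:ℝ) ^ 2 ≤ 2 * (Real.log S.card + r * ε) := by linarith only [h3, h2]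
  rw [div_le_iff₀ (by positivity)] at h4
  linarith only [h4]

end Vale.Agent.P054
end

section

set_option autoImplicit false

open Finset

namespace Vale.Agent.P054

/-- no line of `G` crosses the trapezoid of `z` -/
theorem tra_unhit {G : Finset (ℝ × ℝ)} {z : ℝ × ℝ} (hz : Off G z) {g : ℝ × ℝ} (hg : g ∈ G) :
    ¬ Cr (tra G z) g := by
  rintro ⟨x, h1, h2, h3, h4⟩
  simp only [tra] at h1 h2 h3 h4
  have hleft : ∀ a ∈ crz G (bot G z) (top G z), a ≤ z.1 → a < x := by
    intro a ha hax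
    have h5 : a ∈ (crz G (bot G z) (top G z)).filter (fun a => a ≤ z.1) := by
      rw [mem_filter]; exact ⟨ha, hax⟩
    obtain ⟨u, hu, hu2⟩ := omax_le (k := id) h5
    have := h1 u hu
    simp only [id] at hu2
    linarith
  have hright : ∀ a ∈ crz G (bot G z) (top G z), z.1 < a → x < a := by
    intro a ha hax
    have h5 : a ∈ (crz G (bot G z) (top G z)).filter (fun a => z.1 < a) := by
      rw [mem_filter]; exact ⟨ha, hax⟩
    obtain ⟨u, hu, hu2⟩ := omin_le (k := id) h5
    have := h2 u hu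
    simp only [id] at hu2
    linarith
  -- transfer of comparisons
  have htr : ∀ c l : ℝ × ℝ, (c.1 ≠ l.1 → xc c l ∈ crz G (bot G z) (top G z)) →
      (key x c < key x l ↔ key z.1 c < key z.1 l) := by
    intro c l hcl
    rcases le_total x z.1 with hx | hx
    · apply noncross hx
      rintro hne ⟨h5, h6⟩
      have := hleft _ (hcl hne) h6
      linarith
    · symm
      apply noncross hx
      rintro hne ⟨h5, h6⟩
      have := hright _ (hcl hne) h5
      linarith
  rcases off_cases hz hg with h5 | h5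
  · -- `g` below `z`
    have h6 : g ∈ Fb G z := by unfold Fb; rw [mem_filter]; exact ⟨hg, h5⟩
    obtain ⟨c, hc, hc2⟩ := omax_le (k := key z.1) h6
    have h7 : key x c < key x g := by rw [key_lt]; left; exact h3 c hc
    rw [htr c g (fun hne => mem_union_left _ (mem_crs.mpr ⟨c, hc, g, hg, hne, rfl⟩))] at h7
    exact absurd h7 (not_lt.mpr hc2)
  · have h6 : g ∈ Ft G z := by unfold Ft; rw [mem_filter]; exact ⟨hg, h5⟩
    obtain ⟨c, hc, hc2⟩ := omin_le (k := key z.1) h6
    have h7 : key x g < key x c := by rw [key_lt]; left; exact h4 c hc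
    rw [htr g c (fun hne => mem_union_right _ (mem_crs.mpr ⟨c, hc, g, hg, hne.symm, xc_symm _ _⟩))] at h7
    exact absurd h7 (not_lt.mpr hc2)

/-- a line through `z` crosses the trapezoid of `z` -/
theorem tra_hit {G : Finset (ℝ × ℝ)} {z : ℝ × ℝ} {l : ℝ × ℝ} (hl : Onl l z) :
    Cr (tra G z) l := by
  unfold Onl at hl
  have h1 : ∀ᶠ x in nhdsWithin z.1 (Set.Ioi z.1), ∀ a ∈ rgt G z, x < a := by
    rcases h : rgt G z with _ | a
    · simp
    · have h2 : z.1 < a := lt_rgt (by rw [h]; rfl)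
      filter_upwards [mem_nhdsWithin_of_mem_nhds (Iio_mem_nhds h2)] with x hx
      intro a' ha'
      rw [Option.mem_some_iff] at ha'
      rw [← ha']; exact hx
  have hcont : ∀ c c' : ℝ × ℝ, c.1 * z.1 + c.2 < c'.1 * z.1 + c'.2 →
      ∀ᶠ x in nhdsWithin z.1 (Set.Ioi z.1), c.1 * x + c.2 < c'.1 * x + c'.2 := by
    intro c c' h
    have h2 : ∀ᶠ x in nhds z.1, c.1 * x + c.2 < c'.1 * x + c'.2 :=
      (ContinuousAt.eventually_lt (by fun_prop) (by fun_prop) h)
    exact mem_nhdsWithin_of_mem_nhds h2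
  have h2 : ∀ᶠ x in nhdsWithin z.1 (Set.Ioi z.1), ∀ c ∈ bot G z, c.1 * x + c.2 < l.1 * x + l.2 := by
    rcases h : bot G z with _ | c
    · simp
    · have h3 := (bot_lt (G := G) (z := z) (c := c) (by rw [h]; rfl)).2
      rw [hl] at h3
      filter_upwards [hcont c l h3] with x hx
      intro a' ha'
      rw [Option.mem_some_iff] at ha'
      rw [← ha']; exact hx
  have h3 : ∀ᶠ x in nhdsWithin z.1 (Set.Ioi z.1), ∀ c ∈ top G z, l.1 * x + l.2 < c.1 * x + c.2 := by
    rcases h : top G z with _ | c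
    · simp
    · have h3 := (lt_top' (G := G) (z := z) (c := c) (by rw [h]; rfl)).2
      rw [hl] at h3
      filter_upwards [hcont l c h3] with x hx
      intro a' ha'
      rw [Option.mem_some_iff] at ha'
      rw [← ha']; exact hx
  obtain ⟨x, ⟨hx1, hx2, hx3⟩, hx4⟩ := ((h1.and (h2.and h3)).and self_mem_nhdsWithin).exists
  refine ⟨x, ?_, hx1, hx2, hx3⟩
  intro a ha
  have h5 : a ≤ z.1 := lft_le ha
  have h6 : z.1 < x := hx4
  linarith

/-- labels of trapezoids -/
abbrev Lab : Type := (Bool × (ℝ × ℝ) × (ℝ × ℝ)) ⊕ Option (ℝ × ℝ)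

def Rel (G : Finset (ℝ × ℝ)) (k : Lab) (z : ℝ × ℝ) : Prop :=
  match k with
  | Sum.inl (true, c, l) => bot G z = some c ∧ lft G z = some (xc c l)
  | Sum.inl (false, c, l) => top G z = some c ∧ lft G z = some (xc c l)
  | Sum.inr b => bot G z = b ∧ lft G z = none

theorem rel_congr {G : Finset (ℝ × ℝ)} {k : Lab} {z z' : ℝ × ℝ} (hz : Off G z) (hz' : Off G z')
    (h : Rel G k z) (h' : Rel G k z') : tra G z = tra G z' := by
  rcases k with ⟨b, c, l⟩ | b
  · cases b
    · exact tra_congr hz hz' (h.2.trans h'.2.symm) (Or.inr (h.1.trans h'.1.symm))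
    · exact tra_congr hz hz' (h.2.trans h'.2.symm) (Or.inl (h.1.trans h'.1.symm))
  · exact tra_congr hz hz' (h.2.trans h'.2.symm) (Or.inl (h.1.trans h'.1.symm))

open scoped Classical in
noncomputable def labs (G : Finset (ℝ × ℝ)) : Finset Lab :=
  (Finset.univ ×ˢ (G ×ˢ G)).disjSum (Finset.insertNone G)

theorem card_labs (G : Finset (ℝ × ℝ)) : (labs G).card = 2 * G.card ^ 2 + (G.card + 1) := by
  unfold labs
  rw [Finset.card_disjSum, card_product, card_product, Finset.card_insertNone, Finset.card_univ,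
    Fintype.card_bool]
  ring

theorem exists_rel {G : Finset (ℝ × ℝ)} (z : ℝ × ℝ) : ∃ k ∈ labs G, Rel G k z := by
  rcases h : lft G z with _ | a
  · refine ⟨Sum.inr (bot G z), ?_, rfl, h⟩
    unfold labs
    rw [Finset.inr_mem_disjSum, Finset.mem_insertNone]
    intro c hc
    exact (bot_lt hc).1
  · have h1 : a ∈ lft G z := by rw [h]; rfl
    have h2 := (mem_filter.mp (omax_mem h1)).1
    unfold crz at h2
    rcases mem_union.mp h2 with h3 | h3
    · obtain ⟨c, hc, l, hl, hne, hx⟩ := mem_crs.mp h3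
      refine ⟨Sum.inl (true, c, l), ?_, hc, ?_⟩
      · unfold labs
        rw [Finset.inl_mem_disjSum, mem_product, mem_product]
        exact ⟨mem_univ _, (bot_lt hc).1, hl⟩
      · rw [h, hx]
    · obtain ⟨c, hc, l, hl, hne, hx⟩ := mem_crs.mp h3
      refine ⟨Sum.inl (false, c, l), ?_, hc, ?_⟩
      · unfold labs
        rw [Finset.inl_mem_disjSum, mem_product, mem_product]
        exact ⟨mem_univ _, (lt_top' hc).1, hl⟩
      · rw [h, hx]

open scoped Classical in
/-- all trapezoids determined by `L` -/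
noncomputable def allTra (L : Finset (ℝ × ℝ)) :
    Finset (Option (ℝ × ℝ) × Option (ℝ × ℝ) × Option ℝ × Option ℝ) :=
  (Finset.insertNone L) ×ˢ ((Finset.insertNone L) ×ˢ
    ((Finset.insertNone ((L ×ˢ L).image (fun p => xc p.1 p.2))) ×ˢ
      (Finset.insertNone ((L ×ˢ L).image (fun p => xc p.1 p.2)))))

theorem card_allTra (L : Finset (ℝ × ℝ)) : (allTra L).card ≤ (L.card + 1) ^ 6 := by
  unfold allTra
  rw [card_product, card_product, card_product, Finset.card_insertNone, Finset.card_insertNone]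
  have h1 : ((L ×ˢ L).image (fun p => xc p.1 p.2)).card ≤ L.card ^ 2 := by
    refine card_image_le.trans ?_
    rw [card_product, pow_two]
  have h2 : ((L ×ˢ L).image (fun p => xc p.1 p.2)).card + 1 ≤ (L.card + 1) ^ 2 := by
    have : (L.card + 1) ^ 2 = L.card ^ 2 + 2 * L.card + 1 := by ring
    omega
  calc (L.card + 1) * ((L.card + 1) *
        ((((L ×ˢ L).image (fun p => xc p.1 p.2)).card + 1) *
          (((L ×ˢ L).image (fun p => xc p.1 p.2)).card + 1)))
      ≤ (L.card + 1) * ((L.card + 1) * ((L.card + 1) ^ 2 * (L.card + 1) ^ 2)) := by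
        gcongr
    _ = (L.card + 1) ^ 6 := by ring

theorem tra_mem_allTra {L G : Finset (ℝ × ℝ)} (hG : G ⊆ L) (z : ℝ × ℝ) :
    tra G z ∈ allTra L := by
  have hcr : ∀ a ∈ crz G (bot G z) (top G z), a ∈ (L ×ˢ L).image (fun p => xc p.1 p.2) := by
    intro a ha
    unfold crz at ha
    rcases mem_union.mp ha with h | h
    · obtain ⟨c, hc, l, hl, _, hx⟩ := mem_crs.mp h
      rw [mem_image]
      exact ⟨(c, l), mem_product.mpr ⟨hG (bot_lt hc).1, hG hl⟩, hx⟩
    · obtain ⟨c, hc, l, hl, _, hx⟩ := mem_crs.mp h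
      rw [mem_image]
      exact ⟨(c, l), mem_product.mpr ⟨hG (lt_top' hc).1, hG hl⟩, hx⟩
  unfold allTra tra
  rw [mem_product, mem_product, mem_product, mem_insertNone, mem_insertNone, mem_insertNone,
    mem_insertNone]
  refine ⟨fun c hc => hG (bot_lt hc).1, fun c hc => hG (lt_top' hc).1, ?_, ?_⟩
  · intro a ha
    exact hcr a (mem_filter.mp (omax_mem ha)).1
  · intro a ha
    exact hcr a (mem_filter.mp (omin_mem ha)).1

end Vale.Agent.P054
end
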