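import Mathlib
import Vale.Agent.P054.BdN.N2

set_option linter.all false

section

/-! Block L2 (two lines lemma) of P054: definitions. -/

set_option linter.all false
set_option autoImplicit false

namespace Vale.Agent.P054.L2

open Finset MvPolynomial

abbrev V3 := Fin 3 → ℝ

/-- squared distance -/
def sqd (a b : V3) : ℝ := ∑ k, (a k - b k) ^ 2

/-- the point with parameter `t` on the line through `p` with direction `v` -/
def lpt (p v : V3) (t : ℝ) : V3 := p + t • v

/-- the line as a set -/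
def lineSet (p v : V3) : Set V3 := Set.range (lpt p v)

/-- the weight of a pair of pieces with `x` and `y` points -/
def psi (x y : ℕ) : ℕ := if 2 ≤ x ∧ 2 ≤ y then x * y * min x y else 0

/-- `0, 1 ↦ 0` (first line), `2, 3 ↦ 1` (second line) -/
def trk (i : Fin 4) : Fin 2 := if i.val < 2 then 0 else 1

open scoped Classical in
/-- Data of the two lines lemma. `X 0` = first source set, `X 1` = first target set, `X 2`, `X 3`
the second source and target set. For `g ∈ G`: four lines `t ↦ lpt (p i g) (v i g) t`; the `T 0 g`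
are the parameters of matched pairs on the first line, `T 1 g` on the second line. -/
structure L2D (B : ℕ) (ι : Type) where
  G : Finset ι
  X : Fin 4 → Finset V3
  p : Fin 4 → ι → V3
  v : Fin 4 → ι → V3
  T : Fin 2 → ι → Finset ℝ
  hv : ∀ i, ∀ g ∈ G, v i g ≠ 0
  hX : ∀ i, ∀ g ∈ G, ∀ t ∈ T (trk i) g, lpt (p i g) (v i g) t ∈ X i
  hiso : ∀ g ∈ G, ∀ t ∈ T 0 g, ∀ s ∈ T 1 g,
    sqd (lpt (p 0 g) (v 0 g) t) (lpt (p 2 g) (v 2 g) s) =
      sqd (lpt (p 1 g) (v 1 g) t) (lpt (p 3 g) (v 3 g) s)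
  hJ : ∀ S₁ S₂ : Finset (V3 × V3),
    (G.filter (fun g =>
      2 ≤ ((T 0 g).filter (fun t =>
        (lpt (p 0 g) (v 0 g) t, lpt (p 1 g) (v 1 g) t) ∈ S₁)).card ∧
      2 ≤ ((T 1 g).filter (fun t =>
        (lpt (p 2 g) (v 2 g) t, lpt (p 3 g) (v 3 g) t) ∈ S₂)).card)).card
      ≤ B * (S₁.card * S₂.card)

/-- the weighted number of elements of `G` -/
def L2D.wt {B : ℕ} {ι : Type} (D : L2D B ι) : ℝ :=
  ∑ g ∈ D.G, (psi (D.T 0 g).card (D.T 1 g).card : ℝ)

/-- the product of the four cardinalities -/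
def L2D.N {B : ℕ} {ι : Type} (D : L2D B ι) : ℕ := ∏ i, (D.X i).card

/-- restriction of the data to fewer `g`, fewer parameters and smaller sets -/
def L2D.restrict {B : ℕ} {ι : Type} (D : L2D B ι) (G' : Finset ι) (hG : G' ⊆ D.G)
    (X' : Fin 4 → Finset V3) (T' : Fin 2 → ι → Finset ℝ)
    (hT : ∀ k, ∀ g ∈ G', T' k g ⊆ D.T k g)
    (hX : ∀ i, ∀ g ∈ G', ∀ t ∈ T' (trk i) g, lpt (D.p i g) (D.v i g) t ∈ X' i) : L2D B ι where
  G := G'
  X := X'
  p := D.p
  v := D.v
  T := T'
  hv := fun i g hg => D.hv i g (hG hg)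
  hX := hX
  hiso := fun g hg t ht s hs => D.hiso g (hG hg) t (hT 0 g hg ht) s (hT 1 g hg hs)
  hJ := by
    classical
    intro S₁ S₂
    refine le_trans (Finset.card_le_card ?_) (D.hJ S₁ S₂)
    intro g hg
    rw [Finset.mem_filter] at hg ⊢
    refine ⟨hG hg.1, le_trans hg.2.1 (Finset.card_le_card ?_),
      le_trans hg.2.2 (Finset.card_le_card ?_)⟩
    · exact Finset.filter_subset_filter _ (hT 0 g hg.1)
    · exact Finset.filter_subset_filter _ (hT 1 g hg.1)

/-- orthonormal frame of length `f` -/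
def ONF {f : ℕ} (e : Fin f → V3) : Prop :=
  ∀ i j, ∑ k, e i k * e j k = if i = j then (1 : ℝ) else 0

/-- coordinates with respect to the frame `e` at the point `o` -/
def coord {f : ℕ} (o : V3) (e : Fin f → V3) (x : V3) : Fin f → ℝ :=
  fun i => ∑ k, (x k - o k) * e i k

/-- the point with coordinates `y` -/
def emb {f : ℕ} (o : V3) (e : Fin f → V3) (y : Fin f → ℝ) : V3 := o + ∑ i, y i • e i

/-- `X` lies in the flat of dimension `f` with frame `(o, e)` -/
def InFlat {f : ℕ} (o : V3) (e : Fin f → V3) (X : Finset V3) : Prop :=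
  ONF e ∧ ∀ x ∈ X, emb o e (coord o e x) = x

/-- `X` lies in some flat of dimension `f` -/
def OnFlat (f : ℕ) (X : Finset V3) : Prop := ∃ (o : V3) (e : Fin f → V3), InFlat o e X

/-- the bound for all data with `X i` in a flat of dimension `f i` -/
def Claim (B : ℕ) (f : Fin 4 → ℕ) (ε C : ℝ) : Prop :=
  ∀ (ι : Type) (D : L2D B ι), (∀ i, OnFlat (f i) (D.X i)) → D.wt ≤ C * (D.N : ℝ) ^ (1 + ε)

/-- the bound is known for all smaller dimension types -/
def LowClaims (B : ℕ) (f : Fin 4 → ℕ) (ε : ℝ) : Prop :=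
  ∀ f' : Fin 4 → ℕ, (∀ i, 1 ≤ f' i ∧ f' i ≤ f i) → f' ≠ f → ∃ C : ℝ, 0 ≤ C ∧ Claim B f' ε C

end Vale.Agent.P054.L2
end

section

/-! Block L2, leaf FRAMES: elementary facts on flats and frames. -/

set_option linter.all false
set_option autoImplicit false

namespace Vale.Agent.P054.L2

open Finset MvPolynomial

theorem fr687_full (e : Fin 3 → V3) (he : ONF e) (o x : V3) : emb o e (coord o e x) = x := by
  let M : Matrix (Fin 3) (Fin 3) ℝ := Matrix.of e
  have h1 : M * M.transpose = 1 := by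
    ext i j
    rw [Matrix.mul_apply, Matrix.one_apply]
    exact he i j
  have h2 : M.transpose * M = 1 := mul_eq_one_comm.1 h1
  have h3 : ∀ k l, ∑ i, e i k * e i l = if k = l then (1 : ℝ) else 0 := by
    intro k l
    have h4 := congrFun (congrFun h2 k) l
    rw [Matrix.mul_apply, Matrix.one_apply] at h4
    exact h4
  funext l
  simp only [emb, coord, Pi.add_apply, Finset.sum_apply, Pi.smul_apply, smul_eq_mul]
  have h5 : ∑ i, (∑ k, (x k - o k) * e i k) * e i l = x l - o l := by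
    simp only [Finset.sum_mul]
    rw [Finset.sum_comm]
    have h6 : ∀ k, ∑ i, (x k - o k) * e i k * e i l = (x k - o k) * if k = l then (1 : ℝ) else 0 := by
      intro k
      rw [← h3, Finset.mul_sum]
      exact Finset.sum_congr rfl fun i _ => by ring
    simp only [h6, mul_ite, mul_one, mul_zero, Finset.sum_ite_eq', Finset.mem_univ, if_true]
  rw [h5]
  ring

theorem onFlat_three (X : Finset V3) : OnFlat 3 X := by
  have he : ONF (fun i : Fin 3 => (Pi.single i 1 : V3)) := by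
    intro i j
    simp only [Pi.single_apply, mul_ite, mul_one, mul_zero, Finset.sum_ite_eq', Finset.mem_univ, if_true]
    by_cases h : i = j
    · subst h; simp
    · rw [if_neg h, if_neg (fun h1 => h h1.symm)]
  exact ⟨0, _, he, fun x _ => fr687_full _ he 0 x⟩

theorem fr687_pos (v : V3) (hv : v ≠ 0) : 0 < ∑ k, v k * v k := by
  obtain ⟨k, hk⟩ : ∃ k, v k ≠ 0 := by
    by_contra h
    push Not at h
    exact hv (funext h)
  refine Finset.sum_pos' (fun i _ => mul_self_nonneg _) ⟨k, Finset.mem_univ _, ?_⟩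
  exact mul_self_pos.2 hk

theorem onFlat_line (p v : V3) (hv : v ≠ 0) (X : Finset V3) (h : ∀ x ∈ X, x ∈ lineSet p v) :
    OnFlat 1 X := by
  have hpos := fr687_pos v hv
  set r := Real.sqrt (∑ k, v k * v k) with hr
  have hr0 : 0 < r := Real.sqrt_pos.2 hpos
  have hr2 : r * r = ∑ k, v k * v k := Real.mul_self_sqrt hpos.le
  refine ⟨p, fun _ => r⁻¹ • v, ?_, ?_⟩
  · intro i j
    rw [if_pos (Subsingleton.elim i j)]
    simp only [Pi.smul_apply, smul_eq_mul]
    have h1 : ∀ k, r⁻¹ * v k * (r⁻¹ * v k) = (r⁻¹ * r⁻¹) * (v k * v k) := fun k => by ring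
    simp only [h1]
    rw [← Finset.mul_sum, ← hr2]
    field_simp
  · intro x hx
    obtain ⟨t, rfl⟩ := h x hx
    funext l
    simp only [emb, coord, lpt, Pi.add_apply, Finset.sum_apply, Pi.smul_apply, smul_eq_mul, Finset.univ_unique,
      Finset.sum_singleton]
    have h1 : ∀ k, (p k + t * v k - p k) * (r⁻¹ * v k) = (t * r⁻¹) * (v k * v k) := fun k => by ring
    simp only [h1]
    rw [← Finset.mul_sum, ← hr2]
    field_simp

theorem fr687_perp (n : V3) (hn : n ≠ 0) : ∃ e : Fin 3 → V3, ONF e ∧ ∃ r : ℝ, r ≠ 0 ∧ n = r • e 2 := by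
  have hpos := fr687_pos n hn
  set r := Real.sqrt (∑ k, n k * n k) with hr
  have hr0 : 0 < r := Real.sqrt_pos.2 hpos
  have hr2 : r * r = ∑ k, n k * n k := Real.mul_self_sqrt hpos.le
  let E := EuclideanSpace ℝ (Fin 3)
  let a : E := WithLp.toLp 2 (r⁻¹ • n)
  have hin : ∀ x y : E, inner ℝ x y = ∑ k, x k * y k := by
    intro x y
    rw [PiLp.inner_apply]
    exact Finset.sum_congr rfl fun k _ => by
      simp [mul_comm]
  have ha : ‖a‖ = 1 := by
    have h1 : ‖a‖ ^ 2 = 1 := by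
      rw [← real_inner_self_eq_norm_sq, hin]
      have h1 : ∀ k, a k * a k = (r⁻¹ * r⁻¹) * (n k * n k) := fun k => by
        change (r⁻¹ * n k) * (r⁻¹ * n k) = _
        ring
      simp only [h1]
      rw [← Finset.mul_sum, ← hr2]
      field_simp
    nlinarith [norm_nonneg a]
  have ho : Orthonormal ℝ (({2} : Set (Fin 3)).restrict (fun _ : Fin 3 => a)) := by
    constructor
    · intro i
      exact ha
    · intro i j hij
      exact absurd (Subsingleton.elim i j) hij
  obtain ⟨b, hb⟩ := Orthonormal.exists_orthonormalBasis_extension_of_card_eq (𝕜 := ℝ) (E := E) (ι := Fin 3)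
    (by simp [E]) ho
  refine ⟨fun i k => b i k, ?_, r, hr0.ne', ?_⟩
  · intro i j
    rw [← hin]
    exact orthonormal_iff_ite.1 b.orthonormal i j
  · have h2 := hb 2 (Set.mem_singleton _)
    funext k
    simp only [Pi.smul_apply, smul_eq_mul, h2]
    change n k = r * (r⁻¹ * n k)
    field_simp

theorem onFlat_plane (n : V3) (hn : n ≠ 0) (c : ℝ) (X : Finset V3)
    (h : ∀ x ∈ X, ∑ k, n k * x k = c) : OnFlat 2 X := by
  obtain ⟨e, he, r, hr, hnr⟩ := fr687_perp n hn
  let o : V3 := (c / r) • e 2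
  have ho : ∀ x ∈ X, ∑ k, (x k - o k) * e 2 k = 0 := by
    intro x hx
    have h1 := h x hx
    have h2 := he 2 2
    rw [if_pos rfl] at h2
    have h3 : ∑ k, (x k - o k) * e 2 k = r⁻¹ * (∑ k, n k * x k) - (c / r) * ∑ k, e 2 k * e 2 k := by
      rw [Finset.mul_sum, Finset.mul_sum, ← Finset.sum_sub_distrib]
      refine Finset.sum_congr rfl fun k _ => ?_
      change (x k - (c / r) * e 2 k) * e 2 k = _
      have h4 : n k = r * e 2 k := by
        conv_lhs => rw [hnr]
        rfl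
      rw [h4]
      field_simp
    rw [h3, h1, h2]
    field_simp
    ring
  refine ⟨o, fun i : Fin 2 => e i.castSucc, ?_, ?_⟩
  · intro i j
    rw [he]
    simp only [Fin.castSucc_inj]
  · intro x hx
    have h1 := fr687_full e he o x
    conv_rhs => rw [← h1]
    unfold emb
    rw [Fin.sum_univ_castSucc (n := 2)]
    have h2 : coord o e x (Fin.last 2) = 0 := ho x hx
    rw [h2, zero_smul, add_zero]
    rfl

theorem OnFlat.mono {f : ℕ} {X Y : Finset V3} (h : OnFlat f Y) (hXY : X ⊆ Y) : OnFlat f X := by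
  obtain ⟨o, e, he, hx⟩ := h
  exact ⟨o, e, he, fun x hx' => hx x (hXY hx')⟩

theorem coord_emb {f : ℕ} (o : V3) (e : Fin f → V3) (he : ONF e) (y : Fin f → ℝ) :
    coord o e (emb o e y) = y := by
  funext i
  simp only [emb, coord, Pi.add_apply, Finset.sum_apply, Pi.smul_apply, smul_eq_mul, add_sub_cancel_left, Finset.sum_mul]
  rw [Finset.sum_comm]
  have h1 : ∀ j, ∑ k, y j * e j k * e i k = y j * if j = i then (1 : ℝ) else 0 := by
    intro j
    rw [← he j i, Finset.mul_sum]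
    exact Finset.sum_congr rfl fun k _ => by ring
  simp only [h1, mul_ite, mul_one, mul_zero, Finset.sum_ite_eq', Finset.mem_univ, if_true]

/-- coordinates along a line are affine in the parameter -/
theorem coord_lpt {f : ℕ} (o : V3) (e : Fin f → V3) (p v : V3) (t : ℝ) :
    coord o e (lpt p v t) = coord o e p + t • (fun i => ∑ k, v k * e i k) := by
  funext i
  simp only [coord, lpt, Pi.add_apply, Pi.smul_apply, smul_eq_mul]
  rw [Finset.mul_sum, ← Finset.sum_add_distrib]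
  exact Finset.sum_congr rfl fun k _ => by ring

/-- if a line has two points in a flat, it lies in the flat, and its direction in coordinates
is nonzero -/
theorem line_in_flat {f : ℕ} (o : V3) (e : Fin f → V3) (he : ONF e) (p v : V3) (hv : v ≠ 0)
    (t₁ t₂ : ℝ) (ht : t₁ ≠ t₂) (h₁ : emb o e (coord o e (lpt p v t₁)) = lpt p v t₁)
    (h₂ : emb o e (coord o e (lpt p v t₂)) = lpt p v t₂) :
    (∀ t, emb o e (coord o e (lpt p v t)) = lpt p v t) ∧
      (fun i => ∑ k, v k * e i k : Fin f → ℝ) ≠ 0 := by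
  set w : Fin f → ℝ := fun i => ∑ k, v k * e i k with hw
  have key : ∀ t l, emb o e (coord o e (lpt p v t)) l = (o l + ∑ i, coord o e p i * e i l) + t * ∑ i, w i * e i l := by
    intro t l
    rw [coord_lpt]
    simp only [emb, Pi.add_apply, Finset.sum_apply, Pi.smul_apply, smul_eq_mul]
    rw [Finset.mul_sum, add_assoc, ← Finset.sum_add_distrib]
    congr 1
    exact Finset.sum_congr rfl fun i _ => by ring
  have hD : ∀ l, ∑ i, w i * e i l = v l := by
    intro l
    have h3 := key t₁ l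
    have h4 := key t₂ l
    rw [h₁] at h3
    rw [h₂] at h4
    simp only [lpt, Pi.add_apply, Pi.smul_apply, smul_eq_mul] at h3 h4
    have h5 : (t₁ - t₂) * (∑ i, w i * e i l) = (t₁ - t₂) * v l := by linarith
    exact mul_left_cancel₀ (sub_ne_zero.2 ht) h5
  have hC : ∀ l, o l + ∑ i, coord o e p i * e i l = p l := by
    intro l
    have h3 := key t₁ l
    rw [h₁, hD] at h3
    simp only [lpt, Pi.add_apply, Pi.smul_apply, smul_eq_mul] at h3
    linarith
  constructor
  · intro t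
    funext l
    rw [key, hD, hC]
    simp [lpt]
  · intro h0
    apply hv
    funext l
    rw [← hD l]
    simp only [h0, Pi.zero_apply, zero_mul, Finset.sum_const_zero]

theorem fr687_deg {f : ℕ} (L : Fin f → MvPolynomial (Fin 3) ℝ) (hL : ∀ i, (L i).totalDegree ≤ 1)
    (F : MvPolynomial (Fin f) ℝ) : (aeval L F).totalDegree ≤ F.totalDegree := by
  rw [aeval_def, eval₂_eq]
  refine totalDegree_finsetSum_le fun m hm => ?_
  refine (totalDegree_mul _ _).trans ?_
  rw [algebraMap_eq, totalDegree_C, zero_add]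
  refine (totalDegree_finsetProd _ _).trans ?_
  refine le_trans (Finset.sum_le_sum fun i _ => (totalDegree_pow (L i) (m i)).trans
    (Nat.mul_le_mul_left _ (hL i))) ?_
  simp only [mul_one]
  exact le_totalDegree hm

/-- pullback of a nonzero polynomial along coordinates -/
theorem exists_pullback {f : ℕ} (o : V3) (e : Fin f → V3) (he : ONF e)
    (F : MvPolynomial (Fin f) ℝ) (hF : F ≠ 0) :
    ∃ F' : MvPolynomial (Fin 3) ℝ, F' ≠ 0 ∧ F'.totalDegree ≤ F.totalDegree ∧
      ∀ x : V3, eval x F' = eval (coord o e x) F := by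
  let L : Fin f → MvPolynomial (Fin 3) ℝ := fun i => ∑ k, (X k - C (o k)) * C (e i k)
  have hL : ∀ i, (L i).totalDegree ≤ 1 := by
    intro i
    refine totalDegree_finsetSum_le fun k _ => ?_
    refine (totalDegree_mul _ _).trans ?_
    rw [totalDegree_C, add_zero]
    refine (totalDegree_sub _ _).trans ?_
    rw [totalDegree_X, totalDegree_C]
    simp
  have hev : ∀ x : V3, eval x (aeval L F) = eval (coord o e x) F := by
    intro x
    have h1 : eval x (aeval L F) = eval₂ (RingHom.id ℝ) (fun i => eval x (L i)) F := by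
      rw [aeval_def, ← coe_eval₂Hom, ← coe_eval₂Hom]
      have h2 : ((eval x).comp (eval₂Hom (algebraMap ℝ (MvPolynomial (Fin 3) ℝ)) L)) =
          eval₂Hom (RingHom.id ℝ) (fun i => eval x (L i)) := by
        apply MvPolynomial.ringHom_ext
        · intro r
          simp
        · intro i
          simp
      exact congrArg (fun g => g F) h2
    rw [h1]
    have h3 : (fun i => eval x (L i)) = coord o e x := by
      funext i
      simp [L, coord]
    rw [h3]
    rfl
  refine ⟨aeval L F, ?_, fr687_deg L hL F, hev⟩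
  intro h0
  apply hF
  apply MvPolynomial.funext
  intro y
  rw [map_zero]
  have h1 := hev (emb o e y)
  rw [coord_emb o e he, h0, map_zero] at h1
  exact h1.symm

end Vale.Agent.P054.L2
end

section

/-! Block L3 = generalised two lines lemma of P054: threshold `K`, base exponent `1 + e₀`. -/

set_option linter.all false
set_option autoImplicit false

namespace Vale.Agent.P054.L3

open Finset MvPolynomial
open Vale.Agent.P054.L2 (V3 sqd lpt lineSet trk ONF coord emb InFlat OnFlat)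

/-- the weight of a pair of pieces with `x` and `y` points, threshold `K` -/
def psi (K x y : ℕ) : ℕ := if K ≤ x ∧ K ≤ y then x * y * min x y else 0

open scoped Classical in
/-- Data of the two lines lemma. `X 0` = first source set, `X 1` = first target set, `X 2`, `X 3`
the second source and target set. For `g ∈ G`: four lines `t ↦ lpt (p i g) (v i g) t`; the `T 0 g`
are the parameters of matched pairs on the first line, `T 1 g` on the second line. -/
structure L2D (K : ℕ) (B e₀ : ℝ) (ι : Type) where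
  G : Finset ι
  X : Fin 4 → Finset V3
  p : Fin 4 → ι → V3
  v : Fin 4 → ι → V3
  T : Fin 2 → ι → Finset ℝ
  hv : ∀ i, ∀ g ∈ G, v i g ≠ 0
  hX : ∀ i, ∀ g ∈ G, ∀ t ∈ T (trk i) g, lpt (p i g) (v i g) t ∈ X i
  hiso : ∀ g ∈ G, ∀ t ∈ T 0 g, ∀ s ∈ T 1 g,
    sqd (lpt (p 0 g) (v 0 g) t) (lpt (p 2 g) (v 2 g) s) =
      sqd (lpt (p 1 g) (v 1 g) t) (lpt (p 3 g) (v 3 g) s)
  hJ : ∀ S₁ S₂ : Finset (V3 × V3),
    ((G.filter (fun g =>
      K ≤ ((T 0 g).filter (fun t =>
        (lpt (p 0 g) (v 0 g) t, lpt (p 1 g) (v 1 g) t) ∈ S₁)).card ∧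
      K ≤ ((T 1 g).filter (fun t =>
        (lpt (p 2 g) (v 2 g) t, lpt (p 3 g) (v 3 g) t) ∈ S₂)).card)).card : ℝ)
      ≤ B * ((S₁.card * S₂.card : ℕ) : ℝ) ^ (1 + e₀)

/-- the weighted number of elements of `G` -/
def L2D.wt {K : ℕ} {B e₀ : ℝ} {ι : Type} (D : L2D K B e₀ ι) : ℝ :=
  ∑ g ∈ D.G, (psi K (D.T 0 g).card (D.T 1 g).card : ℝ)

/-- the product of the four cardinalities -/
def L2D.N {K : ℕ} {B e₀ : ℝ} {ι : Type} (D : L2D K B e₀ ι) : ℕ := ∏ i, (D.X i).card

/-- restriction of the data to fewer `g`, fewer parameters and smaller sets -/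
def L2D.restrict {K : ℕ} {B e₀ : ℝ} {ι : Type} (D : L2D K B e₀ ι) (G' : Finset ι) (hG : G' ⊆ D.G)
    (X' : Fin 4 → Finset V3) (T' : Fin 2 → ι → Finset ℝ)
    (hT : ∀ k, ∀ g ∈ G', T' k g ⊆ D.T k g)
    (hX : ∀ i, ∀ g ∈ G', ∀ t ∈ T' (trk i) g, lpt (D.p i g) (D.v i g) t ∈ X' i) :
    L2D K B e₀ ι where
  G := G'
  X := X'
  p := D.p
  v := D.v
  T := T'
  hv := fun i g hg => D.hv i g (hG hg)
  hX := hX
  hiso := fun g hg t ht s hs => D.hiso g (hG hg) t (hT 0 g hg ht) s (hT 1 g hg hs)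
  hJ := by
    classical
    intro S₁ S₂
    refine le_trans (Nat.cast_le.2 (Finset.card_le_card ?_)) (D.hJ S₁ S₂)
    intro g hg
    rw [Finset.mem_filter] at hg ⊢
    refine ⟨hG hg.1, le_trans hg.2.1 (Finset.card_le_card ?_),
      le_trans hg.2.2 (Finset.card_le_card ?_)⟩
    · exact Finset.filter_subset_filter _ (hT 0 g hg.1)
    · exact Finset.filter_subset_filter _ (hT 1 g hg.1)

/-- the bound for all data with `X i` in a flat of dimension `f i` -/
def Claim (K : ℕ) (B e₀ : ℝ) (f : Fin 4 → ℕ) (ε C : ℝ) : Prop :=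
  ∀ (ι : Type) (D : L2D K B e₀ ι), (∀ i, OnFlat (f i) (D.X i)) →
    D.wt ≤ C * (D.N : ℝ) ^ (1 + ε)

/-- the bound is known for all smaller dimension types -/
def LowClaims (K : ℕ) (B e₀ : ℝ) (f : Fin 4 → ℕ) (ε : ℝ) : Prop :=
  ∀ f' : Fin 4 → ℕ, (∀ i, 1 ≤ f' i ∧ f' i ≤ f i) → f' ≠ f →
    ∃ C : ℝ, 0 ≤ C ∧ Claim K B e₀ f' ε C

/-- the base bound: few points on one of the two lines -/
def BaseClaim (K : ℕ) (B e₀ ε : ℝ) : Prop :=
  ∀ K' : ℕ, ∃ C' : ℝ, 0 ≤ C' ∧ ∀ (ι : Type) (D : L2D K B e₀ ι),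
    (∀ g ∈ D.G, (D.T 0 g).card < K' ∨ (D.T 1 g).card < K') → D.wt ≤ C' * (D.N : ℝ) ^ (1 + ε)

end Vale.Agent.P054.L3
end

section

set_option autoImplicit false

open Finset

namespace Vale.Agent.P054

open scoped Classical in
/-- the set of distances determined by a finite point set -/
noncomputable def distances {d : ℕ} (P : Finset (EuclideanSpace ℝ (Fin d))) : Finset ℝ :=
  P.offDiag.image (fun pq => dist pq.1 pq.2)

/-- strict sign vectors of the affine functions realised on the sphere of radius `r` -/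
def Realized {E : Type*} [NormedAddCommGroup E] [InnerProductSpace ℝ E] {J : Type*}
    (r : ℝ) (a : J → E) (c : J → ℝ) : Set (J → Bool) :=
  {σ | ∃ ω : E, ‖ω‖ = r ∧ ∀ j, 0 < (if σ j then (1:ℝ) else -1) * (inner ℝ (a j) ω + c j)}

/-- dual vector of a pair -/
noncomputable def dualVec {d : ℕ} (π : EuclideanSpace ℝ (Fin d) × EuclideanSpace ℝ (Fin d)) :
    EuclideanSpace ℝ (Fin d) × ℝ :=
  (π.1 - π.2, ‖π.1‖ ^ 2 - ‖π.2‖ ^ 2)

open scoped Classical in
/-- mass of a subspace -/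
noncomputable def mass {V ι : Type} [AddCommGroup V] [Module ℝ V] (I : Finset ι) (v : ι → V)
    (A : Submodule ℝ V) : ℝ :=
  ((I.filter (fun i => v i ∈ A)).card : ℝ)

/-- every set in dimension `j` with at most `t` distances has at most `g` points -/
def BoundedBy (j t : ℕ) (g : ℝ) : Prop :=
  ∀ P : Finset (EuclideanSpace ℝ (Fin j)), (distances P).card ≤ t → (P.card : ℝ) ≤ g

end Vale.Agent.P054
end

section

set_option autoImplicit false

open Finset

namespace Vale.Agent.P054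

open scoped Classical in
theorem cutting (L : Finset (ℝ × ℝ)) (hL : L.Nonempty) (s : ℕ) (hs : 1 ≤ s) :
    ∃ G ⊆ L, G.card ≤ s ∧ ∃ lab : ℝ × ℝ → Lab, (∀ z, lab z ∈ labs G) ∧
      ∀ z, Off G z → ((L.filter (fun l => ∃ z', Off G z' ∧ lab z' = lab z ∧ Onl l z')).card : ℝ) ≤
        ((6 * Real.log (L.card + 1) + 1) / s) * L.card := by
  set ε : ℝ := (6 * Real.log (L.card + 1) + 1) / s with hε
  have hs' : (0:ℝ) < s := by exact_mod_cast hs
  have hN : (1:ℝ) ≤ L.card := by exact_mod_cast hL.card_pos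
  have hlog : 0 ≤ Real.log ((L.card : ℝ) + 1) := Real.log_nonneg (by linarith)
  -- choose the sample
  have hsample : ∃ g : Fin s → ℝ × ℝ, (∀ i, g i ∈ L) ∧ ∀ τ ∈ allTra L, (∀ i, ¬ Cr τ (g i)) →
      ((L.filter (fun l => Cr τ l)).card : ℝ) ≤ ε * L.card := by
    rcases le_or_gt 1 ε with h1 | h1
    · obtain ⟨l₀, hl₀⟩ := hL
      refine ⟨fun _ => l₀, fun _ => hl₀, ?_⟩
      intro τ _ _
      have h2 : ((L.filter (fun l => Cr τ l)).card : ℝ) ≤ L.card := by
        exact_mod_cast card_filter_le _ _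
      nlinarith
    · set Bad := (allTra L).filter (fun τ => ε * L.card < ((L.filter (fun l => Cr τ l)).card : ℝ))
        with hBad
      obtain ⟨g, hg, hcard⟩ := greedy_hitting Bad L (fun _ => (1:ℝ)) (fun _ _ => one_pos) hL
        (fun l τ => Cr τ l) ε h1.le
        (fun b hb => by
          rw [hBad, mem_filter] at hb
          rw [Finset.sum_const, Finset.sum_const, nsmul_eq_mul, nsmul_eq_mul, mul_one, mul_one]
          exact (hb.2.le).trans (le_of_eq (by congr))) s
      refine ⟨g, hg, ?_⟩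
      intro τ hτ hunhit
      by_contra hcon
      push Not at hcon
      have hmem : τ ∈ Bad.filter (fun b => ∀ i, ¬ Cr b (g i)) := by
        rw [mem_filter, hBad, mem_filter]
        exact ⟨⟨hτ, hcon⟩, hunhit⟩
      have hpos : (1:ℝ) ≤ ((Bad.filter (fun b => ∀ i, ¬ Cr b (g i))).card : ℝ) := by
        exact_mod_cast Finset.card_pos.mpr ⟨_, hmem⟩
      have hBadcard : (Bad.card : ℝ) ≤ ((L.card : ℝ) + 1) ^ 6 := by
        have h2 : Bad.card ≤ (L.card + 1) ^ 6 := (card_filter_le _ _).trans (card_allTra L)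
        exact_mod_cast h2
      have hpow : (1 - ε) ^ s ≤ Real.exp (-(6 * Real.log (L.card + 1) + 1)) := by
        have h2 : 1 - ε ≤ Real.exp (-ε) := Real.one_sub_le_exp_neg ε
        calc (1 - ε) ^ s ≤ (Real.exp (-ε)) ^ s := by
              apply pow_le_pow_left₀ _ h2; linarith
          _ = Real.exp (-(6 * Real.log (L.card + 1) + 1)) := by
              rw [← Real.exp_nat_mul]
              congr 1
              rw [hε]; field_simp
      have hexp : ((L.card : ℝ) + 1) ^ 6 * Real.exp (-(6 * Real.log (L.card + 1) + 1))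
          = Real.exp (-1) := by
        have h3 : ((L.card : ℝ) + 1) ^ 6 = Real.exp (6 * Real.log (L.card + 1)) := by
          rw [mul_comm, Real.exp_mul, Real.exp_log (by linarith)]
          norm_cast
        rw [h3, ← Real.exp_add]; congr 1; ring
      have hlt : Real.exp (-1) < 1 := by
        rw [Real.exp_lt_one_iff]; norm_num
      have hε0 : 0 ≤ (1 - ε) ^ s := pow_nonneg (by linarith) s
      have : (1:ℝ) < 1 := by
        calc (1:ℝ) ≤ _ := hpos
          _ ≤ Bad.card * (1 - ε) ^ s := by convert hcard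
          _ ≤ ((L.card : ℝ) + 1) ^ 6 * (1 - ε) ^ s := by gcongr
          _ ≤ ((L.card : ℝ) + 1) ^ 6 * Real.exp (-(6 * Real.log (L.card + 1) + 1)) := by gcongr
          _ = Real.exp (-1) := hexp
          _ < 1 := hlt
      exact lt_irrefl _ this
  obtain ⟨g, hg, hunhit⟩ := hsample
  set G : Finset (ℝ × ℝ) := Finset.univ.image g with hG
  have hGL : G ⊆ L := by
    intro l hl
    rw [hG, mem_image] at hl
    obtain ⟨i, _, rfl⟩ := hl
    exact hg i
  have hGc : G.card ≤ s := by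
    refine card_image_le.trans ?_
    rw [Finset.card_univ, Fintype.card_fin]
  choose lab hlab hrel using fun z => exists_rel (G := G) z
  refine ⟨G, hGL, hGc, lab, hlab, ?_⟩
  intro z hz
  refine le_trans ?_ (hunhit (tra G z) (tra_mem_allTra hGL z) ?_)
  · have hsub : L.filter (fun l => ∃ z', Off G z' ∧ lab z' = lab z ∧ Onl l z') ⊆
        L.filter (fun l => Cr (tra G z) l) := by
      intro l hl
      rw [mem_filter] at hl ⊢
      obtain ⟨hlL, z', hz', hlz, hon⟩ := hl
      refine ⟨hlL, ?_⟩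
      have h1 : tra G z' = tra G z := by
        apply rel_congr hz' hz (hrel z')
        rw [hlz]
        exact hrel z
      rw [← h1]
      exact tra_hit hon
    exact_mod_cast card_le_card hsub
  · intro i
    apply tra_unhit hz
    rw [hG]
    exact mem_image_of_mem g (mem_univ i)

/-- two distinct lines meet in at most one point -/
theorem onl_unique {l l' z z' : ℝ × ℝ} (h : l ≠ l') (h1 : Onl l z) (h2 : Onl l' z)
    (h3 : Onl l z') (h4 : Onl l' z') : z = z' := by
  unfold Onl at *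
  have hx : (l.1 - l'.1) * (z.1 - z'.1) = 0 := by nlinarith
  rcases mul_eq_zero.mp hx with h5 | h5
  · exfalso
    apply h
    have h6 : l.1 = l'.1 := by linarith
    apply Prod.ext h6
    rw [h6] at h1
    linarith
  · have h6 : z.1 = z'.1 := by linarith
    apply Prod.ext h6
    rw [h1, h3, h6]

open scoped Classical in
/-- weight of the points of `Q` on `l` -/
noncomputable def wt (Q : Finset (ℝ × ℝ)) (μ : ℝ × ℝ → ℝ) (l : ℝ × ℝ) : ℝ :=
  ∑ z ∈ Q with Onl l z, μ z

open scoped Classical in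
theorem wt_nonneg {Q : Finset (ℝ × ℝ)} {μ : ℝ × ℝ → ℝ} (hμ0 : ∀ z ∈ Q, 0 ≤ μ z) (l : ℝ × ℝ) :
    0 ≤ wt Q μ l :=
  Finset.sum_nonneg (fun z hz => hμ0 z (mem_filter.mp hz).1)

open scoped Classical in
/-- incidence bound in one cell -/
theorem cell_bound (Q L : Finset (ℝ × ℝ)) (μ : ℝ × ℝ → ℝ) (m : ℝ)
    (hμ0 : ∀ z ∈ Q, 0 ≤ μ z) (hμ : ∀ z ∈ Q, μ z ≤ m) :
    (∑ l ∈ L, wt Q μ l) ^ 2 ≤ L.card * ((∑ z ∈ Q, μ z) ^ 2 + m * ∑ l ∈ L, wt Q μ l) := by
  have h1 : (∑ l ∈ L, wt Q μ l) ^ 2 ≤ L.card * ∑ l ∈ L, wt Q μ l ^ 2 :=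
    sq_sum_le_card_mul_sum_sq
  refine h1.trans ?_
  apply mul_le_mul_of_nonneg_left _ (by positivity)
  -- sum of squares
  have h2 : ∀ l ∈ L, wt Q μ l ^ 2 = ∑ z ∈ Q, ∑ z' ∈ Q,
      if (Onl l z ∧ Onl l z') then μ z * μ z' else 0 := by
    intro l _
    unfold wt
    rw [pow_two, Finset.sum_mul_sum, Finset.sum_filter]
    apply Finset.sum_congr rfl
    intro z _
    rw [Finset.sum_filter]
    by_cases h : Onl l z
    · simp only [h, if_true, true_and]
    · simp only [h, if_false, false_and]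
      simp
  rw [Finset.sum_congr rfl h2]
  have h3 : ∑ l ∈ L, ∑ z ∈ Q, ∑ z' ∈ Q, (if (Onl l z ∧ Onl l z') then μ z * μ z' else 0)
      = ∑ z ∈ Q, ∑ z' ∈ Q, (μ z * μ z') * ((L.filter (fun l => Onl l z ∧ Onl l z')).card : ℝ) := by
    rw [Finset.sum_comm]
    apply Finset.sum_congr rfl
    intro z _
    rw [Finset.sum_comm]
    apply Finset.sum_congr rfl
    intro z' _
    rw [← Finset.sum_filter, Finset.sum_const, nsmul_eq_mul]
    ring
  rw [h3]
  have h4 : ∀ z ∈ Q, ∀ z' ∈ Q, (μ z * μ z') * ((L.filter (fun l => Onl l z ∧ Onl l z')).card : ℝ)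
      ≤ μ z * μ z' + (if z' = z then m * (μ z * ((L.filter (fun l => Onl l z)).card : ℝ)) else 0) := by
    intro z hz z' hz'
    have h0 := hμ0 z hz
    have h0' := hμ0 z' hz'
    split_ifs with h
    · subst h
      have h5 : (L.filter (fun l => Onl l z' ∧ Onl l z')) = L.filter (fun l => Onl l z') := by
        apply Finset.filter_congr; intro l _; exact and_self_iff
      rw [h5]
      have h6 : (0:ℝ) ≤ ((L.filter (fun l => Onl l z')).card : ℝ) := by (clear * -; positivity)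
      have h7 := mul_le_mul_of_nonneg_right (hμ z' hz) (mul_nonneg h0 h6)
      linarith only [mul_nonneg h0 h0, h7]
    · have h5 : (L.filter (fun l => Onl l z ∧ Onl l z')).card ≤ 1 := by
        rw [Finset.card_le_one]
        intro a ha b hb
        by_contra hab
        have ha' := (mem_filter.mp ha).2
        have hb' := (mem_filter.mp hb).2
        exact h (onl_unique hab ha'.1 hb'.1 ha'.2 hb'.2).symm
      have h6 : ((L.filter (fun l => Onl l z ∧ Onl l z')).card : ℝ) ≤ 1 := by exact_mod_cast h5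
      have h7 := mul_le_mul_of_nonneg_left h6 (mul_nonneg h0 h0')
      linarith
  refine (Finset.sum_le_sum (fun z hz => Finset.sum_le_sum (fun z' hz' => h4 z hz z' hz'))).trans ?_
  have h5 : ∑ z ∈ Q, ∑ z' ∈ Q, (μ z * μ z' +
      (if z' = z then m * (μ z * ((L.filter (fun l => Onl l z)).card : ℝ)) else 0))
      = (∑ z ∈ Q, μ z) ^ 2 + m * ∑ z ∈ Q, μ z * ((L.filter (fun l => Onl l z)).card : ℝ) := by
    have h6 : ∀ z ∈ Q, ∑ z' ∈ Q, (μ z * μ z' +
        (if z' = z then m * (μ z * ((L.filter (fun l => Onl l z)).card : ℝ)) else 0))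
        = μ z * ∑ z' ∈ Q, μ z' + m * (μ z * ((L.filter (fun l => Onl l z)).card : ℝ)) := by
      intro z hz
      rw [Finset.sum_add_distrib, ← Finset.mul_sum, Finset.sum_ite_eq' Q z, if_pos hz]
    rw [Finset.sum_congr rfl h6, Finset.sum_add_distrib, ← Finset.sum_mul, ← Finset.mul_sum]
    ring
  rw [h5]
  have h7 : ∑ z ∈ Q, μ z * ((L.filter (fun l => Onl l z)).card : ℝ) = ∑ l ∈ L, wt Q μ l := by
    unfold wt
    have h8 : ∀ z ∈ Q, μ z * ((L.filter (fun l => Onl l z)).card : ℝ)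
        = ∑ l ∈ L, if Onl l z then μ z else 0 := by
      intro z _
      rw [← Finset.sum_filter, Finset.sum_const, nsmul_eq_mul]; ring
    rw [Finset.sum_congr rfl h8, Finset.sum_comm]
    apply Finset.sum_congr rfl
    intro l _
    rw [Finset.sum_filter]
  rw [h7]

theorem quad_le {I a b M : ℝ} (ha : 0 ≤ a) (hb : 0 ≤ b) (hM : 0 ≤ M)
    (h : I ^ 2 ≤ b ^ 2 * (M ^ 2 + a * I)) : I ≤ a * b ^ 2 + M * b := by
  by_contra hcon
  push Not at hcon
  have h1 : 0 ≤ a * b ^ 2 + M * b := by positivity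
  have hI : 0 ≤ I := h1.trans hcon.le
  linarith only [mul_nonneg (sub_nonneg.2 (mul_nonneg hM hb)) (sub_nonneg.2 (mul_nonneg ha (sq_nonneg b))), mul_nonneg (le_of_lt (sub_pos.2 hcon)) (sub_nonneg.2 (mul_nonneg ha (sq_nonneg b))), mul_nonneg (le_of_lt (sub_pos.2 hcon)) (sub_nonneg.2 (mul_nonneg hM hb)), mul_pos (sub_pos.2 hcon) (sub_pos.2 hcon), h]

end Vale.Agent.P054
end

section

set_option autoImplicit false

open Finset

namespace Vale.Agent.P054

open scoped Classical in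
theorem sum_mu_deg (Q L : Finset (ℝ × ℝ)) (μ : ℝ × ℝ → ℝ) :
    ∑ z ∈ Q, μ z * ((L.filter (fun l => Onl l z)).card : ℝ) = ∑ l ∈ L, wt Q μ l := by
  unfold wt
  have h8 : ∀ z ∈ Q, μ z * ((L.filter (fun l => Onl l z)).card : ℝ)
      = ∑ l ∈ L, if Onl l z then μ z else 0 := by
    intro z _
    rw [← Finset.sum_filter, Finset.sum_const, nsmul_eq_mul]; ring
  rw [Finset.sum_congr rfl h8, Finset.sum_comm]
  apply Finset.sum_congr rfl
  intro l _
  rw [Finset.sum_filter]

open scoped Classical in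
theorem wt_inter_le (Q : Finset (ℝ × ℝ)) (μ : ℝ × ℝ → ℝ) (m : ℝ) (hm : 0 ≤ m)
    (hμ : ∀ z ∈ Q, μ z ≤ m) (l l' : ℝ × ℝ) (h : l ≠ l') :
    ∑ z ∈ Q with (Onl l z ∧ Onl l' z), μ z ≤ m := by
  have h1 : (Q.filter (fun z => Onl l z ∧ Onl l' z)).card ≤ 1 := by
    rw [Finset.card_le_one]
    intro a ha b hb
    have ha' := (mem_filter.mp ha).2
    have hb' := (mem_filter.mp hb).2
    exact onl_unique h ha'.1 ha'.2 hb'.1 hb'.2
  rcases Finset.eq_empty_or_nonempty (Q.filter (fun z => Onl l z ∧ Onl l' z)) with h2 | h2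
  · rw [h2]; simpa using hm
  · obtain ⟨z, hz⟩ := h2
    have h3 : Q.filter (fun z => Onl l z ∧ Onl l' z) = {z} := by
      apply Finset.eq_singleton_iff_unique_mem.mpr
      refine ⟨hz, ?_⟩
      intro z' hz'
      exact (Finset.card_le_one.mp h1) z' hz' z hz
    rw [h3, Finset.sum_singleton]
    exact hμ z (mem_filter.mp hz).1

open scoped Classical in
theorem sum_mu_deg_sq (Q L : Finset (ℝ × ℝ)) (μ : ℝ × ℝ → ℝ) (m : ℝ) (hm : 0 ≤ m)
    (hμ : ∀ z ∈ Q, μ z ≤ m) :
    ∑ z ∈ Q, μ z * ((L.filter (fun l => Onl l z)).card : ℝ) ^ 2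
      ≤ ∑ l ∈ L, wt Q μ l + m * (L.card : ℝ) ^ 2 := by
  have h1 : ∀ z ∈ Q, μ z * ((L.filter (fun l => Onl l z)).card : ℝ) ^ 2
      = ∑ l ∈ L, ∑ l' ∈ L, if (Onl l z ∧ Onl l' z) then μ z else 0 := by
    intro z _
    have h2 : ((L.filter (fun l => Onl l z)).card : ℝ) = ∑ l ∈ L, if Onl l z then (1:ℝ) else 0 := by
      rw [← Finset.sum_filter, Finset.sum_const, nsmul_eq_mul, mul_one]
    rw [h2, pow_two, Finset.sum_mul_sum, Finset.mul_sum]
    apply Finset.sum_congr rfl
    intro l _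
    rw [Finset.mul_sum]
    apply Finset.sum_congr rfl
    intro l' _
    by_cases h3 : Onl l z <;> by_cases h4 : Onl l' z <;> simp [h3, h4]
  rw [Finset.sum_congr rfl h1]
  have h2 : ∑ z ∈ Q, ∑ l ∈ L, ∑ l' ∈ L, (if (Onl l z ∧ Onl l' z) then μ z else 0)
      = ∑ l ∈ L, ∑ l' ∈ L, ∑ z ∈ Q with (Onl l z ∧ Onl l' z), μ z := by
    rw [Finset.sum_comm]
    apply Finset.sum_congr rfl
    intro l _
    rw [Finset.sum_comm]
    apply Finset.sum_congr rfl
    intro l' _
    rw [Finset.sum_filter]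
  rw [h2]
  have h3 : ∀ l ∈ L, ∀ l' ∈ L, ∑ z ∈ Q with (Onl l z ∧ Onl l' z), μ z
      ≤ (if l' = l then wt Q μ l else 0) + m := by
    intro l _ l' _
    split_ifs with h
    · subst h
      have h4 : ∑ z ∈ Q with (Onl l' z ∧ Onl l' z), μ z = wt Q μ l' := by
        unfold wt
        apply Finset.sum_congr _ (fun _ _ => rfl)
        apply Finset.filter_congr; intro z _; exact and_self_iff
      rw [h4]; linarith
    · have := wt_inter_le Q μ m hm hμ l l' (fun h' => h h'.symm)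
      linarith
  refine (Finset.sum_le_sum (fun l hl => Finset.sum_le_sum (fun l' hl' => h3 l hl l' hl'))).trans ?_
  have h4 : ∀ l ∈ L, ∑ l' ∈ L, ((if l' = l then wt Q μ l else 0) + m)
      = wt Q μ l + L.card * m := by
    intro l hl
    rw [Finset.sum_add_distrib, Finset.sum_ite_eq' L l, if_pos hl, Finset.sum_const, nsmul_eq_mul]
  rw [Finset.sum_congr rfl h4, Finset.sum_add_distrib, Finset.sum_const, nsmul_eq_mul]
  apply le_of_eq; ring

open scoped Classical in
/-- few lines: inclusion-exclusion -/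
theorem few_lines (Q L : Finset (ℝ × ℝ)) (μ : ℝ × ℝ → ℝ) (m M κ : ℝ)
    (hμ0 : ∀ z ∈ Q, 0 ≤ μ z) (hμ : ∀ z ∈ Q, μ z ≤ m) (hm : 0 ≤ m)
    (hM : ∑ z ∈ Q, μ z ≤ M)
    (hκ : ∀ l ∈ L, κ ≤ wt Q μ l) (hfew : 2 * (m * L.card) ≤ κ) :
    (L.card : ℝ) * κ ≤ 2 * M := by
  have h1 := sum_mu_deg Q L μ
  have h2 := sum_mu_deg_sq Q L μ m hm hμ
  have h3 : ∑ z ∈ Q, (2 * (μ z * ((L.filter (fun l => Onl l z)).card : ℝ))
      - μ z * ((L.filter (fun l => Onl l z)).card : ℝ) ^ 2) ≤ ∑ z ∈ Q, μ z := by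
    apply Finset.sum_le_sum
    intro z hz
    linarith only [mul_nonneg (hμ0 z hz) (sq_nonneg (((L.filter (fun l => Onl l z)).card : ℝ) - 1))]
  rw [Finset.sum_sub_distrib, ← Finset.mul_sum, h1] at h3
  have h4 : (L.card : ℝ) * κ ≤ ∑ l ∈ L, wt Q μ l := by
    rw [← nsmul_eq_mul]
    exact Finset.card_nsmul_le_sum _ _ _ hκ
  have h5 : (0:ℝ) ≤ L.card := by positivity
  linarith only [mul_nonneg (sub_nonneg.2 hfew) (sub_nonneg.2 h5), h4, h3, h2, hM]

open scoped Classical in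
theorem sum_cells (Q L G : Finset (ℝ × ℝ)) (μ : ℝ × ℝ → ℝ) (m b : ℝ) (hm : 0 ≤ m) (hb : 0 ≤ b)
    (hμ0 : ∀ z ∈ Q, 0 ≤ μ z) (hμ : ∀ z ∈ Q, μ z ≤ m) (lab : ℝ × ℝ → Lab)
    (hlab : ∀ z, lab z ∈ labs G)
    (hcell : ∀ z, Off G z →
      ((L.filter (fun l => ∃ z', Off G z' ∧ lab z' = lab z ∧ Onl l z')).card : ℝ) ≤ b ^ 2) :
    ∑ l ∈ L, wt (Q.filter (fun z => Off G z)) μ l ≤
      (labs G).card * (m * b ^ 2) + (∑ z ∈ Q, μ z) * b := by
  set Qk : Lab → Finset (ℝ × ℝ) := fun k => (Q.filter (fun z => Off G z)).filter (fun z => lab z = k)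
    with hQk
  have h1 : ∀ l ∈ L, wt (Q.filter (fun z => Off G z)) μ l = ∑ k ∈ labs G, wt (Qk k) μ l := by
    intro l _
    unfold wt
    rw [← Finset.sum_fiberwise_of_maps_to (g := lab) (t := labs G) (fun z _ => hlab z)]
    apply Finset.sum_congr rfl
    intro k _
    apply Finset.sum_congr _ (fun _ _ => rfl)
    rw [hQk]; simp only
    rw [Finset.filter_comm]
  rw [Finset.sum_congr rfl h1, Finset.sum_comm]
  have h2 : ∀ k ∈ labs G, ∑ l ∈ L, wt (Qk k) μ l ≤ m * b ^ 2 + (∑ z ∈ Qk k, μ z) * b := by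
    intro k _
    have hsub : Qk k ⊆ Q := (filter_subset _ _).trans (filter_subset _ _)
    rcases (Qk k).eq_empty_or_nonempty with h3 | ⟨z₀, hz₀⟩
    · have h4 : ∑ l ∈ L, wt (Qk k) μ l = 0 := by
        apply Finset.sum_eq_zero
        intro l _
        unfold wt
        rw [h3]; simp
      rw [h4, h3]
      simp only [Finset.sum_empty, zero_mul, add_zero]
      positivity
    · have hz₁ := mem_filter.mp hz₀
      have hz₂ := (mem_filter.mp hz₁.1).2
      have h3 := hcell z₀ hz₂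
      rw [hz₁.2] at h3
      set Lk := L.filter (fun l => ∃ z', Off G z' ∧ lab z' = k ∧ Onl l z') with hLk
      have h4 : ∑ l ∈ L, wt (Qk k) μ l = ∑ l ∈ Lk, wt (Qk k) μ l := by
        symm
        apply Finset.sum_subset (filter_subset _ _)
        intro l hl hl2
        unfold wt
        apply Finset.sum_eq_zero
        intro z hz
        exfalso
        apply hl2
        rw [mem_filter]
        have h5 := mem_filter.mp hz
        have h6 := mem_filter.mp h5.1
        exact ⟨hl, z, (mem_filter.mp h6.1).2, h6.2, h5.2⟩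
      rw [h4]
      have h5 := cell_bound (Qk k) Lk μ m (fun z hz => hμ0 z (hsub hz)) (fun z hz => hμ z (hsub hz))
      have h6 : 0 ≤ ∑ z ∈ Qk k, μ z := Finset.sum_nonneg (fun z hz => hμ0 z (hsub hz))
      apply quad_le hm hb h6
      refine h5.trans ?_
      apply mul_le_mul_of_nonneg_right h3
      have h7 : 0 ≤ ∑ l ∈ Lk, wt (Qk k) μ l :=
        Finset.sum_nonneg (fun l _ => wt_nonneg (fun z hz => hμ0 z (hsub hz)) l)
      (clear * - hm h7; positivity)
  refine (Finset.sum_le_sum h2).trans ?_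
  rw [Finset.sum_add_distrib, Finset.sum_const, nsmul_eq_mul, ← Finset.sum_mul]
  have h3 : ∑ k ∈ labs G, ∑ z ∈ Qk k, μ z ≤ ∑ z ∈ Q, μ z := by
    have h4 : ∑ k ∈ labs G, ∑ z ∈ Qk k, μ z = ∑ z ∈ Q.filter (fun z => Off G z), μ z :=
      Finset.sum_fiberwise_of_maps_to (g := lab) (t := labs G) (fun z _ => hlab z) μ
    rw [h4]
    exact Finset.sum_le_sum_of_subset_of_nonneg (filter_subset _ _) (fun z hz _ => hμ0 z hz)
  have := mul_le_mul_of_nonneg_right h3 hb
  linarith

open scoped Classical in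
theorem sum_cover_le {β ι : Type} (A : Finset β) (G : Finset ι) (t : ι → Finset β) (μ : β → ℝ)
    (hA : ∀ z ∈ A, ∃ g ∈ G, z ∈ t g) (hμ : ∀ g ∈ G, ∀ z ∈ t g, 0 ≤ μ z) :
    ∑ z ∈ A, μ z ≤ ∑ g ∈ G, ∑ z ∈ t g, μ z := by
  have h1 : ∀ z ∈ A, μ z ≤ ∑ g ∈ G, if z ∈ t g then μ z else 0 := by
    intro z hz
    obtain ⟨g, hg, hzg⟩ := hA z hz
    have h2 : (if z ∈ t g then μ z else 0) ≤ ∑ g ∈ G, if z ∈ t g then μ z else 0 := by
      apply Finset.single_le_sum (f := fun g => if z ∈ t g then μ z else 0) _ hg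
      intro g' hg'
      split_ifs with h
      · exact hμ g' hg' z h
      · exact le_rfl
    rwa [if_pos hzg] at h2
  refine (Finset.sum_le_sum h1).trans ?_
  rw [Finset.sum_comm]
  apply Finset.sum_le_sum
  intro g hg
  rw [← Finset.sum_filter]
  apply Finset.sum_le_sum_of_subset_of_nonneg
  · intro z hz
    exact (mem_filter.mp hz).2
  · intro z hz _
    exact hμ g hg z hz

theorem st_numeric (N s m M κ Λ b K S : ℝ) (hm : 0 < m) (hΛ1 : 1 ≤ Λ) (hκ0 : 0 < κ) (hs' : 0 < s)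
    (hN : 0 < N) (hb0 : 0 ≤ b) (hb2 : b ^ 2 = Λ / s * N)
    (hs3 : κ / (64 * m * Λ) ≤ s) (hs4 : s * (32 * m * Λ) ≤ κ) (hc' : 2 * s ≤ N)
    (hK : K ≤ 4 * s ^ 2) (hS : S ≤ M)
    (h12 : (N - s) * (κ - s * m) ≤ K * (m * b ^ 2) + S * b) :
    N ≤ 2 ^ 12 * Λ ^ 2 * (m * M ^ 2 / κ ^ 3) := by
  have hsm : s * m * 32 ≤ κ := by
    refine le_trans ?_ hs4
    have h1 : s * m * 32 * 1 ≤ s * m * 32 * Λ := mul_le_mul_of_nonneg_left hΛ1 (by positivity)
    linarith
  have h3 : (N - s) * (κ - s * m) ≥ 31 / 64 * (N * κ) := by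
    have h4 : N / 2 ≤ N - s := by linarith
    have h5 : 31 / 32 * κ ≤ κ - s * m := by linarith
    calc (N - s) * (κ - s * m) ≥ (N / 2) * (31 / 32 * κ) := by
          apply mul_le_mul h4 h5 (by positivity) (by linarith)
      _ = 31 / 64 * (N * κ) := by ring
  have h4 : K * (m * b ^ 2) ≤ 8 / 64 * (N * κ) := by
    calc K * (m * b ^ 2) ≤ 4 * s ^ 2 * (m * b ^ 2) :=
          mul_le_mul_of_nonneg_right hK (by positivity)
      _ = (s * (32 * m * Λ)) * N * (8 / 64) := by
          rw [hb2]; field_simp; ring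
      _ ≤ κ * N * (8 / 64) := by
          apply mul_le_mul_of_nonneg_right _ (by norm_num)
          apply mul_le_mul_of_nonneg_right hs4 (by positivity)
      _ = 8 / 64 * (N * κ) := by ring
  have h5 : S * b ≤ M * b := mul_le_mul_of_nonneg_right hS hb0
  have h6 : 23 / 64 * (N * κ) ≤ M * b := by linarith
  have h7 : (23 / 64 * (N * κ)) ^ 2 ≤ (M * b) ^ 2 := pow_le_pow_left₀ (by positivity) h6 2
  have h8 : (M * b) ^ 2 = M ^ 2 * (Λ / s * N) := by rw [mul_pow, hb2]
  rw [h8] at h7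
  have h9 : (23 / 64) ^ 2 * N * κ ^ 2 ≤ M ^ 2 * (Λ / s) := by
    have : (23 / 64) ^ 2 * N * κ ^ 2 * N ≤ M ^ 2 * (Λ / s) * N := by
      calc (23 / 64) ^ 2 * N * κ ^ 2 * N = (23 / 64 * (N * κ)) ^ 2 := by ring
        _ ≤ M ^ 2 * (Λ / s * N) := h7
        _ = M ^ 2 * (Λ / s) * N := by ring
    exact le_of_mul_le_mul_right this hN
  have h10 : Λ / s ≤ 64 * m * Λ ^ 2 / κ := by
    rw [div_le_div_iff₀ hs' hκ0]
    rw [div_le_iff₀ (by positivity)] at hs3
    have h11 := mul_le_mul_of_nonneg_left hs3 (show 0 ≤ Λ by linarith only [hΛ1])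
    calc Λ * κ ≤ Λ * (s * (64 * m * Λ)) := h11
      _ = 64 * m * Λ ^ 2 * s := by ring
  have h11 : (23 / 64) ^ 2 * N * κ ^ 2 ≤ M ^ 2 * (64 * m * Λ ^ 2 / κ) :=
    h9.trans (mul_le_mul_of_nonneg_left h10 (by positivity))
  rw [mul_div_assoc', le_div_iff₀ (by positivity)]
  have h13 : (23 / 64) ^ 2 * N * κ ^ 2 * κ ≤ M ^ 2 * (64 * m * Λ ^ 2) := by
    calc (23 / 64) ^ 2 * N * κ ^ 2 * κ ≤ M ^ 2 * (64 * m * Λ ^ 2 / κ) * κ :=
          mul_le_mul_of_nonneg_right h11 hκ0.le
      _ = M ^ 2 * (64 * m * Λ ^ 2) := by field_simp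
  have h14 : 0 ≤ M ^ 2 * (m * Λ ^ 2) := by positivity
  calc N * κ ^ 3 = (64 / 23) ^ 2 * ((23 / 64) ^ 2 * N * κ ^ 2 * κ) := by ring
    _ ≤ (64 / 23) ^ 2 * (M ^ 2 * (64 * m * Λ ^ 2)) := mul_le_mul_of_nonneg_left h13 (by norm_num)
    _ = (64 / 23) ^ 2 * 64 * (M ^ 2 * (m * Λ ^ 2)) := by ring
    _ ≤ 2 ^ 12 * (M ^ 2 * (m * Λ ^ 2)) := mul_le_mul_of_nonneg_right (by norm_num) h14
    _ = 2 ^ 12 * Λ ^ 2 * (m * M ^ 2) := by ring

open scoped Classical in
/-- weighted Szemeredi-Trotter bound with logarithmic loss -/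
theorem planarST (Q L : Finset (ℝ × ℝ)) (μ : ℝ × ℝ → ℝ) (m M κ Λ : ℝ)
    (hμ0 : ∀ z ∈ Q, 0 ≤ μ z) (hμ : ∀ z ∈ Q, μ z ≤ m) (hm : 0 < m)
    (hM : ∑ z ∈ Q, μ z ≤ M)
    (hκ : ∀ l ∈ L, κ ≤ wt Q μ l)
    (hΛ : 6 * Real.log (L.card + 1) + 1 ≤ Λ) (hκm : 64 * m * Λ ≤ κ) :
    (L.card : ℝ) ≤ 2 ^ 12 * Λ ^ 2 * (m * M ^ 2 / κ ^ 3) + 2 * (M / κ) := by
  have hM0 : 0 ≤ M := (Finset.sum_nonneg hμ0).trans hM
  have hlog : 0 ≤ Real.log ((L.card : ℝ) + 1) := Real.log_nonneg (by
    have : (0:ℝ) ≤ L.card := by positivity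
    linarith)
  have hΛ1 : 1 ≤ Λ := by linarith
  have hκ0 : 0 < κ := lt_of_lt_of_le (by positivity) hκm
  rcases L.eq_empty_or_nonempty with hL | hL
  · subst hL
    rw [card_empty]
    push_cast
    positivity
  have hN : (1:ℝ) ≤ L.card := by exact_mod_cast hL.card_pos
  have hy2 : 2 ≤ κ / (32 * m * Λ) := by
    rw [le_div_iff₀ (by positivity)]; linarith
  set s : ℕ := ⌊κ / (32 * m * Λ)⌋₊ with hs
  have hs1 : (s:ℝ) ≤ κ / (32 * m * Λ) := Nat.floor_le (by positivity)
  have hs2 : κ / (32 * m * Λ) < (s:ℝ) + 1 := Nat.lt_floor_add_one _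
  have hs3 : κ / (64 * m * Λ) ≤ s := by
    have : κ / (64 * m * Λ) = κ / (32 * m * Λ) / 2 := by field_simp; norm_num
    rw [this]; linarith
  have hs4 : (s:ℝ) * (32 * m * Λ) ≤ κ := by rwa [le_div_iff₀ (by positivity)] at hs1
  have hs5 : 1 ≤ s := by
    have : (1:ℝ) ≤ s := by linarith
    exact_mod_cast this
  have hs' : (0:ℝ) < s := by exact_mod_cast hs5
  have hsm : (s:ℝ) * m * 32 ≤ κ := by
    refine le_trans ?_ hs4
    have h1 : (s:ℝ) * m * 32 * 1 ≤ (s:ℝ) * m * 32 * Λ := mul_le_mul_of_nonneg_left hΛ1 (by positivity)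
    linarith
  rcases lt_or_ge (L.card) (2 * s) with hcase | hcase
  · -- few lines
    have hc' : (L.card : ℝ) ≤ 2 * s := by exact_mod_cast hcase.le
    have hfew : 2 * (m * L.card) ≤ κ := by
      have := mul_le_mul_of_nonneg_left hc' hm.le
      linarith only [this, hsm, hκ0]
    have h1 := few_lines Q L μ m M κ hμ0 hμ hm.le hM hκ hfew
    have h2 : (L.card : ℝ) ≤ 2 * (M / κ) := by
      rw [mul_div_assoc', le_div_iff₀ hκ0]; exact h1
    have h3 : 0 ≤ 2 ^ 12 * Λ ^ 2 * (m * M ^ 2 / κ ^ 3) := by positivity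
    linarith only [h3, h2]
  · have hc' : 2 * (s:ℝ) ≤ L.card := by exact_mod_cast hcase
    obtain ⟨G, hGL, hGs, lab, hlab, hcell⟩ := cutting L hL s hs5
    set N : ℝ := (L.card : ℝ) with hNdef
    set b : ℝ := Real.sqrt (Λ / s * N) with hb
    have hb0 : 0 ≤ b := Real.sqrt_nonneg _
    have hb2 : b ^ 2 = Λ / s * N := Real.sq_sqrt (by positivity)
    have hcell' : ∀ z, Off G z →
        ((L.filter (fun l => ∃ z', Off G z' ∧ lab z' = lab z ∧ Onl l z')).card : ℝ) ≤ b ^ 2 := by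
      intro z hz
      refine (hcell z hz).trans ?_
      rw [hb2]
      apply mul_le_mul_of_nonneg_right _ (by positivity)
      exact div_le_div_of_nonneg_right hΛ hs'.le
    have h1 := sum_cells Q L G μ m b hm.le hb0 hμ0 hμ lab hlab hcell'
    -- number of cells
    have hK : ((labs G).card : ℝ) ≤ 4 * (s:ℝ) ^ 2 := by
      rw [card_labs]
      push_cast
      have hg : (G.card : ℝ) ≤ s := by exact_mod_cast hGs
      have hs6 : (1:ℝ) ≤ s := by exact_mod_cast hs5
      have hg0 : (0:ℝ) ≤ G.card := by (clear * -; positivity)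
      (by_contra nlg; linarith [mul_nonneg (sub_nonneg.2 hs6) (sub_nonneg.2 hg0), mul_nonneg (sub_nonneg.2 hg) (sub_nonneg.2 hg0), mul_nonneg (sub_nonneg.2 hg) (sub_nonneg.2 hs6), mul_pos (sub_pos.2 hs2) (sub_pos.2 hs2), mul_nonneg (sub_nonneg.2 hs1) (sub_nonneg.2 hs6), mul_nonneg (sub_nonneg.2 hs1) (le_of_lt (sub_pos.2 hs2)), mul_nonneg (sub_nonneg.2 hy2) (sub_nonneg.2 hs6), mul_nonneg (sub_nonneg.2 hy2) (le_of_lt (sub_pos.2 hs2)), mul_pos (sub_pos.2 (not_le.1 nlg)) (sub_pos.2 hs2), mul_nonneg (le_of_lt (sub_pos.2 (not_le.1 nlg))) (sub_nonneg.2 hs1)])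
    -- lower bound for lines off the sample
    have hlow : ∀ l ∈ L \ G, κ - s * m ≤ wt (Q.filter (fun z => Off G z)) μ l := by
      intro l hl
      rw [mem_sdiff] at hl
      have h2 : wt Q μ l ≤ wt (Q.filter (fun z => Off G z)) μ l +
          ∑ g ∈ G, ∑ z ∈ Q with (Onl g z ∧ Onl l z), μ z := by
        unfold wt
        have h3 : ∑ z ∈ Q with Onl l z, μ z =
            ∑ z ∈ (Q.filter (fun z => Onl l z)).filter (fun z => Off G z), μ z +
            ∑ z ∈ (Q.filter (fun z => Onl l z)).filter (fun z => ¬ Off G z), μ z :=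
          (Finset.sum_filter_add_sum_filter_not _ _ _).symm
        rw [h3, Finset.filter_comm]
        apply add_le_add le_rfl
        apply sum_cover_le _ G (fun g => Q.filter (fun z => Onl g z ∧ Onl l z))
        · intro z hz
          have h5 := mem_filter.mp hz
          have h6 := mem_filter.mp h5.1
          have h7 := h5.2
          unfold Off at h7
          push Not at h7
          obtain ⟨g, hg, hgz⟩ := h7
          exact ⟨g, hg, mem_filter.mpr ⟨h6.1, hgz, h6.2⟩⟩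
        · intro g _ z hz
          exact hμ0 z (mem_filter.mp hz).1
      have h3 : ∑ g ∈ G, ∑ z ∈ Q with (Onl g z ∧ Onl l z), μ z ≤ s * m := by
        calc ∑ g ∈ G, ∑ z ∈ Q with (Onl g z ∧ Onl l z), μ z ≤ ∑ _g ∈ G, m := by
              apply Finset.sum_le_sum
              intro g hg
              apply wt_inter_le Q μ m hm.le hμ g l
              rintro rfl
              exact hl.2 hg
          _ = G.card * m := by rw [Finset.sum_const, nsmul_eq_mul]
          _ ≤ s * m := by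
              apply mul_le_mul_of_nonneg_right _ hm.le
              exact_mod_cast hGs
      have h4 := hκ l hl.1
      linarith
    have h2 : (N - s) * (κ - s * m) ≤ ∑ l ∈ L, wt (Q.filter (fun z => Off G z)) μ l := by
      have h3 : ((L \ G).card : ℝ) * (κ - s * m) ≤
          ∑ l ∈ L \ G, wt (Q.filter (fun z => Off G z)) μ l := by
        rw [← nsmul_eq_mul]
        exact Finset.card_nsmul_le_sum _ _ _ hlow
      have h4 : ∑ l ∈ L \ G, wt (Q.filter (fun z => Off G z)) μ l ≤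
          ∑ l ∈ L, wt (Q.filter (fun z => Off G z)) μ l := by
        apply Finset.sum_le_sum_of_subset_of_nonneg sdiff_subset
        intro l _ _
        exact wt_nonneg (fun z hz => hμ0 z (mem_filter.mp hz).1) l
      have h5 : N - s ≤ ((L \ G).card : ℝ) := by
        have h6 := le_card_sdiff G L
        have h7 : L.card ≤ (L \ G).card + s := by omega
        have h8 : N ≤ ((L \ G).card : ℝ) + s := by rw [hNdef]; exact_mod_cast h7
        linarith
      have h6 : 0 ≤ κ - s * m := by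
        have : (s:ℝ) * m ≤ s * m * 32 := by linarith only [mul_pos hs' hm]
        linarith only [hsm, hκ0]
      (by_contra nlg; linarith only [nlg, mul_nonneg (sub_nonneg.2 h5) (sub_nonneg.2 h6), mul_nonneg (le_of_lt (sub_pos.2 hs2)) (sub_nonneg.2 h4), mul_nonneg (le_of_lt (sub_pos.2 hs2)) (sub_nonneg.2 h3), mul_nonneg (sub_nonneg.2 hs1) (sub_nonneg.2 h4), mul_nonneg (sub_nonneg.2 hs1) (sub_nonneg.2 h3), mul_pos (sub_pos.2 (not_le.1 nlg)) (sub_pos.2 hs2), mul_nonneg (le_of_lt (sub_pos.2 (not_le.1 nlg))) (sub_nonneg.2 hs1)])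
    have h12 := st_numeric N s m M κ Λ b _ _ hm hΛ1 hκ0 hs' (by linarith) hb0 hb2 hs3 hs4 hc' hK hM
      (h2.trans h1)
    have h15 : 0 ≤ 2 * (M / κ) := by positivity
    linarith

end Vale.Agent.P054
end

section

set_option autoImplicit false

open Finset

namespace Vale.Agent.P054

/-- generic planar coordinates for finitely many vectors -/
theorem exists_coords {V ι : Type} [AddCommGroup V] [Module ℝ V] (I : Finset ι) (v : ι → V)
    (hv : ∀ i ∈ I, v i ≠ 0) :
    ∃ (u : ι → V) (f0 f1 f2 : Module.Dual ℝ V), 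
      (∀ i ∈ I, f0 (u i) = 1) ∧ (∀ i ∈ I, ∃ c : ℝ, c ≠ 0 ∧ v i = c • u i) ∧
      (∀ i ∈ I, ∀ j ∈ I, u i ≠ u j → f1 (u i) ≠ f1 (u j)) ∧
      (∀ i ∈ I, ∀ j ∈ I, ∀ k ∈ I,
        (f2 (u k) - f2 (u i)) * (f1 (u j) - f1 (u i)) = (f2 (u j) - f2 (u i)) * (f1 (u k) - f1 (u i)) →
        (f1 (u j) - f1 (u i)) • (u k - u i) = (f1 (u k) - f1 (u i)) • (u j - u i)) := by
  classical
  obtain ⟨f0, hf0⟩ := Module.exists_dual_forall_apply_ne_zero (K := ℝ)
    (fun i : {i // i ∈ I} => v i.1) (fun i => hv i.1 i.2)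
  set u : ι → V := fun i => (f0 (v i))⁻¹ • v i with hu
  obtain ⟨f1, hf1⟩ := Module.exists_dual_forall_apply_ne_zero (K := ℝ)
    (fun p : {p : {i // i ∈ I} × {i // i ∈ I} // u p.1.1 ≠ u p.2.1} => u p.1.1.1 - u p.1.2.1)
    (fun p => sub_ne_zero.mpr p.2)
  obtain ⟨f2, hf2⟩ := Module.exists_dual_forall_apply_ne_zero (K := ℝ)
    (fun p : {p : {i // i ∈ I} × {i // i ∈ I} × {i // i ∈ I} //
        (f1 (u p.2.1.1) - f1 (u p.1.1)) • (u p.2.2.1 - u p.1.1) -
          (f1 (u p.2.2.1) - f1 (u p.1.1)) • (u p.2.1.1 - u p.1.1) ≠ 0} =>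
        (f1 (u p.1.2.1.1) - f1 (u p.1.1.1)) • (u p.1.2.2.1 - u p.1.1.1) -
          (f1 (u p.1.2.2.1) - f1 (u p.1.1.1)) • (u p.1.2.1.1 - u p.1.1.1))
    (fun p => p.2)
  refine ⟨u, f0, f1, f2, ?_, ?_, ?_, ?_⟩
  · intro i hi
    have := hf0 ⟨i, hi⟩
    simp only [hu, map_smul, smul_eq_mul]
    exact inv_mul_cancel₀ this
  · intro i hi
    have := hf0 ⟨i, hi⟩
    refine ⟨f0 (v i), this, ?_⟩
    simp only [hu]
    rw [smul_smul, mul_inv_cancel₀ this, one_smul]
  · intro i hi j hj hij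
    have := hf1 ⟨(⟨i, hi⟩, ⟨j, hj⟩), hij⟩
    simp only [map_sub] at this
    exact sub_ne_zero.mp this
  · intro i hi j hj k hk h
    by_contra hne
    have := hf2 ⟨(⟨i, hi⟩, ⟨j, hj⟩, ⟨k, hk⟩), sub_ne_zero.mpr hne⟩
    apply this
    simp only [map_sub, map_smul, smul_eq_mul]
    linarith

open scoped Classical in
/-- linear form of Szemeredi-Trotter -/
theorem linearST {V ι : Type} [AddCommGroup V] [Module ℝ V]
    (I : Finset ι) (v : ι → V) (m κ Λ : ℝ)
    (hv : ∀ i ∈ I, v i ≠ 0) (hm : ∀ i ∈ I, mass I v (Submodule.span ℝ {v i}) ≤ m) (hm0 : 0 < m)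
    (Z : Finset (Submodule ℝ V))
    (hZ : ∀ A ∈ Z, Module.finrank ℝ A = 2 ∧ κ ≤ mass I v A)
    (hΛ : 12 * Real.log (I.card + 1) + 1 ≤ Λ) (hκ : 64 * m * Λ ≤ κ) :
    (Z.card : ℝ) ≤ 2 ^ 12 * Λ ^ 2 * (m * (I.card:ℝ) ^ 2 / κ ^ 3) + 2 * (I.card / κ) := by
  have hlog : 0 ≤ Real.log ((I.card : ℝ) + 1) := Real.log_nonneg (by
    have : (0:ℝ) ≤ I.card := by positivity
    linarith)
  have hΛ1 : 1 ≤ Λ := by linarith
  have hmκ : m < κ := by nlinarith
  obtain ⟨u, f0, f1, f2, hu0, huv, hf1, hf2⟩ := exists_coords I v hv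
  set pt : ι → ℝ × ℝ := fun i => (f1 (u i), f2 (u i)) with hpt
  -- membership
  have hmem : ∀ A : Submodule ℝ V, ∀ i ∈ I, (v i ∈ A ↔ u i ∈ A) := by
    intro A i hi
    obtain ⟨c, hc, hcv⟩ := huv i hi
    rw [hcv]
    exact Submodule.smul_mem_iff A hc
  -- two independent vectors in each A
  have hpair : ∀ A ∈ Z, ∃ i ∈ I, ∃ j ∈ I, v i ∈ A ∧ v j ∈ A ∧ u i ≠ u j := by
    intro A hA
    have hpos : 0 < mass I v A := lt_of_lt_of_le (lt_trans hm0 hmκ) (hZ A hA).2
    unfold mass at hpos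
    have hpos' : 0 < (I.filter (fun i => v i ∈ A)).card := by exact_mod_cast hpos
    obtain ⟨i, hi⟩ := Finset.card_pos.mp hpos'
    rw [mem_filter] at hi
    by_contra hcon
    push Not at hcon
    have h1 : mass I v A ≤ mass I v (Submodule.span ℝ {v i}) := by
      unfold mass
      have h2 : I.filter (fun i => v i ∈ A) ⊆ I.filter (fun j => v j ∈ Submodule.span ℝ {v i}) := by
        intro j hj
        rw [mem_filter] at hj ⊢
        refine ⟨hj.1, ?_⟩
        have h3 := hcon i hi.1 j hj.1 hi.2 hj.2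
        obtain ⟨c, hc, hcv⟩ := huv j hj.1
        obtain ⟨c', hc', hcv'⟩ := huv i hi.1
        rw [hcv, ← h3, Submodule.mem_span_singleton]
        refine ⟨c * c'⁻¹, ?_⟩
        rw [hcv', smul_smul, mul_assoc, inv_mul_cancel₀ hc', mul_one]
      exact_mod_cast card_le_card h2
    have h2 := hm i hi.1
    have h3 := (hZ A hA).2
    linarith
  have hκ0 : 0 < κ := lt_trans hm0 hmκ
  rcases Z.eq_empty_or_nonempty with hZe | ⟨A₀, hA₀⟩
  · rw [hZe, card_empty]
    push_cast
    (clear * - hΛ1 hm0 hκ0; positivity)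
  obtain ⟨i₀, _⟩ := hpair A₀ hA₀
  have : Nonempty ι := ⟨i₀⟩
  choose! ii hii jj hjj hiA hjA hne using hpair
  set ln : Submodule ℝ V → ℝ × ℝ := fun A =>
    ((f2 (u (jj A)) - f2 (u (ii A))) / (f1 (u (jj A)) - f1 (u (ii A))),
      f2 (u (ii A)) - (f2 (u (jj A)) - f2 (u (ii A))) / (f1 (u (jj A)) - f1 (u (ii A))) *
        f1 (u (ii A))) with hln
  have hx : ∀ A ∈ Z, f1 (u (jj A)) - f1 (u (ii A)) ≠ 0 := by
    intro A hA
    exact sub_ne_zero.mpr (hf1 _ (hjj A hA) _ (hii A hA) (hne A hA).symm)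
  -- incidence characterisation
  have honl : ∀ A ∈ Z, ∀ k : ι, (Onl (ln A) (pt k) ↔
      (f2 (u k) - f2 (u (ii A))) * (f1 (u (jj A)) - f1 (u (ii A)))
        = (f2 (u (jj A)) - f2 (u (ii A))) * (f1 (u k) - f1 (u (ii A)))) := by
    intro A hA k
    have h := hx A hA
    unfold Onl
    simp only [hln, hpt]
    constructor
    · intro h2
      rw [h2]; field_simp; ring
    · intro h2
      field_simp
      linarith
  -- span
  have hspan : ∀ A ∈ Z, Submodule.span ℝ {u (ii A), u (jj A)} = A := by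
    intro A hA
    have hle : Submodule.span ℝ {u (ii A), u (jj A)} ≤ A := by
      rw [Submodule.span_le]
      intro w hw
      simp only [Set.mem_insert_iff, Set.mem_singleton_iff] at hw
      rcases hw with rfl | rfl
      · exact (hmem A _ (hii A hA)).mp (hiA A hA)
      · exact (hmem A _ (hjj A hA)).mp (hjA A hA)
    have hfin : FiniteDimensional ℝ A := by
      apply Module.finite_of_finrank_pos
      rw [(hZ A hA).1]; norm_num
    apply Submodule.eq_of_le_of_finrank_le hle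
    rw [(hZ A hA).1]
    have hli : LinearIndependent ℝ ![u (ii A), u (jj A)] := by
      rw [LinearIndependent.pair_iff]
      intro s t hst
      have h1 := congrArg f0 hst
      simp only [map_add, map_smul, smul_eq_mul, map_zero, hu0 _ (hii A hA), hu0 _ (hjj A hA),
        mul_one] at h1
      have h2 := congrArg f1 hst
      simp only [map_add, map_smul, smul_eq_mul, map_zero] at h2
      have h3 : t * (f1 (u (jj A)) - f1 (u (ii A))) = 0 := by
        have : s = -t := by linarith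
        rw [this] at h2
        linarith
      have h4 : t = 0 := by
        rcases mul_eq_zero.mp h3 with h | h
        · exact h
        · exact absurd h (hx A hA)
      exact ⟨by linarith, h4⟩
    have h5 := finrank_span_eq_card hli
    rw [Matrix.range_cons, Matrix.range_cons, Matrix.range_empty, Set.union_empty] at h5
    rw [Fintype.card_fin] at h5
    have h6 : ({u (ii A)} ∪ {u (jj A)} : Set V) = {u (ii A), u (jj A)} := rfl
    rw [h6] at h5
    rw [h5]
  -- vectors of A lie on the line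
  have hon : ∀ A ∈ Z, ∀ k ∈ I, v k ∈ A → Onl (ln A) (pt k) := by
    intro A hA k hk hkA
    rw [honl A hA k]
    have h1 : u k ∈ Submodule.span ℝ {u (ii A), u (jj A)} := by
      rw [hspan A hA]; exact (hmem A k hk).mp hkA
    rw [Submodule.mem_span_pair] at h1
    obtain ⟨a, b, hab⟩ := h1
    have h2 := congrArg f0 hab
    simp only [map_add, map_smul, smul_eq_mul, hu0 _ (hii A hA), hu0 _ (hjj A hA), hu0 _ hk,
      mul_one] at h2
    have h3 := congrArg f1 hab
    have h4 := congrArg f2 hab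
    simp only [map_add, map_smul, smul_eq_mul] at h3 h4
    rw [← h3, ← h4]
    have h5 : a = 1 - b := by linarith
    rw [h5]; ring
  have honback : ∀ A ∈ Z, ∀ k ∈ I, Onl (ln A) (pt k) → u k ∈ A := by
    intro A hA k hk h
    rw [honl A hA k] at h
    have h2 := hf2 _ (hii A hA) _ (hjj A hA) k hk h
    have h3 := hx A hA
    have h4 : u k = u (ii A) + ((f1 (u (jj A)) - f1 (u (ii A)))⁻¹ * (f1 (u k) - f1 (u (ii A)))) •
        (u (jj A) - u (ii A)) := by
      rw [mul_smul, ← h2, smul_smul, inv_mul_cancel₀ h3, one_smul]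
      abel
    rw [h4]
    apply A.add_mem ((hmem A _ (hii A hA)).mp (hiA A hA))
    apply A.smul_mem
    exact A.sub_mem ((hmem A _ (hjj A hA)).mp (hjA A hA)) ((hmem A _ (hii A hA)).mp (hiA A hA))
  have hinj : Set.InjOn ln (Z : Set (Submodule ℝ V)) := by
    intro A hA A' hA' h
    have hle : ∀ A ∈ Z, ∀ A' ∈ Z, ln A = ln A' → A ≤ A' := by
      intro A hA A' hA' h
      rw [← hspan A hA, Submodule.span_le]
      intro w hw
      simp only [Set.mem_insert_iff, Set.mem_singleton_iff] at hw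
      rcases hw with rfl | rfl
      · apply honback A' hA' _ (hii A hA)
        rw [← h]
        exact hon A hA _ (hii A hA) (hiA A hA)
      · apply honback A' hA' _ (hjj A hA)
        rw [← h]
        exact hon A hA _ (hjj A hA) (hjA A hA)
    exact le_antisymm (hle A hA A' hA' h) (hle A' hA' A hA h.symm)
  -- set up planarST
  set L := Z.image ln with hL
  have hLcard : L.card = Z.card := Finset.card_image_of_injOn hinj
  set Q := I.image pt with hQ
  set μ : ℝ × ℝ → ℝ := fun z => ((I.filter (fun i => pt i = z)).card : ℝ) with hμdef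
  have hμ0 : ∀ z ∈ Q, 0 ≤ μ z := by
    intro z _; simp only [hμdef]; (clear * -; positivity)
  have hμm : ∀ z ∈ Q, μ z ≤ m := by
    intro z hz
    rw [hQ, mem_image] at hz
    obtain ⟨i, hi, rfl⟩ := hz
    refine le_trans ?_ (hm i hi)
    simp only [hμdef]
    unfold mass
    have h2 : I.filter (fun j => pt j = pt i) ⊆ I.filter (fun j => v j ∈ Submodule.span ℝ {v i}) := by
      intro j hj
      rw [mem_filter] at hj ⊢
      refine ⟨hj.1, ?_⟩
      have h3 : u j = u i := by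
        by_contra hne
        apply hf1 j hj.1 i hi hne
        have := hj.2
        simp only [hpt, Prod.mk.injEq] at this
        exact this.1
      obtain ⟨c, hc, hcv⟩ := huv j hj.1
      obtain ⟨c', hc', hcv'⟩ := huv i hi
      rw [hcv, h3, Submodule.mem_span_singleton]
      refine ⟨c * c'⁻¹, ?_⟩
      rw [hcv', smul_smul, mul_assoc, inv_mul_cancel₀ hc', mul_one]
    exact_mod_cast card_le_card h2
  have hsumfib : ∀ p : ℝ × ℝ → Prop, ∑ z ∈ Q with p z, μ z = ((I.filter (fun i => p (pt i))).card : ℝ) := by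
    intro p
    have h1 : (I.filter (fun i => p (pt i))).card
        = ∑ z ∈ Q.filter p, ((I.filter (fun i => p (pt i))).filter (fun i => pt i = z)).card := by
      apply Finset.card_eq_sum_card_fiberwise
      intro i hi
      have := mem_filter.mp hi
      rw [mem_coe, mem_filter]
      exact ⟨mem_image_of_mem pt this.1, this.2⟩
    rw [h1]
    push_cast
    apply Finset.sum_congr rfl
    intro z hz
    have hz2 := (mem_filter.mp hz).2
    simp only [hμdef]
    congr 2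
    ext i
    simp only [mem_filter]
    constructor
    · rintro ⟨h3, h4⟩
      exact ⟨⟨h3, by rw [h4]; exact hz2⟩, h4⟩
    · rintro ⟨⟨h3, _⟩, h4⟩
      exact ⟨h3, h4⟩
  have hM : ∑ z ∈ Q, μ z ≤ (I.card : ℝ) := by
    have := hsumfib (fun _ => True)
    simp only [Finset.filter_true] at this
    rw [this]
  have hκ' : ∀ l ∈ L, κ ≤ wt Q μ l := by
    intro l hl
    rw [hL, mem_image] at hl
    obtain ⟨A, hA, rfl⟩ := hl
    refine le_trans (hZ A hA).2 ?_
    unfold wt
    rw [hsumfib (fun z => Onl (ln A) z)]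
    unfold mass
    have h2 : I.filter (fun i => v i ∈ A) ⊆ I.filter (fun i => Onl (ln A) (pt i)) := by
      intro i hi
      rw [mem_filter] at hi ⊢
      exact ⟨hi.1, hon A hA i hi.1 hi.2⟩
    exact_mod_cast card_le_card h2
  -- number of subspaces
  have hZcard : Z.card ≤ I.card ^ 2 := by
    have h1 : Z.card ≤ (I ×ˢ I).card := by
      apply Finset.card_le_card_of_injOn (fun A => (ii A, jj A))
      · intro A hA
        rw [mem_coe, mem_product]
        exact ⟨hii A hA, hjj A hA⟩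
      · intro A hA A' hA' h
        simp only [Prod.mk.injEq] at h
        rw [← hspan A hA, ← hspan A' hA', h.1, h.2]
    rw [card_product] at h1
    rw [pow_two]; exact h1
  have hΛ' : 6 * Real.log (L.card + 1) + 1 ≤ Λ := by
    refine le_trans ?_ hΛ
    rw [hLcard]
    have h1 : Real.log ((Z.card : ℝ) + 1) ≤ 2 * Real.log ((I.card:ℝ) + 1) := by
      have h2 : (2:ℝ) * Real.log ((I.card:ℝ) + 1) = Real.log (((I.card:ℝ) + 1) ^ 2) := by
        rw [Real.log_pow]; norm_num
      rw [h2]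
      apply Real.log_le_log (by (clear * -; positivity))
      have h3 : (Z.card : ℝ) ≤ (I.card:ℝ) ^ 2 := by exact_mod_cast hZcard
      have h4 : (0:ℝ) ≤ I.card := by (clear * -; positivity)
      linarith only [h4, h3]
    linarith
  have := planarST Q L μ m (I.card : ℝ) κ Λ hμ0 hμm hm0 hM hκ' hΛ' hκ
  rw [hLcard] at this
  exact this

end Vale.Agent.P054
end

section

/-! P054, block G, leaf (11): the labels of the two rulings are different (AM-GM). -/

set_option linter.all false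
set_option autoImplicit false

namespace Vale.Agent.P054.Y.G

open Finset Matrix

/-- the label of a quadratic form -/
noncomputable def label (Q : Matrix (Fin 3) (Fin 3) ℝ) : ℝ := Q.trace ^ 3 / Q.det

theorem label_smul (Q : Matrix (Fin 3) (Fin 3) ℝ) {c : ℝ} (hc : c ≠ 0) :
    label (c • Q) = label Q := by
  rw [label, label, Matrix.trace_smul, Matrix.det_smul, smul_eq_mul, Fintype.card_fin]
  rw [mul_pow, mul_div_mul_left _ _ (pow_ne_zero 3 hc)]

theorem label_conj (Q O : Matrix (Fin 3) (Fin 3) ℝ) (hO : Oᵀ * O = 1) :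
    label (Oᵀ * Q * O) = label Q := by
  have hO' : O * Oᵀ = 1 := mul_eq_one_comm.1 hO
  have h1 : (Oᵀ * Q * O).trace = Q.trace := by
    rw [Matrix.trace_mul_comm, ← Matrix.mul_assoc, hO', Matrix.one_mul]
  have h2 : (Oᵀ * Q * O).det = Q.det := by
    have h3 : O.det * O.det = 1 := by
      have := congrArg Matrix.det hO
      rw [Matrix.det_mul, Matrix.det_transpose, Matrix.det_one] at this
      exact this
    rw [Matrix.det_mul, Matrix.det_mul, Matrix.det_transpose]
    linear_combination Q.det * h3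
  rw [label, label, h1, h2]

/-- AM-GM with equality case in the form needed -/
theorem amgm3 {a b c : ℝ} (ha : 0 < a) (hb : 0 < b) (hc : 0 < c)
    (h : (a + b + c - 3) ^ 3 = a * b * c * (3 - (1 / a + 1 / b + 1 / c)) ^ 3) :
    a = b ∧ b = c := by
  -- cube roots
  obtain ⟨x, hx, hxa⟩ : ∃ x : ℝ, 0 < x ∧ x ^ 3 = a :=
    ⟨a ^ (1 / 3 : ℝ), Real.rpow_pos_of_pos ha _, by
      rw [← Real.rpow_natCast, ← Real.rpow_mul ha.le]; norm_num⟩
  obtain ⟨y, hy, hyb⟩ : ∃ y : ℝ, 0 < y ∧ y ^ 3 = b :=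
    ⟨b ^ (1 / 3 : ℝ), Real.rpow_pos_of_pos hb _, by
      rw [← Real.rpow_natCast, ← Real.rpow_mul hb.le]; norm_num⟩
  obtain ⟨z, hz, hzc⟩ : ∃ z : ℝ, 0 < z ∧ z ^ 3 = c :=
    ⟨c ^ (1 / 3 : ℝ), Real.rpow_pos_of_pos hc _, by
      rw [← Real.rpow_natCast, ← Real.rpow_mul hc.le]; norm_num⟩
  subst hxa; subst hyb; subst hzc
  have h1 : (x ^ 3 + y ^ 3 + z ^ 3 - 3) ^ 3 =
      (x * y * z * (3 - (1 / x ^ 3 + 1 / y ^ 3 + 1 / z ^ 3))) ^ 3 := by
    rw [h]; ring
  have h2 : x ^ 3 + y ^ 3 + z ^ 3 - 3 = x * y * z * (3 - (1 / x ^ 3 + 1 / y ^ 3 + 1 / z ^ 3)) := by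
    have hodd : Odd 3 := by decide
    exact (hodd.strictMono_pow (R := ℝ)).injective h1
  -- multiply: x³+y³+z³ - 3xyz + xyz(1/x³+1/y³+1/z³) - 3 = 0
  set p := 1 / x with hp
  set q := 1 / y with hq
  set r := 1 / z with hr
  have hp0 : 0 < p := by positivity
  have hq0 : 0 < q := by positivity
  have hr0 : 0 < r := by positivity
  have hxp : x * p = 1 := by rw [hp]; field_simp
  have hyq : y * q = 1 := by rw [hq]; field_simp
  have hzr : z * r = 1 := by rw [hr]; field_simp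
  have e1 : 1 / x ^ 3 = p ^ 3 := by rw [hp]; ring
  have e2 : 1 / y ^ 3 = q ^ 3 := by rw [hq]; ring
  have e3 : 1 / z ^ 3 = r ^ 3 := by rw [hr]; ring
  rw [e1, e2, e3] at h2
  have h3 : (x ^ 3 + y ^ 3 + z ^ 3 - 3 * (x * y * z)) +
      (x * y * z) * (p ^ 3 + q ^ 3 + r ^ 3 - 3 * (p * q * r)) = 0 := by
    have hpqr : x * y * z * (p * q * r) = 1 := by
      calc x * y * z * (p * q * r) = (x * p) * (y * q) * (z * r) := by ring
        _ = 1 := by rw [hxp, hyq, hzr]; norm_num
    linear_combination h2 - 3 * hpqr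
  have key : ∀ u v w : ℝ, u ^ 3 + v ^ 3 + w ^ 3 - 3 * (u * v * w) =
      (u + v + w) * ((u - v) ^ 2 + (v - w) ^ 2 + (u - w) ^ 2) / 2 := by
    intro u v w; ring
  rw [key x y z, key p q r] at h3
  have hs : 0 < x + y + z := by positivity
  have hs' : 0 < p + q + r := by positivity
  have n1 : 0 ≤ (x + y + z) * ((x - y) ^ 2 + (y - z) ^ 2 + (x - z) ^ 2) / 2 := by (clear * - hx hy hz; positivity)
  have n2 : 0 ≤ x * y * z * ((p + q + r) * ((p - q) ^ 2 + (q - r) ^ 2 + (p - r) ^ 2) / 2) := by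
    (clear * - hx hy hz; positivity)
  have h4 : (x + y + z) * ((x - y) ^ 2 + (y - z) ^ 2 + (x - z) ^ 2) / 2 = 0 := by linarith
  have h5 : (x - y) ^ 2 + (y - z) ^ 2 + (x - z) ^ 2 = 0 := by
    have : (x + y + z) * ((x - y) ^ 2 + (y - z) ^ 2 + (x - z) ^ 2) = 0 := by linarith
    rcases mul_eq_zero.1 this with h | h
    · exact absurd h hs.ne'
    · exact h
  have hxy0 : (x - y) ^ 2 = 0 :=
    le_antisymm (by linarith only [sq_nonneg (x - z), sq_nonneg (y - z), h5]) (sq_nonneg _)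
  have hyz0 : (y - z) ^ 2 = 0 :=
    le_antisymm (by linarith only [sq_nonneg (x - z), sq_nonneg (x - y), h5]) (sq_nonneg _)
  have hxy : x = y := sub_eq_zero.1 (pow_eq_zero_iff (two_ne_zero) |>.1 hxy0)
  have hyz : y = z := sub_eq_zero.1 (pow_eq_zero_iff (two_ne_zero) |>.1 hyz0)
  exact ⟨by rw [hxy], by rw [hyz]⟩

theorem exists_diag' (S : Matrix (Fin 3) (Fin 3) ℝ) (hps : S.PosSemidef) (hS : S.det ≠ 0) :
    ∃ (O : Matrix (Fin 3) (Fin 3) ℝ) (d : Fin 3 → ℝ), O * Oᵀ = 1 ∧ (∀ i, 0 < d i) ∧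
      S = O * diagonal d * Oᵀ := by
  have hH := hps.isHermitian
  have hOO : (hH.eigenvectorUnitary : Matrix (Fin 3) (Fin 3) ℝ) *
      (hH.eigenvectorUnitary : Matrix (Fin 3) (Fin 3) ℝ)ᵀ = 1 := by
    have := Unitary.coe_mul_star_self hH.eigenvectorUnitary
    rw [← Matrix.conjTranspose_eq_transpose_of_trivial]
    exact this
  have hsp : S = (hH.eigenvectorUnitary : Matrix (Fin 3) (Fin 3) ℝ) * diagonal hH.eigenvalues *
      (hH.eigenvectorUnitary : Matrix (Fin 3) (Fin 3) ℝ)ᵀ := by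
    have h := hH.spectral_theorem
    rw [Unitary.conjStarAlgAut_apply] at h
    rw [← Matrix.conjTranspose_eq_transpose_of_trivial]
    exact h
  have hdet : (∏ i, hH.eigenvalues i) ≠ 0 := by
    have := hH.det_eq_prod_eigenvalues
    intro h0
    apply hS
    rw [this]
    exact_mod_cast h0
  refine ⟨_, hH.eigenvalues, hOO, ?_, hsp⟩
  intro i
  have h0 := hps.eigenvalues_nonneg i
  refine lt_of_le_of_ne h0 (Ne.symm ?_)
  exact Finset.prod_ne_zero_iff.1 hdet i (Finset.mem_univ i)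

/-- diagonalisation of `Aᵀ A` -/
theorem exists_diag (A : Matrix (Fin 3) (Fin 3) ℝ) (hA : A.det ≠ 0) :
    ∃ (O : Matrix (Fin 3) (Fin 3) ℝ) (d : Fin 3 → ℝ), O * Oᵀ = 1 ∧ (∀ i, 0 < d i) ∧
      Aᵀ * A = O * diagonal d * Oᵀ := by
  apply exists_diag'
  · have := Matrix.posSemidef_conjTranspose_mul_self A
    rwa [Matrix.conjTranspose_eq_transpose_of_trivial] at this
  · rw [Matrix.det_mul, Matrix.det_transpose]
    exact mul_ne_zero hA hA

/-- **the two rulings have different labels** -/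
theorem label_ne (A : Matrix (Fin 3) (Fin 3) ℝ) (hA : A.det ≠ 0)
    (hS : (Aᵀ * A - 1).det ≠ 0) (x : Fin 3 → ℝ) (hx : x ≠ 0)
    (hxA : A.mulVec x ⬝ᵥ A.mulVec x = x ⬝ᵥ x) :
    label (Aᵀ * A - 1) ≠ label (1 - (Aᵀ * A)⁻¹) := by
  obtain ⟨O, d, hO, hd, hsp⟩ := exists_diag A hA
  have hO' : Oᵀ * O = 1 := mul_eq_one_comm.1 hO
  have hinv : (Aᵀ * A)⁻¹ = O * diagonal (fun i => 1 / d i) * Oᵀ := by
    apply Matrix.inv_eq_right_inv
    rw [hsp]
    calc O * diagonal d * Oᵀ * (O * diagonal (fun i => 1 / d i) * Oᵀ)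
        = O * diagonal d * (Oᵀ * O) * diagonal (fun i => 1 / d i) * Oᵀ := by
          simp only [Matrix.mul_assoc]
      _ = O * (diagonal d * diagonal (fun i => 1 / d i)) * Oᵀ := by
          rw [hO', Matrix.mul_one]; simp only [Matrix.mul_assoc]
      _ = O * 1 * Oᵀ := by
          congr 2
          rw [Matrix.diagonal_mul_diagonal, ← Matrix.diagonal_one]
          congr 1
          funext i
          exact mul_one_div_cancel (hd i).ne'
      _ = 1 := by rw [Matrix.mul_one, hO]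
  have e1 : Aᵀ * A - 1 = Oᵀᵀ * (diagonal (fun i => d i - 1)) * Oᵀ := by
    rw [Matrix.transpose_transpose, hsp]
    have : diagonal (fun i => d i - 1) = diagonal d - (1 : Matrix (Fin 3) (Fin 3) ℝ) := by
      rw [← Matrix.diagonal_one, Matrix.diagonal_sub]
    rw [this, Matrix.mul_sub, Matrix.sub_mul, Matrix.mul_one, hO]
  have e2 : 1 - (Aᵀ * A)⁻¹ = Oᵀᵀ * (diagonal (fun i => 1 - 1 / d i)) * Oᵀ := by
    rw [Matrix.transpose_transpose, hinv]
    have : diagonal (fun i => 1 - 1 / d i) =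
        (1 : Matrix (Fin 3) (Fin 3) ℝ) - diagonal (fun i => 1 / d i) := by
      rw [← Matrix.diagonal_one, Matrix.diagonal_sub]
    rw [this, Matrix.mul_sub, Matrix.sub_mul, Matrix.mul_one, hO]
  have hOt : Oᵀᵀ * Oᵀ = 1 := by rw [Matrix.transpose_transpose, hO]
  have hdet : (d 0 - 1) * (d 1 - 1) * (d 2 - 1) ≠ 0 := by
    intro h0
    apply hS
    rw [e1, Matrix.det_mul, Matrix.det_mul, Matrix.det_diagonal, Fin.prod_univ_three, h0]
    ring
  intro heq
  rw [e1, e2, label_conj _ _ hOt, label_conj _ _ hOt, label, label, Matrix.trace_diagonal,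
    Matrix.trace_diagonal, Matrix.det_diagonal, Matrix.det_diagonal, Fin.sum_univ_three,
    Fin.sum_univ_three, Fin.prod_univ_three, Fin.prod_univ_three] at heq
  have h0 := (hd 0).ne'
  have h1 := (hd 1).ne'
  have h2 := (hd 2).ne'
  have hprod : (1 - 1 / d 0) * (1 - 1 / d 1) * (1 - 1 / d 2) =
      ((d 0 - 1) * (d 1 - 1) * (d 2 - 1)) / (d 0 * d 1 * d 2) := by
    field_simp
  rw [hprod] at heq
  have hq : (d 0 + d 1 + d 2 - 3) ^ 3 =
      d 0 * d 1 * d 2 * (3 - (1 / d 0 + 1 / d 1 + 1 / d 2)) ^ 3 := by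
    have h3 : (d 0 - 1 + (d 1 - 1) + (d 2 - 1)) ^ 3 =
        (1 - 1 / d 0 + (1 - 1 / d 1) + (1 - 1 / d 2)) ^ 3 * (d 0 * d 1 * d 2) := by
      rw [div_div_eq_mul_div, div_left_inj' hdet] at heq
      exact heq
    calc (d 0 + d 1 + d 2 - 3) ^ 3 = (d 0 - 1 + (d 1 - 1) + (d 2 - 1)) ^ 3 := by ring
      _ = _ := h3
      _ = _ := by ring
  obtain ⟨h01, h12⟩ := amgm3 (hd 0) (hd 1) (hd 2) hq
  have hdc : d = fun _ => d 0 := by
    funext i
    fin_cases i
    · rfl
    · exact h01.symm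
    · exact (h01.trans h12).symm
  have hScal : Aᵀ * A = d 0 • (1 : Matrix (Fin 3) (Fin 3) ℝ) := by
    rw [hsp, hdc]
    have : diagonal (fun _ : Fin 3 => d 0) = d 0 • (1 : Matrix (Fin 3) (Fin 3) ℝ) := by
      rw [Matrix.smul_one_eq_diagonal]
    rw [this, Matrix.mul_smul, Matrix.smul_mul, Matrix.mul_one, hO]
  have hxx : A.mulVec x ⬝ᵥ A.mulVec x = d 0 * (x ⬝ᵥ x) := by
    rw [Matrix.dotProduct_mulVec, ← Matrix.mulVec_transpose, Matrix.mulVec_mulVec, hScal,
      Matrix.smul_mulVec, Matrix.one_mulVec, smul_dotProduct, smul_eq_mul]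
  have hx0 : x ⬝ᵥ x ≠ 0 := fun h => hx (dotProduct_self_eq_zero.1 h)
  have hd1 : d 0 = 1 := by
    have : (d 0 - 1) * (x ⬝ᵥ x) = 0 := by
      rw [sub_mul, one_mul, ← hxx, hxA, sub_self]
    rcases mul_eq_zero.1 this with h | h
    · linarith
    · exact absurd h hx0
  apply hdet
  rw [hd1]
  ring

/-- form for block G: labels = trace of the form normalised to determinant `1` -/
theorem class_ne (A B : Matrix (Fin 3) (Fin 3) ℝ) (hAB : Aᵀ * B = 1)
    (hdet : (1 - Aᵀ * A).det ≠ 0) (x : Fin 3 → ℝ) (hx : x ≠ 0)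
    (hxA : A.mulVec x ⬝ᵥ A.mulVec x = x ⬝ᵥ x) (l m : ℝ)
    (hl : l ^ 3 * (1 - Aᵀ * A).det = 1) (hm : m ^ 3 * (1 - Bᵀ * B).det = 1) :
    l * (1 - Aᵀ * A).trace ≠ m * (1 - Bᵀ * B).trace := by
  have hA : A.det ≠ 0 := by
    intro h0
    have := congrArg Matrix.det hAB
    rw [Matrix.det_mul, Matrix.det_transpose, h0, zero_mul, Matrix.det_one] at this
    exact zero_ne_one this
  have hneg : 1 - Aᵀ * A = (-1 : ℝ) • (Aᵀ * A - 1) := by
    rw [neg_smul, one_smul, neg_sub]
  have hS : (Aᵀ * A - 1).det ≠ 0 := by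
    intro h0
    apply hdet
    rw [hneg, Matrix.det_smul, h0, mul_zero]
  have hinv : (Aᵀ * A)⁻¹ = Bᵀ * B := by
    apply Matrix.inv_eq_right_inv
    have hBA : Bᵀ * A = 1 := by
      have := congrArg Matrix.transpose hAB
      rw [Matrix.transpose_mul, Matrix.transpose_transpose, Matrix.transpose_one] at this
      exact this
    have hABt : A * Bᵀ = 1 := mul_eq_one_comm.1 hBA
    calc Aᵀ * A * (Bᵀ * B) = Aᵀ * (A * Bᵀ) * B := by simp only [Matrix.mul_assoc]
      _ = 1 := by rw [hABt, Matrix.mul_one, hAB]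
  have key := label_ne A hA hS x hx hxA
  rw [hinv, ← label_smul (Aᵀ * A - 1) (c := (-1 : ℝ)) (by norm_num), ← hneg] at key
  intro heq
  apply key
  have e1 : label (1 - Aᵀ * A) = (l * (1 - Aᵀ * A).trace) ^ 3 := by
    rw [label, div_eq_iff hdet]
    linear_combination (-(1 - Aᵀ * A).trace ^ 3) * hl
  have hdet' : (1 - Bᵀ * B).det ≠ 0 := by
    intro h0
    rw [h0, mul_zero] at hm
    exact zero_ne_one hm
  have e2 : label (1 - Bᵀ * B) = (m * (1 - Bᵀ * B).trace) ^ 3 := by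
    rw [label, div_eq_iff hdet']
    linear_combination (-(1 - Bᵀ * B).trace ^ 3) * hm
  rw [e1, e2, heq]

end Vale.Agent.P054.Y.G
end
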