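import Mathlib
import Vale.Agent.P054.BdN.N1
import Vale.Agent.P054.BdN.N5

set_option linter.all false

section

/-! P054, block R, leaf BASIC: elementary facts on `rho`, `on`, `off`, `prt`. -/

set_option linter.all false
set_option autoImplicit false

namespace Vale.Agent.P054.R

open Finset Matrix

theorem bcr (a b : V3) : crossProduct a b =
    ![a 1 * b 2 - a 2 * b 1, a 2 * b 0 - a 0 * b 2, a 0 * b 1 - a 1 * b 0] := cross_apply a b

theorem bdp (a b : V3) : a ⬝ᵥ b = a 0 * b 0 + a 1 * b 1 + a 2 * b 2 := by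
  simp [dotProduct, Fin.sum_univ_three]

theorem b_ext {a b : V3} (h0 : a 0 = b 0) (h1 : a 1 = b 1) (h2 : a 2 = b 2) : a = b := by
  funext i; fin_cases i <;> assumption

theorem b_self {a : V3} (h : a ⬝ᵥ a = 0) : a = 0 := by
  rw [bdp] at h
  have h0 : a 0 * a 0 = 0 := by nlinarith [mul_self_nonneg (a 0), mul_self_nonneg (a 1), mul_self_nonneg (a 2)]
  have h1 : a 1 * a 1 = 0 := by nlinarith [mul_self_nonneg (a 0), mul_self_nonneg (a 1), mul_self_nonneg (a 2)]
  have h2 : a 2 * a 2 = 0 := by nlinarith [mul_self_nonneg (a 0), mul_self_nonneg (a 1), mul_self_nonneg (a 2)]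
  exact b_ext (mul_self_eq_zero.1 h0) (mul_self_eq_zero.1 h1) (mul_self_eq_zero.1 h2)

theorem b_par {a b : V3} (h : crossProduct a b = 0) (hb : b ≠ 0) : ∃ t : ℝ, a = t • b := by
  have hbb : b ⬝ᵥ b ≠ 0 := fun hc => hb (b_self hc)
  rw [bcr] at h
  have e0 := congrFun h 0
  have e1 := congrFun h 1
  have e2 := congrFun h 2
  simp at e0 e1 e2
  refine ⟨(a ⬝ᵥ b) / (b ⬝ᵥ b), ?_⟩
  rw [bdp] at hbb
  rw [bdp, bdp]
  apply b_ext <;>
  · simp only [Pi.smul_apply, smul_eq_mul]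
    rw [div_mul_eq_mul_div, eq_div_iff hbb]
    first
    | linear_combination b 1 * e2 - b 2 * e1
    | linear_combination b 2 * e0 - b 0 * e2
    | linear_combination b 0 * e1 - b 1 * e0

theorem b_par_cross (t : ℝ) (b : V3) : crossProduct (t • b) b = 0 := by simp

theorem off_add_on (S : Finset V3) (x b : V3) : off S x b + on S x b = S.card := by
  classical
  unfold off on
  rw [add_comm]
  convert Finset.card_filter_add_card_filter_not (s := S) (OnL x b)

/-- the infimum is attained (`Nat.sInf_mem`) -/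
theorem rho_spec (S : Finset V3) : ∃ x b : V3, b ≠ 0 ∧ off S x b = rho S := by
  have hne : {k | ∃ x b : V3, b ≠ 0 ∧ off S x b = k}.Nonempty :=
    ⟨off S 0 ![1, 0, 0], 0, ![1, 0, 0], fun h => by simpa using congrFun h 0, rfl⟩
  exact Nat.sInf_mem hne

theorem rho_le_off (S : Finset V3) (x b : V3) (hb : b ≠ 0) : rho S ≤ off S x b :=
  Nat.sInf_le ⟨x, b, hb, rfl⟩

theorem rho_mono {S T : Finset V3} (h : S ⊆ T) : rho S ≤ rho T := by
  classical
  obtain ⟨x, b, hb, he⟩ := rho_spec T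
  rw [← he]
  refine (rho_le_off S x b hb).trans ?_
  unfold off
  exact Finset.card_le_card (Finset.filter_subset_filter _ h)

theorem OnL_iff {x b a : V3} (hb : b ≠ 0) : OnL x b a ↔ ∃ t : ℝ, a = x + t • b := by
  unfold OnL
  constructor
  · intro h
    obtain ⟨t, ht⟩ := b_par h hb
    exact ⟨t, by rw [← ht]; abel⟩
  · rintro ⟨t, rfl⟩
    rw [add_sub_cancel_left]
    exact b_par_cross t b

/-- two different lines meet in at most one point -/
theorem DiffL_inter {x b x' b' : V3} (hb : b ≠ 0) (hb' : b' ≠ 0) (h : DiffL x b x' b')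
    {a c : V3} (ha : OnL x b a) (ha' : OnL x' b' a) (hc : OnL x b c) (hc' : OnL x' b' c) : a = c := by
  by_contra hac
  apply h
  have hw : c - a ≠ 0 := fun h => hac (sub_eq_zero.1 h).symm
  have key : ∀ (x b : V3), b ≠ 0 → OnL x b a → OnL x b c → ∀ z, OnL x b z ↔ ∃ t : ℝ, z = a + t • (c - a) := by
    intro x b hb ha hc z
    obtain ⟨s, hs⟩ := (OnL_iff hb).1 ha
    obtain ⟨r, hr⟩ := (OnL_iff hb).1 hc
    have hsr : r - s ≠ 0 := by
      intro h0
      apply hac
      rw [hs, hr, sub_eq_zero.1 h0]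
    have hd : c - a = (r - s) • b := by
      rw [hs, hr, sub_smul]; abel
    rw [OnL_iff hb]
    constructor
    · rintro ⟨t, rfl⟩
      refine ⟨(t - s) / (r - s), ?_⟩
      rw [hd, smul_smul, div_mul_cancel₀ _ hsr, hs, sub_smul]
      abel
    · rintro ⟨t, rfl⟩
      refine ⟨s + t * (r - s), ?_⟩
      rw [hd, smul_smul, add_smul, hs]
      abel
  intro z
  rw [key x b hb ha hc z, key x' b' hb' ha' hc' z]

/-- points of a line contained in a plane -/
theorem LinP_OnP {x b n a : V3} {d : ℝ} (hb : b ≠ 0) (h : LinP x b n d) (ha : OnL x b a) :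
    OnP n d a := by
  obtain ⟨t, rfl⟩ := (OnL_iff hb).1 ha
  unfold OnP
  rw [dotProduct_add, dotProduct_smul, h.1, h.2]
  simp

/-- a line with two different points in the plane is in the plane -/
theorem LinP_of_two {x b n a c : V3} {d : ℝ} (hb : b ≠ 0) (hac : a ≠ c) (ha : OnL x b a)
    (hc : OnL x b c) (ha' : OnP n d a) (hc' : OnP n d c) : LinP x b n d := by
  obtain ⟨s, hs⟩ := (OnL_iff hb).1 ha
  obtain ⟨r, hr⟩ := (OnL_iff hb).1 hc
  unfold OnP at ha' hc'
  rw [hs, dotProduct_add, dotProduct_smul, smul_eq_mul] at ha'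
  rw [hr, dotProduct_add, dotProduct_smul, smul_eq_mul] at hc'
  have hsr : s - r ≠ 0 := by
    intro h0
    apply hac
    rw [hs, hr, sub_eq_zero.1 h0]
  have h1 : (s - r) * (n ⬝ᵥ b) = 0 := by linear_combination ha' - hc'
  have h2 : n ⬝ᵥ b = 0 := (mul_eq_zero.1 h1).resolve_left hsr
  exact ⟨by rw [h2] at ha'; linarith, h2⟩

/-- isometries preserve distances -/
theorem act_dist {g : Iso} (hg : Orth g) (a b : V3) :
    ∑ i, (act g a i - act g b i) ^ 2 = ∑ i, (a i - b i) ^ 2 := by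
  have h1 : act g a - act g b = g.1.mulVec (a - b) := by
    unfold act
    rw [Matrix.mulVec_sub]
    abel
  have h2 : ∀ y : V3, ∑ i, (y i) ^ 2 = y ⬝ᵥ y := fun y => by
    unfold dotProduct
    exact Finset.sum_congr rfl fun i _ => sq _
  have h3 : ∑ i, (act g a i - act g b i) ^ 2 = ∑ i, ((act g a - act g b) i) ^ 2 := rfl
  have h4 : ∑ i, (a i - b i) ^ 2 = ∑ i, ((a - b) i) ^ 2 := rfl
  rw [h3, h4, h2, h2, h1, Matrix.dotProduct_mulVec, Matrix.vecMul_mulVec,
    show g.1ᵀ * g.1 = 1 from hg, Matrix.vecMul_one]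

theorem refl_of_OnP {n a : V3} {d : ℝ} (h : OnP n d a) : refl n d a = a := by
  unfold refl
  unfold OnP at h
  rw [h]
  simp

theorem act_prt (g : Iso) (n : V3) (d : ℝ) (hn : n ≠ 0) (y : V3) :
    act (prt g n d) y = act g (refl n d y) := by
  unfold act prt refl
  simp only
  have h1 : (1 - (2 / (n ⬝ᵥ n)) • Matrix.vecMulVec n n).mulVec y =
      y - (2 * (n ⬝ᵥ y) / (n ⬝ᵥ n)) • n := by
    rw [Matrix.sub_mulVec, Matrix.one_mulVec, Matrix.smul_mulVec, Matrix.vecMulVec_mulVec]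
    funext i
    simp
    ring
  rw [← Matrix.mulVec_mulVec, h1, ← add_assoc, ← Matrix.mulVec_add]
  congr 2
  have h2 : (2 * (n ⬝ᵥ y - d) / (n ⬝ᵥ n)) = (2 * (n ⬝ᵥ y) / (n ⬝ᵥ n)) - (2 * d / (n ⬝ᵥ n)) := by
    ring
  rw [h2, sub_smul]
  abel

theorem refl_mat_orth {n : V3} (hn : n ≠ 0) :
    (1 - (2 / (n ⬝ᵥ n)) • Matrix.vecMulVec n n)ᵀ * (1 - (2 / (n ⬝ᵥ n)) • Matrix.vecMulVec n n) = 1 := by
  have hnn : n ⬝ᵥ n ≠ 0 := fun hc => hn (b_self hc)
  have h1 : Matrix.vecMulVec n n * Matrix.vecMulVec n n = (n ⬝ᵥ n) • Matrix.vecMulVec n n := by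
    rw [Matrix.vecMulVec_mul_vecMulVec]
    ext i j
    simp [Matrix.vecMulVec_apply]
    ring
  have h2 : (Matrix.vecMulVec n n)ᵀ = Matrix.vecMulVec n n := Matrix.transpose_vecMulVec n n
  rw [Matrix.transpose_sub, Matrix.transpose_one, Matrix.transpose_smul, h2, Matrix.mul_sub,
    Matrix.mul_one, Matrix.sub_mul, Matrix.one_mul, Matrix.smul_mul, Matrix.mul_smul, h1, smul_smul,
    smul_smul]
  have h3 : 2 / (n ⬝ᵥ n) * (2 / (n ⬝ᵥ n)) * (n ⬝ᵥ n) = 2 / (n ⬝ᵥ n) + 2 / (n ⬝ᵥ n) := by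
    field_simp
    ring
  rw [h3, add_smul]
  abel

theorem orth_prt {g : Iso} (hg : Orth g) (n : V3) (d : ℝ) (hn : n ≠ 0) : Orth (prt g n d) := by
  unfold Orth prt
  simp only
  rw [Matrix.transpose_mul, Matrix.mul_assoc, ← Matrix.mul_assoc g.1ᵀ, show g.1ᵀ * g.1 = 1 from hg,
    Matrix.one_mul]
  exact refl_mat_orth hn

theorem refl_refl {n : V3} (hn : n ≠ 0) (d : ℝ) (y : V3) : refl n d (refl n d y) = y := by
  have hnn : n ⬝ᵥ n ≠ 0 := fun hc => hn (b_self hc)
  unfold refl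
  rw [dotProduct_sub, dotProduct_smul, smul_eq_mul, sub_sub, ← add_smul]
  have h1 : 2 * (n ⬝ᵥ y - d) / (n ⬝ᵥ n) +
      2 * (n ⬝ᵥ y - 2 * (n ⬝ᵥ y - d) / (n ⬝ᵥ n) * (n ⬝ᵥ n) - d) / (n ⬝ᵥ n) = 0 := by
    field_simp
    ring
  rw [h1, zero_smul, sub_zero]

theorem iso_ext {g h : Iso} (he : ∀ y, act g y = act h y) : g = h := by
  have h0 := he 0
  unfold act at h0
  rw [Matrix.mulVec_zero, Matrix.mulVec_zero, zero_add, zero_add] at h0
  refine Prod.ext ?_ h0
  ext i j
  have h1 := congrFun (he (Pi.single j 1)) i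
  unfold act at h1
  rw [Matrix.mulVec_single_one, Matrix.mulVec_single_one, h0] at h1
  simpa using h1

theorem prt_prt (g : Iso) (n : V3) (d : ℝ) (hn : n ≠ 0) : prt (prt g n d) n d = g := by
  apply iso_ext
  intro y
  rw [act_prt _ n d hn, act_prt _ n d hn, refl_refl hn]

/-- the partner depends only on the plane -/
theorem prt_congr (g : Iso) {n n' : V3} {d d' : ℝ} (hn : n ≠ 0) (hn' : n' ≠ 0)
    (h : ∀ a, OnP n d a ↔ OnP n' d' a) : prt g n d = prt g n' d' := by
  have hnn : n ⬝ᵥ n ≠ 0 := fun hc => hn (b_self hc)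
  have hnn' : n' ⬝ᵥ n' ≠ 0 := fun hc => hn' (b_self hc)
  -- a point of the plane
  set p : V3 := (d / (n ⬝ᵥ n)) • n with hp
  have hpP : n ⬝ᵥ p = d := by
    rw [hp, dotProduct_smul, smul_eq_mul, div_mul_cancel₀ _ hnn]
  have hpP' : n' ⬝ᵥ p = d' := (h p).1 hpP
  -- `n'` is orthogonal to `n^⊥`
  have horth : ∀ w : V3, n ⬝ᵥ w = 0 → n' ⬝ᵥ w = 0 := by
    intro w hw
    have h1 : n ⬝ᵥ (p + w) = d := by rw [dotProduct_add, hpP, hw, add_zero]
    have h2 : n' ⬝ᵥ (p + w) = d' := (h _).1 h1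
    rw [dotProduct_add, hpP'] at h2
    linarith
  set t : ℝ := (n' ⬝ᵥ n) / (n ⬝ᵥ n) with ht
  have hpar : n' = t • n := by
    have h1 : n ⬝ᵥ (n' - t • n) = 0 := by
      rw [dotProduct_sub, dotProduct_smul, smul_eq_mul, ht, div_mul_cancel₀ _ hnn,
        dotProduct_comm n n', sub_self]
    have h2 := horth _ h1
    have h3 : (n' - t • n) ⬝ᵥ (n' - t • n) = 0 := by
      rw [sub_dotProduct, smul_dotProduct, h2, h1]
      simp
    exact sub_eq_zero.1 (b_self h3)
  have ht0 : t ≠ 0 := by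
    intro h0
    apply hn'
    rw [hpar, h0, zero_smul]
  have hd' : d' = t * d := by
    rw [← hpP', hpar, smul_dotProduct, hpP, smul_eq_mul]
  apply iso_ext
  intro y
  rw [act_prt _ n d hn, act_prt _ n' d' hn']
  congr 1
  unfold refl
  rw [hpar, hd', smul_dotProduct, smul_dotProduct, dotProduct_smul, smul_smul]
  congr 2
  simp only [smul_eq_mul]
  field_simp

/-- `M` of the partner agrees on the plane -/
theorem M_prt_plane (g : Iso) {n : V3} {d : ℝ} (hn : n ≠ 0) (X Y : Finset V3) {a : V3}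
    (ha : OnP n d a) : a ∈ M (prt g n d) X Y ↔ a ∈ M g X Y := by
  classical
  unfold M
  rw [Finset.mem_filter, Finset.mem_filter, act_prt _ n d hn, refl_of_OnP ha]

/-- if three non collinear points are in both planes, the planes are equal -/
theorem plane_eq_of_three {n n' : V3} {d d' : ℝ} (hn : n ≠ 0) (hn' : n' ≠ 0) {a b c : V3}
    (habc : crossProduct (b - a) (c - a) ≠ 0) (h1 : OnP n d a) (h2 : OnP n d b) (h3 : OnP n d c)
    (h1' : OnP n' d' a) (h2' : OnP n' d' b) (h3' : OnP n' d' c) : ∀ y, OnP n d y ↔ OnP n' d' y := by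
  have key : ∀ (m : V3) (e : ℝ), OnP m e a → OnP m e b → OnP m e c →
      ∃ t : ℝ, m = t • crossProduct (b - a) (c - a) := by
    intro m e k1 k2 k3
    apply b_par ?_ habc
    unfold OnP at k1 k2 k3
    have l1 : m ⬝ᵥ (b - a) = 0 := by rw [dotProduct_sub, k1, k2, sub_self]
    have l2 : m ⬝ᵥ (c - a) = 0 := by rw [dotProduct_sub, k1, k3, sub_self]
    set u := b - a
    set w := c - a
    rw [bdp] at l1 l2
    simp only [bcr]
    apply b_ext <;> simp only [Matrix.cons_val, Pi.zero_apply]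
    · linear_combination u 0 * l2 - w 0 * l1
    · linear_combination u 1 * l2 - w 1 * l1
    · linear_combination u 2 * l2 - w 2 * l1
  obtain ⟨t, ht⟩ := key n d h1 h2 h3
  obtain ⟨s, hs⟩ := key n' d' h1' h2' h3'
  set q := crossProduct (b - a) (c - a)
  have ht0 : t ≠ 0 := by intro h; apply hn; rw [ht, h, zero_smul]
  have hs0 : s ≠ 0 := by intro h; apply hn'; rw [hs, h, zero_smul]
  intro y
  unfold OnP at *
  rw [ht, smul_dotProduct, smul_eq_mul] at h1 ⊢
  rw [hs, smul_dotProduct, smul_eq_mul] at h1' ⊢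
  rw [← h1, ← h1']
  constructor
  · intro h
    rw [mul_left_cancel₀ ht0 h]
  · intro h
    rw [mul_left_cancel₀ hs0 h]

end Vale.Agent.P054.R
end

section

/-! P054: from the statement with squared distances in `Fin 3 → ℝ` to Euclidean space. -/

set_option autoImplicit false
set_option linter.all false

namespace Vale.Agent.P054.Fin

open Finset

/-- The goal: `n` points of `R^3` determine at least `n^(2/3 - δ)` squared distances
(`0` included), for `n` large. -/
def MainStmt : Prop :=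
  ∀ δ : ℝ, 0 < δ → ∃ n0 : ℕ, ∀ P : Finset (Fin 3 → ℝ), n0 ≤ P.card →
    (P.card : ℝ) ^ ((2 : ℝ) / 3 - δ) ≤
      (((P ×ˢ P).image (fun q => ∑ k, (q.1 k - q.2 k) ^ 2)).card : ℝ)

open scoped Classical in
theorem space_two_thirds (H : MainStmt) (ε : ℝ) (hε : 0 < ε) : ∃ c : ℝ, 0 < c ∧
    ∀ P : Finset (EuclideanSpace ℝ (Fin 3)), 2 ≤ P.card →
      c * (P.card : ℝ) ^ ((2 : ℝ) / 3 - ε) ≤
        (((P.offDiag).image (fun p => dist p.1 p.2)).card : ℝ) := by
  obtain ⟨n0, h0⟩ := H ε hε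
  refine ⟨min (1 / 2) (1 / ((n0 : ℝ) + 1)), lt_min (by norm_num) (by positivity), ?_⟩
  intro P hP
  have hn1 : (1 : ℝ) ≤ P.card := by exact_mod_cast (by omega : 1 ≤ P.card)
  have hne : (P.offDiag).Nonempty := by
    obtain ⟨a, ha, b, hb, hab⟩ := Finset.one_lt_card.1 (show 1 < P.card by omega)
    exact ⟨(a, b), Finset.mem_offDiag.2 ⟨ha, hb, hab⟩⟩
  have hD1 : (1 : ℝ) ≤ (((P.offDiag).image (fun p => dist p.1 p.2)).card : ℝ) := by
    exact_mod_cast Finset.card_pos.2 (hne.image _)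
  by_cases hn : n0 ≤ P.card
  · -- the large case
    set Q : Finset (Fin 3 → ℝ) := P.image (fun p => p.ofLp) with hQ
    have hinj : Function.Injective (fun p : EuclideanSpace ℝ (Fin 3) => p.ofLp) := by
      intro p q hpq
      ext k
      exact congrFun hpq k
    have hQc : Q.card = P.card := Finset.card_image_of_injective _ hinj
    have h1 := h0 Q (by rw [hQc]; exact hn)
    rw [hQc] at h1
    have hsub : (Q ×ˢ Q).image (fun q => ∑ k, (q.1 k - q.2 k) ^ 2) ⊆
        insert 0 (((P.offDiag).image (fun p => dist p.1 p.2)).image (fun r => r ^ 2)) := by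
      intro r hr
      obtain ⟨⟨x, y⟩, hxy, rfl⟩ := Finset.mem_image.1 hr
      rw [Finset.mem_product] at hxy
      obtain ⟨p, hp, hpx⟩ := Finset.mem_image.1 hxy.1
      obtain ⟨q, hq, hqy⟩ := Finset.mem_image.1 hxy.2
      simp only at hpx hqy
      rw [Finset.mem_insert]
      by_cases hpq : p = q
      · left
        subst hpq
        simp only [← hpx, ← hqy, sub_self]
        norm_num
      · right
        rw [Finset.mem_image]
        refine ⟨dist p q, Finset.mem_image.2 ⟨(p, q), Finset.mem_offDiag.2 ⟨hp, hq, hpq⟩, rfl⟩, ?_⟩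
        rw [EuclideanSpace.dist_eq, Real.sq_sqrt (Finset.sum_nonneg (fun _ _ => sq_nonneg _))]
        refine Finset.sum_congr rfl (fun k _ => ?_)
        rw [Real.dist_eq, sq_abs, ← hpx, ← hqy]
    have h2 : ((Q ×ˢ Q).image (fun q => ∑ k, (q.1 k - q.2 k) ^ 2)).card ≤
        ((P.offDiag).image (fun p => dist p.1 p.2)).card + 1 :=
      (Finset.card_le_card hsub).trans ((Finset.card_insert_le _ _).trans
        (Nat.add_le_add_right Finset.card_image_le 1))
    have h3 : (((Q ×ˢ Q).image (fun q => ∑ k, (q.1 k - q.2 k) ^ 2)).card : ℝ) ≤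
        (((P.offDiag).image (fun p => dist p.1 p.2)).card : ℝ) + 1 := by exact_mod_cast h2
    have h4 : (0 : ℝ) ≤ (P.card : ℝ) ^ ((2 : ℝ) / 3 - ε) := by positivity
    calc min (1 / 2) (1 / ((n0 : ℝ) + 1)) * (P.card : ℝ) ^ ((2 : ℝ) / 3 - ε)
        ≤ 1 / 2 * (P.card : ℝ) ^ ((2 : ℝ) / 3 - ε) :=
          mul_le_mul_of_nonneg_right (min_le_left _ _) h4
      _ ≤ _ := by linarith only [h3, h1, hD1]
  · -- the small case
    have hn' : (P.card : ℝ) ≤ n0 := by exact_mod_cast (not_le.1 hn).le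
    have h4 : (P.card : ℝ) ^ ((2 : ℝ) / 3 - ε) ≤ P.card := by
      calc (P.card : ℝ) ^ ((2 : ℝ) / 3 - ε) ≤ (P.card : ℝ) ^ (1 : ℝ) :=
            Real.rpow_le_rpow_of_exponent_le hn1 (by linarith)
        _ = P.card := Real.rpow_one _
    have h5 : (0 : ℝ) ≤ (P.card : ℝ) ^ ((2 : ℝ) / 3 - ε) := by positivity
    calc min (1 / 2) (1 / ((n0 : ℝ) + 1)) * (P.card : ℝ) ^ ((2 : ℝ) / 3 - ε)
        ≤ 1 / ((n0 : ℝ) + 1) * (P.card : ℝ) ^ ((2 : ℝ) / 3 - ε) :=
          mul_le_mul_of_nonneg_right (min_le_right _ _) h5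
      _ ≤ 1 / ((n0 : ℝ) + 1) * ((n0 : ℝ) + 1) :=
          mul_le_mul_of_nonneg_left (by linarith) (by positivity)
      _ = 1 := by field_simp
      _ ≤ _ := hD1

end Vale.Agent.P054.Fin
end

section

/-! P054, final arithmetic: Theorem R and Theorem G give the exponent `2/3 - δ`. -/

set_option autoImplicit false
set_option linter.all false

namespace Vale.Agent.P054.Fin

open Finset Matrix Vale.Agent.P054.R

/-- squared distance -/
def sqd (a b : V3) : ℝ := ∑ k, (a k - b k) ^ 2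

open scoped Classical in
/-- the squared distances of `P`, `0` included -/
noncomputable def dst (P : Finset V3) : Finset ℝ := (P ×ˢ P).image (fun q => sqd q.1 q.2)

/-- Output of block G: if there are few distances, there are at least `c n^6 / τ^3` pairs of
congruent triples that are matched by an isometry with at least `c n^2 / τ^2` matched points. -/
def GStmt : Prop := ∀ δ : ℝ, 0 < δ → ∃ c : ℝ, 0 < c ∧ ∃ n0 : ℕ, ∀ P : Finset V3, n0 ≤ P.card →
  ((dst P).card : ℝ) ≤ (P.card : ℝ) ^ ((2 : ℝ) / 3 - δ) →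
  ∃ S : Finset ((V3 × V3 × V3) × (V3 × V3 × V3)),
    (∀ q ∈ S, q.1.1 ∈ P ∧ q.1.2.1 ∈ P ∧ q.1.2.2 ∈ P ∧ q.2.1 ∈ P ∧ q.2.2.1 ∈ P ∧ q.2.2.2 ∈ P ∧
      ∃ g : Iso, Orth g ∧ act g q.1.1 = q.2.1 ∧ act g q.1.2.1 = q.2.2.1 ∧
        act g q.1.2.2 = q.2.2.2 ∧
        c * ((P.card : ℝ) ^ 2 / ((dst P).card : ℝ) ^ 2) ≤ ((M g P P).card : ℝ)) ∧
    c * ((P.card : ℝ) ^ 6 / ((dst P).card : ℝ) ^ 3) ≤ (S.card : ℝ)


theorem onL_param {x b a a' : V3} (hb : b ≠ 0) (h : OnL x b a) (h' : OnL x b a')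
    (i : Fin 3) : (a i - a' i) * (b ⬝ᵥ b) = ((a ⬝ᵥ b) - (a' ⬝ᵥ b)) * b i := by
  unfold OnL at h h'
  rw [cross_apply] at h h'
  have h0 := congrFun h 0
  have h1 := congrFun h 1
  have h2 := congrFun h 2
  have h0' := congrFun h' 0
  have h1' := congrFun h' 1
  have h2' := congrFun h' 2
  simp [Pi.sub_apply] at h0 h1 h2 h0' h1' h2'
  simp only [dotProduct, Fin.sum_univ_three]
  fin_cases i
  · simp
    linear_combination (b 2) * (h1' - h1) + (b 1) * (h2' - h2) * (-1)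
  · simp
    linear_combination (b 2) * (h0' - h0) * (-1) + (b 0) * (h2' - h2)
  · simp
    linear_combination (b 1) * (h0' - h0) + (b 0) * (h1' - h1) * (-1)

open scoped Classical in
/-- a line contains at most as many points as there are distances -/
theorem on_le (P : Finset V3) (x b : V3) (hb : b ≠ 0) : on P x b ≤ (dst P).card := by
  classical
  have hbb : 0 < b ⬝ᵥ b := by
    rcases lt_or_eq_of_le (show 0 ≤ b ⬝ᵥ b from Finset.sum_nonneg (fun i _ => mul_self_nonneg _))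
      with h | h
    · exact h
    · exfalso
      apply hb
      funext i
      have := (Finset.sum_eq_zero_iff_of_nonneg (fun i _ => mul_self_nonneg (b i))).1
        (show ∑ i, b i * b i = 0 from h.symm) i (Finset.mem_univ _)
      simpa using this
  unfold on
  set L := P.filter (fun a => OnL x b a) with hL
  by_cases hne : L.Nonempty
  · obtain ⟨a0, ha0, hmin⟩ := Finset.exists_min_image L (fun a => a ⬝ᵥ b) hne
    have ha0' := Finset.mem_filter.1 ha0
    refine Finset.card_le_card_of_injOn (fun a => sqd a0 a) ?_ ?_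
    · intro a ha
      have ha' := Finset.mem_filter.1 (Finset.mem_coe.1 ha)
      exact Finset.mem_coe.2 (Finset.mem_image.2
        ⟨(a0, a), Finset.mem_product.2 ⟨ha0'.1, ha'.1⟩, rfl⟩)
    · intro a ha a' ha' h
      have h1 := Finset.mem_filter.1 (Finset.mem_coe.1 ha)
      have h2 := Finset.mem_filter.1 (Finset.mem_coe.1 ha')
      have key : ∀ c, OnL x b c → sqd a0 c * (b ⬝ᵥ b) = ((c ⬝ᵥ b) - (a0 ⬝ᵥ b)) ^ 2 := by
        intro c hc
        have e : ∀ i, (a0 i - c i) * (b ⬝ᵥ b) = ((a0 ⬝ᵥ b) - (c ⬝ᵥ b)) * b i :=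
          fun i => onL_param hb ha0'.2 hc i
        have h3 : sqd a0 c * (b ⬝ᵥ b) * (b ⬝ᵥ b) = ((c ⬝ᵥ b) - (a0 ⬝ᵥ b)) ^ 2 * (b ⬝ᵥ b) := by
          have : sqd a0 c * (b ⬝ᵥ b) * (b ⬝ᵥ b) = ∑ i, ((a0 i - c i) * (b ⬝ᵥ b)) ^ 2 := by
            unfold sqd
            rw [Finset.sum_mul, Finset.sum_mul]
            exact Finset.sum_congr rfl (fun i _ => by ring)
          rw [this]
          have h4 : ((c ⬝ᵥ b) - (a0 ⬝ᵥ b)) ^ 2 * (b ⬝ᵥ b) =
              ∑ i, ((c ⬝ᵥ b) - (a0 ⬝ᵥ b)) ^ 2 * (b i * b i) := by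
            rw [← Finset.mul_sum]
            rfl
          rw [h4]
          refine Finset.sum_congr rfl (fun i _ => ?_)
          rw [e i]
          ring
        exact mul_right_cancel₀ hbb.ne' h3
      have k1 := key a h1.2
      have k2 := key a' h2.2
      replace h : sqd a0 a = sqd a0 a' := h
      rw [h, k2] at k1
      have m1 : a0 ⬝ᵥ b ≤ a ⬝ᵥ b := hmin a (Finset.mem_coe.1 ha)
      have m2 : a0 ⬝ᵥ b ≤ a' ⬝ᵥ b := hmin a' (Finset.mem_coe.1 ha')
      have h5 : (a' ⬝ᵥ b) - (a0 ⬝ᵥ b) = (a ⬝ᵥ b) - (a0 ⬝ᵥ b) :=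
        (sq_eq_sq₀ (by linarith) (by linarith)).1 k1
      have h6 : (a ⬝ᵥ b) - (a' ⬝ᵥ b) = 0 := by linarith
      funext i
      have h7 := onL_param hb h1.2 h2.2 i
      rw [h6, zero_mul] at h7
      rcases mul_eq_zero.1 h7 with h8 | h8
      · linarith
      · exact absurd h8 hbb.ne'
  · rw [Finset.not_nonempty_iff_eq_empty.1 hne]
    simp

open scoped Classical in
theorem M_sub (g : Iso) (X Y : Finset V3) : M g X Y ⊆ X := Finset.filter_subset _ _

theorem card_M_le (P : Finset V3) (g : Iso) :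
    (M g P P).card ≤ rho (M g P P) + (dst P).card := by
  classical
  obtain ⟨x, b, hb, h⟩ := rho_spec (M g P P)
  rw [← off_add_on (M g P P) x b, h]
  refine Nat.add_le_add_left (le_trans ?_ (on_le P x b hb)) _
  unfold on
  exact Finset.card_le_card (Finset.filter_subset_filter _ (M_sub g P P))

/-- the number of triples is at most the sum of the cubes -/
theorem card_triples (P : Finset V3) (S : Finset ((V3 × V3 × V3) × (V3 × V3 × V3)))
    (φ : ((V3 × V3 × V3) × (V3 × V3 × V3)) → Iso) (G : Finset Iso) (hφ : ∀ q ∈ S, φ q ∈ G)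
    (hS : ∀ q ∈ S, q.1.1 ∈ P ∧ q.1.2.1 ∈ P ∧ q.1.2.2 ∈ P ∧ q.2.1 ∈ P ∧ q.2.2.1 ∈ P ∧
      q.2.2.2 ∈ P ∧ act (φ q) q.1.1 = q.2.1 ∧ act (φ q) q.1.2.1 = q.2.2.1 ∧
        act (φ q) q.1.2.2 = q.2.2.2) :
    S.card ≤ ∑ g ∈ G, (M g P P).card ^ 3 := by
  classical
  rw [Finset.card_eq_sum_card_fiberwise hφ]
  refine Finset.sum_le_sum (fun g hg => ?_)
  have h3 : (M g P P).card ^ 3 = ((M g P P) ×ˢ ((M g P P) ×ˢ (M g P P))).card := by
    rw [Finset.card_product, Finset.card_product]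
    ring
  rw [h3]
  refine Finset.card_le_card_of_injOn (fun q => q.1) ?_ ?_
  · intro q hq
    obtain ⟨hq, hg'⟩ := Finset.mem_filter.1 (Finset.mem_coe.1 hq)
    obtain ⟨h1, h2, h3, h4, h5, h6, e1, e2, e3⟩ := hS q hq
    rw [hg'] at e1 e2 e3
    rw [Finset.mem_coe, Finset.mem_product, Finset.mem_product]
    unfold M
    refine ⟨Finset.mem_filter.2 ⟨h1, by rw [e1]; exact h4⟩,
      Finset.mem_filter.2 ⟨h2, by rw [e2]; exact h5⟩,
      Finset.mem_filter.2 ⟨h3, by rw [e3]; exact h6⟩⟩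
  · intro q hq q' hq' h
    obtain ⟨hq, hg'⟩ := Finset.mem_filter.1 (Finset.mem_coe.1 hq)
    obtain ⟨hq', hg''⟩ := Finset.mem_filter.1 (Finset.mem_coe.1 hq')
    obtain ⟨-, -, -, -, -, -, e1, e2, e3⟩ := hS q hq
    obtain ⟨-, -, -, -, -, -, e1', e2', e3'⟩ := hS q' hq'
    simp only at h
    rw [hg'] at e1 e2 e3
    rw [hg'', ← h] at e1' e2' e3'
    refine Prod.ext h (Prod.ext ?_ (Prod.ext ?_ ?_))
    · rw [← e1, ← e1']
    · rw [← e2, ← e2']
    · rw [← e3, ← e3']

open Filter in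
/-- **Assembly**: Theorem R and Theorem G imply the main statement. -/
theorem main_of_alt (hR : RStmt) (hG : GStmt) : MainStmt := by
  classical
  intro δ hδ
  obtain ⟨c, hc, n0, hG⟩ := hG δ hδ
  obtain ⟨K1, C, hC, hR⟩ := hR δ hδ
  have t1 := tendsto_rpow_atTop (show 0 < 3 * δ by positivity)
  have t2 := tendsto_rpow_atTop (show 0 < 2 / 3 + 2 * δ by positivity)
  have t3 := tendsto_rpow_atTop hδ
  obtain ⟨N, hN⟩ := Filter.eventually_atTop.1 (((t1.eventually_ge_atTop (2 / c)).and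
    (t2.eventually_ge_atTop (2 * K1 / c))).and (t3.eventually_gt_atTop (8 * C / c)))
  refine ⟨max n0 (⌈max N 1⌉₊), ?_⟩
  intro P hP
  by_contra hcon
  push Not at hcon
  have hn0 : n0 ≤ P.card := le_trans (le_max_left _ _) hP
  have hnN : max N 1 ≤ (P.card : ℝ) :=
    (Nat.le_ceil _).trans (by exact_mod_cast le_trans (le_max_right _ _) hP)
  have hn1 : (1 : ℝ) ≤ P.card := (le_max_right _ _).trans hnN
  obtain ⟨⟨a1, a2⟩, a3⟩ := hN _ ((le_max_left _ _).trans hnN)
  set n : ℝ := ((P.card : ℕ) : ℝ) with hn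
  have hnpos : 0 < n := by linarith
  have hdst : (dst P).card = ((P ×ˢ P).image (fun q => ∑ k, (q.1 k - q.2 k) ^ 2)).card := rfl
  have hPne : P.Nonempty := by
    have h0 : (0 : ℝ) < ((P.card : ℕ) : ℝ) := hnpos
    exact Finset.card_pos.1 (by exact_mod_cast h0)
  set t : ℝ := (((dst P).card : ℕ) : ℝ) with ht
  have ht1 : 1 ≤ t := by
    have : 1 ≤ (dst P).card := by
      rw [Nat.one_le_iff_ne_zero, ← Nat.pos_iff_ne_zero, Finset.card_pos]
      obtain ⟨p, hp⟩ := hPne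
      exact ⟨sqd p p, Finset.mem_image.2 ⟨(p, p), Finset.mem_product.2 ⟨hp, hp⟩, rfl⟩⟩
    rw [ht]
    exact_mod_cast this
  have htpos : 0 < t := by linarith
  have htn : t ≤ n ^ ((2 : ℝ) / 3 - δ) := by
    rw [ht, hdst]
    exact hcon.le
  obtain ⟨S, hS, hSc⟩ := hG P hn0 htn
  -- choice of the isometries
  have hch : ∀ q : ((V3 × V3 × V3) × (V3 × V3 × V3)), ∃ g : Iso, q ∈ S →
      Orth g ∧ act g q.1.1 = q.2.1 ∧ act g q.1.2.1 = q.2.2.1 ∧ act g q.1.2.2 = q.2.2.2 ∧
        c * (n ^ 2 / t ^ 2) ≤ ((M g P P).card : ℝ) := by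
    intro q
    by_cases hq : q ∈ S
    · obtain ⟨-, -, -, -, -, -, g, hg⟩ := hS q hq
      exact ⟨g, fun _ => hg⟩
    · exact ⟨(1, 0), fun h => absurd h hq⟩
  choose φ hφ using hch
  set G : Finset Iso := S.image φ with hGdef
  have hGorth : ∀ g ∈ G, Orth g := by
    intro g hg
    obtain ⟨q, hq, rfl⟩ := Finset.mem_image.1 hg
    exact (hφ q hq).1
  have hGrich : ∀ g ∈ G, c * (n ^ 2 / t ^ 2) ≤ ((M g P P).card : ℝ) := by
    intro g hg
    obtain ⟨q, hq, rfl⟩ := Finset.mem_image.1 hg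
    exact (hφ q hq).2.2.2.2
  have h1 := card_triples P S φ G (fun q hq => Finset.mem_image_of_mem _ hq) (by
    intro q hq
    obtain ⟨b1, b2, b3, b4, b5, b6, -⟩ := hS q hq
    obtain ⟨-, e1, e2, e3, -⟩ := hφ q hq
    exact ⟨b1, b2, b3, b4, b5, b6, e1, e2, e3⟩)
  -- powers
  have p1 : n ^ ((2 : ℝ) / 3 + 2 * δ) * t ^ 2 ≤ n ^ 2 := by
    have : t ^ 2 ≤ (n ^ ((2 : ℝ) / 3 - δ)) ^ 2 := pow_le_pow_left₀ htpos.le htn 2
    calc n ^ ((2 : ℝ) / 3 + 2 * δ) * t ^ 2 ≤
          n ^ ((2 : ℝ) / 3 + 2 * δ) * (n ^ ((2 : ℝ) / 3 - δ)) ^ 2 :=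
          mul_le_mul_of_nonneg_left this (by positivity)
      _ = n ^ 2 := by
          rw [← Real.rpow_natCast, ← Real.rpow_mul hnpos.le, ← Real.rpow_add hnpos,
            ← Real.rpow_natCast]
          congr 1
          push_cast
          ring
  have p2 : n ^ ((2 : ℝ) / 3 + 2 * δ) ≤ n ^ 2 / t ^ 2 := by
    rw [le_div_iff₀ (by (clear * - ht1; positivity))]
    exact p1
  have p3 : n ^ ((4 : ℝ) + 3 * δ) ≤ n ^ 6 / t ^ 3 := by
    rw [le_div_iff₀ (by (clear * - ht1; positivity))]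
    have : t ^ 3 ≤ (n ^ ((2 : ℝ) / 3 - δ)) ^ 3 := pow_le_pow_left₀ htpos.le htn 3
    calc n ^ ((4 : ℝ) + 3 * δ) * t ^ 3 ≤
          n ^ ((4 : ℝ) + 3 * δ) * (n ^ ((2 : ℝ) / 3 - δ)) ^ 3 :=
          mul_le_mul_of_nonneg_left this (by positivity)
      _ = n ^ 6 := by
          rw [← Real.rpow_natCast, ← Real.rpow_mul hnpos.le, ← Real.rpow_add hnpos,
            ← Real.rpow_natCast]
          congr 1
          push_cast
          ring
  -- every g of G is rich
  have hρ : ∀ g ∈ G, ((M g P P).card : ℝ) ≤ 2 * (rho (M g P P) : ℝ) ∧ K1 ≤ rho (M g P P) := by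
    intro g hg
    have b1 := hGrich g hg
    have b2 : ((M g P P).card : ℝ) ≤ (rho (M g P P) : ℝ) + t := by
      rw [ht]
      exact_mod_cast card_M_le P g
    have b3 : 2 * t ≤ ((M g P P).card : ℝ) := by
      have e : n ^ ((2 : ℝ) / 3 + 2 * δ) = n ^ ((2 : ℝ) / 3 - δ) * n ^ (3 * δ) := by
        rw [← Real.rpow_add hnpos]
        congr 1
        ring
      have e2 : 2 ≤ c * n ^ (3 * δ) := by
        rw [div_le_iff₀ hc] at a1
        linarith only [a1]
      calc 2 * t ≤ 2 * n ^ ((2 : ℝ) / 3 - δ) := by linarith only [htn]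
        _ ≤ (c * n ^ (3 * δ)) * n ^ ((2 : ℝ) / 3 - δ) :=
            mul_le_mul_of_nonneg_right e2 (by (clear * - hPne; positivity))
        _ = c * n ^ ((2 : ℝ) / 3 + 2 * δ) := by rw [e]; ring
        _ ≤ c * (n ^ 2 / t ^ 2) := mul_le_mul_of_nonneg_left p2 hc.le
        _ ≤ _ := b1
    have b4 : ((M g P P).card : ℝ) ≤ 2 * (rho (M g P P) : ℝ) := by linarith only [b3, b2]
    refine ⟨b4, ?_⟩
    have b5 : 2 * (K1 : ℝ) ≤ ((M g P P).card : ℝ) := by
      rw [div_le_iff₀ hc] at a2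
      calc 2 * (K1 : ℝ) ≤ n ^ ((2 : ℝ) / 3 + 2 * δ) * c := a2
        _ = c * n ^ ((2 : ℝ) / 3 + 2 * δ) := mul_comm _ _
        _ ≤ c * (n ^ 2 / t ^ 2) := mul_le_mul_of_nonneg_left p2 hc.le
        _ ≤ _ := b1
    have b6 : (K1 : ℝ) ≤ (rho (M g P P) : ℝ) := by linarith only [b5, b4]
    exact_mod_cast b6
  have hR' := hR P P G hGorth
  unfold Rf at hR'
  have h2 : (S.card : ℝ) ≤ ∑ g ∈ G, ((M g P P).card : ℝ) ^ 3 := by exact_mod_cast h1
  have h3 : ∑ g ∈ G, ((M g P P).card : ℝ) ^ 3 ≤ 8 *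
      ∑ g ∈ G, (if K1 ≤ rho (M g P P) then ((rho (M g P P) : ℕ) : ℝ) ^ 3 else 0) := by
    rw [Finset.mul_sum]
    refine Finset.sum_le_sum (fun g hg => ?_)
    obtain ⟨q1, q2⟩ := hρ g hg
    rw [if_pos q2]
    calc ((M g P P).card : ℝ) ^ 3 ≤ (2 * (rho (M g P P) : ℝ)) ^ 3 :=
          pow_le_pow_left₀ (Nat.cast_nonneg _) q1 3
      _ = _ := by ring
  have h4 : ((P.card : ℝ) * P.card) ^ (2 + δ) = n ^ ((4 : ℝ) + 2 * δ) := by
    rw [← hn, ← sq, ← Real.rpow_natCast, ← Real.rpow_mul hnpos.le]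
    congr 1
    push_cast
    ring
  rw [h4] at hR'
  have h5 : c * n ^ ((4 : ℝ) + 3 * δ) ≤ 8 * (C * n ^ ((4 : ℝ) + 2 * δ)) := by
    calc c * n ^ ((4 : ℝ) + 3 * δ) ≤ c * (n ^ 6 / t ^ 3) := mul_le_mul_of_nonneg_left p3 hc.le
      _ ≤ S.card := hSc
      _ ≤ _ := h2
      _ ≤ _ := h3
      _ ≤ _ := by linarith only [hR']
  have e3 : n ^ ((4 : ℝ) + 3 * δ) = n ^ ((4 : ℝ) + 2 * δ) * n ^ δ := by
    rw [← Real.rpow_add hnpos]
    congr 1
    ring
  rw [e3] at h5
  have h6 : 0 < n ^ ((4 : ℝ) + 2 * δ) := Real.rpow_pos_of_pos hnpos _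
  have h7 : c * n ^ δ ≤ 8 * C := by
    by_contra hh
    push Not at hh
    have := mul_lt_mul_of_pos_right hh h6
    linarith only [this, h5]
  rw [div_lt_iff₀ hc] at a3
  linarith only [h7, a3]

end Vale.Agent.P054.Fin
end

section

/-! P054, final arithmetic with the form `GStmt2` of the output of block G (loss `n^(-δ/2)`). -/

set_option autoImplicit false
set_option linter.all false

namespace Vale.Agent.P054.Fin

open Finset Matrix Vale.Agent.P054.R

/-- Output of block G: if there are few distances, there are at least `n^(-δ/2) n^6 / τ^3` pairs of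
congruent triples that are matched by an isometry with at least `n^(-δ/2) n^2 / τ^2` matched
points. -/
def GStmt2 : Prop := ∀ δ : ℝ, 0 < δ → ∃ n0 : ℕ, ∀ P : Finset V3, n0 ≤ P.card →
  ((dst P).card : ℝ) ≤ (P.card : ℝ) ^ ((2 : ℝ) / 3 - δ) →
  ∃ S : Finset ((V3 × V3 × V3) × (V3 × V3 × V3)),
    (∀ q ∈ S, q.1.1 ∈ P ∧ q.1.2.1 ∈ P ∧ q.1.2.2 ∈ P ∧ q.2.1 ∈ P ∧ q.2.2.1 ∈ P ∧ q.2.2.2 ∈ P ∧
      ∃ g : Iso, Orth g ∧ act g q.1.1 = q.2.1 ∧ act g q.1.2.1 = q.2.2.1 ∧
        act g q.1.2.2 = q.2.2.2 ∧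
        (P.card : ℝ) ^ (-(δ / 2)) * ((P.card : ℝ) ^ 2 / ((dst P).card : ℝ) ^ 2) ≤
          ((M g P P).card : ℝ)) ∧
    (P.card : ℝ) ^ (-(δ / 2)) * ((P.card : ℝ) ^ 6 / ((dst P).card : ℝ) ^ 3) ≤ (S.card : ℝ)

open Filter in
/-- **Assembly**: Theorem R and Theorem G imply the main statement. -/
theorem main_of2 (hR : RStmt) (hG : GStmt2) : MainStmt := by
  classical
  intro δ hδ
  obtain ⟨n0, hG⟩ := hG δ hδ
  obtain ⟨K1, C, hC, hR⟩ := hR δ hδ
  have t1 := tendsto_rpow_atTop (show 0 < 5 / 2 * δ by positivity)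
  have t2 := tendsto_rpow_atTop (show 0 < 2 / 3 + 3 / 2 * δ by positivity)
  have t3 := tendsto_rpow_atTop (show 0 < δ / 2 by positivity)
  obtain ⟨N, hN⟩ := Filter.eventually_atTop.1 (((t1.eventually_ge_atTop (2 : ℝ)).and
    (t2.eventually_ge_atTop (2 * (K1 : ℝ)))).and (t3.eventually_gt_atTop (8 * C)))
  refine ⟨max n0 (⌈max N 1⌉₊), ?_⟩
  intro P hP
  by_contra hcon
  push Not at hcon
  have hn0 : n0 ≤ P.card := le_trans (le_max_left _ _) hP
  have hnN : max N 1 ≤ (P.card : ℝ) :=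
    (Nat.le_ceil _).trans (by exact_mod_cast le_trans (le_max_right _ _) hP)
  have hn1 : (1 : ℝ) ≤ P.card := (le_max_right _ _).trans hnN
  obtain ⟨⟨a1, a2⟩, a3⟩ := hN _ ((le_max_left _ _).trans hnN)
  set n : ℝ := ((P.card : ℕ) : ℝ) with hn
  have hnpos : 0 < n := by linarith
  set c : ℝ := n ^ (-(δ / 2)) with hcdef
  have hc : 0 < c := Real.rpow_pos_of_pos hnpos _
  have hdst : (dst P).card = ((P ×ˢ P).image (fun q => ∑ k, (q.1 k - q.2 k) ^ 2)).card := rfl
  have hPne : P.Nonempty := by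
    have h0 : (0 : ℝ) < ((P.card : ℕ) : ℝ) := hnpos
    exact Finset.card_pos.1 (by exact_mod_cast h0)
  set t : ℝ := (((dst P).card : ℕ) : ℝ) with ht
  have ht1 : 1 ≤ t := by
    have : 1 ≤ (dst P).card := by
      rw [Nat.one_le_iff_ne_zero, ← Nat.pos_iff_ne_zero, Finset.card_pos]
      obtain ⟨p, hp⟩ := hPne
      exact ⟨sqd p p, Finset.mem_image.2 ⟨(p, p), Finset.mem_product.2 ⟨hp, hp⟩, rfl⟩⟩
    rw [ht]
    exact_mod_cast this
  have htpos : 0 < t := by linarith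
  have htn : t ≤ n ^ ((2 : ℝ) / 3 - δ) := by
    rw [ht, hdst]
    exact hcon.le
  obtain ⟨S, hS, hSc⟩ := hG P hn0 htn
  -- choice of the isometries
  have hch : ∀ q : ((V3 × V3 × V3) × (V3 × V3 × V3)), ∃ g : Iso, q ∈ S →
      Orth g ∧ act g q.1.1 = q.2.1 ∧ act g q.1.2.1 = q.2.2.1 ∧ act g q.1.2.2 = q.2.2.2 ∧
        c * (n ^ 2 / t ^ 2) ≤ ((M g P P).card : ℝ) := by
    intro q
    by_cases hq : q ∈ S
    · obtain ⟨-, -, -, -, -, -, g, hg⟩ := hS q hq
      exact ⟨g, fun _ => hg⟩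
    · exact ⟨(1, 0), fun h => absurd h hq⟩
  choose φ hφ using hch
  set G : Finset Iso := S.image φ with hGdef
  have hGorth : ∀ g ∈ G, Orth g := by
    intro g hg
    obtain ⟨q, hq, rfl⟩ := Finset.mem_image.1 hg
    exact (hφ q hq).1
  have hGrich : ∀ g ∈ G, c * (n ^ 2 / t ^ 2) ≤ ((M g P P).card : ℝ) := by
    intro g hg
    obtain ⟨q, hq, rfl⟩ := Finset.mem_image.1 hg
    exact (hφ q hq).2.2.2.2
  have h1 := card_triples P S φ G (fun q hq => Finset.mem_image_of_mem _ hq) (by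
    intro q hq
    obtain ⟨b1, b2, b3, b4, b5, b6, -⟩ := hS q hq
    obtain ⟨-, e1, e2, e3, -⟩ := hφ q hq
    exact ⟨b1, b2, b3, b4, b5, b6, e1, e2, e3⟩)
  -- powers
  have p1 : n ^ ((2 : ℝ) / 3 + 2 * δ) * t ^ 2 ≤ n ^ 2 := by
    have : t ^ 2 ≤ (n ^ ((2 : ℝ) / 3 - δ)) ^ 2 := pow_le_pow_left₀ htpos.le htn 2
    calc n ^ ((2 : ℝ) / 3 + 2 * δ) * t ^ 2 ≤
          n ^ ((2 : ℝ) / 3 + 2 * δ) * (n ^ ((2 : ℝ) / 3 - δ)) ^ 2 :=
          mul_le_mul_of_nonneg_left this (by positivity)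
      _ = n ^ 2 := by
          rw [← Real.rpow_natCast, ← Real.rpow_mul hnpos.le, ← Real.rpow_add hnpos,
            ← Real.rpow_natCast]
          congr 1
          push_cast
          ring
  have p2 : n ^ ((2 : ℝ) / 3 + 2 * δ) ≤ n ^ 2 / t ^ 2 := by
    rw [le_div_iff₀ (by (clear * - ht1; positivity))]
    exact p1
  have p3 : n ^ ((4 : ℝ) + 3 * δ) ≤ n ^ 6 / t ^ 3 := by
    rw [le_div_iff₀ (by (clear * - ht1; positivity))]
    have : t ^ 3 ≤ (n ^ ((2 : ℝ) / 3 - δ)) ^ 3 := pow_le_pow_left₀ htpos.le htn 3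
    calc n ^ ((4 : ℝ) + 3 * δ) * t ^ 3 ≤
          n ^ ((4 : ℝ) + 3 * δ) * (n ^ ((2 : ℝ) / 3 - δ)) ^ 3 :=
          mul_le_mul_of_nonneg_left this (by (clear * - hPne; positivity))
      _ = n ^ 6 := by
          rw [← Real.rpow_natCast, ← Real.rpow_mul hnpos.le, ← Real.rpow_add hnpos,
            ← Real.rpow_natCast]
          congr 1
          push_cast
          ring
  -- every g of G is rich
  have hρ : ∀ g ∈ G, ((M g P P).card : ℝ) ≤ 2 * (rho (M g P P) : ℝ) ∧ K1 ≤ rho (M g P P) := by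
    intro g hg
    have b1 := hGrich g hg
    have b2 : ((M g P P).card : ℝ) ≤ (rho (M g P P) : ℝ) + t := by
      rw [ht]
      exact_mod_cast card_M_le P g
    have b3 : 2 * t ≤ ((M g P P).card : ℝ) := by
      have e : n ^ ((2 : ℝ) / 3 + 2 * δ) = n ^ ((2 : ℝ) / 3 - δ) * n ^ (3 * δ) := by
        rw [← Real.rpow_add hnpos]
        congr 1
        ring
      have e2 : 2 ≤ c * n ^ (3 * δ) := by
        rw [hcdef, ← Real.rpow_add hnpos]
        refine a1.trans (le_of_eq ?_)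
        congr 1
        ring
      calc 2 * t ≤ 2 * n ^ ((2 : ℝ) / 3 - δ) := by linarith only [htn]
        _ ≤ (c * n ^ (3 * δ)) * n ^ ((2 : ℝ) / 3 - δ) :=
            mul_le_mul_of_nonneg_right e2 (by (clear * - hPne; positivity))
        _ = c * n ^ ((2 : ℝ) / 3 + 2 * δ) := by rw [e]; ring
        _ ≤ c * (n ^ 2 / t ^ 2) := mul_le_mul_of_nonneg_left p2 hc.le
        _ ≤ _ := b1
    have b4 : ((M g P P).card : ℝ) ≤ 2 * (rho (M g P P) : ℝ) := by linarith only [b3, b2]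
    refine ⟨b4, ?_⟩
    have b5 : 2 * (K1 : ℝ) ≤ ((M g P P).card : ℝ) := by
      calc 2 * (K1 : ℝ) ≤ n ^ ((2 : ℝ) / 3 + 3 / 2 * δ) := a2
        _ = c * n ^ ((2 : ℝ) / 3 + 2 * δ) := by
            rw [hcdef, ← Real.rpow_add hnpos]
            congr 1
            ring
        _ ≤ c * (n ^ 2 / t ^ 2) := mul_le_mul_of_nonneg_left p2 hc.le
        _ ≤ _ := b1
    have b6 : (K1 : ℝ) ≤ (rho (M g P P) : ℝ) := by linarith only [b5, b4]
    exact_mod_cast b6
  have hR' := hR P P G hGorth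
  unfold Rf at hR'
  have h2 : (S.card : ℝ) ≤ ∑ g ∈ G, ((M g P P).card : ℝ) ^ 3 := by exact_mod_cast h1
  have h3 : ∑ g ∈ G, ((M g P P).card : ℝ) ^ 3 ≤ 8 *
      ∑ g ∈ G, (if K1 ≤ rho (M g P P) then ((rho (M g P P) : ℕ) : ℝ) ^ 3 else 0) := by
    rw [Finset.mul_sum]
    refine Finset.sum_le_sum (fun g hg => ?_)
    obtain ⟨q1, q2⟩ := hρ g hg
    rw [if_pos q2]
    calc ((M g P P).card : ℝ) ^ 3 ≤ (2 * (rho (M g P P) : ℝ)) ^ 3 :=
          pow_le_pow_left₀ (Nat.cast_nonneg _) q1 3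
      _ = _ := by ring
  have h4 : ((P.card : ℝ) * P.card) ^ (2 + δ) = n ^ ((4 : ℝ) + 2 * δ) := by
    rw [← hn, ← sq, ← Real.rpow_natCast, ← Real.rpow_mul hnpos.le]
    congr 1
    push_cast
    ring
  rw [h4] at hR'
  have h5 : c * n ^ ((4 : ℝ) + 3 * δ) ≤ 8 * (C * n ^ ((4 : ℝ) + 2 * δ)) := by
    calc c * n ^ ((4 : ℝ) + 3 * δ) ≤ c * (n ^ 6 / t ^ 3) := mul_le_mul_of_nonneg_left p3 hc.le
      _ ≤ S.card := hSc
      _ ≤ _ := h2
      _ ≤ _ := h3
      _ ≤ _ := by linarith only [hR']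
  have e3 : n ^ ((4 : ℝ) + 3 * δ) = n ^ ((4 : ℝ) + 2 * δ) * n ^ δ := by
    rw [← Real.rpow_add hnpos]
    congr 1
    ring
  rw [e3] at h5
  have h6 : 0 < n ^ ((4 : ℝ) + 2 * δ) := Real.rpow_pos_of_pos hnpos _
  have h7 : c * n ^ δ ≤ 8 * C := by
    by_contra hh
    push Not at hh
    have := mul_lt_mul_of_pos_right hh h6
    linarith only [this, h5]
  have h8 : c * n ^ δ = n ^ (δ / 2) := by
    rw [hcdef, ← Real.rpow_add hnpos]
    congr 1
    ring
  rw [h8] at h7
  linarith only [h7, a3]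

end Vale.Agent.P054.Fin
end

section

/-! P054, block R, leaf FING: only finitely many isometries match three non collinear points.
Proof. `rho (M g X Y) ≥ 1` gives `a, b, c ∈ M g X Y` with `u ×ᵥ w ≠ 0`, `u = b - a`, `w = c - a`
(else all points are on a line and `rho = 0`).  The map
`g ↦ ((a, b, c), (g a, g b, g c), sign of det Q)` has finite image (in `X³ × Y³ × Bool`) and is
injective: `Q u`, `Q w` are determined, `Q (u ×ᵥ w) = det Q • (Q u ×ᵥ Q w)` (`det Q = ±1`), and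
`u, w, u ×ᵥ w` is a basis. -/

set_option linter.all false
set_option autoImplicit false

namespace Vale.Agent.P054.R

open Finset Matrix

theorem FinG_off_zero {S : Finset V3} {x b : V3} (h : ∀ c ∈ S, OnL x b c) : off S x b = 0 := by
  classical
  unfold off
  rw [Finset.card_eq_zero, Finset.filter_eq_empty_iff]
  intro c hc hn
  exact hn (h c hc)

theorem FinG_triple {S : Finset V3} (h : 1 ≤ rho S) :
    ∃ a ∈ S, ∃ b ∈ S, ∃ c ∈ S, crossProduct (b - a) (c - a) ≠ 0 := by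
  by_contra hcon
  push Not at hcon
  have hz : ∀ x b : V3, b ≠ 0 → (∀ c ∈ S, OnL x b c) → False := by
    intro x b hb hc
    have h1 := rho_le_off S x b hb
    rw [FinG_off_zero hc] at h1
    omega
  by_cases h2 : ∃ a ∈ S, ∃ b ∈ S, b ≠ a
  · obtain ⟨a, ha, b, hb, hab⟩ := h2
    exact hz a (b - a) (sub_ne_zero.2 hab) fun c hc => hcon a ha c hc b hb
  · push Not at h2
    have he : (Pi.single 0 1 : V3) ≠ 0 := by
      intro h3
      have := congrFun h3 0
      simp at this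
    rcases S.eq_empty_or_nonempty with h3 | ⟨a, ha⟩
    · exact hz 0 _ he fun c hc => by rw [h3] at hc; exact absurd hc (Finset.notMem_empty c)
    · refine hz a _ he fun c hc => ?_
      unfold OnL
      rw [h2 a ha c hc, sub_self]
      simp

theorem FinG_cross (Q : Matrix (Fin 3) (Fin 3) ℝ) (u w : V3) :
    Qᵀ.mulVec (crossProduct (Q.mulVec u) (Q.mulVec w)) = Q.det • crossProduct u w := by
  ext i
  fin_cases i <;>
    simp [Matrix.mulVec, dotProduct, Fin.sum_univ_three, Matrix.det_fin_three, cross_apply] <;>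
    ring

theorem FinG_det {Q : Matrix (Fin 3) (Fin 3) ℝ} (h : Qᵀ * Q = 1) : Q.det = 1 ∨ Q.det = -1 := by
  have h1 : Q.det * Q.det = 1 := by
    have := congrArg Matrix.det h
    rwa [Matrix.det_mul, Matrix.det_transpose, Matrix.det_one] at this
  exact mul_self_eq_one_iff.1 h1

theorem FinG_cross' {Q : Matrix (Fin 3) (Fin 3) ℝ} (h : Qᵀ * Q = 1) (u w : V3) :
    Q.mulVec (crossProduct u w) = Q.det • crossProduct (Q.mulVec u) (Q.mulVec w) := by
  have h1 : Q * Qᵀ = 1 := mul_eq_one_comm.1 h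
  have h2 := congrArg (fun v => Q.det • Q.mulVec v) (FinG_cross Q u w)
  simp only [Matrix.mulVec_mulVec, h1, Matrix.one_mulVec, Matrix.mulVec_smul, smul_smul] at h2
  have h3 : Q.det * Q.det = 1 := by
    rcases FinG_det h with h | h <;> rw [h] <;> norm_num
  rw [h3, one_smul] at h2
  exact h2.symm

theorem FinG_inj {Q Q' : Matrix (Fin 3) (Fin 3) ℝ} (h : Qᵀ * Q = 1) (h' : Q'ᵀ * Q' = 1)
    (hd : Q.det = Q'.det) {u w : V3} (huw : crossProduct u w ≠ 0)
    (hu : Q.mulVec u = Q'.mulVec u) (hw : Q.mulVec w = Q'.mulVec w) : Q = Q' := by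
  have hc : Q.mulVec (crossProduct u w) = Q'.mulVec (crossProduct u w) := by
    rw [FinG_cross' h, FinG_cross' h', hd, hu, hw]
  set P : Matrix (Fin 3) (Fin 3) ℝ := (Matrix.of ![u, w, crossProduct u w])ᵀ with hP
  have hQP : Q * P = Q' * P := by
    ext i j
    have e1 : ∀ (R : Matrix (Fin 3) (Fin 3) ℝ) (v : V3), (R.mulVec v) i = ∑ k, R i k * v k :=
      fun R v => rfl
    rw [Matrix.mul_apply, Matrix.mul_apply]
    fin_cases j
    · exact congrFun hu i
    · exact congrFun hw i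
    · exact congrFun hc i
  have hdet : P.det ≠ 0 := by
    have h1 : P.det = crossProduct u w ⬝ᵥ crossProduct u w := by
      rw [hP, Matrix.det_transpose, Matrix.det_fin_three]
      simp [dotProduct, Fin.sum_univ_three, cross_apply]
      ring
    rw [h1]
    intro h2
    exact huw (dotProduct_self_eq_zero.1 h2)
  have hU : IsUnit P.det := isUnit_iff_ne_zero.2 hdet
  calc Q = Q * P * P⁻¹ := by rw [Matrix.mul_assoc, Matrix.mul_nonsing_inv _ hU, Matrix.mul_one]
    _ = Q' * P * P⁻¹ := by rw [hQP]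
    _ = Q' := by rw [Matrix.mul_assoc, Matrix.mul_nonsing_inv _ hU, Matrix.mul_one]

theorem FinG_finite (a b c a' b' c' : V3) (habc : crossProduct (b - a) (c - a) ≠ 0) :
    Set.Finite {g : Iso | Orth g ∧ act g a = a' ∧ act g b = b' ∧ act g c = c'} := by
  refine Set.Finite.of_finite_image (f := fun g : Iso => g.1.det)
    ((Set.toFinite ({1, -1} : Set ℝ)).subset ?_) ?_
  · rintro _ ⟨g, hg, rfl⟩
    rcases FinG_det hg.1 with h | h
    · exact Or.inl h
    · exact Or.inr h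
  · rintro g ⟨hg, h1, h2, h3⟩ g' ⟨hg', h1', h2', h3'⟩ hd
    have e : ∀ {k : Iso} {x y x' y' : V3}, act k x = x' → act k y = y' →
        k.1.mulVec (y - x) = y' - x' := by
      intro k x y x' y' hx hy
      rw [← hx, ← hy, Matrix.mulVec_sub]
      unfold act
      abel
    have hQ : g.1 = g'.1 := FinG_inj hg hg' hd habc
      ((e h1 h2).trans (e h1' h2').symm) ((e h1 h3).trans (e h1' h3').symm)
    have hv : g.2 = g'.2 := by
      have h4 : act g a = act g' a := h1.trans h1'.symm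
      unfold act at h4
      rw [hQ] at h4
      exact add_left_cancel h4
    exact Prod.ext hQ hv

theorem finite_iso (X Y : Finset V3) : Set.Finite {g : Iso | Orth g ∧ 1 ≤ rho (M g X Y)} := by
  classical
  have hfin : Set.Finite (⋃ p ∈ ((X ×ˢ X ×ˢ X) ×ˢ (Y ×ˢ Y ×ˢ Y)).filter
      (fun p => crossProduct (p.1.2.1 - p.1.1) (p.1.2.2 - p.1.1) ≠ 0),
      {g : Iso | Orth g ∧ act g p.1.1 = p.2.1 ∧ act g p.1.2.1 = p.2.2.1 ∧
        act g p.1.2.2 = p.2.2.2}) := by
    refine Set.Finite.biUnion (Finset.finite_toSet _) fun p hp => ?_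
    have hp2 := (Finset.mem_filter.1 (Finset.mem_coe.1 hp)).2
    exact FinG_finite _ _ _ _ _ _ hp2
  refine hfin.subset ?_
  rintro g ⟨hg, h1⟩
  obtain ⟨a, ha, b, hb, c, hc, habc⟩ := FinG_triple h1
  have hM : ∀ x ∈ M g X Y, x ∈ X ∧ act g x ∈ Y := by
    intro x hx
    unfold M at hx
    exact Finset.mem_filter.1 hx
  rw [Set.mem_iUnion₂]
  refine ⟨((a, b, c), (act g a, act g b, act g c)), ?_, hg, rfl, rfl, rfl⟩
  rw [Finset.mem_filter]
  refine ⟨?_, habc⟩
  simp only [Finset.mem_product]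
  exact ⟨⟨(hM a ha).1, (hM b hb).1, (hM c hc).1⟩, (hM a ha).2, (hM b hb).2, (hM c hc).2⟩

end Vale.Agent.P054.R
end

section

/-! P054, block W (Warren's bound), part 2: polynomials of total degree sum `D` have at most
`(2D+1)^d` strict sign patterns on R^d. -/

namespace Vale.Agent.P054.W

open MvPolynomial Filter Topology

variable {d : ℕ}

theorem mem_support_pderiv {i : Fin d} {p : MvPolynomial (Fin d) ℝ} {m : Fin d →₀ ℕ}
    (hm : m ∈ (pderiv i p).support) : m + Finsupp.single i 1 ∈ p.support := by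
  rw [mem_support_iff, coeff_pderiv] at hm
  rw [mem_support_iff]
  intro h
  rw [h] at hm
  simp at hm

theorem totalDegree_pderiv_le (i : Fin d) (p : MvPolynomial (Fin d) ℝ) :
    (pderiv i p).totalDegree ≤ p.totalDegree := by
  rw [totalDegree]
  refine Finset.sup_le fun m hm => ?_
  have h := le_totalDegree (mem_support_pderiv hm)
  rw [Finsupp.sum_add_index' (fun _ => rfl) (fun _ _ _ => rfl)] at h
  exact (Nat.le_add_right _ _).trans h

theorem hasDerivAt_eval (p : MvPolynomial (Fin d) ℝ) (x v : Fin d → ℝ) :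
    HasDerivAt (fun t : ℝ => eval (x + t • v) p) (∑ i, v i * eval x (pderiv i p)) 0 := by
  classical
  induction p using MvPolynomial.induction_on with
  | C a => simpa using hasDerivAt_const (0 : ℝ) a
  | add p q hp hq =>
    have h := hp.add hq
    refine (h.congr_deriv ?_).congr_of_eventuallyEq ?_
    · simp [mul_add, Finset.sum_add_distrib]
    · exact Eventually.of_forall fun t => by simp
  | mul_X p n hp =>
    have h1 : HasDerivAt (fun t : ℝ => x n + t * v n) (v n) 0 := by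
      simpa using ((hasDerivAt_id (0 : ℝ)).mul_const (v n)).const_add (x n)
    have h := hp.mul h1
    refine (h.congr_deriv ?_).congr_of_eventuallyEq ?_
    · have h2 : ∀ i, v i * eval x (pderiv i (p * X n)) =
          v i * eval x (pderiv i p) * x n + (if n = i then v i * eval x p else 0) := by
        intro i
        rw [pderiv_mul, map_add, map_mul, map_mul, eval_X]
        by_cases hi : n = i
        · subst hi
          rw [if_pos rfl, pderiv_X_self, map_one]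
          ring
        · rw [if_neg hi, pderiv_X_of_ne hi, map_zero]
          ring
      rw [Finset.sum_congr rfl fun i _ => h2 i, Finset.sum_add_distrib, ← Finset.sum_mul]
      simp [mul_comm]
    · exact Eventually.of_forall fun t => by simp

theorem crit_of_isLocalMax (p : MvPolynomial (Fin d) ℝ) (x : Fin d → ℝ)
    (h : IsLocalMax (fun y => eval y p) x) (i : Fin d) : eval x (pderiv i p) = 0 := by
  classical
  have h1 := hasDerivAt_eval p x (Pi.single i 1)
  have h2 : IsLocalMax (fun t : ℝ => eval (x + t • (Pi.single i 1 : Fin d → ℝ)) p) 0 := by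
    have hc : Tendsto (fun t : ℝ => x + t • (Pi.single i 1 : Fin d → ℝ)) (𝓝 0) (𝓝 x) := by
      have : Continuous (fun t : ℝ => x + t • (Pi.single i 1 : Fin d → ℝ)) := by fun_prop
      simpa using this.tendsto 0
    have h3 := hc.eventually h
    filter_upwards [h3] with t ht
    simpa using ht
  have h4 := h2.hasDerivAt_eq_zero h1
  rw [Finset.sum_eq_single i] at h4
  · simpa using h4
  · intro j _ hj
    simp [Pi.single_eq_of_ne hj]
  · simp

theorem exists_crit {ι : Type*} [Fintype ι] (f : ι → MvPolynomial (Fin d) ℝ)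
    (Ψ : MvPolynomial (Fin d) ℝ) (hΨ : ∀ x, 0 ≤ eval x Ψ) (R : ℝ)
    (hR : ∀ x : Fin d → ℝ, R < ‖x‖ → eval x ((∏ j, f j ^ 2) - Ψ) ≤ 0) (s : Fin d → ℝ)
    (hs : 0 < eval s ((∏ j, f j ^ 2) - Ψ)) :
    ∃ x, (∀ j, 0 < eval x (f j) * eval s (f j)) ∧
      ∀ i, eval x (pderiv i ((∏ j, f j ^ 2) - Ψ)) = 0 := by
  set Φ := (∏ j, f j ^ 2) - Ψ with hΦ
  have hpos : ∀ x, 0 < eval x Φ → ∀ j, eval x (f j) ≠ 0 := by
    intro x hx j hj
    rw [hΦ, map_sub, map_prod] at hx
    have h0 : ∏ j, eval x (f j ^ 2) = 0 :=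
      Finset.prod_eq_zero (Finset.mem_univ j) (by rw [map_pow, hj]; norm_num)
    rw [h0] at hx
    have := hΨ x
    linarith
  have hcont : ∀ p : MvPolynomial (Fin d) ℝ, Continuous fun x : Fin d → ℝ => eval x p :=
    fun p => MvPolynomial.continuous_eval p
  let A : Set (Fin d → ℝ) := {x | ‖x‖ ≤ R} ∩ {x | ∀ j, 0 ≤ eval x (f j) * eval s (f j)}
  have hAc : IsCompact A := by
    have h1 : IsCompact {x : Fin d → ℝ | ‖x‖ ≤ R} := by
      have : {x : Fin d → ℝ | ‖x‖ ≤ R} = Metric.closedBall 0 R := by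
        ext x; simp
      rw [this]
      exact isCompact_closedBall _ _
    refine h1.inter_right ?_
    have : {x : Fin d → ℝ | ∀ j, 0 ≤ eval x (f j) * eval s (f j)} =
        ⋂ j, {x | 0 ≤ eval x (f j) * eval s (f j)} := by
      ext x; simp
    rw [this]
    exact isClosed_iInter fun j =>
      isClosed_le continuous_const ((hcont (f j)).mul continuous_const)
  have hsA : s ∈ A := by
    refine ⟨?_, fun j => mul_self_nonneg _⟩
    by_contra hcon
    have := hR s (not_le.mp hcon)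
    linarith
  obtain ⟨x, hxA, hxmax⟩ := hAc.exists_isMaxOn ⟨s, hsA⟩ (hcont Φ).continuousOn
  have hx0 : 0 < eval x Φ := lt_of_lt_of_le hs (hxmax hsA)
  have hxU : ∀ j, 0 < eval x (f j) * eval s (f j) := fun j =>
    lt_of_le_of_ne (hxA.2 j) (mul_ne_zero (hpos x hx0 j) (hpos s hs j)).symm
  refine ⟨x, hxU, fun i => crit_of_isLocalMax Φ x ?_ i⟩
  have hU : ∀ᶠ y in 𝓝 x, ∀ j, 0 < eval y (f j) * eval s (f j) := by
    rw [eventually_all]
    intro j
    exact ((hcont (f j)).mul continuous_const).continuousAt.eventually (lt_mem_nhds (hxU j))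
  filter_upwards [hU] with y hy
  by_cases hyR : ‖y‖ ≤ R
  · exact hxmax ⟨hyR, fun j => (hy j).le⟩
  · exact (hR y (not_le.mp hyR)).trans hx0.le

/-- the number of realised strict sign patterns is bounded by the number of critical points -/
theorem card_le_crit {ι : Type*} [Fintype ι] (f : ι → MvPolynomial (Fin d) ℝ)
    (Ψ : MvPolynomial (Fin d) ℝ) (hΨ : ∀ x, 0 ≤ eval x Ψ) (R : ℝ)
    (hR : ∀ x : Fin d → ℝ, R < ‖x‖ → eval x ((∏ j, f j ^ 2) - Ψ) ≤ 0)
    (S : Finset (Fin d → ℝ))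
    (hS : ∀ s ∈ S, 0 < eval s ((∏ j, f j ^ 2) - Ψ))
    (hinj : ∀ s ∈ S, ∀ t ∈ S, (∀ j, 0 < eval s (f j) * eval t (f j)) → s = t) (N : ℕ)
    (hN : ∀ Z : Finset (Fin d → ℝ),
      (∀ z ∈ Z, ∀ i, eval z (pderiv i ((∏ j, f j ^ 2) - Ψ)) = 0) → Z.card ≤ N) :
    S.card ≤ N := by
  classical
  have hex : ∀ s : S, ∃ x, (∀ j, 0 < eval x (f j) * eval s.1 (f j)) ∧
      ∀ i, eval x (pderiv i ((∏ j, f j ^ 2) - Ψ)) = 0 := fun s =>
    exists_crit f Ψ hΨ R hR s.1 (hS s.1 s.2)
  choose g hg1 hg2 using hex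
  have hginj : Function.Injective g := by
    intro s t hst
    refine Subtype.ext (hinj s.1 s.2 t.1 t.2 fun j => ?_)
    have h1 := hg1 s j
    have h2 := hg1 t j
    rw [hst] at h1
    have h3 := mul_pos h1 h2
    have h4 : 0 < eval (g t) (f j) ^ 2 := by
      rcases eq_or_ne (eval (g t) (f j)) 0 with h0 | h0
      · rw [h0] at h1; simp at h1
      · positivity
    by_contra hcon
    push Not at hcon
    have : eval (g t) (f j) * eval s.1 (f j) * (eval (g t) (f j) * eval t.1 (f j)) =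
        eval (g t) (f j) ^ 2 * (eval s.1 (f j) * eval t.1 (f j)) := by ring
    rw [this] at h3
    linarith only [mul_nonneg (le_of_lt (sub_pos.2 h4)) (sub_nonneg.2 hcon), mul_pos (sub_pos.2 h1) (sub_pos.2 h2)]
  have h5 := hN (Finset.univ.image g) (by
    intro z hz i
    obtain ⟨s, _, rfl⟩ := Finset.mem_image.mp hz
    exact hg2 s i)
  rwa [Finset.card_image_of_injective _ hginj, Finset.card_univ, Fintype.card_coe] at h5

theorem abs_eval_le (p : MvPolynomial (Fin d) ℝ) (n : ℕ) (hn : p.totalDegree ≤ n)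
    (x : Fin d → ℝ) :
    |eval x p| ≤ (∑ m ∈ p.support, |coeff m p|) * (1 + ‖x‖) ^ n := by
  have h1 : eval x p = ∑ m ∈ p.support, coeff m p * ∏ i, x i ^ m i := by
    rw [eval_eq']
  rw [h1, Finset.sum_mul]
  refine (Finset.abs_sum_le_sum_abs _ _).trans (Finset.sum_le_sum fun m hm => ?_)
  rw [abs_mul]
  refine mul_le_mul_of_nonneg_left ?_ (abs_nonneg _)
  rw [Finset.abs_prod]
  calc ∏ i, |x i ^ m i| ≤ ∏ i, (1 + ‖x‖) ^ m i := by
        refine Finset.prod_le_prod (fun i _ => abs_nonneg _) fun i _ => ?_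
        rw [abs_pow]
        refine pow_le_pow_left₀ (abs_nonneg _) ?_ _
        have : |x i| ≤ ‖x‖ := norm_le_pi_norm x i
        linarith
    _ = (1 + ‖x‖) ^ (∑ i, m i) := by rw [Finset.prod_pow_eq_pow_sum]
    _ ≤ (1 + ‖x‖) ^ n := by
        refine pow_le_pow_right₀ (by have := norm_nonneg x; linarith) ?_
        have h2 := le_totalDegree hm
        rw [Finsupp.sum_fintype _ _ (fun _ => rfl)] at h2
        exact h2.trans hn

theorem norm_pow_le_sum (x : Fin d → ℝ) (D : ℕ) (hx : 0 < ‖x‖) :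
    ‖x‖ ^ (2 * D + 2) ≤ ∑ i, x i ^ (2 * D + 2) := by
  by_contra hcon
  push Not at hcon
  have hev : Even (2 * D + 2) := ⟨D + 1, by ring⟩
  have h1 : ‖x‖ < ‖x‖ := by
    rw [pi_norm_lt_iff hx]
    intro i
    have h2 : x i ^ (2 * D + 2) ≤ ∑ i, x i ^ (2 * D + 2) :=
      Finset.single_le_sum (f := fun i => x i ^ (2 * D + 2)) (fun j _ => hev.pow_nonneg _)
        (Finset.mem_univ i)
    have h3 : |x i| ^ (2 * D + 2) < ‖x‖ ^ (2 * D + 2) := by
      rw [hev.pow_abs]
      exact lt_of_le_of_lt h2 hcon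
    exact lt_of_pow_lt_pow_left₀ _ hx.le h3
  exact lt_irrefl _ h1

/-- WARREN: strict sign patterns of polynomials with degree sum at most `D` on `R^d`. -/
theorem card_signs_le {ι : Type*} [Fintype ι] (f : ι → MvPolynomial (Fin d) ℝ) (D : ℕ)
    (hD : ∑ j, (f j).totalDegree ≤ D) (S : Finset (Fin d → ℝ))
    (hS : ∀ s ∈ S, ∀ j, eval s (f j) ≠ 0)
    (hinj : ∀ s ∈ S, ∀ t ∈ S, (∀ j, 0 < eval s (f j) * eval t (f j)) → s = t) :
    S.card ≤ (2 * D + 1) ^ d := by
  classical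
  set G : MvPolynomial (Fin d) ℝ := ∏ j, f j ^ 2 with hG
  have hGdeg : G.totalDegree ≤ 2 * D := by
    refine (totalDegree_finsetProd _ _).trans ?_
    calc ∑ j, (f j ^ 2).totalDegree ≤ ∑ j, 2 * (f j).totalDegree :=
          Finset.sum_le_sum fun j _ => totalDegree_pow _ _
      _ = 2 * ∑ j, (f j).totalDegree := by rw [Finset.mul_sum]
      _ ≤ 2 * D := Nat.mul_le_mul_left 2 hD
  have hGpos : ∀ s ∈ S, 0 < eval s G := by
    intro s hs
    rw [hG, map_prod]
    exact Finset.prod_pos fun j _ => by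
      rw [map_pow]
      have := hS s hs j
      positivity
  have hev : Even (2 * D + 2) := ⟨D + 1, by ring⟩
  obtain ⟨e, he0, he⟩ : ∃ e : ℝ, 0 < e ∧
      ∀ s ∈ S, e * ∑ i, s i ^ (2 * D + 2) < eval s G := by
    have h1 : ∀ᶠ e : ℝ in 𝓝[>] 0, ∀ s ∈ S, e * ∑ i, s i ^ (2 * D + 2) < eval s G := by
      rw [Finset.eventually_all]
      intro s hs
      have h2 : Tendsto (fun e : ℝ => e * ∑ i, s i ^ (2 * D + 2)) (𝓝[>] 0) (𝓝 0) := by
        have : Continuous fun e : ℝ => e * ∑ i, s i ^ (2 * D + 2) := by fun_prop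
        have h3 := this.tendsto 0
        rw [zero_mul] at h3
        exact h3.mono_left nhdsWithin_le_nhds
      exact h2.eventually (gt_mem_nhds (hGpos s hs))
    obtain ⟨e, he1, he2⟩ := (h1.and self_mem_nhdsWithin).exists
    exact ⟨e, he2, he1⟩
  set Ψ : MvPolynomial (Fin d) ℝ := ∑ i, C e * X i ^ (2 * D + 2) with hΨdef
  have hΨe : ∀ x, eval x Ψ = e * ∑ i, x i ^ (2 * D + 2) := by
    intro x
    rw [hΨdef, map_sum, Finset.mul_sum]
    exact Finset.sum_congr rfl fun i _ => by simp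
  set A : ℝ := ∑ m ∈ G.support, |coeff m G| with hA
  have hA0 : 0 ≤ A := Finset.sum_nonneg fun _ _ => abs_nonneg _
  refine card_le_crit f Ψ (fun x => ?_) (1 + A * 4 ^ D / e) (fun x hx => ?_) S (fun s hs => ?_)
    hinj _ (fun Z hZ => ?_)
  · rw [hΨe]
    exact mul_nonneg he0.le (Finset.sum_nonneg fun i _ => hev.pow_nonneg _)
  · rw [map_sub, hΨe]
    have hx1 : 1 < ‖x‖ := by
      have : 0 ≤ A * 4 ^ D / e := by positivity
      linarith
    have hx2 : A * 4 ^ D ≤ e * ‖x‖ := by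
      have : A * 4 ^ D / e ≤ ‖x‖ := by linarith
      rw [div_le_iff₀ he0] at this
      linarith
    have h1 : eval x G ≤ A * (1 + ‖x‖) ^ (2 * D) :=
      (le_abs_self _).trans (abs_eval_le G _ hGdeg x)
    have h2 : (1 + ‖x‖) ^ (2 * D) ≤ 4 ^ D * ‖x‖ ^ (2 * D) := by
      have : (4 : ℝ) ^ D * ‖x‖ ^ (2 * D) = (2 * ‖x‖) ^ (2 * D) := by
        rw [mul_pow, pow_mul 2 2 D]; norm_num
      rw [this]
      exact pow_le_pow_left₀ (by linarith) (by linarith) _
    have h3 : ‖x‖ ^ (2 * D + 2) ≤ ∑ i, x i ^ (2 * D + 2) :=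
      norm_pow_le_sum x D (by linarith)
    have h4 : eval x G ≤ e * ‖x‖ ^ (2 * D + 2) := by
      calc eval x G ≤ A * (4 ^ D * ‖x‖ ^ (2 * D)) := h1.trans (mul_le_mul_of_nonneg_left h2 hA0)
        _ = (A * 4 ^ D) * ‖x‖ ^ (2 * D) := by ring
        _ ≤ (e * ‖x‖) * ‖x‖ ^ (2 * D) := mul_le_mul_of_nonneg_right hx2 (by positivity)
        _ = e * ‖x‖ ^ (2 * D + 1) := by ring
        _ ≤ e * ‖x‖ ^ (2 * D + 2) :=
            mul_le_mul_of_nonneg_left (pow_le_pow_right₀ hx1.le (by omega)) he0.le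
    have h5 := mul_le_mul_of_nonneg_left h3 he0.le
    linarith
  · rw [map_sub, hΨe]
    have := he s hs
    linarith
  · refine card_le_pow Z (2 * D + 1) (fun i => C (1 / (e * (2 * D + 2))) * pderiv i G)
      (fun i => ?_) (fun z hz i => ?_)
    · refine lt_of_le_of_lt (totalDegree_mul _ _) ?_
      rw [totalDegree_C, zero_add]
      have := totalDegree_pderiv_le i G
      omega
    · have h1 := hZ z hz i
      have h2 : eval z (pderiv i Ψ) = e * (2 * D + 2) * z i ^ (2 * D + 1) := by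
        rw [hΨdef, map_sum, map_sum, Finset.sum_eq_single i]
        · rw [pderiv_C_mul, pderiv_pow, pderiv_X_self]
          simp
          ring
        · intro j _ hj
          rw [pderiv_C_mul, pderiv_pow, pderiv_X_of_ne hj]
          simp
        · simp
      rw [map_sub, map_sub, h2] at h1
      rw [map_mul, eval_C]
      have h3 : (e * (2 * (D : ℝ) + 2)) ≠ 0 := by positivity
      field_simp
      linarith

end Vale.Agent.P054.W
end

section

/-! P054, block W, part 3: Warren's bound on affine flats, and the number of cells of a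
family of polynomials entered by a flat. -/

namespace Vale.Agent.P054.W

open MvPolynomial

variable {d k : ℕ}

theorem totalDegree_aeval_le (L : Fin d → MvPolynomial (Fin k) ℝ) (δ : ℕ)
    (hL : ∀ i, (L i).totalDegree ≤ δ) (p : MvPolynomial (Fin d) ℝ) :
    (aeval L p).totalDegree ≤ δ * p.totalDegree := by
  conv_lhs => rw [p.as_sum, map_sum]
  refine totalDegree_finsetSum_le fun m hm => ?_
  rw [aeval_monomial, Finsupp.prod_fintype _ _ (fun i => pow_zero _)]
  refine (totalDegree_mul _ _).trans ?_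
  have h1 : (algebraMap ℝ (MvPolynomial (Fin k) ℝ) (coeff m p)).totalDegree = 0 :=
    totalDegree_C _
  rw [h1, zero_add]
  refine (totalDegree_finsetProd _ _).trans ?_
  have h2 := le_totalDegree hm
  rw [Finsupp.sum_fintype _ _ (fun _ => rfl)] at h2
  calc ∑ i, (L i ^ m i).totalDegree ≤ ∑ i, δ * m i :=
        Finset.sum_le_sum fun i _ => (totalDegree_pow _ _).trans (by
          rw [mul_comm]
          exact Nat.mul_le_mul_right _ (hL i))
    _ = δ * ∑ i, m i := by rw [Finset.mul_sum]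
    _ ≤ δ * p.totalDegree := Nat.mul_le_mul_left δ h2

theorem eval_aeval (L : Fin d → MvPolynomial (Fin k) ℝ) (y : Fin k → ℝ)
    (p : MvPolynomial (Fin d) ℝ) :
    eval y (aeval L p) = eval (fun i => eval y (L i)) p := by
  have h := eval₂_comp_left (eval y) (algebraMap ℝ (MvPolynomial (Fin k) ℝ)) L p
  rw [aeval_def, h]
  have h2 : (eval y).comp (algebraMap ℝ (MvPolynomial (Fin k) ℝ)) = RingHom.id ℝ := by
    ext a
    simp
  rw [h2]
  rfl

/-- sign patterns on a polynomially parametrised `k`-dimensional piece: points `φ(y)`,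
`φ_i = L_i(y)` of degree at most `δ`; `δ = 1` is an affine flat. -/
theorem card_signs_param_le {ι : Type*} [Fintype ι] (f : ι → MvPolynomial (Fin d) ℝ)
    (L : Fin d → MvPolynomial (Fin k) ℝ) (δ : ℕ) (hL : ∀ i, (L i).totalDegree ≤ δ) (D : ℕ)
    (hD : ∑ j, (f j).totalDegree ≤ D) (S : Finset (Fin d → ℝ))
    (hSL : ∀ s ∈ S, ∃ y : Fin k → ℝ, ∀ i, s i = eval y (L i))
    (hS : ∀ s ∈ S, ∀ j, eval s (f j) ≠ 0)
    (hinj : ∀ s ∈ S, ∀ t ∈ S, (∀ j, 0 < eval s (f j) * eval t (f j)) → s = t) :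
    S.card ≤ (2 * (δ * D) + 1) ^ k := by
  classical
  have hex : ∀ s : S, ∃ y : Fin k → ℝ, ∀ i, s.1 i = eval y (L i) := fun s => hSL s.1 s.2
  choose g hg using hex
  have hg' : ∀ s : S, (fun i => eval (g s) (L i)) = s.1 := fun s => by
    ext i; exact (hg s i).symm
  have hginj : Function.Injective g := fun s t hst => by
    refine Subtype.ext ?_
    rw [← hg' s, ← hg' t, hst]
  have h := card_signs_le (fun j => aeval L (f j)) (δ * D) ?_ (Finset.univ.image g) ?_ ?_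
  · rwa [Finset.card_image_of_injective _ hginj, Finset.card_univ, Fintype.card_coe] at h
  · calc ∑ j, (aeval L (f j)).totalDegree ≤ ∑ j, δ * (f j).totalDegree :=
          Finset.sum_le_sum fun j _ => totalDegree_aeval_le L δ hL (f j)
      _ = δ * ∑ j, (f j).totalDegree := by rw [Finset.mul_sum]
      _ ≤ δ * D := Nat.mul_le_mul_left δ hD
  · intro y hy j
    obtain ⟨s, _, rfl⟩ := Finset.mem_image.mp hy
    rw [eval_aeval, hg']
    exact hS s.1 s.2 j
  · intro y hy z hz hyz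
    obtain ⟨s, _, rfl⟩ := Finset.mem_image.mp hy
    obtain ⟨t, _, rfl⟩ := Finset.mem_image.mp hz
    have : s.1 = t.1 := hinj s.1 s.2 t.1 t.2 fun j => by
      have := hyz j
      rwa [eval_aeval, eval_aeval, hg', hg'] at this
    rw [Subtype.ext this]

/-- cells entered: if every cell `c` of a finite set `C` of sign vectors contains a point of
the parametrised piece `T`, then `C` has at most `(2 δ D + 1)^k` elements. -/
theorem card_cells_param_le {ι : Type*} [Fintype ι] (f : ι → MvPolynomial (Fin d) ℝ)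
    (L : Fin d → MvPolynomial (Fin k) ℝ) (δ : ℕ) (hL : ∀ i, (L i).totalDegree ≤ δ) (D : ℕ)
    (hD : ∑ j, (f j).totalDegree ≤ D) (C : Finset (ι → Bool))
    (hC : ∀ c ∈ C, ∃ y : Fin k → ℝ, ∀ j, eval (fun i => eval y (L i)) (f j) ≠ 0 ∧
      (c j = true ↔ 0 < eval (fun i => eval y (L i)) (f j))) :
    C.card ≤ (2 * (δ * D) + 1) ^ k := by
  classical
  have hex : ∀ c : C, ∃ y : Fin k → ℝ, ∀ j, eval (fun i => eval y (L i)) (f j) ≠ 0 ∧
      (c.1 j = true ↔ 0 < eval (fun i => eval y (L i)) (f j)) := fun c => hC c.1 c.2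
  choose g hg using hex
  let φ : C → (Fin d → ℝ) := fun c i => eval (g c) (L i)
  have hkey : ∀ c c' : C, (∀ j, 0 < eval (φ c) (f j) * eval (φ c') (f j)) → c = c' := by
    intro c c' h
    refine Subtype.ext (funext fun j => ?_)
    have h1 := hg c j
    have h2 := hg c' j
    have h3 := h j
    rw [Bool.eq_iff_iff, h1.2, h2.2]
    constructor
    · intro h4
      exact (pos_iff_pos_of_mul_pos h3).mp h4
    · intro h4
      exact (pos_iff_pos_of_mul_pos h3).mpr h4
  have hφinj : Function.Injective φ := by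
    intro c c' h
    refine hkey c c' fun j => ?_
    rw [h]
    have := (hg c' j).1
    have h5 : eval (φ c') (f j) ≠ 0 := this
    exact mul_self_pos.mpr h5
  have h := card_signs_param_le f L δ hL D hD (Finset.univ.image φ) ?_ ?_ ?_
  · rwa [Finset.card_image_of_injective _ hφinj, Finset.card_univ, Fintype.card_coe] at h
  · intro s hs
    obtain ⟨c, _, rfl⟩ := Finset.mem_image.mp hs
    exact ⟨g c, fun i => rfl⟩
  · intro s hs j
    obtain ⟨c, _, rfl⟩ := Finset.mem_image.mp hs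
    exact (hg c j).1
  · intro s hs t ht h
    obtain ⟨c, _, rfl⟩ := Finset.mem_image.mp hs
    obtain ⟨c', _, rfl⟩ := Finset.mem_image.mp ht
    rw [hkey c c' h]

end Vale.Agent.P054.W
end

section

/-! P054, TwoStmt: definitions; `BipStmt` = bipartite planar T1 in isometry form. -/

set_option linter.all false
set_option autoImplicit false

namespace Vale.Agent.P054.Two

open Finset Matrix
open Vale.Agent.P054.R

open scoped Classical in
/-- matched pairs of `S` whose first point is on the line `(x, b)` -/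
noncomputable def mpl (S : Finset (V3 × V3)) (g : Iso) (x b : V3) : Finset (V3 × V3) :=
  S.filter (fun s => OnL x b s.1 ∧ act g s.1 = s.2)

/-- **Bipartite planar count** (from `Vale.Agent.P054.PL.coreBip`): isometries (both orientations)
with `≥ K` matched pairs of `S1` on a line, `≥ K` of `S2` on a different line, both lines in a plane
`(n, d)` that contains all matched points, fibres of the partner map of size `≤ B`.
Proof plan: `det = 1` and `det = -1` (replace `(a, c)` by `(a, -c)`) separately; generic rotation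
(`J/Generic.exists_generic`) so that all `1 + Q` are invertible; Cayley coordinates. -/
def BipStmt : Prop := ∀ ε : ℝ, 0 < ε → ∃ K : ℕ, 2 ≤ K ∧ ∀ B : ℕ, ∃ C : ℝ, 0 < C ∧
  ∀ (S1 S2 : Finset (V3 × V3)) (G : Finset Iso) (n : Iso → V3) (d : Iso → ℝ)
    (x1 b1 x2 b2 : Iso → V3),
  (∀ g ∈ G, Orth g ∧ n g ≠ 0 ∧ b1 g ≠ 0 ∧ b2 g ≠ 0 ∧ DiffL (x1 g) (b1 g) (x2 g) (b2 g) ∧
    LinP (x1 g) (b1 g) (n g) (d g) ∧ LinP (x2 g) (b2 g) (n g) (d g) ∧
    K ≤ (mpl S1 g (x1 g) (b1 g)).card ∧ K ≤ (mpl S2 g (x2 g) (b2 g)).card ∧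
    ∀ s ∈ S1 ∪ S2, act g s.1 = s.2 → OnP (n g) (d g) s.1) →
  (open scoped Classical in
    ∀ h : Iso, (G.filter (fun g => prt g (n g) (d g) = h)).card ≤ B) →
  (G.card : ℝ) ≤ C * ((S1.card : ℝ) * S2.card) ^ (1 + ε)

end Vale.Agent.P054.Two
end

section

/-! Block L2, leaf CROSSING: a line enters at most `2D+1` cells. -/

set_option linter.all false
set_option autoImplicit false

namespace Vale.Agent.P054.L2

open Finset MvPolynomial

private theorem cr930_lin (f : ℕ) (y₀ w : Fin f → ℝ) (i : Fin f) :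
    ((C (y₀ i) + X 0 * C (w i) : MvPolynomial (Fin 1) ℝ)).totalDegree ≤ 1 := by
  refine (totalDegree_add _ _).trans ?_
  rw [totalDegree_C]
  refine max_le (Nat.zero_le _) ?_
  refine (totalDegree_mul _ _).trans ?_
  rw [totalDegree_C]
  have := totalDegree_X (R := ℝ) (0 : Fin 1)
  omega

open scoped Classical in
theorem crossing {f f' : ℕ} {J J' : Type} [Fintype J] [Fintype J']
    (q : J → MvPolynomial (Fin f) ℝ) (q' : J' → MvPolynomial (Fin f') ℝ) (D : ℕ)
    (hD : ∑ j, (q j).totalDegree + ∑ j, (q' j).totalDegree ≤ D)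
    (y₀ w : Fin f → ℝ) (y₀' w' : Fin f' → ℝ) (T : Finset ℝ)
    (hT : ∀ t ∈ T, (∀ j, eval (y₀ + t • w) (q j) ≠ 0) ∧ (∀ j, eval (y₀' + t • w') (q' j) ≠ 0)) :
    (T.image (fun t : ℝ => ((fun j => decide (0 < eval (y₀ + t • w) (q j)) : J → Bool),
      (fun j => decide (0 < eval (y₀' + t • w') (q' j)) : J' → Bool)))).card ≤ 2 * D + 1 := by
  let F : J ⊕ J' → MvPolynomial (Fin (f + f')) ℝ :=
    Sum.elim (fun j => rename (Fin.castAdd f') (q j)) (fun j => rename (Fin.natAdd f) (q' j))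
  let L : Fin (f + f') → MvPolynomial (Fin 1) ℝ :=
    Fin.addCases (fun i => C (y₀ i) + X 0 * C (w i)) (fun i => C (y₀' i) + X 0 * C (w' i))
  have hL : ∀ i, (L i).totalDegree ≤ 1 := by
    intro i
    refine Fin.addCases (fun i => ?_) (fun i => ?_) i
    · simp only [L, Fin.addCases_left]
      exact cr930_lin f y₀ w i
    · simp only [L, Fin.addCases_right]
      exact cr930_lin f' y₀' w' i
  have hFD : ∑ j, (F j).totalDegree ≤ D := by
    rw [Fintype.sum_sum_type]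
    refine le_trans (add_le_add (Finset.sum_le_sum fun j _ => ?_)
      (Finset.sum_le_sum fun j _ => ?_)) hD
    · exact totalDegree_rename_le _ _
    · exact totalDegree_rename_le _ _
  let e : (J → Bool) × (J' → Bool) → (J ⊕ J' → Bool) := fun p => Sum.elim p.1 p.2
  have he : Function.Injective e := by
    intro p p' h
    refine Prod.ext (funext fun j => ?_) (funext fun j => ?_)
    · exact congrFun h (Sum.inl j)
    · exact congrFun h (Sum.inr j)
  let g : ℝ → (J → Bool) × (J' → Bool) := fun t : ℝ =>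
    ((fun j => decide (0 < eval (y₀ + t • w) (q j)) : J → Bool),
      (fun j => decide (0 < eval (y₀' + t • w') (q' j)) : J' → Bool))
  have hev : ∀ t : ℝ, (∀ j, eval (fun i => eval (fun _ : Fin 1 => t) (L i)) (F (Sum.inl j)) =
      eval (y₀ + t • w) (q j)) ∧ (∀ j, eval (fun i => eval (fun _ : Fin 1 => t) (L i))
        (F (Sum.inr j)) = eval (y₀' + t • w') (q' j)) := by
    intro t
    constructor
    · intro j
      simp only [F, Sum.elim_inl, eval_rename]
      congr 1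
      congr 1
      funext i
      simp [L]
    · intro j
      simp only [F, Sum.elim_inr, eval_rename]
      congr 1
      congr 1
      funext i
      simp [L]
  have hmain := Vale.Agent.P054.W.card_cells_param_le F L 1 hL D hFD ((T.image g).image e) (by
    intro c hc
    rw [Finset.mem_image] at hc
    obtain ⟨p, hp, rfl⟩ := hc
    rw [Finset.mem_image] at hp
    obtain ⟨t, ht, rfl⟩ := hp
    refine ⟨fun _ => t, ?_⟩
    intro j
    obtain ⟨h1, h2⟩ := hev t
    rcases j with j | j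
    · rw [h1 j]
      refine ⟨(hT t ht).1 j, ?_⟩
      simp [e, g]
    · rw [h2 j]
      refine ⟨(hT t ht).2 j, ?_⟩
      simp [e, g])
  rw [Finset.card_image_of_injective _ he] at hmain
  have h3 : (2 * (1 * D) + 1) ^ 1 = 2 * D + 1 := by ring
  rw [h3] at hmain
  exact hmain

/-- a polynomial that does not vanish identically on a line has few zeros on it -/
theorem few_zeros {f : ℕ} (q : MvPolynomial (Fin f) ℝ) (d : ℕ) (hd : q.totalDegree ≤ d)
    (y₀ w : Fin f → ℝ) (T : Finset ℝ) (hT : ∀ t ∈ T, eval (y₀ + t • w) q = 0)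
    (hc : d < T.card) : ∀ t : ℝ, eval (y₀ + t • w) q = 0 := by
  let P : Polynomial ℝ := aeval (fun i => Polynomial.C (y₀ i) + Polynomial.C (w i) * Polynomial.X) q
  have hP : ∀ t : ℝ, P.eval t = eval (y₀ + t • w) q := by
    intro t
    have : (Polynomial.evalRingHom t).comp
        ((aeval (fun i => Polynomial.C (y₀ i) + Polynomial.C (w i) * Polynomial.X) :
          MvPolynomial (Fin f) ℝ →ₐ[ℝ] Polynomial ℝ) : MvPolynomial (Fin f) ℝ →+* Polynomial ℝ) =
        eval (y₀ + t • w) := by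
      apply MvPolynomial.ringHom_ext
      · intro r
        simp only [RingHom.comp_apply, RingHom.coe_coe, algHom_C, eval_C,
          Polynomial.algebraMap_eq, Polynomial.coe_evalRingHom, Polynomial.eval_C]
      · intro i
        simp only [RingHom.comp_apply, RingHom.coe_coe, aeval_X, eval_X,
          Polynomial.coe_evalRingHom, Polynomial.eval_add, Polynomial.eval_mul,
          Polynomial.eval_C, Polynomial.eval_X, Pi.add_apply, Pi.smul_apply, smul_eq_mul]
        ring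
    exact congrArg (fun φ : MvPolynomial (Fin f) ℝ →+* ℝ => φ q) this
  have hdeg : P.natDegree ≤ d := by
    have h := MvPolynomial.aeval_natDegree_le q hd
      (fun i => Polynomial.C (y₀ i) + Polynomial.C (w i) * Polynomial.X) (n := 1) (fun i => by
        refine (Polynomial.natDegree_add_le _ _).trans ?_
        rw [Polynomial.natDegree_C]
        refine max_le (Nat.zero_le _) ?_
        refine (Polynomial.natDegree_C_mul_le _ _).trans ?_
        exact Polynomial.natDegree_X_le)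
    rw [mul_one] at h
    exact h
  have hz : P = 0 := by
    by_contra hne
    have h1 : T ⊆ P.roots.toFinset := by
      intro t ht
      rw [Multiset.mem_toFinset, Polynomial.mem_roots hne]
      exact (hP t).trans (hT t ht)
    have h2 := Finset.card_le_card h1
    have h3 := Multiset.toFinset_card_le P.roots
    have h4 := P.card_roots'
    omega
  intro t
  rw [← hP t, hz]
  simp

end Vale.Agent.P054.L2
end

section

/-! Block L3, leaf SAMPLING with threshold `K`: copy of L2/Sampling.lean with density `p = 4K/k`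
(`4K ≤ k`; for `k < 4K` take `S = U`), `1[n ≥ K] ≥ 1 - 4^(K-1) (1/4)^n`,
`4^(K-1) (1 - 3K/k)^k ≤ 4^(K-1) exp(-3K) ≤ 1/4`, and `(#S)^(1+e₀) ≤ #S (#U)^e₀`. -/

set_option linter.all false
set_option autoImplicit false

namespace Vale.Agent.P054.L3

open Finset

open scoped Classical in
/-- generating function of the size of the intersection with a random subset -/
private lemma sk_gen {Ω : Type} (U A : Finset Ω) (hA : A ⊆ U) (p x : ℝ) :
    ∑ S ∈ U.powerset, p ^ S.card * (1 - p) ^ (U \ S).card * x ^ (A ∩ S).card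
      = (1 - p + p * x) ^ A.card := by
  have h := Finset.prod_add (fun i => p * (if i ∈ A then x else 1)) (fun _ : Ω => (1 - p)) U
  have h1 : ∏ i ∈ U, (p * (if i ∈ A then x else 1) + (1 - p)) = (1 - p + p * x) ^ A.card := by
    have : ∀ i ∈ U, (p * (if i ∈ A then x else 1) + (1 - p))
        = if i ∈ A then (1 - p + p * x) else 1 := by
      intro i _
      split_ifs <;> ring
    rw [Finset.prod_congr rfl this, Finset.prod_ite, Finset.prod_const, Finset.prod_const_one,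
      mul_one]
    congr 1
    congr 1
    ext i
    simp only [Finset.mem_filter]
    exact ⟨fun h => h.2, fun h => ⟨hA h, h⟩⟩
  rw [h1] at h
  rw [h]
  refine Finset.sum_congr rfl fun S hS => ?_
  rw [Finset.prod_mul_distrib, Finset.prod_const, Finset.prod_const, Finset.prod_ite,
    Finset.prod_const, Finset.prod_const_one, mul_one]
  have : (S.filter (fun i => i ∈ A)) = A ∩ S := by
    ext i
    simp only [Finset.mem_filter, Finset.mem_inter]
    tauto
  rw [this]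
  ring

private lemma sk_rpow (s u : ℕ) (hsu : s ≤ u) (e : ℝ) (he : 0 ≤ e) :
    (s : ℝ) ^ (1 + e) ≤ s * (u : ℝ) ^ e := by
  rcases Nat.eq_zero_or_pos s with h | h
  · subst h
    rw [Nat.cast_zero, Real.zero_rpow (by linarith), zero_mul]
  · have hs : (0 : ℝ) < s := by exact_mod_cast h
    rw [Real.rpow_add hs, Real.rpow_one]
    exact mul_le_mul_of_nonneg_left
      (Real.rpow_le_rpow hs.le (by exact_mod_cast hsu) he) hs.le

private lemma sk_rpow' (u : ℕ) (e : ℝ) (he : 0 ≤ e) :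
    (u : ℝ) * (u : ℝ) ^ e = (u : ℝ) ^ (1 + e) := by
  rcases Nat.eq_zero_or_pos u with h | h
  · subst h
    have h1 : (1 + e) ≠ 0 := by linarith
    rw [Nat.cast_zero, zero_mul, Real.zero_rpow h1]
  · have hs : (0 : ℝ) < u := by exact_mod_cast h
    rw [Real.rpow_add hs, Real.rpow_one]

open scoped Classical in
theorem samplingK {Ω ι : Type} (U : Finset Ω) (G : Finset ι) (A : ι → Finset Ω)
    (hAU : ∀ g ∈ G, A g ⊆ U) (K : ℕ) (hK : 1 ≤ K) (k : ℕ) (hk : K ≤ k)
    (hA : ∀ g ∈ G, k ≤ (A g).card) (b e₀ : ℝ) (hb0 : 0 ≤ b) (he : 0 ≤ e₀)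
    (hb : ∀ S : Finset Ω, ((G.filter (fun g => K ≤ (A g ∩ S).card)).card : ℝ) ≤
      b * (S.card : ℝ) ^ (1 + e₀)) :
    (G.card : ℝ) * k ≤ 6 * K * b * (U.card : ℝ) ^ (1 + e₀) := by
  have hK0 : (0 : ℝ) < K := by exact_mod_cast hK
  have hk0 : (0 : ℝ) < k := by exact_mod_cast (lt_of_lt_of_le hK hk)
  have hUe : 0 ≤ (U.card : ℝ) ^ (1 + e₀) := Real.rpow_nonneg (Nat.cast_nonneg _) _
  by_cases hk4 : k < 4 * K
  · have h := hb U
    have h1 : G.filter (fun g => K ≤ (A g ∩ U).card) = G := by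
      apply Finset.filter_true_of_mem
      intro g hg
      rw [Finset.inter_eq_left.2 (hAU g hg)]
      exact hk.trans (hA g hg)
    rw [h1] at h
    have h2 : (k : ℝ) ≤ 4 * K := by exact_mod_cast hk4.le
    have h3 : 0 ≤ b * (U.card : ℝ) ^ (1 + e₀) := mul_nonneg hb0 hUe
    calc (G.card : ℝ) * k ≤ (b * (U.card : ℝ) ^ (1 + e₀)) * (4 * K) :=
          mul_le_mul h h2 hk0.le h3
      _ ≤ (b * (U.card : ℝ) ^ (1 + e₀)) * (6 * K) :=
          mul_le_mul_of_nonneg_left (by linarith) h3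
      _ = 6 * K * b * (U.card : ℝ) ^ (1 + e₀) := by ring
  push Not at hk4
  set p : ℝ := 4 * K / k with hp
  have hk4' : (4 : ℝ) * K ≤ k := by exact_mod_cast hk4
  have hp0 : 0 ≤ p := by positivity
  have hp1 : 0 ≤ 1 - p := by
    rw [hp, sub_nonneg, div_le_one hk0]
    exact hk4'
  set μ : Finset Ω → ℝ := fun S => p ^ S.card * (1 - p) ^ (U \ S).card with hμ
  have hμ0 : ∀ S, 0 ≤ μ S := fun S => by
    rw [hμ]
    positivity
  -- total mass and mean size
  have htot : ∑ S ∈ U.powerset, μ S = 1 := by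
    have := sk_gen U ∅ (Finset.empty_subset _) p 1
    simpa [hμ] using this
  have hmem : ∀ i ∈ U, ∑ S ∈ U.powerset, μ S * (if i ∈ S then (1 : ℝ) else 0) = p := by
    intro i hi
    have h := sk_gen U {i} (Finset.singleton_subset_iff.2 hi) p 0
    have h2 : ∀ S ∈ U.powerset, μ S * (if i ∈ S then (1 : ℝ) else 0)
        = μ S - p ^ S.card * (1 - p) ^ (U \ S).card * 0 ^ (({i} : Finset Ω) ∩ S).card := by
      intro S _
      by_cases hiS : i ∈ S
      · have : ({i} : Finset Ω) ∩ S = {i} :=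
          Finset.inter_eq_left.2 (Finset.singleton_subset_iff.2 hiS)
        simp [hiS, this, hμ]
      · have : ({i} : Finset Ω) ∩ S = ∅ := by
          rw [Finset.singleton_inter_of_notMem hiS]
        simp [hiS, this, hμ]
    rw [Finset.sum_congr rfl h2, Finset.sum_sub_distrib, htot, h]
    simp
  have hmean : ∑ S ∈ U.powerset, μ S * (S.card : ℝ) = p * U.card := by
    have h1 : ∀ S ∈ U.powerset, μ S * (S.card : ℝ)
        = ∑ i ∈ U, μ S * (if i ∈ S then (1 : ℝ) else 0) := by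
      intro S hS
      rw [← Finset.mul_sum]
      congr 1
      rw [Finset.sum_ite_mem, Finset.inter_eq_right.2 (Finset.mem_powerset.1 hS)]
      simp
    rw [Finset.sum_congr rfl h1, Finset.sum_comm, Finset.sum_congr rfl hmem]
    simp [mul_comm]
  -- upper bound
  have hup : ∑ S ∈ U.powerset, μ S * ((G.filter (fun g => K ≤ (A g ∩ S).card)).card : ℝ)
      ≤ b * (U.card : ℝ) ^ e₀ * (p * U.card) := by
    rw [← hmean, Finset.mul_sum]
    refine Finset.sum_le_sum fun S hS => ?_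
    have hSU : S.card ≤ U.card := Finset.card_le_card (Finset.mem_powerset.1 hS)
    have h2 : ((G.filter (fun g => K ≤ (A g ∩ S).card)).card : ℝ)
        ≤ b * (S.card * (U.card : ℝ) ^ e₀) :=
      (hb S).trans (mul_le_mul_of_nonneg_left (sk_rpow _ _ hSU _ he) hb0)
    calc μ S * ((G.filter (fun g => K ≤ (A g ∩ S).card)).card : ℝ)
        ≤ μ S * (b * (S.card * (U.card : ℝ) ^ e₀)) :=
          mul_le_mul_of_nonneg_left h2 (hμ0 S)
      _ = b * (U.card : ℝ) ^ e₀ * (μ S * S.card) := by ring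
  -- lower bound
  have hpk : p * k = 4 * K := by
    rw [hp]
    field_simp
  have hexp : (4 : ℝ) ^ (K - 1) * (1 - 3 / 4 * p) ^ k ≤ 1 / 4 := by
    have h1 : (1 - 3 / 4 * p) ≤ Real.exp (-(3 / 4 * p)) := by
      have := Real.add_one_le_exp (-(3 / 4 * p))
      linarith only [this]
    have h0 : 0 ≤ 1 - 3 / 4 * p := by linarith
    have h2 : (1 - 3 / 4 * p) ^ k ≤ (Real.exp (-3)) ^ K :=
      calc (1 - 3 / 4 * p) ^ k ≤ (Real.exp (-(3 / 4 * p))) ^ k := pow_le_pow_left₀ h0 h1 k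
        _ = (Real.exp (-3)) ^ K := by
            rw [← Real.exp_nat_mul, ← Real.exp_nat_mul]
            congr 1
            have : (k : ℝ) * (-(3 / 4 * p)) = -(3 / 4) * (p * k) := by ring
            rw [this, hpk]
            ring
    have h3 : Real.exp (-3) ≤ 1 / 16 := by
      rw [Real.exp_neg, one_div]
      apply inv_anti₀ (by norm_num)
      have h3 : Real.exp 3 = Real.exp 1 ^ 3 := by
        rw [← Real.exp_nat_mul]
        norm_num
      rw [h3]
      have := Real.exp_one_gt_d9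
      calc (16 : ℝ) ≤ 2.7 ^ 3 := by norm_num
        _ ≤ Real.exp 1 ^ 3 := pow_le_pow_left₀ (by norm_num) (by linarith) 3
    obtain ⟨n, rfl⟩ : ∃ n, K = n + 1 := ⟨K - 1, by omega⟩
    have h4 : (Real.exp (-3)) ^ (n + 1) ≤ (1 / 16 : ℝ) ^ (n + 1) :=
      pow_le_pow_left₀ (Real.exp_pos _).le h3 _
    have h5 : (4 : ℝ) ^ n * (1 / 16 : ℝ) ^ (n + 1) ≤ 1 / 4 := by
      rw [pow_succ, ← mul_assoc, ← mul_pow]
      have h6 : ((4 : ℝ) * (1 / 16)) ^ n ≤ 1 := pow_le_one₀ (by norm_num) (by norm_num)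
      linarith
    calc (4 : ℝ) ^ (n + 1 - 1) * (1 - 3 / 4 * p) ^ k
        ≤ (4 : ℝ) ^ (n + 1 - 1) * (1 / 16 : ℝ) ^ (n + 1) :=
          mul_le_mul_of_nonneg_left (h2.trans h4) (by positivity)
      _ ≤ 1 / 4 := by
          rw [Nat.add_sub_cancel]
          exact h5
  have hlow1 : ∀ g ∈ G, (3 / 4 : ℝ) ≤
      ∑ S ∈ U.powerset, μ S * (if K ≤ (A g ∩ S).card then (1 : ℝ) else 0) := by
    intro g hg
    have h1 := sk_gen U (A g) (hAU g hg) p (1 / 4)
    have h2 : (4 : ℝ) ^ (K - 1) * (1 - p + p * (1 / 4)) ^ (A g).card ≤ 1 / 4 := by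
      have h3 : 1 - p + p * (1 / 4) = 1 - 3 / 4 * p := by ring
      rw [h3]
      have h0 : 0 ≤ 1 - 3 / 4 * p := by linarith only [hp1]
      have h4 : 1 - 3 / 4 * p ≤ 1 := by linarith
      exact (mul_le_mul_of_nonneg_left (pow_le_pow_of_le_one h0 h4 (hA g hg))
        (by positivity)).trans hexp
    calc (3 / 4 : ℝ) ≤ 1 - (4 : ℝ) ^ (K - 1) * (1 - p + p * (1 / 4)) ^ (A g).card := by linarith
      _ = ∑ S ∈ U.powerset, (μ S - (4 : ℝ) ^ (K - 1) * (μ S * (1 / 4) ^ (A g ∩ S).card)) := by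
          rw [Finset.sum_sub_distrib, htot, ← Finset.mul_sum, h1]
      _ ≤ ∑ S ∈ U.powerset, μ S * (if K ≤ (A g ∩ S).card then (1 : ℝ) else 0) := by
          refine Finset.sum_le_sum fun S _ => ?_
          have hm := hμ0 S
          have hpw : (0 : ℝ) ≤ (4 : ℝ) ^ (K - 1) * (μ S * (1 / 4) ^ (A g ∩ S).card) := by
            positivity
          split_ifs with h2
          · linarith
          · have h5 : (A g ∩ S).card ≤ K - 1 := by omega
            have h6 : (1 / 4 : ℝ) ^ (K - 1) ≤ (1 / 4) ^ (A g ∩ S).card :=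
              pow_le_pow_of_le_one (by norm_num) (by norm_num) h5
            have h7 : (1 : ℝ) ≤ (4 : ℝ) ^ (K - 1) * (1 / 4) ^ (A g ∩ S).card := by
              calc (1 : ℝ) = (4 : ℝ) ^ (K - 1) * (1 / 4 : ℝ) ^ (K - 1) := by
                    rw [← mul_pow]
                    norm_num
                _ ≤ _ := mul_le_mul_of_nonneg_left h6 (by positivity)
            have h8 := mul_le_mul_of_nonneg_left h7 hm
            have h9 : μ S * ((4 : ℝ) ^ (K - 1) * (1 / 4) ^ (A g ∩ S).card)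
                = (4 : ℝ) ^ (K - 1) * (μ S * (1 / 4) ^ (A g ∩ S).card) := by ring
            rw [h9] at h8
            linarith only [h8]
  have hlow : (3 / 4 : ℝ) * G.card ≤
      ∑ S ∈ U.powerset, μ S * ((G.filter (fun g => K ≤ (A g ∩ S).card)).card : ℝ) := by
    have h1 : ∀ S ∈ U.powerset, μ S * ((G.filter (fun g => K ≤ (A g ∩ S).card)).card : ℝ)
        = ∑ g ∈ G, μ S * (if K ≤ (A g ∩ S).card then (1 : ℝ) else 0) := by
      intro S _
      rw [← Finset.mul_sum]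
      congr 1
      rw [Finset.sum_boole]
    rw [Finset.sum_congr rfl h1, Finset.sum_comm]
    calc (3 / 4 : ℝ) * G.card = ∑ g ∈ G, (3 / 4 : ℝ) := by
          rw [Finset.sum_const, nsmul_eq_mul]
          ring
      _ ≤ _ := Finset.sum_le_sum hlow1
  have hfin : (3 / 4 : ℝ) * G.card ≤ b * (U.card : ℝ) ^ e₀ * (p * U.card) := hlow.trans hup
  have h1 : b * (U.card : ℝ) ^ e₀ * (p * U.card) * k
      = 4 * K * b * (U.card : ℝ) ^ (1 + e₀) := by
    rw [← sk_rpow' U.card e₀ he]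
    calc b * (U.card : ℝ) ^ e₀ * (p * U.card) * k
        = (p * k) * b * ((U.card : ℝ) * (U.card : ℝ) ^ e₀) := by ring
      _ = _ := by rw [hpk]
  have h2 := mul_le_mul_of_nonneg_right hfin hk0.le
  rw [h1] at h2
  have h3 : 0 ≤ K * b * (U.card : ℝ) ^ (1 + e₀) := by (clear * - hK hb0; positivity)
  linarith only [h3, h2]

end Vale.Agent.P054.L3
end

section

/-! P054, block W, part 4: Warren's bound on sets `{w_j^δ = h_j(y, w_j)}`. -/

namespace Vale.Agent.P054.W

open MvPolynomial Filter Topology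

variable {d : ℕ}

/-! ### weights -/

/-- all monomials of `p` have weight at most `N` -/
def Wle (w : Fin d → ℕ) (p : MvPolynomial (Fin d) ℝ) (N : ℕ) : Prop :=
  ∀ m ∈ p.support, wt w m ≤ N

theorem Wle.mono {w : Fin d → ℕ} {p : MvPolynomial (Fin d) ℝ} {N M : ℕ} (h : Wle w p N)
    (hNM : N ≤ M) : Wle w p M := fun m hm => (h m hm).trans hNM

theorem Wle.add {w : Fin d → ℕ} {p q : MvPolynomial (Fin d) ℝ} {N : ℕ} (hp : Wle w p N)
    (hq : Wle w q N) : Wle w (p + q) N := by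
  classical
  intro m hm
  rcases Finset.mem_union.mp (support_add hm) with h | h
  · exact hp m h
  · exact hq m h

theorem Wle.neg {w : Fin d → ℕ} {p : MvPolynomial (Fin d) ℝ} {N : ℕ} (hp : Wle w p N) :
    Wle w (-p) N := by
  intro m hm
  rw [support_neg] at hm
  exact hp m hm

theorem Wle.sub {w : Fin d → ℕ} {p q : MvPolynomial (Fin d) ℝ} {N : ℕ} (hp : Wle w p N)
    (hq : Wle w q N) : Wle w (p - q) N := by
  rw [sub_eq_add_neg]
  exact hp.add hq.neg

theorem Wle.mul {w : Fin d → ℕ} {p q : MvPolynomial (Fin d) ℝ} {N M : ℕ} (hp : Wle w p N)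
    (hq : Wle w q M) : Wle w (p * q) (N + M) := by
  classical
  intro m hm
  obtain ⟨a, ha, b, hb, rfl⟩ := Finset.mem_add.mp (support_mul p q hm)
  rw [wt_add]
  exact Nat.add_le_add (hp a ha) (hq b hb)

theorem Wle.C_mul {w : Fin d → ℕ} {p : MvPolynomial (Fin d) ℝ} {N : ℕ} (hp : Wle w p N)
    (c : ℝ) : Wle w (C c * p) N := by
  intro m hm
  apply hp m
  rw [mem_support_iff] at hm ⊢
  rw [coeff_C_mul] at hm
  exact right_ne_zero_of_mul hm

theorem Wle.zero (w : Fin d → ℕ) (N : ℕ) : Wle w 0 N := by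
  intro m hm
  simp at hm

theorem Wle.sum {w : Fin d → ℕ} {ι : Type*} {s : Finset ι} {p : ι → MvPolynomial (Fin d) ℝ}
    {N : ℕ} (h : ∀ i ∈ s, Wle w (p i) N) : Wle w (∑ i ∈ s, p i) N := by
  classical
  induction s using Finset.induction_on with
  | empty => simpa using Wle.zero w N
  | insert a s ha ih =>
    rw [Finset.sum_insert ha]
    exact (h a (Finset.mem_insert_self _ _)).add
      (ih fun i hi => h i (Finset.mem_insert_of_mem hi))

theorem Wle.pderiv {w : Fin d → ℕ} {p : MvPolynomial (Fin d) ℝ} {N : ℕ} (hp : Wle w p N)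
    (i : Fin d) : Wle w (MvPolynomial.pderiv i p) N := by
  intro m hm
  have h := hp _ (mem_support_pderiv hm)
  rw [wt_add] at h
  exact (Nat.le_add_right _ _).trans h

theorem Wle.X_pow (w : Fin d → ℕ) (i : Fin d) (n : ℕ) :
    Wle w ((X i : MvPolynomial (Fin d) ℝ) ^ n) (w i * n) := by
  classical
  intro m hm
  rw [X_pow_eq_monomial] at hm
  have := Finset.mem_singleton.mp (support_monomial_subset hm)
  rw [this, wt_single]

/-! ### reduction modulo the equations -/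

theorem exists_reduced_monomial (W : Finset (Fin d)) (δ κ : ℕ)
    (h : Fin d → MvPolynomial (Fin d) ℝ)
    (hh : ∀ j ∈ W, ∀ m ∈ (h j).support,
      (∀ l ∈ W, l ≠ j → m l = 0) ∧ m j < δ ∧ ∑ i ∈ Wᶜ, m i ≤ κ) :
    ∀ (N : ℕ) (m : Fin d →₀ ℕ), ∑ j ∈ W, m j < N → ∀ c : ℝ,
      ∃ p : MvPolynomial (Fin d) ℝ,
        (∀ z : Fin d → ℝ, (∀ j ∈ W, z j ^ δ = eval z (h j)) →
          eval z p = eval z (monomial m c)) ∧
        ∀ m' ∈ p.support, (∀ j ∈ W, m' j < δ) ∧
          ∑ i ∈ Wᶜ, m' i + κ * ∑ j ∈ W, m' j ≤ ∑ i ∈ Wᶜ, m i + κ * ∑ j ∈ W, m j := by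
  classical
  intro N
  induction N with
  | zero => intro m hm; exact absurd hm (Nat.not_lt_zero _)
  | succ N ih =>
    intro m hm c
    by_cases hall : ∀ j ∈ W, m j < δ
    · refine ⟨monomial m c, fun z _ => rfl, fun m' hm' => ?_⟩
      have := Finset.mem_singleton.mp (support_monomial_subset hm')
      subst this
      exact ⟨hall, le_rfl⟩
    · push Not at hall
      obtain ⟨j, hj, hmj⟩ := hall
      have hle : Finsupp.single j δ ≤ m := Finsupp.single_le_iff.mpr hmj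
      obtain ⟨m', rfl⟩ : ∃ m', m = m' + Finsupp.single j δ :=
        ⟨m - Finsupp.single j δ, (tsub_add_cancel_of_le hle).symm⟩
      have hsW : ∀ a b : Fin d →₀ ℕ, ∑ l ∈ W, (a + b) l = ∑ l ∈ W, a l + ∑ l ∈ W, b l := by
        intro a b
        simp [Finset.sum_add_distrib]
      have hsY : ∀ a b : Fin d →₀ ℕ, ∑ l ∈ Wᶜ, (a + b) l = ∑ l ∈ Wᶜ, a l + ∑ l ∈ Wᶜ, b l := by
        intro a b
        simp [Finset.sum_add_distrib]
      have hs1 : ∑ l ∈ W, (Finsupp.single j δ) l = δ := by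
        rw [Finset.sum_eq_single j]
        · simp
        · intro l _ hl
          simp [hl.symm]
        · intro hj'
          exact absurd hj hj'
      have hs2 : ∑ l ∈ Wᶜ, (Finsupp.single j δ) l = 0 := by
        refine Finset.sum_eq_zero fun l hl => ?_
        have : j ≠ l := fun hjl => by
          rw [← hjl] at hl
          exact Finset.mem_compl.mp hl hj
        simp [this]
      have hhj : ∀ m'' ∈ (h j).support, ∑ l ∈ W, m'' l < δ ∧ ∑ i ∈ Wᶜ, m'' i ≤ κ := by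
        intro m'' hm''
        obtain ⟨h1, h2, h3⟩ := hh j hj m'' hm''
        refine ⟨?_, h3⟩
        rw [Finset.sum_eq_single j (fun l hl hlj => h1 l hl hlj) (fun hj' => absurd hj hj')]
        exact h2
      have hex : ∀ m'' : (h j).support, ∃ p : MvPolynomial (Fin d) ℝ,
          (∀ z : Fin d → ℝ, (∀ j ∈ W, z j ^ δ = eval z (h j)) →
            eval z p = eval z (monomial (m' + m''.1) (c * coeff m''.1 (h j)))) ∧
          ∀ m₀ ∈ p.support, (∀ j ∈ W, m₀ j < δ) ∧
            ∑ i ∈ Wᶜ, m₀ i + κ * ∑ j ∈ W, m₀ j ≤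
              ∑ i ∈ Wᶜ, (m' + m''.1) i + κ * ∑ j ∈ W, (m' + m''.1) j := by
        intro m''
        apply ih
        have h1 := (hhj m''.1 m''.2).1
        rw [hsW, hs1] at hm
        rw [hsW]
        omega
      choose g hg1 hg2 using hex
      refine ⟨∑ m'' : (h j).support, g m'', fun z hz => ?_, fun m₀ hm₀ => ?_⟩
      · rw [map_sum]
        have h1 : eval z (monomial (m' + Finsupp.single j δ) c) =
            eval z (monomial m' c * h j) := by
          have h2 : monomial (m' + Finsupp.single j δ) c = monomial m' c * (X j) ^ δ := by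
            rw [X_pow_eq_monomial, monomial_mul, mul_one]
          rw [h2, map_mul, map_mul, map_pow, eval_X, hz j hj]
        rw [h1]
        conv_rhs => rw [(h j).as_sum]
        rw [Finset.mul_sum, map_sum, ← Finset.sum_coe_sort (h j).support]
        refine Finset.sum_congr rfl fun m'' _ => ?_
        rw [hg1 m'' z hz, monomial_mul]
      · have hmem : ∃ m'' : (h j).support, m₀ ∈ (g m'').support := by
          by_contra hcon
          push Not at hcon
          rw [mem_support_iff, coeff_sum] at hm₀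
          exact hm₀ (Finset.sum_eq_zero fun m'' _ => notMem_support_iff.mp (hcon m''))
        obtain ⟨m'', hm''⟩ := hmem
        obtain ⟨h1, h2⟩ := hg2 m'' m₀ hm''
        refine ⟨h1, h2.trans ?_⟩
        obtain ⟨h3, h4⟩ := hhj m''.1 m''.2
        rw [hsY, hsW, hsY, hsW, hs1, hs2]
        have h5 : κ * ∑ l ∈ W, m''.1 l + κ ≤ κ * δ := by
          calc κ * ∑ l ∈ W, m''.1 l + κ = κ * (∑ l ∈ W, m''.1 l + 1) := by ring
            _ ≤ κ * δ := Nat.mul_le_mul_left κ h3
        have h6 : κ * (∑ l ∈ W, m' l + ∑ l ∈ W, m''.1 l) =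
            κ * ∑ l ∈ W, m' l + κ * ∑ l ∈ W, m''.1 l := by ring
        have h7 : κ * (∑ l ∈ W, m' l + δ) = κ * ∑ l ∈ W, m' l + κ * δ := by ring
        rw [h6, h7]
        omega

theorem exists_reduced (W : Finset (Fin d)) (δ κ : ℕ) (hκ : 1 ≤ κ)
    (h : Fin d → MvPolynomial (Fin d) ℝ)
    (hh : ∀ j ∈ W, ∀ m ∈ (h j).support,
      (∀ l ∈ W, l ≠ j → m l = 0) ∧ m j < δ ∧ ∑ i ∈ Wᶜ, m i ≤ κ)
    (G : MvPolynomial (Fin d) ℝ) (n : ℕ) (hG : G.totalDegree ≤ n) :
    ∃ p : MvPolynomial (Fin d) ℝ,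
      (∀ z : Fin d → ℝ, (∀ j ∈ W, z j ^ δ = eval z (h j)) → eval z p = eval z G) ∧
      ∀ m' ∈ p.support, (∀ j ∈ W, m' j < δ) ∧ ∑ i ∈ Wᶜ, m' i ≤ κ * n := by
  classical
  have hex : ∀ m : G.support, ∃ p : MvPolynomial (Fin d) ℝ,
      (∀ z : Fin d → ℝ, (∀ j ∈ W, z j ^ δ = eval z (h j)) →
        eval z p = eval z (monomial m.1 (coeff m.1 G))) ∧
      ∀ m' ∈ p.support, (∀ j ∈ W, m' j < δ) ∧
        ∑ i ∈ Wᶜ, m' i + κ * ∑ j ∈ W, m' j ≤ ∑ i ∈ Wᶜ, m.1 i + κ * ∑ j ∈ W, m.1 j :=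
    fun m => exists_reduced_monomial W δ κ h hh _ m.1 (Nat.lt_succ_self _) _
  choose g hg1 hg2 using hex
  refine ⟨∑ m : G.support, g m, fun z hz => ?_, fun m₀ hm₀ => ?_⟩
  · conv_rhs => rw [G.as_sum]
    rw [map_sum, map_sum, ← Finset.sum_coe_sort G.support]
    exact Finset.sum_congr rfl fun m _ => hg1 m z hz
  · have hmem : ∃ m : G.support, m₀ ∈ (g m).support := by
      by_contra hcon
      push Not at hcon
      rw [mem_support_iff, coeff_sum] at hm₀
      exact hm₀ (Finset.sum_eq_zero fun m'' _ => notMem_support_iff.mp (hcon m''))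
    obtain ⟨m, hm⟩ := hmem
    obtain ⟨h1, h2⟩ := hg2 m m₀ hm
    refine ⟨h1, ?_⟩
    have h3 := le_totalDegree m.2
    rw [Finsupp.sum_fintype _ _ (fun _ => rfl)] at h3
    have h4 : ∑ i ∈ W, m.1 i + ∑ i ∈ Wᶜ, m.1 i = ∑ i, m.1 i := Finset.sum_add_sum_compl W _
    have h5 : ∑ i ∈ Wᶜ, m.1 i ≤ κ * ∑ i ∈ Wᶜ, m.1 i := Nat.le_mul_of_pos_left _ hκ
    have h6 : κ * ∑ i ∈ Wᶜ, m.1 i + κ * ∑ j ∈ W, m.1 j = κ * ∑ i, m.1 i := by
      rw [← h4]; ring
    have h7 : κ * ∑ i, m.1 i ≤ κ * n := Nat.mul_le_mul_left κ (h3.trans hG)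
    omega

end Vale.Agent.P054.W
end

section

/-! P054, block W, part 5: critical points for a general penalised polynomial; growth. -/

namespace Vale.Agent.P054.W

open MvPolynomial Filter Topology

variable {d : ℕ}

theorem exists_crit' {ι : Type*} [Finite ι] (f : ι → MvPolynomial (Fin d) ℝ)
    (Φ : MvPolynomial (Fin d) ℝ) (c0 : ℝ)
    (hpos : ∀ x, c0 < eval x Φ → ∀ j, eval x (f j) ≠ 0) (R : ℝ)
    (hR : ∀ x : Fin d → ℝ, R < ‖x‖ → eval x Φ ≤ c0) (s : Fin d → ℝ)
    (hs : c0 < eval s Φ) :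
    ∃ x, (∀ j, 0 < eval x (f j) * eval s (f j)) ∧ ∀ i, eval x (pderiv i Φ) = 0 := by
  have hcont : ∀ p : MvPolynomial (Fin d) ℝ, Continuous fun x : Fin d → ℝ => eval x p :=
    fun p => MvPolynomial.continuous_eval p
  let A : Set (Fin d → ℝ) := {x | ‖x‖ ≤ R} ∩ {x | ∀ j, 0 ≤ eval x (f j) * eval s (f j)}
  have hAc : IsCompact A := by
    have h1 : IsCompact {x : Fin d → ℝ | ‖x‖ ≤ R} := by
      have : {x : Fin d → ℝ | ‖x‖ ≤ R} = Metric.closedBall 0 R := by
        ext x; simp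
      rw [this]
      exact isCompact_closedBall _ _
    refine h1.inter_right ?_
    have : {x : Fin d → ℝ | ∀ j, 0 ≤ eval x (f j) * eval s (f j)} =
        ⋂ j, {x | 0 ≤ eval x (f j) * eval s (f j)} := by
      ext x; simp
    rw [this]
    exact isClosed_iInter fun j =>
      isClosed_le continuous_const ((hcont (f j)).mul continuous_const)
  have hsA : s ∈ A := by
    refine ⟨?_, fun j => mul_self_nonneg _⟩
    by_contra hcon
    have := hR s (not_le.mp hcon)
    linarith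
  obtain ⟨x, hxA, hxmax⟩ := hAc.exists_isMaxOn ⟨s, hsA⟩ (hcont Φ).continuousOn
  have hx0 : c0 < eval x Φ := lt_of_lt_of_le hs (hxmax hsA)
  have hxU : ∀ j, 0 < eval x (f j) * eval s (f j) := fun j =>
    lt_of_le_of_ne (hxA.2 j) (mul_ne_zero (hpos x hx0 j) (hpos s hs j)).symm
  refine ⟨x, hxU, fun i => crit_of_isLocalMax Φ x ?_ i⟩
  have hU : ∀ᶠ y in 𝓝 x, ∀ j, 0 < eval y (f j) * eval s (f j) := by
    rw [eventually_all]
    intro j
    exact ((hcont (f j)).mul continuous_const).continuousAt.eventually (lt_mem_nhds (hxU j))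
  filter_upwards [hU] with y hy
  by_cases hyR : ‖y‖ ≤ R
  · exact hxmax ⟨hyR, fun j => (hy j).le⟩
  · exact (hR y (not_le.mp hyR)).trans hx0.le

theorem card_le_crit' {ι : Type*} [Finite ι] (f : ι → MvPolynomial (Fin d) ℝ)
    (Φ : MvPolynomial (Fin d) ℝ) (c0 : ℝ)
    (hpos : ∀ x, c0 < eval x Φ → ∀ j, eval x (f j) ≠ 0) (R : ℝ)
    (hR : ∀ x : Fin d → ℝ, R < ‖x‖ → eval x Φ ≤ c0)
    (S : Finset (Fin d → ℝ)) (hS : ∀ s ∈ S, c0 < eval s Φ)
    (hinj : ∀ s ∈ S, ∀ t ∈ S, (∀ j, 0 < eval s (f j) * eval t (f j)) → s = t) (N : ℕ)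
    (hN : ∀ Z : Finset (Fin d → ℝ), (∀ z ∈ Z, ∀ i, eval z (pderiv i Φ) = 0) → Z.card ≤ N) :
    S.card ≤ N := by
  classical
  have hex : ∀ s : S, ∃ x, (∀ j, 0 < eval x (f j) * eval s.1 (f j)) ∧
      ∀ i, eval x (pderiv i Φ) = 0 := fun s =>
    exists_crit' f Φ c0 hpos R hR s.1 (hS s.1 s.2)
  choose g hg1 hg2 using hex
  have hginj : Function.Injective g := by
    intro s t hst
    refine Subtype.ext (hinj s.1 s.2 t.1 t.2 fun j => ?_)
    have h1 := hg1 s j
    have h2 := hg1 t j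
    rw [hst] at h1
    have h3 := mul_pos h1 h2
    by_contra hcon
    push Not at hcon
    have : eval (g t) (f j) * eval s.1 (f j) * (eval (g t) (f j) * eval t.1 (f j)) =
        eval (g t) (f j) ^ 2 * (eval s.1 (f j) * eval t.1 (f j)) := by ring
    rw [this] at h3
    have h4 := sq_nonneg (eval (g t) (f j))
    linarith only [mul_nonneg (sub_nonneg.2 hcon) (sub_nonneg.2 h4), mul_pos (sub_pos.2 h1) (sub_pos.2 h2)]
  have h5 := hN (Finset.univ.image g) (by
    intro z hz i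
    obtain ⟨s, _, rfl⟩ := Finset.mem_image.mp hz
    exact hg2 s i)
  rwa [Finset.card_image_of_injective _ hginj, Finset.card_univ, Fintype.card_coe] at h5

/-- one-variable growth -/
theorem growth (A e : ℝ) (hA : 0 ≤ A) (he : 0 < e) (n m : ℕ) (hnm : n < m) (M : ℝ) :
    ∃ R : ℝ, 1 ≤ R ∧ ∀ t : ℝ, R ≤ t → A * (1 + t) ^ n - e * t ^ m ≤ -M := by
  refine ⟨1 + (A * 2 ^ n + |M|) / e, ?_, fun t ht => ?_⟩
  · have : 0 ≤ (A * 2 ^ n + |M|) / e := by positivity
    linarith
  · have h0 : 0 ≤ (A * 2 ^ n + |M|) / e := by positivity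
    have ht1 : 1 ≤ t := by linarith
    have h1 : A * 2 ^ n + |M| ≤ e * t := by
      have : (A * 2 ^ n + |M|) / e ≤ t := by linarith
      rw [div_le_iff₀ he] at this
      linarith
    have h2 : (1 + t) ^ n ≤ 2 ^ n * t ^ n := by
      rw [← mul_pow]
      exact pow_le_pow_left₀ (by linarith) (by linarith) _
    have h3 : t ^ n * t ≤ t ^ m := by
      rw [← pow_succ]
      exact pow_le_pow_right₀ ht1 hnm
    have h4 : 1 ≤ t ^ n := one_le_pow₀ ht1
    have h5 : A * (1 + t) ^ n ≤ A * (2 ^ n * t ^ n) := mul_le_mul_of_nonneg_left h2 hA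
    have h6 : e * (t ^ n * t) ≤ e * t ^ m := mul_le_mul_of_nonneg_left h3 he.le
    have h7 : (A * 2 ^ n + |M|) * t ^ n ≤ (e * t) * t ^ n :=
      mul_le_mul_of_nonneg_right h1 (by linarith)
    have h8 : |M| ≤ |M| * t ^ n := le_mul_of_one_le_right (abs_nonneg _) h4
    have h9 := le_abs_self M
    linarith only [h9, h8, h7, h6, h5]

theorem growth_bdd (A e : ℝ) (hA : 0 ≤ A) (he : 0 < e) (n m : ℕ) (hnm : n < m) :
    ∃ M : ℝ, 0 ≤ M ∧ ∀ t : ℝ, 0 ≤ t → A * (1 + t) ^ n - e * t ^ m ≤ M := by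
  obtain ⟨R, hR1, hR⟩ := growth A e hA he n m hnm 0
  refine ⟨A * (1 + R) ^ n, by positivity, fun t ht => ?_⟩
  rcases le_total R t with h | h
  · have h1 := hR t h
    have h2 : 0 ≤ A * (1 + R) ^ n := by positivity
    linarith
  · have h1 : (1 + t) ^ n ≤ (1 + R) ^ n := pow_le_pow_left₀ (by linarith) (by linarith) _
    have h2 : A * (1 + t) ^ n ≤ A * (1 + R) ^ n := mul_le_mul_of_nonneg_left h1 hA
    have h3 : 0 ≤ e * t ^ m := by positivity
    linarith

theorem norm_pow_le_sum' (x : Fin d → ℝ) (n : ℕ) (hn : 1 ≤ n) :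
    ‖x‖ ^ (2 * n) ≤ ∑ i, x i ^ (2 * n) := by
  have hev : Even (2 * n) := ⟨n, by ring⟩
  rcases (norm_nonneg x).eq_or_lt with h0 | h0
  · rw [← h0, zero_pow (by omega)]
    exact Finset.sum_nonneg fun i _ => hev.pow_nonneg _
  · obtain ⟨D, rfl⟩ : ∃ D, n = D + 1 := ⟨n - 1, by omega⟩
    have := norm_pow_le_sum x D h0
    simpa [mul_add] using this

/-- restriction of a vector to a set of coordinates -/
def restr (W : Finset (Fin d)) (x : Fin d → ℝ) : Fin d → ℝ := fun i => if i ∈ W then x i else 0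

theorem norm_le_restr (W : Finset (Fin d)) (x : Fin d → ℝ) :
    ‖x‖ ≤ max ‖restr W x‖ ‖restr Wᶜ x‖ := by
  rw [pi_norm_le_iff_of_nonneg (le_max_of_le_left (norm_nonneg _))]
  intro i
  by_cases hi : i ∈ W
  · refine le_max_of_le_left ?_
    have := norm_le_pi_norm (restr W x) i
    simpa [restr, hi] using this
  · refine le_max_of_le_right ?_
    have := norm_le_pi_norm (restr Wᶜ x) i
    simpa [restr, hi] using this

theorem sum_restr (W : Finset (Fin d)) (x : Fin d → ℝ) (n : ℕ) (hn : 1 ≤ n) :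
    ∑ i, restr W x i ^ (2 * n) = ∑ i ∈ W, x i ^ (2 * n) := by
  classical
  have h1 : ∀ i, restr W x i ^ (2 * n) = if i ∈ W then x i ^ (2 * n) else 0 := by
    intro i
    by_cases hi : i ∈ W
    · simp [restr, hi]
    · simp only [restr, hi, if_false]
      exact zero_pow (by omega)
  rw [Finset.sum_congr rfl fun i _ => h1 i, Finset.sum_ite_mem, Finset.univ_inter]

/-- bound of a polynomial whose monomials have `W`-degree `≤ b` and `Wᶜ`-degree `≤ a` -/
theorem abs_eval_le_two (W : Finset (Fin d)) (p : MvPolynomial (Fin d) ℝ) (a b : ℕ)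
    (hp : ∀ m ∈ p.support, ∑ i ∈ W, m i ≤ b ∧ ∑ i ∈ Wᶜ, m i ≤ a) (x : Fin d → ℝ) :
    |eval x p| ≤ (∑ m ∈ p.support, |coeff m p|) *
      ((1 + ‖restr Wᶜ x‖) ^ (2 * a) + (1 + ‖restr W x‖) ^ (2 * b)) := by
  classical
  set T := 1 + ‖restr Wᶜ x‖ with hT
  set U := 1 + ‖restr W x‖ with hU
  have hT1 : 1 ≤ T := by have := norm_nonneg (restr Wᶜ x); linarith
  have hU1 : 1 ≤ U := by have := norm_nonneg (restr W x); linarith
  rw [eval_eq', Finset.sum_mul]
  refine (Finset.abs_sum_le_sum_abs _ _).trans (Finset.sum_le_sum fun m hm => ?_)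
  rw [abs_mul]
  refine mul_le_mul_of_nonneg_left ?_ (abs_nonneg _)
  rw [Finset.abs_prod]
  have h1 : ∏ i, |x i ^ m i| = (∏ i ∈ W, |x i ^ m i|) * ∏ i ∈ Wᶜ, |x i ^ m i| :=
    (Finset.prod_mul_prod_compl W _).symm
  rw [h1]
  have h2 : ∏ i ∈ W, |x i ^ m i| ≤ U ^ b := by
    calc ∏ i ∈ W, |x i ^ m i| ≤ ∏ i ∈ W, U ^ m i := by
          refine Finset.prod_le_prod (fun i _ => abs_nonneg _) fun i hi => ?_
          rw [abs_pow]
          refine pow_le_pow_left₀ (abs_nonneg _) ?_ _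
          have := norm_le_pi_norm (restr W x) i
          simp only [restr, hi, if_true, Real.norm_eq_abs] at this
          rw [hU]
          have h3 : |x i| ≤ ‖restr W x‖ := this
          linarith
      _ = U ^ (∑ i ∈ W, m i) := by rw [Finset.prod_pow_eq_pow_sum]
      _ ≤ U ^ b := pow_le_pow_right₀ hU1 (hp m hm).1
  have h3 : ∏ i ∈ Wᶜ, |x i ^ m i| ≤ T ^ a := by
    calc ∏ i ∈ Wᶜ, |x i ^ m i| ≤ ∏ i ∈ Wᶜ, T ^ m i := by
          refine Finset.prod_le_prod (fun i _ => abs_nonneg _) fun i hi => ?_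
          rw [abs_pow]
          refine pow_le_pow_left₀ (abs_nonneg _) ?_ _
          have := norm_le_pi_norm (restr Wᶜ x) i
          simp only [restr, hi, if_true, Real.norm_eq_abs] at this
          rw [hT]
          have h3 : |x i| ≤ ‖restr Wᶜ x‖ := this
          linarith
      _ = T ^ (∑ i ∈ Wᶜ, m i) := by rw [Finset.prod_pow_eq_pow_sum]
      _ ≤ T ^ a := pow_le_pow_right₀ hT1 (hp m hm).2
  have h4 : (∏ i ∈ W, |x i ^ m i|) * ∏ i ∈ Wᶜ, |x i ^ m i| ≤ U ^ b * T ^ a :=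
    mul_le_mul h2 h3 (Finset.prod_nonneg fun i _ => abs_nonneg _) (by positivity)
  refine h4.trans ?_
  have h5 : T ^ (2 * a) = (T ^ a) ^ 2 := by rw [mul_comm, pow_mul]
  have h6 : U ^ (2 * b) = (U ^ b) ^ 2 := by rw [mul_comm, pow_mul]
  rw [h5, h6]
  linarith only [sq_nonneg (U ^ b), sq_nonneg (T ^ a), sq_nonneg (T ^ a - U ^ b)]

end Vale.Agent.P054.W
end

section

/-! P054, block W, part 6: Warren's bound on `V = {z : z_j^δ = h_j(z) (j ∈ W)}`, where the
monomials of `h_j` contain no variable of `W` except `z_j` with exponent `< δ`, and have degree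
at most `κ` in the other variables:  at most `C * D^(number of variables outside W)` strict sign
patterns of polynomials with degree sum `D`. -/

namespace Vale.Agent.P054.W

open MvPolynomial Filter Topology

variable {d : ℕ}

/-- the penalty polynomial -/
noncomputable def pen (e : ℝ) (dg : Fin d → ℕ) : MvPolynomial (Fin d) ℝ :=
  ∑ i, C e * X i ^ dg i

theorem eval_pen (e : ℝ) (dg : Fin d → ℕ) (x : Fin d → ℝ) :
    eval x (pen e dg) = e * ∑ i, x i ^ dg i := by
  rw [pen, map_sum, Finset.mul_sum]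
  exact Finset.sum_congr rfl fun i _ => by simp

theorem eval_pderiv_pen (e : ℝ) (dg : Fin d → ℕ) (z : Fin d → ℝ) (i : Fin d) :
    eval z (pderiv i (pen e dg)) = e * dg i * z i ^ (dg i - 1) := by
  classical
  rw [pen, map_sum, map_sum, Finset.sum_eq_single i]
  · rw [pderiv_C_mul, pderiv_pow, pderiv_X_self]
    simp
    ring
  · intro j _ hj
    rw [pderiv_C_mul, pderiv_pow, pderiv_X_of_ne hj]
    simp
  · simp

theorem crit_count (dg wf : Fin d → ℕ) (N : ℕ) (Q : MvPolynomial (Fin d) ℝ)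
    (hQ : Wle wf Q N) (hb : ∀ i, N < wf i * (dg i - 1)) (hdg1 : ∀ i, 1 ≤ dg i)
    (e : ℝ) (he : 0 < e) (Z : Finset (Fin d → ℝ))
    (hZ : ∀ z ∈ Z, ∀ i, eval z (pderiv i (Q - pen e dg)) = 0) :
    Z.card ≤ ∏ i, (dg i - 1) := by
  refine card_le_prod Z (fun i => dg i - 1) wf (fun i => C (1 / (e * dg i)) * pderiv i Q)
    (fun i m hm => lt_of_le_of_lt (((hQ.pderiv i).C_mul _) m hm) (hb i)) (fun z hz i => ?_)
  have h1 := hZ z hz i
  rw [map_sub, map_sub, eval_pderiv_pen] at h1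
  rw [map_mul, eval_C]
  have h2 : (dg i : ℝ) ≠ 0 := by
    have h0 : 0 < dg i := hdg1 i
    positivity
  have h3 : e * (dg i : ℝ) ≠ 0 := mul_ne_zero he.ne' h2
  rw [one_div, inv_mul_eq_div, eq_div_iff h3]
  linarith

theorem coercive (W : Finset (Fin d)) (Gt : MvPolynomial (Fin d) ℝ) (a b n1 n2 : ℕ)
    (hGtm : ∀ m ∈ Gt.support, ∑ i ∈ W, m i ≤ b ∧ ∑ i ∈ Wᶜ, m i ≤ a)
    (hn1 : 2 * a < 2 * n1) (hn2 : 2 * b < 2 * n2) (e : ℝ) (he0 : 0 < e) :
    ∃ R : ℝ, ∀ x : Fin d → ℝ, R < ‖x‖ →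
      eval x Gt - eval x (pen e fun i => if i ∈ W then 2 * n2 else 2 * n1) ≤ 0 := by
  classical
  set A : ℝ := ∑ m ∈ Gt.support, |coeff m Gt| with hA
  have hA0 : 0 ≤ A := Finset.sum_nonneg fun _ _ => abs_nonneg _
  obtain ⟨M1, hM1, hM1'⟩ := growth_bdd A e hA0 he0 _ _ hn1
  obtain ⟨M2, hM2, hM2'⟩ := growth_bdd A e hA0 he0 _ _ hn2
  obtain ⟨R1, hR1, hR1'⟩ := growth A e hA0 he0 _ _ hn1 M2
  obtain ⟨R2, hR2, hR2'⟩ := growth A e hA0 he0 _ _ hn2 M1
  refine ⟨max R1 R2, fun x hx => ?_⟩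
  have h1 := (le_abs_self _).trans (abs_eval_le_two W Gt _ _ hGtm x)
  have h2 : e * ‖restr Wᶜ x‖ ^ (2 * n1) + e * ‖restr W x‖ ^ (2 * n2) ≤
      eval x (pen e fun i => if i ∈ W then 2 * n2 else 2 * n1) := by
    rw [eval_pen, ← mul_add]
    refine mul_le_mul_of_nonneg_left ?_ he0.le
    have h3 := norm_pow_le_sum' (restr Wᶜ x) n1 (by omega)
    have h4 := norm_pow_le_sum' (restr W x) n2 (by omega)
    rw [sum_restr _ _ _ (by omega)] at h3
    rw [sum_restr _ _ _ (by omega)] at h4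
    have h5 : ∑ i, x i ^ (if i ∈ W then 2 * n2 else 2 * n1) =
        ∑ i ∈ W, x i ^ (2 * n2) + ∑ i ∈ Wᶜ, x i ^ (2 * n1) := by
      rw [← Finset.sum_add_sum_compl W]
      congr 1
      · exact Finset.sum_congr rfl fun i hi => by simp [hi]
      · exact Finset.sum_congr rfl fun i hi => by
          have := Finset.mem_compl.mp hi
          simp [this]
    rw [h5]
    linarith
  have h6 := hM1' ‖restr Wᶜ x‖ (norm_nonneg _)
  have h7 := hM2' ‖restr W x‖ (norm_nonneg _)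
  rcases lt_max_iff.mp (lt_of_lt_of_le hx (norm_le_restr W x)) with h8 | h8
  · have h9 := hR2' ‖restr W x‖ ((le_max_right _ _).trans h8.le)
    linarith
  · have h9 := hR1' ‖restr Wᶜ x‖ ((le_max_left _ _).trans h8.le)
    linarith

/-- the sum of squares of the equations -/
noncomputable def eqs (W : Finset (Fin d)) (δ : ℕ) (h : Fin d → MvPolynomial (Fin d) ℝ) :
    MvPolynomial (Fin d) ℝ := ∑ j ∈ W, (X j ^ δ - h j) * (X j ^ δ - h j)

theorem eval_eqs (W : Finset (Fin d)) (δ : ℕ) (h : Fin d → MvPolynomial (Fin d) ℝ)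
    (x : Fin d → ℝ) : eval x (eqs W δ h) = ∑ j ∈ W, (x j ^ δ - eval x (h j)) ^ 2 := by
  rw [eqs, map_sum]
  exact Finset.sum_congr rfl fun j _ => by simp [sq]

theorem eval_eqs_nonneg (W : Finset (Fin d)) (δ : ℕ) (h : Fin d → MvPolynomial (Fin d) ℝ)
    (x : Fin d → ℝ) : 0 ≤ eval x (eqs W δ h) := by
  rw [eval_eqs]; exact Finset.sum_nonneg fun j _ => sq_nonneg _

theorem of_eval_eqs_eq_zero (W : Finset (Fin d)) (δ : ℕ) (h : Fin d → MvPolynomial (Fin d) ℝ)
    (x : Fin d → ℝ) (hx : eval x (eqs W δ h) = 0) : ∀ j ∈ W, x j ^ δ = eval x (h j) := by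
  intro j hj
  rw [eval_eqs, Finset.sum_eq_zero_iff_of_nonneg fun j _ => sq_nonneg _] at hx
  have h1 := pow_eq_zero_iff (two_ne_zero) |>.mp (hx j hj)
  linarith

/-- abstract form: reduction + penalty -/
theorem card_signs_of_reduced {ι : Type*} [Fintype ι] (W : Finset (Fin d)) (δ : ℕ)
    (h : Fin d → MvPolynomial (Fin d) ℝ) (f : ι → MvPolynomial (Fin d) ℝ)
    (Gt : MvPolynomial (Fin d) ℝ)
    (hGt1 : ∀ z : Fin d → ℝ, (∀ j ∈ W, z j ^ δ = eval z (h j)) →
      eval z Gt = ∏ j, eval z (f j) ^ 2)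
    (a b n1 n2 N : ℕ)
    (hGtm : ∀ m ∈ Gt.support, ∑ i ∈ W, m i ≤ b ∧ ∑ i ∈ Wᶜ, m i ≤ a)
    (hn1 : 2 * a < 2 * n1) (hn2 : 2 * b < 2 * n2) (wf : Fin d → ℕ)
    (hW1 : Wle wf Gt N) (hW2 : Wle wf (eqs W δ h) N)
    (hb : ∀ i, N < wf i * ((if i ∈ W then 2 * n2 else 2 * n1) - 1))
    (S : Finset (Fin d → ℝ)) (hSV : ∀ s ∈ S, ∀ j ∈ W, s j ^ δ = eval s (h j))
    (hS : ∀ s ∈ S, ∀ j, eval s (f j) ≠ 0)
    (hinj : ∀ s ∈ S, ∀ t ∈ S, (∀ j, 0 < eval s (f j) * eval t (f j)) → s = t) :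
    S.card ≤ ∏ i, ((if i ∈ W then 2 * n2 else 2 * n1) - 1) := by
  classical
  set G : MvPolynomial (Fin d) ℝ := ∏ j, f j ^ 2 with hG
  have hGx : ∀ x, eval x G = ∏ j, eval x (f j) ^ 2 := by
    intro x
    rw [hG, map_prod]
    exact Finset.prod_congr rfl fun j _ => map_pow _ _ _
  have hGpos : ∀ s ∈ S, 0 < eval s G := by
    intro s hs
    rw [hGx]
    exact Finset.prod_pos fun j _ => by
      have := hS s hs j
      positivity
  set dg : Fin d → ℕ := fun i => if i ∈ W then 2 * n2 else 2 * n1 with hdg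
  have hdge : ∀ i, Even (dg i) := by
    intro i
    rw [hdg]
    by_cases hi : i ∈ W
    · simp only [hi, if_true]; exact even_two_mul _
    · simp only [hi, if_false]; exact even_two_mul _
  obtain ⟨e, he0, he⟩ : ∃ e : ℝ, 0 < e ∧
      ∀ s ∈ S, e * (1 + ∑ i, s i ^ dg i) < eval s G := by
    have h1 : ∀ᶠ e : ℝ in 𝓝[>] 0, ∀ s ∈ S, e * (1 + ∑ i, s i ^ dg i) < eval s G := by
      rw [Finset.eventually_all]
      intro s hs
      have h2 : Tendsto (fun e : ℝ => e * (1 + ∑ i, s i ^ dg i)) (𝓝[>] 0) (𝓝 0) := by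
        have : Continuous fun e : ℝ => e * (1 + ∑ i, s i ^ dg i) := by fun_prop
        have h3 := this.tendsto 0
        rw [zero_mul] at h3
        exact h3.mono_left nhdsWithin_le_nhds
      exact h2.eventually (gt_mem_nhds (hGpos s hs))
    obtain ⟨e, he1, he2⟩ := (h1.and self_mem_nhdsWithin).exists
    exact ⟨e, he2, he1⟩
  have hcont : ∀ p : MvPolynomial (Fin d) ℝ, Continuous fun x : Fin d → ℝ => eval x p :=
    fun p => MvPolynomial.continuous_eval p
  obtain ⟨R, hcoer⟩ := coercive W Gt a b n1 n2 hGtm hn1 hn2 e he0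
  have hball : IsCompact {x : Fin d → ℝ | ‖x‖ ≤ R} := by
    have : {x : Fin d → ℝ | ‖x‖ ≤ R} = Metric.closedBall 0 R := by
      ext x; simp
    rw [this]
    exact isCompact_closedBall _ _
  obtain ⟨M3, hM3⟩ : ∃ M3 : ℝ, ∀ x : Fin d → ℝ, ‖x‖ ≤ R → eval x Gt ≤ M3 := by
    obtain ⟨M3, hM3⟩ := hball.bddAbove_image (hcont Gt).continuousOn
    exact ⟨M3, fun x hx => hM3 ⟨x, hx, rfl⟩⟩
  obtain ⟨τ, hτ0, hτ⟩ : ∃ τ : ℝ, 0 < τ ∧ ∀ x : Fin d → ℝ, ‖x‖ ≤ R → eval x G = 0 →
      e ≤ eval x Gt → τ ≤ eval x (eqs W δ h) := by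
    let B : Set (Fin d → ℝ) := {x | ‖x‖ ≤ R} ∩ ({x | eval x G = 0} ∩ {x | e ≤ eval x Gt})
    have hB : IsCompact B := hball.inter_right
      ((isClosed_eq (hcont G) continuous_const).inter (isClosed_le continuous_const (hcont Gt)))
    rcases B.eq_empty_or_nonempty with h0 | h0
    · refine ⟨1, one_pos, fun x h1 h2 h3 => ?_⟩
      have : x ∈ B := ⟨h1, h2, h3⟩
      rw [h0] at this
      exact absurd this (Set.notMem_empty x)
    · obtain ⟨x0, hx0, hmin⟩ := hB.exists_isMinOn h0 (hcont (eqs W δ h)).continuousOn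
      refine ⟨eval x0 (eqs W δ h), ?_, fun x h1 h2 h3 => hmin ⟨h1, h2, h3⟩⟩
      refine lt_of_le_of_ne (eval_eqs_nonneg W δ h x0) fun h1 => ?_
      have h2 := hGt1 x0 (of_eval_eqs_eq_zero W δ h x0 h1.symm)
      have h3 : eval x0 G = 0 := hx0.2.1
      have h4 : e ≤ eval x0 Gt := hx0.2.2
      rw [hGx] at h3
      linarith
  set Λ : ℝ := (|M3| + 1) / τ with hΛ
  have hΛ0 : 0 ≤ Λ := by positivity
  set Φ : MvPolynomial (Fin d) ℝ := Gt - C Λ * eqs W δ h - pen e dg with hΦ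
  have hΦx : ∀ x, eval x Φ = eval x Gt - Λ * eval x (eqs W δ h) - eval x (pen e dg) := by
    intro x
    rw [hΦ, map_sub, map_sub, map_mul, eval_C]
  have hPenn : ∀ x, 0 ≤ eval x (pen e dg) := by
    intro x
    rw [eval_pen]
    exact mul_nonneg he0.le (Finset.sum_nonneg fun i _ => (hdge i).pow_nonneg _)
  have hΦle : ∀ x, eval x Φ ≤ eval x Gt - eval x (pen e dg) := fun x => by
    rw [hΦx]
    have := mul_nonneg hΛ0 (eval_eqs_nonneg W δ h x)
    linarith
  have hRΦ : ∀ x : Fin d → ℝ, R < ‖x‖ → eval x Φ ≤ e := fun x hx =>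
    ((hΦle x).trans (hcoer x hx)).trans he0.le
  refine card_le_crit' f Φ e (fun x hx j hj => ?_) R hRΦ S (fun s hs => ?_) hinj _
    (fun Z hZ => ?_)
  · have h1 : ‖x‖ ≤ R := by
      by_contra hcon
      have := hRΦ x (not_le.mp hcon)
      linarith
    have h2 : e ≤ eval x Gt := by
      have := hΦle x
      have := hPenn x
      linarith
    have h0 : eval x G = 0 := by
      rw [hGx]
      exact Finset.prod_eq_zero (Finset.mem_univ j) (by rw [hj]; norm_num)
    have h3 := hτ x h1 h0 h2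
    have h4 : |M3| + 1 ≤ Λ * eval x (eqs W δ h) := by
      have : Λ * τ = |M3| + 1 := by rw [hΛ]; field_simp
      rw [← this]
      exact mul_le_mul_of_nonneg_left h3 hΛ0
    have h5 := hM3 x h1
    have h6 := le_abs_self M3
    have h7 := hPenn x
    rw [hΦx] at hx
    linarith
  · have hV := hSV s hs
    have h1 : eval s (eqs W δ h) = 0 := by
      rw [eval_eqs]
      exact Finset.sum_eq_zero fun j hj => by rw [hV j hj]; ring
    rw [hΦx, h1, hGt1 s hV, eval_pen, ← hGx]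
    have := he s hs
    linarith
  · refine crit_count dg wf N _ (hW1.sub (hW2.C_mul Λ)) hb (fun i => ?_) e he0 Z hZ
    by_cases hi : i ∈ W
    · simp only [hdg, hi, if_true]; omega
    · simp only [hdg, hi, if_false]; omega

theorem card_signs_variety_le {ι : Type*} [Fintype ι] (W : Finset (Fin d)) (δ κ : ℕ)
    (hδ : 1 ≤ δ) (hκ : 1 ≤ κ) (h : Fin d → MvPolynomial (Fin d) ℝ)
    (hh : ∀ j ∈ W, ∀ m ∈ (h j).support,
      (∀ l ∈ W, l ≠ j → m l = 0) ∧ m j < δ ∧ ∑ i ∈ Wᶜ, m i ≤ κ)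
    (f : ι → MvPolynomial (Fin d) ℝ) (D : ℕ) (hD1 : 1 ≤ D)
    (hD : ∑ j, (f j).totalDegree ≤ D) (S : Finset (Fin d → ℝ))
    (hSV : ∀ s ∈ S, ∀ j ∈ W, s j ^ δ = eval s (h j))
    (hS : ∀ s ∈ S, ∀ j, eval s (f j) ≠ 0)
    (hinj : ∀ s ∈ S, ∀ t ∈ S, (∀ j, 0 < eval s (f j) * eval t (f j)) → s = t) :
    S.card ≤ (2 * (W.card * δ + δ + 1) - 1) ^ W.card *
      (2 * (W.card * δ + δ + 1) * (3 * κ * D + 1) + 1) ^ Wᶜ.card := by
  classical
  set r := W.card with hr
  set q := r * δ + δ + 1 with hq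
  set Ω := 3 * κ * D + 1 with hΩ
  have hκD : 1 ≤ κ * D := Nat.mul_pos hκ hD1
  have hκΩ : κ ≤ Ω := by
    have : κ ≤ κ * D := Nat.le_mul_of_pos_right _ hD1
    rw [hΩ, mul_assoc]; omega
  have h2κ : 2 * (κ * D) < Ω := by rw [hΩ, mul_assoc]; omega
  have hGdeg : (∏ j, f j ^ 2).totalDegree ≤ 2 * D := by
    refine (totalDegree_finsetProd _ _).trans ?_
    calc ∑ j, (f j ^ 2).totalDegree ≤ ∑ j, 2 * (f j).totalDegree :=
          Finset.sum_le_sum fun j _ => totalDegree_pow _ _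
      _ = 2 * ∑ j, (f j).totalDegree := by rw [Finset.mul_sum]
      _ ≤ 2 * D := Nat.mul_le_mul_left 2 hD
  obtain ⟨Gt, hGt1, hGt2⟩ := exists_reduced W δ κ hκ h hh _ (2 * D) hGdeg
  have hGtm : ∀ m ∈ Gt.support, ∑ i ∈ W, m i ≤ r * δ ∧ ∑ i ∈ Wᶜ, m i ≤ κ * (2 * D) := by
    intro m hm
    obtain ⟨h1, h2⟩ := hGt2 m hm
    refine ⟨?_, h2⟩
    calc ∑ i ∈ W, m i ≤ ∑ _i ∈ W, δ := Finset.sum_le_sum fun i hi => (h1 i hi).le
      _ = r * δ := by simp [hr]
  have h3κ : κ * (2 * D) = 2 * (κ * D) := by ring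
  have hn1 : 2 * (κ * (2 * D)) < 2 * (q * Ω + 1) := by
    have h1 : 1 * Ω ≤ q * Ω := Nat.mul_le_mul_right _ (by omega)
    rw [h3κ]
    omega
  have hn2 : 2 * (r * δ) < 2 * q := by omega
  set wf : Fin d → ℕ := fun i => if i ∈ W then Ω else 1 with hwf
  have hwtle : ∀ m : Fin d →₀ ℕ, wt wf m = Ω * ∑ i ∈ W, m i + ∑ i ∈ Wᶜ, m i := by
    intro m
    rw [wt, ← Finset.sum_add_sum_compl W, Finset.mul_sum]
    congr 1
    · exact Finset.sum_congr rfl fun i hi => by simp [hwf, hi]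
    · exact Finset.sum_congr rfl fun i hi => by
        have := Finset.mem_compl.mp hi
        simp [hwf, this]
  set N := Ω * (r * δ) + Ω * (2 * δ) + 2 * (κ * D) with hN
  have hW1 : Wle wf Gt N := by
    intro m hm
    obtain ⟨h1, h2⟩ := hGtm m hm
    rw [hwtle]
    have h3 := Nat.mul_le_mul_left Ω h1
    omega
  have hW2 : Wle wf (eqs W δ h) N := by
    refine Wle.sum fun j hj => ?_
    have h1 : Wle wf (X j ^ δ - h j) (Ω * δ) := by
      refine Wle.sub ?_ ?_
      · have := Wle.X_pow wf j δ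
        simpa [hwf, hj] using this
      · intro m hm
        obtain ⟨h2, h3, h4⟩ := hh j hj m hm
        rw [hwtle, Finset.sum_eq_single j (fun l hl hlj => h2 l hl hlj)
          (fun hj' => absurd hj hj')]
        have h5 : Ω * m j + Ω ≤ Ω * δ := by
          calc Ω * m j + Ω = Ω * (m j + 1) := by ring
            _ ≤ Ω * δ := Nat.mul_le_mul_left Ω h3
        omega
    refine (h1.mul h1).mono ?_
    have : Ω * (2 * δ) = Ω * δ + Ω * δ := by ring
    omega
  have hbound : ∀ i, N < wf i * ((if i ∈ W then 2 * q else 2 * (q * Ω + 1)) - 1) := by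
    intro i
    have h1 : Ω * (2 * q - 1) = Ω * (r * δ) + Ω * (2 * δ) + (Ω * (r * δ) + Ω) := by
      have : 2 * q - 1 = r * δ + 2 * δ + (r * δ + 1) := by omega
      rw [this]; ring
    by_cases hi : i ∈ W
    · simp only [hwf, hi, if_true]
      rw [h1]
      omega
    · simp only [hwf, hi, if_false, one_mul]
      have h2 : Ω * (2 * q - 1) + Ω = 2 * (q * Ω) := by
        have : 2 * q - 1 + 1 = 2 * q := by omega
        calc Ω * (2 * q - 1) + Ω = Ω * (2 * q - 1 + 1) := by ring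
          _ = 2 * (q * Ω) := by rw [this]; ring
      omega
  have hmain := card_signs_of_reduced W δ h f Gt
    (fun z hz => by
      rw [hGt1 z hz, map_prod]
      exact Finset.prod_congr rfl fun j _ => map_pow _ _ _)
    _ _ _ _ N hGtm hn1 hn2 wf hW1 hW2 hbound S hSV hS hinj
  refine hmain.trans (le_of_eq ?_)
  rw [← Finset.prod_mul_prod_compl W]
  congr 1
  · rw [Finset.prod_congr rfl (g := fun _ => 2 * q - 1) fun i hi => by simp [hi]]
    rw [Finset.prod_const]
  · rw [Finset.prod_congr rfl (g := fun _ => 2 * q * Ω + 1) fun i hi => by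
      have := Finset.mem_compl.mp hi
      simp only [this, if_false]
      rw [mul_assoc]
      omega]
    rw [Finset.prod_const]

/-- the same with an explicit constant times `D^(dim)` -/
theorem card_signs_variety_le' {ι : Type*} [Fintype ι] (W : Finset (Fin d)) (δ κ : ℕ)
    (hδ : 1 ≤ δ) (hκ : 1 ≤ κ) (h : Fin d → MvPolynomial (Fin d) ℝ)
    (hh : ∀ j ∈ W, ∀ m ∈ (h j).support,
      (∀ l ∈ W, l ≠ j → m l = 0) ∧ m j < δ ∧ ∑ i ∈ Wᶜ, m i ≤ κ)
    (f : ι → MvPolynomial (Fin d) ℝ) (D : ℕ) (hD1 : 1 ≤ D)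
    (hD : ∑ j, (f j).totalDegree ≤ D) (S : Finset (Fin d → ℝ))
    (hSV : ∀ s ∈ S, ∀ j ∈ W, s j ^ δ = eval s (h j))
    (hS : ∀ s ∈ S, ∀ j, eval s (f j) ≠ 0)
    (hinj : ∀ s ∈ S, ∀ t ∈ S, (∀ j, 0 < eval s (f j) * eval t (f j)) → s = t) :
    S.card ≤ ((2 * (W.card * δ + δ + 1)) ^ W.card *
      (8 * (W.card * δ + δ + 1) * κ + 1) ^ Wᶜ.card) * D ^ Wᶜ.card := by
  refine (card_signs_variety_le W δ κ hδ hκ h hh f D hD1 hD S hSV hS hinj).trans ?_
  have h0 : ∀ a b c : ℕ, a * b ^ Wᶜ.card * c ^ Wᶜ.card = a * (b * c) ^ Wᶜ.card := by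
    intro a b c
    rw [mul_pow, mul_assoc]
  rw [h0]
  refine Nat.mul_le_mul (Nat.pow_le_pow_left (Nat.sub_le _ _) _) (Nat.pow_le_pow_left ?_ _)
  have h1 : 1 ≤ κ * D := Nat.mul_pos hκ hD1
  have h2 : 3 * κ * D + 1 ≤ 4 * (κ * D) := by rw [mul_assoc]; omega
  calc 2 * (W.card * δ + δ + 1) * (3 * κ * D + 1) + 1
      ≤ 2 * (W.card * δ + δ + 1) * (4 * (κ * D)) + D :=
        Nat.add_le_add (Nat.mul_le_mul_left _ h2) hD1
    _ = (8 * (W.card * δ + δ + 1) * κ + 1) * D := by ring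

end Vale.Agent.P054.W
end
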