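import Mathlib
import Vale.Agent.P054.BdN.N1
import Vale.Agent.P054.BdN.N3
import Vale.Agent.P054.BdN.N5

set_option linter.all false

section

/-! P054: elementary bounded partition (Z-order). Dyadic cubes only, no polynomials. -/

set_option linter.all false
set_option autoImplicit false

namespace Vale.Agent.P054.Y.ZO

open Finset

section Abstract

variable {α β : Type*} [LinearOrder β] (c : ℕ → α → β)

/-- code sequence in lexicographic order -/
noncomputable def sq (x : α) : Lex (ℕ → β) := toLex (fun k => c k x)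

theorem sq_lt_iff (x y : α) :
    sq c x < sq c y ↔ ∃ i, (∀ j, j < i → c j x = c j y) ∧ c i x < c i y := Iff.rfl

theorem sq_conv {x y z : α} (hxy : sq c x < sq c y) (hyz : sq c y < sq c z) (k : ℕ)
    (hxz : ∀ l, l ≤ k → c l x = c l z) : ∀ l, l ≤ k → c l y = c l x := by
  obtain ⟨i, hi, hi'⟩ := (sq_lt_iff c x y).1 hxy
  obtain ⟨j, hj, hj'⟩ := (sq_lt_iff c y z).1 hyz
  intro l hl
  by_cases hik : i ≤ k
  · exfalso
    have h1 : c i x = c i z := hxz i hik
    rcases lt_trichotomy i j with h | h | h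
    · have := hj i h
      rw [h1] at hi'
      rw [this] at hi'
      exact lt_irrefl _ hi'
    · subst h
      rw [h1] at hi'
      exact lt_irrefl _ (hi'.trans hj')
    · have h2 : c j x = c j y := hi j h
      have h3 : c j x = c j z := hxz j (by omega)
      rw [← h2, h3] at hj'
      exact lt_irrefl _ hj'
  · exact (hi l (by omega)).symm

/-- rank in the lexicographic order -/
noncomputable def rk (F : Finset α) (x : α) : ℕ := by
  classical exact (F.filter (fun y => sq c y < sq c x)).card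

theorem rk_lt {F : Finset α} {x : α} (hx : x ∈ F) : rk c F x < F.card := by
  classical
  unfold rk
  apply Finset.card_lt_card
  refine ⟨Finset.filter_subset _ _, fun h => ?_⟩
  have := h hx
  rw [Finset.mem_filter] at this
  exact lt_irrefl _ this.2

theorem rk_mono {F : Finset α} {x y : α} (h : sq c x ≤ sq c y) : rk c F x ≤ rk c F y := by
  classical
  unfold rk
  apply Finset.card_le_card
  intro z hz
  rw [Finset.mem_filter] at hz ⊢
  exact ⟨hz.1, lt_of_lt_of_le hz.2 h⟩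

theorem rk_strict {F : Finset α} {x y : α} (hx : x ∈ F) (h : sq c x < sq c y) :
    rk c F x < rk c F y := by
  classical
  unfold rk
  apply Finset.card_lt_card
  refine ⟨fun z hz => ?_, fun h' => ?_⟩
  · rw [Finset.mem_filter] at hz ⊢
    exact ⟨hz.1, hz.2.trans h⟩
  · have := h' (Finset.mem_filter.2 ⟨hx, h⟩)
    rw [Finset.mem_filter] at this
    exact lt_irrefl _ this.2

/-- label: rank divided by `m` -/
noncomputable def lab (F : Finset α) (m : ℕ) (x : α) : ℕ := rk c F x / m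

theorem lab_le {F : Finset α} {m : ℕ} {x : α} (hx : x ∈ F) : lab c F m x ≤ F.card / m :=
  Nat.div_le_div_right (rk_lt c hx).le

theorem sq_lt_of_lab_lt {F : Finset α} {m : ℕ} {x y : α} (h : lab c F m x < lab c F m y) :
    sq c x < sq c y := by
  by_contra hc
  have := rk_mono (F := F) c (not_lt.1 hc)
  have := Nat.div_le_div_right (c := m) this
  unfold lab at h
  omega

variable (hsep : ∀ x y : α, x ≠ y → ∃ k, c k x ≠ c k y)

include hsep in
theorem sq_inj {x y : α} (h : sq c x = sq c y) : x = y := by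
  by_contra hne
  obtain ⟨k, hk⟩ := hsep x y hne
  exact hk (congrFun h k)

include hsep in
theorem card_lab {F : Finset α} {m : ℕ} (hm : 0 < m) (i : ℕ) [DecidableEq α] :
    (F.filter (fun x => lab c F m x = i)).card ≤ m := by
  classical
  have : ((F.filter (fun x => lab c F m x = i)).image (rk c F)).card
      = (F.filter (fun x => lab c F m x = i)).card := by
    apply Finset.card_image_of_injOn
    intro x hx y hy hxy
    simp only [Finset.coe_filter, Set.mem_setOf_eq] at hx hy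
    by_contra hne
    rcases lt_or_gt_of_ne (fun h => hne (sq_inj c hsep h) : sq c x ≠ sq c y) with h | h
    · have := rk_strict c hx.1 h
      omega
    · have := rk_strict c hy.1 h
      omega
  rw [← this]
  have h2 : ((F.filter (fun x => lab c F m x = i)).image (rk c F)) ⊆ Finset.Ico (i * m) (i * m + m) := by
    intro r hr
    rw [Finset.mem_image] at hr
    obtain ⟨x, hx, rfl⟩ := hr
    rw [Finset.mem_filter] at hx
    have h3 := hx.2
    unfold lab at h3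
    rw [Finset.mem_Ico]
    have h4 := Nat.div_add_mod (rk c F x) m
    have h5 := Nat.mod_lt (rk c F x) hm
    rw [h3] at h4
    constructor
    · rw [mul_comm]; omega
    · rw [mul_comm i m]; omega
  calc _ ≤ (Finset.Ico (i * m) (i * m + m)).card := Finset.card_le_card h2
    _ = m := by simp

variable (href : ∀ k x y, c (k+1) x = c (k+1) y → c k x = c k y)

include href in
theorem ref_le {k l : ℕ} (h : l ≤ k) {x y : α} (hxy : c k x = c k y) : c l x = c l y := by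
  induction k with
  | zero => 
    have : l = 0 := by omega
    subst this; exact hxy
  | succ k ih =>
    rcases Nat.lt_or_ge l (k+1) with h' | h'
    · exact ih (by omega) (href k x y hxy)
    · have : l = k + 1 := by omega
      subst this; exact hxy

include href in
/-- at most two classes meet a cube without being contained in it -/
theorem two_classes (F : Finset α) (m : ℕ) (k : ℕ) (z : β) (J : Finset ℕ)
    (hJ : ∀ j ∈ J, (∃ y ∈ F, lab c F m y = j ∧ c k y = z) ∧ (∃ y ∈ F, lab c F m y = j ∧ c k y ≠ z)) :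
    J.card ≤ 2 := by
  classical
  rcases J.eq_empty_or_nonempty with h0 | hne
  · simp [h0]
  have hsub : J ⊆ {J.min' hne, J.max' hne} := by
    intro j hj
    rw [Finset.mem_insert, Finset.mem_singleton]
    by_contra hcon
    push Not at hcon
    obtain ⟨⟨y, hy, hyj, hyz⟩, ⟨w, hw, hwj, hwz⟩⟩ := hJ j hj
    obtain ⟨⟨a, ha, haj, haz⟩, -⟩ := hJ _ (J.min'_mem hne)
    obtain ⟨⟨b, hb, hbj, hbz⟩, -⟩ := hJ _ (J.max'_mem hne)
    have h1 : J.min' hne < j := lt_of_le_of_ne (J.min'_le j hj) (Ne.symm hcon.1)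
    have h2 : j < J.max' hne := lt_of_le_of_ne (J.le_max' j hj) hcon.2
    have h3 : sq c a < sq c w := sq_lt_of_lab_lt (F := F) (m := m) c (by rw [haj, hwj]; exact h1)
    have h4 : sq c w < sq c b := sq_lt_of_lab_lt (F := F) (m := m) c (by rw [hbj, hwj]; exact h2)
    have h5 := sq_conv c h3 h4 k (fun l hl => ref_le c href hl (haz.trans hbz.symm)) k le_rfl
    exact hwz (h5.trans haz)
  calc J.card ≤ _ := Finset.card_le_card hsub
    _ ≤ 2 := Finset.card_le_two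

/-- the class `i` is split at level `k` -/
def Split (F : Finset α) (m : ℕ) (i k : ℕ) : Prop :=
  ∃ x ∈ F, ∃ y ∈ F, lab c F m x = i ∧ lab c F m y = i ∧ c k x ≠ c k y

include href in
theorem split_mono {F : Finset α} {m i k l : ℕ} (h : k ≤ l) (hs : Split c F m i k) :
    Split c F m i l := by
  obtain ⟨x, hx, y, hy, h1, h2, h3⟩ := hs
  exact ⟨x, hx, y, hy, h1, h2, fun h4 => h3 (ref_le c href h h4)⟩

include hsep href in
/-- one source class of type A sees at most `2 K` target classes -/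
theorem half_one [DecidableEq α] [DecidableEq β] (X Y : Finset α) (m1 m2 K : ℕ) (hK : 1 ≤ K) (R : Finset (α × α))
    (hR : ∀ p ∈ R, p.1 ∈ X ∧ p.2 ∈ Y)
    (hfun : ∀ p ∈ R, ∀ q ∈ R, p.1 = q.1 → p.2 = q.2)
    (hcode : ∀ k, ∀ S ⊆ R, (∀ p ∈ S, ∀ q ∈ S, ∀ l, l < k → c l p.1 = c l q.1) →
      (S.image (fun p => c k p.2)).card ≤ K) (i : ℕ) (J : Finset ℕ)
    (hJ : ∀ j ∈ J, (∃ p ∈ R, lab c X m1 p.1 = i ∧ lab c Y m2 p.2 = j) ∧
      ∀ k, Split c X m1 i k → Split c Y m2 j k) : J.card ≤ 2 * K := by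
  classical
  by_cases hs : ∃ k, Split c X m1 i k
  · set k := Nat.find hs with hk
    have hks : Split c X m1 i k := Nat.find_spec hs
    have hmin : ∀ l, l < k → ¬ Split c X m1 i l := fun l hl => Nat.find_min hs hl
    set S := R.filter (fun p => lab c X m1 p.1 = i) with hS
    have hSR : S ⊆ R := Finset.filter_subset _ _
    have hc := hcode k S hSR (by
      intro p hp q hq l hl
      rw [hS, Finset.mem_filter] at hp hq
      by_contra hne
      exact hmin l hl ⟨p.1, (hR p hp.1).1, q.1, (hR q hq.1).1, hp.2, hq.2, hne⟩)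
    have hsub : J ⊆ (S.image (fun p => c k p.2)).biUnion (fun z => J.filter (fun j =>
        ∃ y ∈ Y, lab c Y m2 y = j ∧ c k y = z)) := by
      intro j hj
      obtain ⟨⟨p, hp, hpi, hpj⟩, -⟩ := hJ j hj
      rw [Finset.mem_biUnion]
      refine ⟨c k p.2, Finset.mem_image_of_mem _ (Finset.mem_filter.2 ⟨hp, hpi⟩), ?_⟩
      rw [Finset.mem_filter]
      exact ⟨hj, p.2, (hR p hp).2, hpj, rfl⟩
    calc J.card ≤ _ := Finset.card_le_card hsub
      _ ≤ ∑ z ∈ S.image (fun p => c k p.2), (J.filter (fun j =>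
        ∃ y ∈ Y, lab c Y m2 y = j ∧ c k y = z)).card := Finset.card_biUnion_le
      _ ≤ ∑ z ∈ S.image (fun p => c k p.2), 2 := by
          apply Finset.sum_le_sum
          intro z hz
          apply two_classes c href Y m2 k z
          intro j hj
          rw [Finset.mem_filter] at hj
          refine ⟨hj.2, ?_⟩
          obtain ⟨x, hx, y, hy, h1, h2, h3⟩ := (hJ j hj.1).2 k hks
          by_cases hxz : c k x = z
          · exact ⟨y, hy, h2, fun h => h3 (hxz.trans h.symm)⟩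
          · exact ⟨x, hx, h1, hxz⟩
      _ = (S.image (fun p => c k p.2)).card * 2 := by rw [Finset.sum_const, smul_eq_mul]
      _ ≤ 2 * K := by omega
  · push Not at hs
    have : J.card ≤ 1 := by
      rw [Finset.card_le_one]
      intro j hj j' hj'
      obtain ⟨⟨p, hp, hpi, hpj⟩, -⟩ := hJ j hj
      obtain ⟨⟨q, hq, hqi, hqj⟩, -⟩ := hJ j' hj'
      have h1 : p.1 = q.1 := by
        by_contra hne
        obtain ⟨k, hk⟩ := hsep p.1 q.1 hne
        exact hs k ⟨p.1, (hR p hp).1, q.1, (hR q hq).1, hpi, hqi, hk⟩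
      rw [← hpj, ← hqj, hfun p hp q hq h1]
    omega

include hsep href in
/-- abstract crossing bound -/
theorem crossing [DecidableEq α] [DecidableEq β] (X Y : Finset α) (m1 m2 K : ℕ) (hK : 1 ≤ K) (R : Finset (α × α))
    (hR : ∀ p ∈ R, p.1 ∈ X ∧ p.2 ∈ Y)
    (hfun : ∀ p ∈ R, ∀ q ∈ R, p.1 = q.1 → p.2 = q.2)
    (hfun' : ∀ p ∈ R, ∀ q ∈ R, p.2 = q.2 → p.1 = q.1)
    (hcode : ∀ k, ∀ S ⊆ R, (∀ p ∈ S, ∀ q ∈ S, ∀ l, l < k → c l p.1 = c l q.1) →
      (S.image (fun p => c k p.2)).card ≤ K)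
    (hcode' : ∀ k, ∀ S ⊆ R, (∀ p ∈ S, ∀ q ∈ S, ∀ l, l < k → c l p.2 = c l q.2) →
      (S.image (fun p => c k p.1)).card ≤ K) :
    (R.image (fun p => (lab c X m1 p.1, lab c Y m2 p.2))).card
      ≤ 2 * K * (X.card / m1 + Y.card / m2 + 2) := by
  classical
  set V := R.image (fun p => (lab c X m1 p.1, lab c Y m2 p.2)) with hV
  set A := V.filter (fun v => ∀ k, Split c X m1 v.1 k → Split c Y m2 v.2 k) with hA
  set B := V.filter (fun v => ∀ k, Split c Y m2 v.2 k → Split c X m1 v.1 k) with hB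
  have hAB : V ⊆ A ∪ B := by
    intro v hv
    rw [Finset.mem_union, hA, hB, Finset.mem_filter, Finset.mem_filter]
    by_contra hcon
    push Not at hcon
    obtain ⟨h1, h2⟩ := hcon
    obtain ⟨k, hk1, hk2⟩ := h1 hv
    obtain ⟨l, hl1, hl2⟩ := h2 hv
    rcases le_total k l with h | h
    · exact hl2 (split_mono c href h hk1)
    · exact hk2 (split_mono c href h hl1)
  have hmemV : ∀ v ∈ V, ∃ p ∈ R, lab c X m1 p.1 = v.1 ∧ lab c Y m2 p.2 = v.2 := by
    intro v hv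
    rw [hV, Finset.mem_image] at hv
    obtain ⟨p, hp, rfl⟩ := hv
    exact ⟨p, hp, rfl, rfl⟩
  have hAc : A.card ≤ (X.card / m1 + 1) * (2 * K) := by
    have h1 : A.card = ∑ i ∈ Finset.range (X.card / m1 + 1), (A.filter (fun v => v.1 = i)).card := by
      apply Finset.card_eq_sum_card_fiberwise
      intro v hv
      rw [Finset.mem_coe, Finset.mem_filter] at hv
      obtain ⟨p, hp, h1, h2⟩ := hmemV v hv.1
      rw [Finset.coe_range, Set.mem_Iio]
      have := lab_le (m := m1) c (hR p hp).1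
      omega
    rw [h1]
    calc _ ≤ ∑ i ∈ Finset.range (X.card / m1 + 1), 2 * K := by
          apply Finset.sum_le_sum
          intro i hi
          have h2 : (A.filter (fun v => v.1 = i)).card
              = ((A.filter (fun v => v.1 = i)).image Prod.snd).card := by
            rw [Finset.card_image_of_injOn]
            intro v hv w hw hvw
            simp only [Finset.coe_filter, Set.mem_setOf_eq] at hv hw
            exact Prod.ext (hv.2.trans hw.2.symm) hvw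
          rw [h2]
          apply half_one c hsep href X Y m1 m2 K hK R hR hfun hcode i
          intro j hj
          rw [Finset.mem_image] at hj
          obtain ⟨v, hv, rfl⟩ := hj
          rw [Finset.mem_filter, hA, Finset.mem_filter] at hv
          obtain ⟨⟨hvV, hvA⟩, rfl⟩ := hv
          exact ⟨hmemV v hvV, hvA⟩
      _ = _ := by simp
  have hBc : B.card ≤ (Y.card / m2 + 1) * (2 * K) := by
    have h1 : B.card = ∑ i ∈ Finset.range (Y.card / m2 + 1), (B.filter (fun v => v.2 = i)).card := by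
      apply Finset.card_eq_sum_card_fiberwise
      intro v hv
      rw [Finset.mem_coe, Finset.mem_filter] at hv
      obtain ⟨p, hp, h1, h2⟩ := hmemV v hv.1
      rw [Finset.coe_range, Set.mem_Iio]
      have := lab_le (m := m2) c (hR p hp).2
      omega
    rw [h1]
    calc _ ≤ ∑ i ∈ Finset.range (Y.card / m2 + 1), 2 * K := by
          apply Finset.sum_le_sum
          intro i hi
          have h2 : (B.filter (fun v => v.2 = i)).card
              = ((B.filter (fun v => v.2 = i)).image Prod.fst).card := by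
            rw [Finset.card_image_of_injOn]
            intro v hv w hw hvw
            simp only [Finset.coe_filter, Set.mem_setOf_eq] at hv hw
            exact Prod.ext hvw (hv.2.trans hw.2.symm)
          rw [h2]
          apply half_one c hsep href Y X m2 m1 K hK (R.image Prod.swap) ?_ ?_ ?_ i
          · intro j hj
            rw [Finset.mem_image] at hj
            obtain ⟨v, hv, rfl⟩ := hj
            rw [Finset.mem_filter, hB, Finset.mem_filter] at hv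
            obtain ⟨⟨hvV, hvB⟩, rfl⟩ := hv
            obtain ⟨p, hp, h1, h2⟩ := hmemV v hvV
            exact ⟨⟨p.swap, Finset.mem_image_of_mem _ hp, h2, h1⟩, hvB⟩
          · intro p hp
            rw [Finset.mem_image] at hp
            obtain ⟨q, hq, rfl⟩ := hp
            exact ⟨(hR q hq).2, (hR q hq).1⟩
          · intro p hp q hq hpq
            rw [Finset.mem_image] at hp hq
            obtain ⟨p', hp', rfl⟩ := hp
            obtain ⟨q', hq', rfl⟩ := hq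
            exact hfun' p' hp' q' hq' hpq
          · intro k S hS hSc
            have h3 := hcode' k (S.image Prod.swap) (by
              intro p hp
              rw [Finset.mem_image] at hp
              obtain ⟨q, hq, rfl⟩ := hp
              have := hS hq
              rw [Finset.mem_image] at this
              obtain ⟨r, hr, rfl⟩ := this
              simpa using hr) (by
              intro p hp q hq l hl
              rw [Finset.mem_image] at hp hq
              obtain ⟨p', hp', rfl⟩ := hp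
              obtain ⟨q', hq', rfl⟩ := hq
              exact hSc p' hp' q' hq' l hl)
            rw [Finset.image_image] at h3
            exact h3
      _ = _ := by simp
  calc V.card ≤ (A ∪ B).card := Finset.card_le_card hAB
    _ ≤ A.card + B.card := Finset.card_union_le _ _
    _ ≤ (X.card / m1 + 1) * (2 * K) + (Y.card / m2 + 1) * (2 * K) := by omega
    _ = 2 * K * (X.card / m1 + Y.card / m2 + 2) := by ring

end Abstract

section Geom

/-- dyadic code of level `k`, scale `L` -/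
noncomputable def cd (L : ℝ) (k : ℕ) (x : Fin 3 → ℝ) : Lex (Fin 3 → ℤ) :=
  toLex (fun i => ⌊x i * 2 ^ k / L⌋)

theorem cd_eq {L : ℝ} {k : ℕ} {x y : Fin 3 → ℝ} (h : cd L k x = cd L k y) (i : Fin 3) :
    ⌊x i * 2 ^ k / L⌋ = ⌊y i * 2 ^ k / L⌋ := congrFun h i

theorem cd_close {L : ℝ} (hL : 0 < L) {k : ℕ} {x y : Fin 3 → ℝ} (h : cd L k x = cd L k y) (i : Fin 3) :
    |x i - y i| * 2 ^ k < L := by
  have h1 := cd_eq h i
  have h2 := Int.abs_sub_lt_one_of_floor_eq_floor h1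
  have h3 : x i * 2 ^ k / L - y i * 2 ^ k / L = (x i - y i) * 2 ^ k / L := by ring
  rw [h3, abs_div, abs_mul, abs_of_pos hL, abs_of_pos (by positivity : (0:ℝ) < 2 ^ k),
    div_lt_one hL] at h2
  exact h2

theorem cd_sep {L : ℝ} (hL : 0 < L) (x y : Fin 3 → ℝ) (hne : x ≠ y) : ∃ k, cd L k x ≠ cd L k y := by
  by_contra hcon
  push Not at hcon
  apply hne
  funext i
  by_contra hi
  have hpos : 0 < |x i - y i| := abs_pos.2 (sub_ne_zero.2 hi)
  obtain ⟨k, hk⟩ := pow_unbounded_of_one_lt (L / |x i - y i|) (by norm_num : (1:ℝ) < 2)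
  have h1 := cd_close hL (hcon k) i
  rw [div_lt_iff₀ hpos] at hk
  nlinarith

theorem cd_ref {L : ℝ} (k : ℕ) (x y : Fin 3 → ℝ) (h : cd L (k+1) x = cd L (k+1) y) :
    cd L k x = cd L k y := by
  unfold cd
  congr 1
  funext i
  have h1 := cd_eq h i
  have h2 : ∀ t : ℝ, t * 2 ^ k / L = (t * 2 ^ (k+1) / L) / ((2:ℕ):ℝ) := by
    intro t
    push_cast
    rw [pow_succ]; ring
  rw [h2, h2, Int.floor_div_natCast, Int.floor_div_natCast, h1]

theorem img_card {L : ℝ} (k : ℕ) (S : Finset ((Fin 3 → ℝ) × (Fin 3 → ℝ)))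
    (f : (Fin 3 → ℝ) × (Fin 3 → ℝ) → Fin 3 → ℝ)
    (h : ∀ p ∈ S, ∀ q ∈ S, ∀ i, f p i * 2 ^ k / L - f q i * 2 ^ k / L < 4) :
    (S.image (fun p => cd L k (f p))).card ≤ 125 := by
  classical
  rcases S.eq_empty_or_nonempty with h0 | hne
  · subst h0; simp
  set mn : Fin 3 → ℤ := fun i => S.inf' hne (fun p => ⌊f p i * 2 ^ k / L⌋) with hmn
  have hsub : S.image (fun p => cd L k (f p)) ⊆
      (Fintype.piFinset (fun i => Finset.Icc (mn i) (mn i + 4))).image toLex := by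
    intro z hz
    rw [Finset.mem_image] at hz
    obtain ⟨p, hp, rfl⟩ := hz
    rw [Finset.mem_image]
    refine ⟨fun i => ⌊f p i * 2 ^ k / L⌋, ?_, rfl⟩
    rw [Fintype.mem_piFinset]
    intro i
    rw [Finset.mem_Icc]
    refine ⟨Finset.inf'_le _ hp, ?_⟩
    obtain ⟨q, hq, hq2⟩ := Finset.exists_mem_eq_inf' hne (fun p => ⌊f p i * 2 ^ k / L⌋)
    have h1 : mn i = ⌊f q i * 2 ^ k / L⌋ := hq2
    rw [h1]
    have h2 := h p hp q hq i
    have h3 := Int.floor_le (f p i * 2 ^ k / L)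
    have h4 := Int.lt_floor_add_one (f q i * 2 ^ k / L)
    have h5 : ((⌊f p i * 2 ^ k / L⌋ : ℤ) : ℝ) < ((⌊f q i * 2 ^ k / L⌋ + 5 : ℤ) : ℝ) := by
      push_cast
      linarith
    have h6 := Int.cast_lt.1 h5
    omega
  calc _ ≤ _ := Finset.card_le_card hsub
    _ ≤ _ := Finset.card_image_le
    _ = 125 := by
      rw [Fintype.card_piFinset]
      have h7 : ∀ x : Fin 3, (Finset.Icc (mn x) (mn x + 4)).card = 5 := by
        intro x
        rw [Int.card_Icc]
        omega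
      simp only [h7]
      rfl

theorem dist_coord {a b a' b' : Fin 3 → ℝ} {t : ℝ} (ht : 0 < t)
    (h : ∑ i, (a i - b i) ^ 2 = ∑ i, (a' i - b' i) ^ 2) (hs : ∀ i, |a i - b i| < t) (i : Fin 3) :
    a' i - b' i < 2 * t := by
  have h1 : ∀ i, (a i - b i) ^ 2 < t ^ 2 := by
    intro i
    rw [← sq_abs]
    exact pow_lt_pow_left₀ (hs i) (abs_nonneg _) (by norm_num)
  have h2 : (a' i - b' i) ^ 2 ≤ ∑ i, (a' i - b' i) ^ 2 :=
    Finset.single_le_sum (f := fun i => (a' i - b' i) ^ 2) (fun j _ => sq_nonneg _) (Finset.mem_univ i)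
  rw [← h, Fin.sum_univ_three] at h2
  have h3 := h1 0
  have h4 := h1 1
  have h5 := h1 2
  by_contra hcon
  rw [not_lt] at hcon
  linarith only [mul_nonneg (sub_nonneg.2 hcon) (sub_nonneg.2 hcon), mul_nonneg (le_of_lt (sub_pos.2 ht)) (sub_nonneg.2 hcon), mul_pos (sub_pos.2 ht) (sub_pos.2 ht), h5, h4, h3, h2]

/-- **Elementary bounded partition.** Labels on `X` and `Y` with classes of at most `m1`, `m2`
points such that every distance preserving relation between `X` and `Y` visits few pairs of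
classes. -/
theorem zorder (X Y : Finset (Fin 3 → ℝ)) (m1 m2 : ℕ) (h1 : 0 < m1) (h2 : 0 < m2) :
    ∃ lX lY : (Fin 3 → ℝ) → ℕ,
      (∀ x ∈ X, lX x ≤ X.card / m1) ∧ (∀ y ∈ Y, lY y ≤ Y.card / m2) ∧
      (∀ i, (X.filter (fun x => lX x = i)).card ≤ m1) ∧
      (∀ j, (Y.filter (fun y => lY y = j)).card ≤ m2) ∧
      ∀ R : Finset ((Fin 3 → ℝ) × (Fin 3 → ℝ)), (∀ p ∈ R, p.1 ∈ X ∧ p.2 ∈ Y) →
        (∀ p ∈ R, ∀ q ∈ R, ∑ i, (p.1 i - q.1 i) ^ 2 = ∑ i, (p.2 i - q.2 i) ^ 2) →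
        (R.image (fun p => (lX p.1, lY p.2))).card ≤ 250 * (X.card / m1 + Y.card / m2 + 2) := by
  classical
  obtain ⟨L, hL, hLX⟩ : ∃ L : ℝ, 0 < L ∧ ∀ x ∈ X ∪ Y, ∀ i : Fin 3, |x i| < L := by
    refine ⟨1 + ∑ x ∈ X ∪ Y, ∑ i, |x i|, by positivity, ?_⟩
    intro x hx i
    have h3 : |x i| ≤ ∑ i, |x i| :=
      Finset.single_le_sum (f := fun i => |x i|) (fun j _ => abs_nonneg _) (Finset.mem_univ i)
    have h4 : ∑ i, |x i| ≤ ∑ x ∈ X ∪ Y, ∑ i, |x i| :=
      Finset.single_le_sum (f := fun x : Fin 3 → ℝ => ∑ i, |x i|)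
        (fun j _ => Finset.sum_nonneg (fun _ _ => abs_nonneg _)) hx
    linarith
  have hsep := cd_sep hL
  have href := fun k x y h => cd_ref (L := L) k x y h
  refine ⟨lab (cd L) X m1, lab (cd L) Y m2, fun x hx => lab_le _ hx, fun y hy => lab_le _ hy,
    fun i => ?_, fun j => ?_, ?_⟩
  · exact card_lab (cd L) hsep h1 i
  · exact card_lab (cd L) hsep h2 j
  · intro R hR hiso
    have hzero : ∀ a b : Fin 3 → ℝ, ∑ i, (a i - b i) ^ 2 = 0 → a = b := by
      intro a b h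
      funext i
      have := (Finset.sum_eq_zero_iff_of_nonneg (fun j _ => sq_nonneg (a j - b j))).1 h i (Finset.mem_univ i)
      have := pow_eq_zero_iff (by norm_num : 2 ≠ 0) |>.1 this
      linarith
    have key : ∀ (u v : (Fin 3 → ℝ) × (Fin 3 → ℝ) → Fin 3 → ℝ),
        (∀ p ∈ R, v p ∈ X ∪ Y) →
        (∀ p ∈ R, ∀ q ∈ R, ∑ i, (u p i - u q i) ^ 2 = ∑ i, (v p i - v q i) ^ 2) →
        ∀ k, ∀ S ⊆ R, (∀ p ∈ S, ∀ q ∈ S, ∀ l, l < k → cd L l (u p) = cd L l (u q)) →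
        (S.image (fun p => cd L k (v p))).card ≤ 125 := by
      intro u v hv huv k S hS hSc
      apply img_card k S v
      intro p hp q hq i
      cases k with
      | zero =>
        have h3 := hLX _ (hv p (hS hp)) i
        have h4 := hLX _ (hv q (hS hq)) i
        rw [abs_lt] at h3 h4
        rw [pow_zero, mul_one, mul_one, ← sub_div, div_lt_iff₀ hL]
        linarith
      | succ k =>
        have h3 := hSc p hp q hq k (Nat.lt_succ_self k)
        have h4 : ∀ i, |u p i - u q i| < L / 2 ^ k := by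
          intro i
          rw [lt_div_iff₀ (by positivity)]
          exact cd_close hL h3 i
        have h5 := dist_coord (by positivity) (huv p (hS hp) q (hS hq)) h4 i
        have h6 : (0:ℝ) < 2 ^ k := by positivity
        rw [← sub_div, ← sub_mul, div_lt_iff₀ hL, pow_succ]
        have h7 : (v p i - v q i) * (2 ^ k * 2) < (2 * (L / 2 ^ k)) * (2 ^ k * 2) :=
          mul_lt_mul_of_pos_right h5 (by positivity)
        have h8 : (2 * (L / 2 ^ k)) * (2 ^ k * 2) = 4 * L := by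
          field_simp; ring
        linarith
    have := crossing (cd L) hsep href X Y m1 m2 125 (by norm_num) R hR
      (fun p hp q hq hpq => hzero _ _ (by rw [← hiso p hp q hq, hpq]; simp))
      (fun p hp q hq hpq => hzero _ _ (by rw [hiso p hp q hq, hpq]; simp))
      (key Prod.fst Prod.snd (fun p hp => Finset.mem_union_right _ (hR p hp).2) hiso)
      (key Prod.snd Prod.fst (fun p hp => Finset.mem_union_left _ (hR p hp).1)
        (fun p hp q hq => (hiso p hp q hq).symm))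
    exact this

end Geom

end Vale.Agent.P054.Y.ZO
end

section

/-! P054, block R, leaf SPAN: `SpanStmt` from `Vale.Agent.P054.J.simplex_joints` with
`S1 = S2 = X ×ˢ Y`: `det = 1` directly (`≤ 5 N²`, `N = |X||Y|`); `det = -1`: replace `Y` by `-Y` and
`g = (Q, v)` by `(-Q, -v)`. A set not contained in a plane has four affinely
independent points. -/

set_option linter.all false
set_option autoImplicit false

namespace Vale.Agent.P054.R

open Finset Matrix

theorem four_pts (S : Finset V3)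
    (h : ∀ (n : V3) (d : ℝ), n ≠ 0 → ∃ a ∈ S, ¬ OnP n d a) :
    ∃ P : Fin 4 → V3, (∀ i, P i ∈ S) ∧ AffineIndependent ℝ P := by
  have e0 : (![1, 0, 0] : V3) ≠ 0 := by
    intro h0
    have := congrFun h0 0
    simp at this
  obtain ⟨p0, hp0, -⟩ := h ![1, 0, 0] 0 e0
  obtain ⟨p1, hp1, h1⟩ := h ![1, 0, 0] (p0 0) e0
  have h1' : p1 0 - p0 0 ≠ 0 := by
    intro h0
    apply h1
    simp only [OnP, dotProduct, Fin.sum_univ_three]
    simp
    linarith
  have hn : (![-(p1 1 - p0 1), p1 0 - p0 0, 0] : V3) ≠ 0 := by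
    intro h0
    have := congrFun h0 1
    simp at this
    exact h1' this
  obtain ⟨p2, hp2, h2⟩ := h ![-(p1 1 - p0 1), p1 0 - p0 0, 0]
    (-(p1 1 - p0 1) * p0 0 + (p1 0 - p0 0) * p0 1) hn
  have h2' : (p1 0 - p0 0) * (p2 1 - p0 1) - (p1 1 - p0 1) * (p2 0 - p0 0) ≠ 0 := by
    intro h0
    apply h2
    simp only [OnP, dotProduct, Fin.sum_univ_three]
    simp
    linarith
  set m : V3 := ![(p1 1 - p0 1) * (p2 2 - p0 2) - (p1 2 - p0 2) * (p2 1 - p0 1),
    (p1 2 - p0 2) * (p2 0 - p0 0) - (p1 0 - p0 0) * (p2 2 - p0 2),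
    (p1 0 - p0 0) * (p2 1 - p0 1) - (p1 1 - p0 1) * (p2 0 - p0 0)] with hm
  have hm0 : m ≠ 0 := by
    intro h0
    have := congrFun h0 2
    rw [hm] at this
    simp at this
    exact h2' this
  obtain ⟨p3, hp3, h3⟩ := h m (m 0 * p0 0 + m 1 * p0 1 + m 2 * p0 2) hm0
  have h3' : m 0 * (p3 0 - p0 0) + m 1 * (p3 1 - p0 1) + m 2 * (p3 2 - p0 2) ≠ 0 := by
    intro h0
    apply h3
    simp only [OnP, dotProduct, Fin.sum_univ_three]
    linarith
  have hm0' : m 0 = (p1 1 - p0 1) * (p2 2 - p0 2) - (p1 2 - p0 2) * (p2 1 - p0 1) := by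
    rw [hm]; rfl
  have hm1' : m 1 = (p1 2 - p0 2) * (p2 0 - p0 0) - (p1 0 - p0 0) * (p2 2 - p0 2) := by
    rw [hm]; rfl
  have hm2' : m 2 = (p1 0 - p0 0) * (p2 1 - p0 1) - (p1 1 - p0 1) * (p2 0 - p0 0) := by
    rw [hm]; rfl
  refine ⟨![p0, p1, p2, p3], ?_, ?_⟩
  · intro i
    fin_cases i
    · exact hp0
    · exact hp1
    · exact hp2
    · exact hp3
  · rw [affineIndependent_iff_of_fintype]
    intro w hw hs
    rw [Finset.weightedVSub_eq_linear_combination _ hw] at hs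
    rw [Fin.sum_univ_four] at hs hw
    have q : ∀ c : Fin 3, w 0 * p0 c + w 1 * p1 c + w 2 * p2 c + w 3 * p3 c = 0 := by
      intro c
      have := congrFun hs c
      simpa using this
    have q' : ∀ c : Fin 3, w 1 * (p1 c - p0 c) + w 2 * (p2 c - p0 c) + w 3 * (p3 c - p0 c) = 0 := by
      intro c
      have h0 := q c
      have : w 0 = -(w 1 + w 2 + w 3) := by linarith
      rw [this] at h0
      linarith
    have w3 : w 3 = 0 := by
      have : w 3 * (m 0 * (p3 0 - p0 0) + m 1 * (p3 1 - p0 1) + m 2 * (p3 2 - p0 2)) = 0 := by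
        rw [hm0', hm1', hm2']
        linear_combination ((p1 1 - p0 1) * (p2 2 - p0 2) - (p1 2 - p0 2) * (p2 1 - p0 1)) * q' 0 +
          ((p1 2 - p0 2) * (p2 0 - p0 0) - (p1 0 - p0 0) * (p2 2 - p0 2)) * q' 1 +
          ((p1 0 - p0 0) * (p2 1 - p0 1) - (p1 1 - p0 1) * (p2 0 - p0 0)) * q' 2
      rcases mul_eq_zero.1 this with h | h
      · exact h
      · exact absurd h h3'
    have w2 : w 2 = 0 := by
      have : w 2 * ((p1 0 - p0 0) * (p2 1 - p0 1) - (p1 1 - p0 1) * (p2 0 - p0 0)) = 0 := by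
        have a0 := q' 0
        have a1 := q' 1
        rw [w3] at a0 a1
        linear_combination (p1 0 - p0 0) * a1 - (p1 1 - p0 1) * a0
      rcases mul_eq_zero.1 this with h | h
      · exact h
      · exact absurd h h2'
    have w1 : w 1 = 0 := by
      have a0 := q' 0
      rw [w3, w2] at a0
      have : w 1 * (p1 0 - p0 0) = 0 := by linarith
      rcases mul_eq_zero.1 this with h | h
      · exact h
      · exact absurd h h1'
    have w0 : w 0 = 0 := by linarith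
    intro i
    fin_cases i
    · exact w0
    · exact w1
    · exact w2
    · exact w3

theorem det_sq {g : Iso} (hg : Orth g) : g.1.det = 1 ∨ g.1.det = -1 := by
  have h := congrArg Matrix.det hg
  rw [Matrix.det_mul, Matrix.det_transpose, Matrix.det_one] at h
  exact mul_self_eq_one_iff.1 h

open scoped Classical in
theorem mem_M {g : Iso} {X Y : Finset V3} {x : V3} : x ∈ M g X Y ↔ x ∈ X ∧ act g x ∈ Y := by
  simp [M]

theorem span : SpanStmt := by
  classical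
  intro X Y G hG hM
  set G1 := G.filter (fun g => g.1.det = 1) with hG1
  set G2 := G.filter (fun g => ¬ g.1.det = 1) with hG2
  have hcard : G1.card + G2.card = G.card := Finset.card_filter_add_card_filter_not _
  have h1 : G1.card ≤ 5 * (X ×ˢ Y).card * (X ×ˢ Y).card := by
    apply Vale.Agent.P054.J.simplex_joints
    intro g hg
    obtain ⟨hg, hd⟩ := Finset.mem_filter.1 hg
    obtain ⟨P, hP, hA⟩ := four_pts _ (hM g hg).2
    have hp : ∀ i, (P i, act g (P i)) ∈ X ×ˢ Y := fun i =>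
      Finset.mem_product.2 (mem_M.1 (hP i))
    exact ⟨hG g hg, hd, fun i => (P i, act g (P i)), hp 0, hp 1, hp 2, hp 3, fun i => rfl, hA⟩
  have h2 : G2.card ≤ 5 * (X ×ˢ Y).card * (X ×ˢ Y).card := by
    let φ : Iso → Iso := fun g => (-g.1, -g.2)
    have hφ : Function.Injective φ := by
      intro g g' h
      have e1 : -g.1 = -g'.1 := congrArg Prod.fst h
      have e2 : -g.2 = -g'.2 := congrArg Prod.snd h
      exact Prod.ext (neg_injective e1) (neg_injective e2)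
    have hcY : (Y.image (fun y : V3 => -y)).card = Y.card :=
      Finset.card_image_of_injective _ neg_injective
    have hc : (X ×ˢ Y.image (fun y : V3 => -y)).card = (X ×ˢ Y).card := by
      rw [Finset.card_product, Finset.card_product, hcY]
    rw [← Finset.card_image_of_injective G2 hφ, ← hc]
    apply Vale.Agent.P054.J.simplex_joints
    intro g' hg'
    obtain ⟨g, hg, rfl⟩ := Finset.mem_image.1 hg'
    obtain ⟨hg, hd⟩ := Finset.mem_filter.1 hg
    obtain ⟨P, hP, hA⟩ := four_pts _ (hM g hg).2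
    have hd' : g.1.det = -1 := (det_sq (hG g hg)).resolve_left hd
    have hact : ∀ x, (-g.1).mulVec x + -g.2 = - act g x := by
      intro x
      rw [act, Matrix.neg_mulVec, neg_add]
    have hp : ∀ i, (P i, - act g (P i)) ∈ X ×ˢ Y.image (fun y : V3 => -y) := fun i =>
      Finset.mem_product.2 ⟨(mem_M.1 (hP i)).1, Finset.mem_image_of_mem _ (mem_M.1 (hP i)).2⟩
    refine ⟨?_, ?_, fun i => (P i, - act g (P i)), hp 0, hp 1, hp 2, hp 3, fun i => hact _, hA⟩
    · show (-g.1)ᵀ * (-g.1) = 1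
      rw [Matrix.transpose_neg, neg_mul_neg]
      exact hG g hg
    · show (-g.1).det = 1
      rw [Matrix.det_neg, hd']
      norm_num
  have h3 : G.card ≤ 10 * (X.card * Y.card) ^ 2 := by
    rw [Finset.card_product] at h1 h2
    calc G.card = G1.card + G2.card := hcard.symm
      _ ≤ 5 * (X.card * Y.card) * (X.card * Y.card) + 5 * (X.card * Y.card) * (X.card * Y.card) :=
        Nat.add_le_add h1 h2
      _ = 10 * (X.card * Y.card) ^ 2 := by ring
  exact_mod_cast h3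

end Vale.Agent.P054.R
end

section

/-! Block L2, leaf LINERED: reduction of one of the four sets to lines.
Proof: `Ls = D.G.image (fun g => lineSet (D.p i g) (D.v i g))`. For `l ∈ Ls` restrict the data to
`G_l = {g | line i of g is l}`, `X' i = (D.X i).filter (· ∈ l)`, `X' j = D.X j` (`D.restrict`, `T`
unchanged); `OnFlat 1` by `onFlat_line`. Hence
`wt = ∑_l wt_l ≤ C ∑_l (#(X i ∩ l) * R)^(1+ε) ≤ C (∑_l #(X i ∩ l)) * #(X i)^ε * R^(1+ε)`, `R` = product
of the other three cardinalities, and `∑_l #(X i ∩ l) = ∑_x #{l ∋ x} ≤ M #(X i)`. -/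

set_option linter.all false
set_option autoImplicit false

namespace Vale.Agent.P054.L2

open Finset MvPolynomial

open scoped Classical in
theorem lr176_piece (B : ℕ) (ε : ℝ) (f : Fin 4 → ℕ) (i : Fin 4) (C : ℝ)
    (hcl : Claim B (Function.update f i 1) ε C) {ι : Type} (D : L2D B ι)
    (hflat : ∀ j, j ≠ i → OnFlat (f j) (D.X j)) (l : Set V3)
    (hl : l ∈ D.G.image (fun g => lineSet (D.p i g) (D.v i g))) :
    ∑ g ∈ D.G.filter (fun g => lineSet (D.p i g) (D.v i g) = l),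
      (psi (D.T 0 g).card (D.T 1 g).card : ℝ) ≤
      C * (((((D.X i).filter (fun x => x ∈ l)).card : ℝ) *
        ((∏ j ∈ univ.erase i, (D.X j).card : ℕ) : ℝ)) ^ (1 + ε)) := by
  obtain ⟨g0, hg0, hg0l⟩ := Finset.mem_image.1 hl
  set X' : Fin 4 → Finset V3 := Function.update D.X i ((D.X i).filter (fun x => x ∈ l)) with hX'
  have hX'i : X' i = (D.X i).filter (fun x => x ∈ l) := by simp [hX']
  have hX'j : ∀ j, j ≠ i → X' j = D.X j := fun j hj => by simp [hX', hj]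
  let D' : L2D B ι := D.restrict (D.G.filter (fun g => lineSet (D.p i g) (D.v i g) = l))
    (Finset.filter_subset _ _) X' D.T (fun k g _ => Finset.Subset.refl _) (by
      intro j g hg t ht
      rw [Finset.mem_filter] at hg
      have h1 := D.hX j g hg.1 t ht
      by_cases hj : j = i
      · subst hj
        rw [hX'i, Finset.mem_filter]
        refine ⟨h1, ?_⟩
        rw [← hg.2]
        exact ⟨t, rfl⟩
      · rw [hX'j j hj]
        exact h1)
  have h2 := hcl ι D' (by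
    intro j
    by_cases hj : j = i
    · subst hj
      rw [Function.update_self]
      change OnFlat 1 (X' j)
      rw [hX'i]
      refine onFlat_line (D.p j g0) (D.v j g0) (D.hv j g0 hg0) _ ?_
      intro x hx
      rw [Finset.mem_filter] at hx
      rw [hg0l]
      exact hx.2
    · rw [Function.update_of_ne hj]
      change OnFlat (f j) (X' j)
      rw [hX'j j hj]
      exact hflat j hj)
  have h3 : D'.wt = ∑ g ∈ D.G.filter (fun g => lineSet (D.p i g) (D.v i g) = l),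
      (psi (D.T 0 g).card (D.T 1 g).card : ℝ) := rfl
  have h4 : D'.N = ((D.X i).filter (fun x => x ∈ l)).card * ∏ j ∈ univ.erase i, (D.X j).card := by
    change ∏ j, (X' j).card = _
    rw [← Finset.mul_prod_erase univ (fun j => (X' j).card) (Finset.mem_univ i), hX'i]
    congr 1
    refine Finset.prod_congr rfl fun j hj => ?_
    rw [hX'j j (Finset.ne_of_mem_erase hj)]
  rw [h3, h4] at h2
  push_cast at h2 ⊢
  exact h2

open scoped Classical in
theorem lr176_count {α β : Type} (s : Finset (Set β)) (t : Finset β) (M : ℕ)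
    (hM : ∀ x ∈ t, (s.filter (fun l => x ∈ l)).card ≤ M) :
    (∑ l ∈ s, (t.filter (fun x => x ∈ l)).card) ≤ M * t.card := by
  have h9 : ∑ l ∈ s, (t.filter (fun x => x ∈ l)).card =
      ∑ x ∈ t, (s.filter (fun l => x ∈ l)).card :=
    Finset.sum_card_bipartiteAbove_eq_sum_card_bipartiteBelow (fun (l : Set β) (x : β) => x ∈ l)
  rw [h9]
  refine le_trans (Finset.sum_le_sum fun x hx => hM x hx) ?_
  rw [Finset.sum_const, smul_eq_mul, Nat.mul_comm]

open scoped Classical in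
theorem lr176_real (ε : ℝ) (hε : 0 < ε) (C : ℝ) (hC : 0 ≤ C) (a A R : ℕ) (haA : a ≤ A) :
    C * ((a : ℝ) * (R : ℝ)) ^ (1 + ε) ≤ C * ((A : ℝ) ^ ε * (R : ℝ) ^ (1 + ε)) * (a : ℝ) := by
  have hε1 : (1 : ℝ) + ε ≠ 0 := by positivity
  have haA : (a : ℝ) ≤ A := by exact_mod_cast haA
  have ha0 : (0 : ℝ) ≤ a := Nat.cast_nonneg _
  have hR0 : (0 : ℝ) ≤ R := Nat.cast_nonneg _
  rw [Real.mul_rpow ha0 hR0, Real.rpow_one_add' ha0 hε1]
  have h5 : (a : ℝ) ^ ε ≤ (A : ℝ) ^ ε := Real.rpow_le_rpow ha0 haA hε.le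
  have h6 : (0 : ℝ) ≤ (R : ℝ) ^ (1 + ε) := Real.rpow_nonneg hR0 _
  have h7 : (a : ℝ) * (a : ℝ) ^ ε * (R : ℝ) ^ (1 + ε) ≤ (a : ℝ) * (A : ℝ) ^ ε * (R : ℝ) ^ (1 + ε) :=
    mul_le_mul_of_nonneg_right (mul_le_mul_of_nonneg_left h5 ha0) h6
  calc C * ((a : ℝ) * (a : ℝ) ^ ε * (R : ℝ) ^ (1 + ε))
      ≤ C * ((a : ℝ) * (A : ℝ) ^ ε * (R : ℝ) ^ (1 + ε)) := mul_le_mul_of_nonneg_left h7 hC
    _ = C * ((A : ℝ) ^ ε * (R : ℝ) ^ (1 + ε)) * (a : ℝ) := by ring

open scoped Classical in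
theorem line_red (B : ℕ) (ε : ℝ) (hε : 0 < ε) (f : Fin 4 → ℕ) (i : Fin 4) (C : ℝ) (hC : 0 ≤ C)
    (hcl : Claim B (Function.update f i 1) ε C) (M : ℕ) {ι : Type} (D : L2D B ι)
    (hflat : ∀ j, j ≠ i → OnFlat (f j) (D.X j))
    (hM : ∀ x ∈ D.X i, ((D.G.image (fun g => lineSet (D.p i g) (D.v i g))).filter
      (fun l => x ∈ l)).card ≤ M) :
    D.wt ≤ C * M * (D.N : ℝ) ^ (1 + ε) := by
  have hA0 : (0 : ℝ) ≤ ((D.X i).card : ℝ) := Nat.cast_nonneg _
  have hR0 : (0 : ℝ) ≤ ((∏ j ∈ univ.erase i, (D.X j).card : ℕ) : ℝ) := Nat.cast_nonneg _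
  have hε1 : (1 : ℝ) + ε ≠ 0 := by positivity
  have hN : D.N = (D.X i).card * ∏ j ∈ univ.erase i, (D.X j).card :=
    (Finset.mul_prod_erase univ (fun j => (D.X j).card) (Finset.mem_univ i)).symm
  have h1 : D.wt = ∑ l ∈ D.G.image (fun g => lineSet (D.p i g) (D.v i g)),
      ∑ g ∈ D.G.filter (fun g => lineSet (D.p i g) (D.v i g) = l),
      (psi (D.T 0 g).card (D.T 1 g).card : ℝ) :=
    (Finset.sum_fiberwise_of_maps_to (fun g hg => Finset.mem_image_of_mem _ hg) _).symm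
  have h8 := lr176_count (α := V3) (D.G.image (fun g => lineSet (D.p i g) (D.v i g))) (D.X i) M hM
  have h10 : (∑ l ∈ D.G.image (fun g => lineSet (D.p i g) (D.v i g)),
      (((D.X i).filter (fun x => x ∈ l)).card : ℝ)) ≤ (M : ℝ) * ((D.X i).card : ℝ) := by
    exact_mod_cast h8
  have h11 : (0 : ℝ) ≤ C * (((D.X i).card : ℝ) ^ ε *
      ((∏ j ∈ univ.erase i, (D.X j).card : ℕ) : ℝ) ^ (1 + ε)) :=
    mul_nonneg hC (mul_nonneg (Real.rpow_nonneg hA0 _) (Real.rpow_nonneg hR0 _))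
  rw [h1]
  refine le_trans (Finset.sum_le_sum fun l hl =>
    le_trans (lr176_piece B ε f i C hcl D hflat l hl)
      (lr176_real ε hε C hC _ (D.X i).card _ (Finset.card_le_card (Finset.filter_subset _ _)))) ?_
  rw [← Finset.mul_sum]
  refine le_trans (mul_le_mul_of_nonneg_left h10 h11) (le_of_eq ?_)
  rw [hN, Nat.cast_mul, Real.mul_rpow hA0 hR0, Real.rpow_one_add' hA0 hε1]
  ring

end Vale.Agent.P054.L2
end

section

/-! P054, block G, leaf (14): Cauchy-Schwarz with labels (ordering trick). -/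

set_option linter.all false
set_option autoImplicit false

namespace Vale.Agent.P054.Y.G

open Finset

section General

variable {σ β : Type*} [DecidableEq σ] [DecidableEq β]

/-- pairs of elements of `S` with the same value of `f` -/
def coll (S : Finset σ) (f : σ → β) : Finset (σ × σ) :=
  (S ×ˢ S).filter (fun p => f p.1 = f p.2)

/-- size of a fibre -/
def fib (S : Finset σ) (f : σ → β) (v : β) : ℕ := (S.filter (fun s => f s = v)).card

theorem coll_card (S : Finset σ) (f : σ → β) (V : Finset β) (hV : ∀ s ∈ S, f s ∈ V) :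
    (coll S f).card = ∑ v ∈ V, fib S f v ^ 2 := by
  have h1 : (coll S f).card = ∑ v ∈ V, ((coll S f).filter (fun p => f p.1 = v)).card := by
    apply Finset.card_eq_sum_card_fiberwise
    intro p hp
    rw [coll, Finset.coe_filter] at hp
    exact hV _ (Finset.mem_product.1 hp.1).1
  rw [h1]
  refine Finset.sum_congr rfl (fun v _ => ?_)
  have : (coll S f).filter (fun p => f p.1 = v) =
      (S.filter (fun s => f s = v)) ×ˢ (S.filter (fun s => f s = v)) := by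
    ext p
    simp only [coll, Finset.mem_filter, Finset.mem_product]
    constructor
    · rintro ⟨⟨⟨h1, h2⟩, h3⟩, h4⟩
      exact ⟨⟨h1, h4⟩, h2, h3 ▸ h4⟩
    · rintro ⟨⟨h1, h2⟩, h3, h4⟩
      exact ⟨⟨⟨h1, h3⟩, h2.trans h4.symm⟩, h2⟩
  rw [this, Finset.card_product, fib, sq]

/-- Cauchy-Schwarz: refining the collision relation by a map with few values -/
theorem coll_refine {γ : Type*} [DecidableEq γ] (S : Finset σ) (f : σ → β) (g : σ → γ)
    (T : Finset γ) (hT : ∀ s ∈ S, g s ∈ T) :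
    (coll S f).card ≤ T.card * (coll S (fun s => (f s, g s))).card := by
  classical
  set V := S.image f with hVdef
  have hV : ∀ s ∈ S, f s ∈ V := fun s hs => Finset.mem_image_of_mem f hs
  rw [coll_card S f V hV, coll_card S (fun s => (f s, g s)) (V ×ˢ T)
    (fun s hs => Finset.mem_product.2 ⟨hV s hs, hT s hs⟩), Finset.sum_product, Finset.mul_sum]
  refine Finset.sum_le_sum (fun v _ => ?_)
  have h2 : fib S f v = ∑ w ∈ T, fib S (fun s => (f s, g s)) (v, w) := by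
    have : (S.filter (fun s => f s = v)).card =
        ∑ w ∈ T, ((S.filter (fun s => f s = v)).filter (fun s => g s = w)).card := by
      apply Finset.card_eq_sum_card_fiberwise
      intro s hs
      rw [Finset.coe_filter] at hs
      exact hT s hs.1
    rw [fib, this]
    refine Finset.sum_congr rfl (fun w _ => ?_)
    rw [fib, Finset.filter_filter]
    congr 1
    ext s
    simp [Prod.ext_iff]
  rw [h2]
  have := sq_sum_le_card_mul_sum_sq (s := T) (f := fun w => fib S (fun s => (f s, g s)) (v, w))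
  exact this

end General

section Labels

variable {α L : Type*} [DecidableEq α] [LinearOrder L]

/-- triples `(a, (b, b'))` -/
def trip (P : Finset α) (E : α → Finset α) : Finset (α × α × α) :=
  (P ×ˢ (P.biUnion E ×ˢ P.biUnion E)).filter (fun t => t.2.1 ∈ E t.1 ∧ t.2.2 ∈ E t.1)

theorem mem_trip {P : Finset α} {E : α → Finset α} {a b c : α} :
    (a, b, c) ∈ trip P E ↔ a ∈ P ∧ b ∈ E a ∧ c ∈ E a := by
  simp only [trip, Finset.mem_filter, Finset.mem_product, Finset.mem_biUnion]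
  constructor
  · rintro ⟨⟨h1, _⟩, h2, h3⟩
    exact ⟨h1, h2, h3⟩
  · rintro ⟨h1, h2, h3⟩
    exact ⟨⟨h1, ⟨a, h1, h2⟩, ⟨a, h1, h3⟩⟩, h2, h3⟩

/-- matched pairs of neighbours -/
noncomputable def MM (D : α → α → ℝ) (E : α → Finset α) (a c : α) : ℕ :=
  ((E a ×ˢ E c).filter (fun q => D a q.1 = D c q.2)).card

/-- the counted pairs of triples -/
noncomputable def six (P : Finset α) (D : α → α → ℝ) (E : α → Finset α) (kap : α → α → L) :
    Finset ((α × α × α) × (α × α × α)) :=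
  (trip P E ×ˢ trip P E).filter (fun p =>
    D p.1.1 p.1.2.1 = D p.2.1 p.2.2.1 ∧ D p.1.1 p.1.2.2 = D p.2.1 p.2.2.2 ∧
    D p.1.2.1 p.1.2.2 = D p.2.2.1 p.2.2.2 ∧
    kap p.1.1 p.1.2.1 ≤ kap p.1.1 p.1.2.2 ∧ kap p.2.1 p.2.2.1 ≤ kap p.2.1 p.2.2.2)

theorem sum_MM_sq (P : Finset α) (D : α → α → ℝ) (E : α → Finset α) :
    ∑ a ∈ P, ∑ c ∈ P, MM D E a c ^ 2 =
      (coll (trip P E) (fun t => (D t.1 t.2.1, D t.1 t.2.2))).card := by
  classical
  -- a bijection: ((b,d),(b',d')) over (a,c) with ((a,b,b'),(c,d,d'))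
  have h : ∀ a c, MM D E a c ^ 2 =
      ((((E a ×ˢ E c).filter (fun q => D a q.1 = D c q.2)) ×ˢ
        ((E a ×ˢ E c).filter (fun q => D a q.1 = D c q.2)))).card := by
    intro a c
    rw [Finset.card_product, MM, sq]
  simp only [h]
  rw [← Finset.sum_product', ← Finset.card_sigma]
  refine Finset.card_bij'
    (fun x _ => ((x.1.1, x.2.1.1, x.2.2.1), (x.1.2, x.2.1.2, x.2.2.2)))
    (fun y _ => ⟨(y.1.1, y.2.1), ((y.1.2.1, y.2.2.1), (y.1.2.2, y.2.2.2))⟩) ?_ ?_ ?_ ?_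
  · rintro ⟨⟨a, c⟩, ⟨b, d⟩, ⟨b', d'⟩⟩ hx
    simp only [Finset.mem_sigma, Finset.mem_product, Finset.mem_filter] at hx
    simp only [coll, Finset.mem_filter, Finset.mem_product, mem_trip, Prod.mk.injEq]
    exact ⟨⟨⟨hx.1.1, hx.2.1.1.1, hx.2.2.1.1⟩, ⟨hx.1.2, hx.2.1.1.2, hx.2.2.1.2⟩⟩,
      hx.2.1.2, hx.2.2.2⟩
  · rintro ⟨⟨a, b, b'⟩, ⟨c, d, d'⟩⟩ hy
    simp only [coll, Finset.mem_filter, Finset.mem_product, mem_trip, Prod.mk.injEq] at hy
    simp only [Finset.mem_sigma, Finset.mem_product, Finset.mem_filter]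
    exact ⟨⟨hy.1.1.1, hy.1.2.1⟩, ⟨⟨hy.1.1.2.1, hy.1.2.2.1⟩, hy.2.1⟩,
      ⟨⟨hy.1.1.2.2, hy.1.2.2.2⟩, hy.2.2⟩⟩
  · rintro ⟨⟨a, c⟩, ⟨b, d⟩, ⟨b', d'⟩⟩ _
    rfl
  · rintro ⟨⟨a, b, b'⟩, ⟨c, d, d'⟩⟩ _
    rfl

/-- **Cauchy-Schwarz with labels.** -/
theorem cs_labels (P : Finset α) (D : α → α → ℝ) (T : Finset ℝ) (E : α → Finset α)
    (kap : α → α → L) (hT : ∀ a ∈ P, ∀ b ∈ E a, ∀ c ∈ E a, D b c ∈ T) :
    ∑ a ∈ P, ∑ c ∈ P, MM D E a c ^ 2 ≤ 4 * (T.card * (six P D E kap).card) := by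
  classical
  rw [sum_MM_sq]
  set S := trip P E with hS
  set f : α × α × α → ℝ × ℝ := fun t => (D t.1 t.2.1, D t.1 t.2.2) with hf
  set S1 := S.filter (fun t => kap t.1 t.2.1 ≤ kap t.1 t.2.2) with hS1
  set V := (S.image f) ∪ (S.image f).image Prod.swap with hV
  have hVm : ∀ s ∈ S, f s ∈ V := fun s hs =>
    Finset.mem_union_left _ (Finset.mem_image_of_mem f hs)
  have hVswap : ∀ v ∈ V, v.swap ∈ V := by
    intro v hv
    rw [hV, Finset.mem_union] at hv ⊢
    rcases hv with h | h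
    · exact Or.inr (Finset.mem_image_of_mem _ h)
    · rw [Finset.mem_image] at h
      obtain ⟨w, hw, rfl⟩ := h
      rw [Prod.swap_swap]
      exact Or.inl hw
  have hle : ∀ v, fib S f v ≤ fib S1 f v + fib S1 f v.swap := by
    intro v
    have h1 : S.filter (fun s => f s = v) ⊆
        (S1.filter (fun s => f s = v)) ∪
        ((S1.filter (fun s => f s = v.swap)).image (fun t => (t.1, t.2.2, t.2.1))) := by
      rintro ⟨a, b, c⟩ ht
      rw [Finset.mem_filter] at ht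
      rw [Finset.mem_union]
      rcases le_total (kap a b) (kap a c) with h | h
      · exact Or.inl (Finset.mem_filter.2 ⟨Finset.mem_filter.2 ⟨ht.1, h⟩, ht.2⟩)
      · refine Or.inr (Finset.mem_image.2 ⟨(a, c, b), ?_, rfl⟩)
        rw [Finset.mem_filter, hS1, Finset.mem_filter]
        have hm := mem_trip.1 ht.1
        refine ⟨⟨mem_trip.2 ⟨hm.1, hm.2.2, hm.2.1⟩, h⟩, ?_⟩
        have h2 := ht.2
        simp only [hf] at h2 ⊢
        rw [← h2]
        rfl
    calc fib S f v ≤ _ := Finset.card_le_card h1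
      _ ≤ _ := Finset.card_union_le _ _
      _ ≤ _ := Nat.add_le_add_left Finset.card_image_le _
  have hsq : ∑ v ∈ V, fib S f v ^ 2 ≤ 4 * ∑ v ∈ V, fib S1 f v ^ 2 := by
    have hsw : ∑ v ∈ V, fib S1 f v.swap ^ 2 = ∑ v ∈ V, fib S1 f v ^ 2 := by
      refine Finset.sum_bij' (fun v _ => v.swap) (fun v _ => v.swap) (fun v hv => hVswap v hv)
        (fun v hv => hVswap v hv) (fun v _ => Prod.swap_swap v) (fun v _ => Prod.swap_swap v)
        (fun v _ => rfl)
    calc ∑ v ∈ V, fib S f v ^ 2 ≤ ∑ v ∈ V, (2 * fib S1 f v ^ 2 + 2 * fib S1 f v.swap ^ 2) := by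
          refine Finset.sum_le_sum (fun v _ => ?_)
          have h := hle v
          have h2 : fib S f v ^ 2 ≤ (fib S1 f v + fib S1 f v.swap) ^ 2 := Nat.pow_le_pow_left h 2
          refine le_trans h2 ?_
          zify
          linarith only [sq_nonneg ((fib S1 f v : ℤ) - (fib S1 f v.swap : ℤ))]
      _ = 4 * ∑ v ∈ V, fib S1 f v ^ 2 := by
          rw [Finset.sum_add_distrib, ← Finset.mul_sum, ← Finset.mul_sum, hsw]
          ring
  rw [coll_card S f V hVm]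
  refine le_trans hsq (Nat.mul_le_mul_left _ ?_)
  rw [← coll_card S1 f V (fun s hs => hVm s (Finset.mem_filter.1 hs).1)]
  refine le_trans (coll_refine S1 f (fun t => D t.2.1 t.2.2) T ?_) (Nat.mul_le_mul_left _ ?_)
  · rintro ⟨a, b, c⟩ hs
    have hm := mem_trip.1 (Finset.mem_filter.1 hs).1
    exact hT a hm.1 b hm.2.1 c hm.2.2
  · apply Finset.card_le_card
    rintro ⟨⟨a, b, b'⟩, ⟨c, d, d'⟩⟩ hp
    simp only [coll, hS1, hf, Finset.mem_filter, Finset.mem_product, Prod.mk.injEq] at hp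
    simp only [six, Finset.mem_filter, Finset.mem_product]
    exact ⟨⟨hp.1.1.1, hp.1.2.1⟩, hp.2.1.1, hp.2.1.2, hp.2.2, hp.1.1.2, hp.1.2.2⟩

/-- lower bound for `∑ M²` -/
theorem sum_MM_lower (P : Finset α) (D : α → α → ℝ) (T : Finset ℝ) (E : α → Finset α)
    (hT : ∀ a ∈ P, ∀ b ∈ E a, D a b ∈ T) :
    (∑ a ∈ P, (E a).card) ^ 2 ≤ T.card * ∑ a ∈ P, ∑ c ∈ P, MM D E a c := by
  classical
  set S : Finset (α × α) := (P ×ˢ P.biUnion E).filter (fun t => t.2 ∈ E t.1) with hS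
  have hmem : ∀ a b, (a, b) ∈ S ↔ a ∈ P ∧ b ∈ E a := by
    intro a b
    simp only [hS, Finset.mem_filter, Finset.mem_product, Finset.mem_biUnion]
    exact ⟨fun h => ⟨h.1.1, h.2⟩, fun h => ⟨⟨h.1, a, h.1, h.2⟩, h.2⟩⟩
  have h1 : S.card = ∑ a ∈ P, (E a).card := by
    rw [← Finset.card_sigma]
    refine Finset.card_bij' (fun x _ => ⟨x.1, x.2⟩) (fun y _ => (y.1, y.2)) ?_ ?_ ?_ ?_
    · rintro ⟨a, b⟩ h
      rw [hmem] at h
      simpa using h
    · rintro ⟨a, b⟩ h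
      rw [hmem]
      simpa using h
    · rintro ⟨a, b⟩ _; rfl
    · rintro ⟨a, b⟩ _; rfl
  have h2 : (coll S (fun t => (((), D t.1 t.2) : Unit × ℝ))).card =
      ∑ a ∈ P, ∑ c ∈ P, MM D E a c := by
    simp only [MM]
    rw [← Finset.sum_product', ← Finset.card_sigma]
    refine Finset.card_bij'
      (fun y _ => ⟨(y.1.1, y.2.1), (y.1.2, y.2.2)⟩)
      (fun x _ => ((x.1.1, x.2.1), (x.1.2, x.2.2))) ?_ ?_ ?_ ?_
    · rintro ⟨⟨a, b⟩, ⟨c, d⟩⟩ hy
      simp only [coll, Finset.mem_filter, Finset.mem_product, hmem, Prod.mk.injEq,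
        true_and] at hy
      simp only [Finset.mem_sigma, Finset.mem_product, Finset.mem_filter]
      exact ⟨⟨hy.1.1.1, hy.1.2.1⟩, ⟨hy.1.1.2, hy.1.2.2⟩, hy.2⟩
    · rintro ⟨⟨a, c⟩, ⟨b, d⟩⟩ hx
      simp only [Finset.mem_sigma, Finset.mem_product, Finset.mem_filter] at hx
      simp only [coll, Finset.mem_filter, Finset.mem_product, hmem, Prod.mk.injEq, true_and]
      exact ⟨⟨⟨hx.1.1, hx.2.1.1⟩, ⟨hx.1.2, hx.2.1.2⟩⟩, hx.2.2⟩
    · rintro ⟨⟨a, b⟩, ⟨c, d⟩⟩ _; rfl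
    · rintro ⟨⟨a, c⟩, ⟨b, d⟩⟩ _; rfl
  have h3 := coll_refine S (fun _ => ()) (fun t => D t.1 t.2) T (by
    rintro ⟨a, b⟩ h
    rw [hmem] at h
    exact hT a h.1 b h.2)
  rw [h2] at h3
  have h4 : (coll S (fun _ => ())).card = S.card ^ 2 := by
    rw [coll, Finset.filter_true_of_mem (by intros; rfl), Finset.card_product, sq]
  rw [h4, h1] at h3
  exact h3

theorem sum_MM_le_sq (P : Finset α) (D : α → α → ℝ) (E : α → Finset α) :
    (∑ a ∈ P, ∑ c ∈ P, MM D E a c) ^ 2 ≤ P.card ^ 2 * ∑ a ∈ P, ∑ c ∈ P, MM D E a c ^ 2 := by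
  rw [← Finset.sum_product', ← Finset.sum_product']
  have h := sq_sum_le_card_mul_sum_sq (s := P ×ˢ P) (f := fun q : α × α => MM D E q.1 q.2)
  rw [Finset.card_product, ← sq] at h
  exact h

/-- `(∑ #E a)^4 ≤ #T² #P² ∑ M²` -/
theorem sum_E_pow_four (P : Finset α) (D : α → α → ℝ) (T : Finset ℝ) (E : α → Finset α)
    (hT : ∀ a ∈ P, ∀ b ∈ E a, D a b ∈ T) :
    (∑ a ∈ P, (E a).card) ^ 4 ≤
      T.card ^ 2 * (P.card ^ 2 * ∑ a ∈ P, ∑ c ∈ P, MM D E a c ^ 2) := by
  calc (∑ a ∈ P, (E a).card) ^ 4 = ((∑ a ∈ P, (E a).card) ^ 2) ^ 2 := by ring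
    _ ≤ (T.card * ∑ a ∈ P, ∑ c ∈ P, MM D E a c) ^ 2 :=
        Nat.pow_le_pow_left (sum_MM_lower P D T E hT) 2
    _ = T.card ^ 2 * (∑ a ∈ P, ∑ c ∈ P, MM D E a c) ^ 2 := by ring
    _ ≤ _ := Nat.mul_le_mul_left _ (sum_MM_le_sq P D E)

/-- `(∑ #E a)^4 ≤ 4 #T³ #P² #six` -/
theorem sum_E_six (P : Finset α) (D : α → α → ℝ) (T : Finset ℝ) (E : α → Finset α)
    (kap : α → α → L) (hE : ∀ a ∈ P, E a ⊆ P) (hT : ∀ a ∈ P, ∀ b ∈ P, D a b ∈ T) :
    (∑ a ∈ P, (E a).card) ^ 4 ≤ 4 * T.card ^ 3 * P.card ^ 2 * (six P D E kap).card := by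
  refine le_trans (sum_E_pow_four P D T E (fun a ha b hb => hT a ha b (hE a ha hb))) ?_
  have h := cs_labels P D T E kap
    (fun a ha b hb c hc => hT b (hE a ha hb) c (hE a ha hc))
  calc T.card ^ 2 * (P.card ^ 2 * ∑ a ∈ P, ∑ c ∈ P, MM D E a c ^ 2)
      ≤ T.card ^ 2 * (P.card ^ 2 * (4 * (T.card * (six P D E kap).card))) :=
        Nat.mul_le_mul_left _ (Nat.mul_le_mul_left _ h)
    _ = _ := by ring

end Labels

end Vale.Agent.P054.Y.G
end

section

/-! P054, block G: numerics of the final summation. -/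

set_option linter.all false
set_option autoImplicit false

namespace Vale.Agent.P054.Y.GF

open Finset

/-- Hölder: `∑ M^(2θ) ≤ #I^(1-θ) (∑ M²)^θ` -/
theorem holder_sum {ι : Type*} (I : Finset ι) (M : ι → ℝ) (hM : ∀ i ∈ I, 0 ≤ M i) {θ : ℝ}
    (h0 : 0 < θ) (h1 : θ ≤ 1) :
    ∑ i ∈ I, M i ^ (2 * θ) ≤ (I.card : ℝ) ^ (1 - θ) * (∑ i ∈ I, M i ^ 2) ^ θ := by
  have hp : 1 ≤ 1 / θ := by rw [le_div_iff₀ h0]; linarith
  have h := Real.rpow_sum_le_const_mul_sum_rpow_of_nonneg I (p := 1 / θ) (f := fun i => M i ^ (2 * θ))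
    hp (fun i hi => Real.rpow_nonneg (hM i hi) _)
  have e1 : ∀ i ∈ I, (M i ^ (2 * θ)) ^ (1 / θ) = M i ^ 2 := by
    intro i hi
    rw [← Real.rpow_mul (hM i hi)]
    have : 2 * θ * (1 / θ) = (2 : ℝ) := by field_simp
    rw [this]
    exact_mod_cast Real.rpow_natCast (M i) 2
  rw [Finset.sum_congr rfl e1] at h
  have hS : 0 ≤ ∑ i ∈ I, M i ^ (2 * θ) :=
    Finset.sum_nonneg (fun i hi => Real.rpow_nonneg (hM i hi) _)
  have hQ : 0 ≤ ∑ i ∈ I, M i ^ 2 := Finset.sum_nonneg (fun i _ => sq_nonneg _)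
  have h2 := Real.rpow_le_rpow (Real.rpow_nonneg hS _) h h0.le
  rw [← Real.rpow_mul hS, Real.mul_rpow (Real.rpow_nonneg (Nat.cast_nonneg _) _) hQ,
    ← Real.rpow_mul (Nat.cast_nonneg _)] at h2
  have e2 : 1 / θ * θ = 1 := by field_simp
  have e3 : (1 / θ - 1) * θ = 1 - θ := by field_simp
  rw [e2, e3, Real.rpow_one] at h2
  exact h2

/-- the same with the lower bound `Q ≥ n^6 / (C τ²)` inserted -/
theorem holder_gain {ι : Type*} (I : Finset ι) (M : ι → ℝ) (hM : ∀ i ∈ I, 0 ≤ M i) {θ : ℝ}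
    (h0 : 0 < θ) (h1 : θ ≤ 1) {n τ C : ℝ} (hn : 0 < n) (hτ : 0 < τ) (hC : 1 ≤ C)
    (hI : (I.card : ℝ) ≤ n ^ 2) (hQ : n ^ 6 / (C * τ ^ 2) ≤ ∑ i ∈ I, M i ^ 2) :
    ∑ i ∈ I, M i ^ (2 * θ) ≤ (C * (τ ^ 2 / n ^ 4)) ^ (1 - θ) * ∑ i ∈ I, M i ^ 2 := by
  have hQ0 : 0 < ∑ i ∈ I, M i ^ 2 := lt_of_lt_of_le (by positivity) hQ
  refine le_trans (holder_sum I M hM h0 h1) ?_
  set Q := ∑ i ∈ I, M i ^ 2 with hQd
  have hC0 : 0 < C := by linarith
  have h2 : (I.card : ℝ) ≤ C * (τ ^ 2 / n ^ 4) * Q := by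
    refine le_trans hI ?_
    rw [div_le_iff₀ (by positivity)] at hQ
    have : n ^ 2 = n ^ 6 / n ^ 4 := by field_simp
    rw [this, mul_assoc, div_mul_eq_mul_div, mul_div_assoc', div_le_div_iff_of_pos_right (by positivity)]
    linarith
  have h3 : (I.card : ℝ) ^ (1 - θ) ≤ (C * (τ ^ 2 / n ^ 4) * Q) ^ (1 - θ) :=
    Real.rpow_le_rpow (Nat.cast_nonneg _) h2 (by linarith)
  have h4 : (C * (τ ^ 2 / n ^ 4) * Q) ^ (1 - θ) = (C * (τ ^ 2 / n ^ 4)) ^ (1 - θ) * Q ^ (1 - θ) :=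
    Real.mul_rpow (by positivity) hQ0.le
  calc (I.card : ℝ) ^ (1 - θ) * Q ^ θ ≤ ((C * (τ ^ 2 / n ^ 4)) ^ (1 - θ) * Q ^ (1 - θ)) * Q ^ θ := by
        rw [← h4]
        exact mul_le_mul_of_nonneg_right h3 (Real.rpow_nonneg hQ0.le _)
    _ = (C * (τ ^ 2 / n ^ 4)) ^ (1 - θ) * (Q ^ (1 - θ) * Q ^ θ) := by ring
    _ = _ := by
        rw [← Real.rpow_add hQ0]
        have : 1 - θ + θ = 1 := by ring
        rw [this, Real.rpow_one]

theorem arith (δ : ℝ) (hδ : 0 < δ) (C : ℝ) (hC : 1 ≤ C) : ∃ n0 : ℝ, 1 ≤ n0 ∧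
    ∀ (n τ e : ℝ), n0 ≤ n → 1 ≤ τ → τ ≤ n ^ ((2 : ℝ) / 3 - δ) → 0 < e → e ≤ δ / 16 → e ≤ 1 / 2 →
    ∀ {ι : Type*} (I : Finset ι) (M : ι → ℝ), (I.card : ℝ) ≤ n ^ 2 → (∀ i ∈ I, 0 ≤ M i) →
    n ^ 6 / (C * τ ^ 2) ≤ ∑ i ∈ I, M i ^ 2 →
    C * n ^ (δ / 8) * (∑ i ∈ I, M i ^ (3 / 2 + e) +
      (n ^ (-δ / 2) * (n ^ 2 / τ ^ 2) + n ^ (δ / 8) * τ) * ∑ i ∈ I, M i) ≤
      (1 / (8 * τ)) * ∑ i ∈ I, M i ^ 2 := by
  -- a large power of `n` beats all constants
  have hev : ∀ᶠ n : ℝ in Filter.atTop, 24 * C ^ 3 ≤ n ^ (δ / 8) :=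
    (tendsto_rpow_atTop (show 0 < δ / 8 by positivity)).eventually_ge_atTop _
  obtain ⟨n0, hn0⟩ := Filter.eventually_atTop.1 hev
  refine ⟨max n0 1, le_max_right _ _, ?_⟩
  intro n τ e hn hτ hτn he he1 he2 ι I M hI hM hQ
  have hn1 : 1 ≤ n := le_trans (le_max_right _ _) hn
  have hnpos : 0 < n := by linarith
  have hbig := hn0 n (le_trans (le_max_left _ _) hn)
  have hC0 : 0 < C := by linarith
  have hτ0 : 0 < τ := by linarith
  set Q := ∑ i ∈ I, M i ^ 2 with hQd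
  have hQ0 : 0 ≤ Q := Finset.sum_nonneg (fun i _ => sq_nonneg _)
  -- first term
  have g1 := holder_gain I M hM (θ := (3 / 2 + e) / 2) (by linarith) (by linarith) hnpos hτ0 hC hI hQ
  have e1 : 2 * ((3 / 2 + e) / 2) = 3 / 2 + e := by ring
  rw [e1] at g1
  have g2 := holder_gain I M hM (θ := 1 / 2) (by norm_num) (by norm_num) hnpos hτ0 hC hI hQ
  have e2 : (2 : ℝ) * (1 / 2) = 1 := by norm_num
  rw [e2] at g2
  simp only [Real.rpow_one] at g2
  rw [← hQd] at g1 g2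
  -- bounds of the coefficients
  have npow : ∀ a : ℝ, 0 < n ^ a := fun a => Real.rpow_pos_of_pos hnpos a
  have n2 : n ^ 2 = n ^ (2 : ℝ) := by exact_mod_cast (Real.rpow_natCast n 2).symm
  have n4 : n ^ 4 = n ^ (4 : ℝ) := by exact_mod_cast (Real.rpow_natCast n 4).symm
  have hC3 : C ≤ C ^ 3 := by
    calc C = C ^ 1 := (pow_one C).symm
      _ ≤ C ^ 3 := pow_le_pow_right₀ hC (by norm_num)
  have hC2 : C * C ≤ C ^ 3 := by
    calc C * C = C ^ 2 := (sq C).symm
      _ ≤ C ^ 3 := pow_le_pow_right₀ hC (by norm_num)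
  -- x := τ² / n⁴ ≤ n^(-8/3 - 2δ)
  have hτ2 : τ ^ 2 ≤ n ^ ((4 : ℝ) / 3 - 2 * δ) := by
    calc τ ^ 2 ≤ (n ^ ((2 : ℝ) / 3 - δ)) ^ 2 := pow_le_pow_left₀ hτ0.le hτn 2
      _ = n ^ ((4 : ℝ) / 3 - 2 * δ) := by
          rw [← Real.rpow_natCast, ← Real.rpow_mul hnpos.le]
          congr 1
          push_cast
          ring
  have hτ3 : τ ^ 3 ≤ n ^ ((2 : ℝ) - 3 * δ) := by
    calc τ ^ 3 ≤ (n ^ ((2 : ℝ) / 3 - δ)) ^ 3 := pow_le_pow_left₀ hτ0.le hτn 3
      _ = n ^ ((2 : ℝ) - 3 * δ) := by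
          rw [← Real.rpow_natCast, ← Real.rpow_mul hnpos.le]
          congr 1
          push_cast
          ring
  -- (1)
  have c1 : C * n ^ (δ / 8) * (C * (τ ^ 2 / n ^ 4)) ^ (1 - (3 / 2 + e) / 2) ≤ 1 / (24 * τ) := by
    have hx : (C * (τ ^ 2 / n ^ 4)) ^ (1 - (3 / 2 + e) / 2) ≤
        C * (τ ^ ((1 : ℝ) / 2) * n ^ (-1 + 2 * e)) := by
      rw [Real.mul_rpow hC0.le (by positivity), Real.div_rpow (by positivity) (by positivity)]
      apply mul_le_mul
      · calc C ^ (1 - (3 / 2 + e) / 2) ≤ C ^ (1 : ℝ) :=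
              Real.rpow_le_rpow_of_exponent_le hC (by linarith only [he2, he])
          _ = C := Real.rpow_one C
      · have t1 : (τ ^ 2) ^ (1 - (3 / 2 + e) / 2) ≤ τ ^ ((1 : ℝ) / 2) := by
          rw [← Real.rpow_natCast, ← Real.rpow_mul hτ0.le]
          exact Real.rpow_le_rpow_of_exponent_le hτ (by push_cast; linarith)
        have t2 : ((n ^ 4) ^ (1 - (3 / 2 + e) / 2))⁻¹ = n ^ (-1 + 2 * e) := by
          rw [n4, ← Real.rpow_mul hnpos.le, ← Real.rpow_neg hnpos.le]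
          congr 1
          ring
        rw [div_eq_mul_inv, t2]
        exact mul_le_mul_of_nonneg_right t1 (npow _).le
      · positivity
      · exact hC0.le
    have hy : τ ^ ((1 : ℝ) / 2) * τ ≤ n ^ (1 - 3 / 2 * δ) := by
      have : τ ^ ((1 : ℝ) / 2) * τ = τ ^ ((3 : ℝ) / 2) := by
        nth_rewrite 2 [← Real.rpow_one τ]
        rw [← Real.rpow_add hτ0]
        norm_num
      rw [this]
      calc τ ^ ((3 : ℝ) / 2) ≤ (n ^ ((2 : ℝ) / 3 - δ)) ^ ((3 : ℝ) / 2) :=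
            Real.rpow_le_rpow hτ0.le hτn (by norm_num)
        _ = n ^ (1 - 3 / 2 * δ) := by
            rw [← Real.rpow_mul hnpos.le]
            congr 1
            ring
    rw [le_div_iff₀ (by positivity)]
    calc C * n ^ (δ / 8) * (C * (τ ^ 2 / n ^ 4)) ^ (1 - (3 / 2 + e) / 2) * (24 * τ)
        ≤ C * n ^ (δ / 8) * (C * (τ ^ ((1 : ℝ) / 2) * n ^ (-1 + 2 * e))) * (24 * τ) := by
          apply mul_le_mul_of_nonneg_right _ (by positivity)
          exact mul_le_mul_of_nonneg_left hx (by positivity)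
      _ = 24 * (C * C) * (n ^ (δ / 8) * n ^ (-1 + 2 * e)) * (τ ^ ((1 : ℝ) / 2) * τ) := by ring
      _ ≤ (24 * C ^ 3) * (n ^ (δ / 8) * n ^ (-1 + 2 * e)) * n ^ (1 - 3 / 2 * δ) := by
          apply mul_le_mul _ hy (by positivity) (by positivity)
          apply mul_le_mul_of_nonneg_right _ (by positivity)
          linarith only [hC2]
      _ ≤ n ^ (δ / 8) * (n ^ (δ / 8) * n ^ (-1 + 2 * e)) * n ^ (1 - 3 / 2 * δ) := by
          apply mul_le_mul_of_nonneg_right _ (npow _).le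
          exact mul_le_mul_of_nonneg_right hbig (by positivity)
      _ = n ^ (δ / 8 + (δ / 8 + (-1 + 2 * e)) + (1 - 3 / 2 * δ)) := by
          rw [← Real.rpow_add hnpos, ← Real.rpow_add hnpos, ← Real.rpow_add hnpos]
      _ ≤ 1 := Real.rpow_le_one_of_one_le_of_nonpos hn1 (by linarith only [he1, he])
  -- the coefficient of ∑ M
  have hr : (C * (τ ^ 2 / n ^ 4)) ^ (1 - (1 : ℝ) / 2) ≤ C * (τ * n ^ (-2 : ℝ)) := by
    have : (1 : ℝ) - 1 / 2 = 1 / 2 := by norm_num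
    rw [this, Real.mul_rpow hC0.le (by positivity), Real.div_rpow (by positivity) (by positivity)]
    apply mul_le_mul
    · calc C ^ ((1 : ℝ) / 2) ≤ C ^ (1 : ℝ) := Real.rpow_le_rpow_of_exponent_le hC (by norm_num)
        _ = C := Real.rpow_one C
    · have t1 : (τ ^ 2) ^ ((1 : ℝ) / 2) = τ := by
        rw [← Real.rpow_natCast, ← Real.rpow_mul hτ0.le]
        norm_num
      have t2 : ((n ^ 4) ^ ((1 : ℝ) / 2))⁻¹ = n ^ (-2 : ℝ) := by
        rw [n4, ← Real.rpow_mul hnpos.le, ← Real.rpow_neg hnpos.le]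
        norm_num
      rw [div_eq_mul_inv, t2, t1]
    · positivity
    · exact hC0.le
  have c2 : C * n ^ (δ / 8) * (n ^ (-δ / 2) * (n ^ 2 / τ ^ 2)) * (C * (τ * n ^ (-2 : ℝ))) ≤
      1 / (24 * τ) := by
    rw [le_div_iff₀ (by positivity), n2]
    calc C * n ^ (δ / 8) * (n ^ (-δ / 2) * (n ^ (2 : ℝ) / τ ^ 2)) * (C * (τ * n ^ (-2 : ℝ))) *
          (24 * τ)
        = 24 * (C * C) * (n ^ (δ / 8) * n ^ (-δ / 2)) * (n ^ (2 : ℝ) * n ^ (-2 : ℝ)) := by
          field_simp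
      _ = 24 * (C * C) * (n ^ (δ / 8) * n ^ (-δ / 2)) := by
          have h22 : n ^ (2 : ℝ) * n ^ (-2 : ℝ) = 1 := by
            rw [← Real.rpow_add hnpos]
            norm_num
          rw [h22, mul_one]
      _ ≤ (24 * C ^ 3) * (n ^ (δ / 8) * n ^ (-δ / 2)) := by
          apply mul_le_mul_of_nonneg_right _ (by positivity)
          linarith only [hC2]
      _ ≤ n ^ (δ / 8) * (n ^ (δ / 8) * n ^ (-δ / 2)) :=
          mul_le_mul_of_nonneg_right hbig (by positivity)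
      _ = n ^ (δ / 8 + (δ / 8 + -δ / 2)) := by
          rw [Real.rpow_add hnpos, Real.rpow_add hnpos]
      _ ≤ 1 := Real.rpow_le_one_of_one_le_of_nonpos hn1 (by linarith only [he1, he])
  have c3 : C * n ^ (δ / 8) * (n ^ (δ / 8) * τ) * (C * (τ * n ^ (-2 : ℝ))) ≤ 1 / (24 * τ) := by
    rw [le_div_iff₀ (by positivity)]
    calc C * n ^ (δ / 8) * (n ^ (δ / 8) * τ) * (C * (τ * n ^ (-2 : ℝ))) * (24 * τ)
        = 24 * (C * C) * (n ^ (δ / 8) * n ^ (δ / 8) * n ^ (-2 : ℝ)) * τ ^ 3 := by ring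
      _ ≤ (24 * C ^ 3) * (n ^ (δ / 8) * n ^ (δ / 8) * n ^ (-2 : ℝ)) * n ^ ((2 : ℝ) - 3 * δ) := by
          apply mul_le_mul _ hτ3 (by positivity) (by positivity)
          apply mul_le_mul_of_nonneg_right _ (by positivity)
          linarith only [hC2]
      _ ≤ n ^ (δ / 8) * (n ^ (δ / 8) * n ^ (δ / 8) * n ^ (-2 : ℝ)) * n ^ ((2 : ℝ) - 3 * δ) := by
          apply mul_le_mul_of_nonneg_right _ (npow _).le
          exact mul_le_mul_of_nonneg_right hbig (by positivity)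
      _ = n ^ (δ / 8 + (δ / 8 + δ / 8 + (-2)) + (2 - 3 * δ)) := by
          rw [Real.rpow_add hnpos, Real.rpow_add hnpos, Real.rpow_add hnpos, Real.rpow_add hnpos]
      _ ≤ 1 := Real.rpow_le_one_of_one_le_of_nonpos hn1 (by linarith only [he1, he])
  -- conclusion
  set h' := n ^ (-δ / 2) * (n ^ 2 / τ ^ 2) with hh'
  have hh0 : 0 ≤ h' := by positivity
  have T1 : C * n ^ (δ / 8) * ∑ i ∈ I, M i ^ (3 / 2 + e) ≤ 1 / (24 * τ) * Q := by
    calc C * n ^ (δ / 8) * ∑ i ∈ I, M i ^ (3 / 2 + e)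
        ≤ C * n ^ (δ / 8) * ((C * (τ ^ 2 / n ^ 4)) ^ (1 - (3 / 2 + e) / 2) * Q) :=
          mul_le_mul_of_nonneg_left g1 (by positivity)
      _ = (C * n ^ (δ / 8) * (C * (τ ^ 2 / n ^ 4)) ^ (1 - (3 / 2 + e) / 2)) * Q := by ring
      _ ≤ _ := mul_le_mul_of_nonneg_right c1 hQ0
  have g3 : ∑ i ∈ I, M i ≤ C * (τ * n ^ (-2 : ℝ)) * Q :=
    le_trans g2 (mul_le_mul_of_nonneg_right hr hQ0)
  have T2 : C * n ^ (δ / 8) * (h' * ∑ i ∈ I, M i) ≤ 1 / (24 * τ) * Q := by
    calc C * n ^ (δ / 8) * (h' * ∑ i ∈ I, M i)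
        ≤ C * n ^ (δ / 8) * (h' * (C * (τ * n ^ (-2 : ℝ)) * Q)) :=
          mul_le_mul_of_nonneg_left (mul_le_mul_of_nonneg_left g3 hh0) (by positivity)
      _ = (C * n ^ (δ / 8) * h' * (C * (τ * n ^ (-2 : ℝ)))) * Q := by ring
      _ ≤ _ := mul_le_mul_of_nonneg_right c2 hQ0
  have T3 : C * n ^ (δ / 8) * (n ^ (δ / 8) * τ * ∑ i ∈ I, M i) ≤ 1 / (24 * τ) * Q := by
    calc C * n ^ (δ / 8) * (n ^ (δ / 8) * τ * ∑ i ∈ I, M i)
        ≤ C * n ^ (δ / 8) * (n ^ (δ / 8) * τ * (C * (τ * n ^ (-2 : ℝ)) * Q)) :=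
          mul_le_mul_of_nonneg_left (mul_le_mul_of_nonneg_left g3 (by positivity)) (by positivity)
      _ = (C * n ^ (δ / 8) * (n ^ (δ / 8) * τ) * (C * (τ * n ^ (-2 : ℝ)))) * Q := by ring
      _ ≤ _ := mul_le_mul_of_nonneg_right c3 hQ0
  calc C * n ^ (δ / 8) * (∑ i ∈ I, M i ^ (3 / 2 + e) + (h' + n ^ (δ / 8) * τ) * ∑ i ∈ I, M i)
      = C * n ^ (δ / 8) * ∑ i ∈ I, M i ^ (3 / 2 + e) + C * n ^ (δ / 8) * (h' * ∑ i ∈ I, M i) +
        C * n ^ (δ / 8) * (n ^ (δ / 8) * τ * ∑ i ∈ I, M i) := by ring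
    _ ≤ 1 / (24 * τ) * Q + 1 / (24 * τ) * Q + 1 / (24 * τ) * Q := by linarith only [T3, T2, T1]
    _ = 1 / (8 * τ) * Q := by field_simp; ring

end Vale.Agent.P054.Y.GF
end

section

/-! Leaf GF-MainNum (helper426), from 258's GF/Arith.lean `arith`.  `e = min δ 1 / 100`, `K = n^e`,
`h0 = n^(-δ/2) n^2/τ^2`, `B = Cp τ^(1+e)`. -/

set_option linter.all false

namespace Vale.Agent.P054.Y.GF

open Finset

theorem mn_term {C Cp K1 K3 A h0 T E N mi mp : ℝ} (hC : 1 ≤ C) (hCp : 0 < Cp) (hK1 : K1 ≤ A)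
    (hK3 : K3 ≤ A) (h0K3 : 0 ≤ K3) (hA : 0 ≤ A) (hh1 : 1 ≤ h0) (hN : N ≤ h0) (hN0 : 0 ≤ N)
    (hE : E ≤ T) (hE0 : 0 ≤ E) (hmi : 0 ≤ mi) (hmp : 0 ≤ mp) :
    K1 * mi + C * K3 * (mp + mi * (h0 + Cp * E + N)) ≤
      (C * (3 + Cp) + 16) * A * (mp + (h0 + T) * mi) := by
  have hT : 0 ≤ T := le_trans hE0 hE
  have hh0 : 0 ≤ h0 := by linarith
  have hC0 : 0 ≤ C := by linarith
  have s1 : K1 * mi ≤ A * (h0 * mi) := by
    refine mul_le_mul hK1 ?_ hmi hA
    have := mul_le_mul_of_nonneg_right hh1 hmi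
    linarith
  have s2 : h0 + Cp * E + N ≤ 2 * h0 + Cp * T := by
    have := mul_le_mul_of_nonneg_left hE hCp.le
    linarith
  have s3 : mp + mi * (h0 + Cp * E + N) ≤ mp + mi * (2 * h0 + Cp * T) := by
    have := mul_le_mul_of_nonneg_left s2 hmi
    linarith
  have s4 : 0 ≤ mp + mi * (h0 + Cp * E + N) := by
    have : 0 ≤ h0 + Cp * E + N := by positivity
    positivity
  have s5 : C * K3 * (mp + mi * (h0 + Cp * E + N)) ≤ C * A * (mp + mi * (2 * h0 + Cp * T)) :=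
    mul_le_mul (mul_le_mul_of_nonneg_left hK3 hC0) s3 s4 (by positivity)
  have hCp' : 0 ≤ C * Cp := by positivity
  have f1 : C * mp ≤ (C * (3 + Cp) + 16) * mp := by
    apply mul_le_mul_of_nonneg_right _ hmp
    linarith
  have f2 : (1 + 2 * C) * (h0 * mi) ≤ (C * (3 + Cp) + 16) * (h0 * mi) := by
    apply mul_le_mul_of_nonneg_right _ (mul_nonneg hh0 hmi)
    linarith
  have f3 : C * Cp * (T * mi) ≤ (C * (3 + Cp) + 16) * (T * mi) := by
    apply mul_le_mul_of_nonneg_right _ (mul_nonneg hT hmi)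
    linarith
  have s6 : C * mp + (1 + 2 * C) * (h0 * mi) + C * Cp * (T * mi) ≤
      (C * (3 + Cp) + 16) * (mp + (h0 + T) * mi) := by linarith
  calc K1 * mi + C * K3 * (mp + mi * (h0 + Cp * E + N))
      ≤ A * (h0 * mi) + C * A * (mp + mi * (2 * h0 + Cp * T)) := add_le_add s1 s5
    _ = A * (C * mp + (1 + 2 * C) * (h0 * mi) + C * Cp * (T * mi)) := by ring
    _ ≤ A * ((C * (3 + Cp) + 16) * (mp + (h0 + T) * mi)) := mul_le_mul_of_nonneg_left s6 hA
    _ = _ := by ring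

theorem mn_low {n τ M Q : ℝ} (hn : 0 < n) (hτ : 0 < τ) (h2 : n ^ 4 / 4 ≤ τ * M)
    (h3 : M ^ 2 ≤ n ^ 2 * Q) : n ^ 6 / (16 * τ ^ 2) ≤ Q := by
  have h5 : (n ^ 4 / 4) ^ 2 ≤ (τ * M) ^ 2 := pow_le_pow_left₀ (by positivity) h2 2
  have h6 : (τ * M) ^ 2 ≤ τ ^ 2 * (n ^ 2 * Q) := by
    rw [mul_pow]
    exact mul_le_mul_of_nonneg_left h3 (by positivity)
  have h7 := h5.trans h6
  rw [div_le_iff₀ (by positivity)]
  have h8 : n ^ 2 * n ^ 6 ≤ n ^ 2 * (Q * (16 * τ ^ 2)) := by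
    have e1 : (n ^ 4 / 4) ^ 2 = n ^ 2 * n ^ 6 / 16 := by ring
    rw [e1] at h7
    linarith
  exact le_of_mul_le_mul_left h8 (by positivity)

theorem mn_a {δ n τ : ℝ} (hδ : 0 < δ) (hn1 : 1 ≤ n) (hτ : 1 ≤ τ) (hτn : τ ≤ n ^ ((2 : ℝ) / 3 - δ)) :
    n ^ ((2 : ℝ) / 3) ≤ n ^ (-(δ / 2)) * (n ^ 2 / τ ^ 2) := by
  have hn0 : 0 < n := by linarith
  have hτ0 : 0 < τ := by linarith
  have npow : ∀ a : ℝ, 0 < n ^ a := fun a => Real.rpow_pos_of_pos hn0 a
  have hτ2 : τ ^ 2 ≤ n ^ ((4 : ℝ) / 3 - 2 * δ) := by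
    calc τ ^ 2 ≤ (n ^ ((2 : ℝ) / 3 - δ)) ^ 2 := pow_le_pow_left₀ hτ0.le hτn 2
      _ = n ^ ((4 : ℝ) / 3 - 2 * δ) := by
        rw [← Real.rpow_natCast, ← Real.rpow_mul hn0.le]
        congr 1
        push_cast
        ring
  rw [← mul_div_assoc, le_div_iff₀ (by positivity)]
  calc n ^ ((2 : ℝ) / 3) * τ ^ 2 ≤ n ^ ((2 : ℝ) / 3) * n ^ ((4 : ℝ) / 3 - 2 * δ) :=
        mul_le_mul_of_nonneg_left hτ2 (npow _).le
    _ = n ^ (2 - 2 * δ) := by rw [← Real.rpow_add hn0]; congr 1; ring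
    _ ≤ n ^ (-(δ / 2) + 2) := Real.rpow_le_rpow_of_exponent_le hn1 (by linarith)
    _ = n ^ (-(δ / 2)) * n ^ 2 := by
      rw [Real.rpow_add hn0]
      congr 1
      exact_mod_cast Real.rpow_natCast n 2

theorem mn_end {δ n τ Q S6 R X : ℝ} (hn0 : 0 < n) (hτ0 : 0 < τ) (hbig : 128 ≤ n ^ (δ / 2))
    (h1 : Q ≤ 4 * τ * S6) (hQl : n ^ 6 / (16 * τ ^ 2) ≤ Q) (hX : X ≤ 1 / (8 * τ) * Q)
    (h4 : S6 ≤ X + R) : n ^ (-(δ / 2)) * (n ^ 6 / τ ^ 3) ≤ R := by
  have h6 : 1 / (8 * τ) * Q ≤ S6 / 2 := by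
    rw [div_mul_eq_mul_div, one_mul, div_le_iff₀ (by positivity)]
    linarith
  have h7 : 1 / (8 * τ) * Q ≤ R := by linarith
  refine le_trans ?_ h7
  have h8 : 1 / (8 * τ) * (n ^ 6 / (16 * τ ^ 2)) ≤ 1 / (8 * τ) * Q :=
    mul_le_mul_of_nonneg_left hQl (by positivity)
  refine le_trans ?_ h8
  have h9 : 1 / (8 * τ) * (n ^ 6 / (16 * τ ^ 2)) = (1 / 128) * (n ^ 6 / τ ^ 3) := by
    field_simp
    ring
  rw [h9]
  apply mul_le_mul_of_nonneg_right _ (by positivity)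
  rw [Real.rpow_neg hn0.le, ← one_div]
  exact one_div_le_one_div_of_le (by norm_num) hbig

theorem main_num (δ : ℝ) (hδ : 0 < δ) : ∃ e : ℝ, 0 < e ∧ e ≤ 1 / 10 ∧ ∀ C Cp : ℝ, 1 ≤ C → 0 < Cp →
    ∃ n0 : ℝ, 1 ≤ n0 ∧ ∀ n τ : ℝ, n0 ≤ n → 1 ≤ τ → τ ≤ n ^ ((2 : ℝ) / 3 - δ) →
    n ^ ((2 : ℝ) / 3) ≤ n ^ (-(δ / 2)) * (n ^ 2 / τ ^ 2) ∧
    ∀ (I : Type) (s : Finset I) (m : I → ℝ) (S6 R : ℝ), (s.card : ℝ) ≤ n ^ 2 →
      (∀ i ∈ s, 0 ≤ m i ∧ m i ≤ n ^ 2) →
      ∑ i ∈ s, m i ^ 2 ≤ 4 * τ * S6 → n ^ 4 / 4 ≤ τ * ∑ i ∈ s, m i →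
      (∑ i ∈ s, m i) ^ 2 ≤ n ^ 2 * ∑ i ∈ s, m i ^ 2 →
      S6 ≤ ∑ i ∈ s, (n ^ e * m i + C * (n ^ e) ^ 3 * (m i ^ (3 / 2 + e) +
        m i * (n ^ (-(δ / 2)) * (n ^ 2 / τ ^ 2) + Cp * τ ^ (1 + e) + n ^ ((2 : ℝ) / 3)))) + R →
      n ^ (-(δ / 2)) * (n ^ 6 / τ ^ 3) ≤ R := by
  have hmin : 0 < min δ 1 := lt_min hδ one_pos
  have hmin1 := min_le_left δ 1
  have hmin2 := min_le_right δ 1
  obtain ⟨e, he⟩ : ∃ e : ℝ, e = min δ 1 / 100 := ⟨_, rfl⟩
  have he0 : 0 < e := by rw [he]; linarith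
  have heδ : e ≤ δ / 100 := by rw [he]; linarith
  have he1 : e ≤ 1 / 100 := by rw [he]; linarith
  refine ⟨e, he0, by linarith, ?_⟩
  clear he hmin hmin1 hmin2
  intro C Cp hC hCp
  have hCC : 0 ≤ C * (3 + Cp) := by positivity
  obtain ⟨n1, hn1, harith⟩ := arith δ hδ (C * (3 + Cp) + 16) (by linarith)
  have hev : ∀ᶠ n : ℝ in Filter.atTop, 128 ≤ n ^ (δ / 2) :=
    (tendsto_rpow_atTop (show 0 < δ / 2 by positivity)).eventually_ge_atTop _
  obtain ⟨n2, hn2⟩ := Filter.eventually_atTop.1 hev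
  refine ⟨max n1 n2, le_trans hn1 (le_max_left _ _), ?_⟩
  intro n τ hn hτ hτn
  have hn1' : n1 ≤ n := le_trans (le_max_left _ _) hn
  have hbig : 128 ≤ n ^ (δ / 2) := hn2 n (le_trans (le_max_right _ _) hn)
  have hn1'' : 1 ≤ n := le_trans hn1 hn1'
  have hn0 : 0 < n := by linarith
  have hτ0 : 0 < τ := by linarith
  have npow : ∀ a : ℝ, 0 < n ^ a := fun a => Real.rpow_pos_of_pos hn0 a
  have ha := mn_a hδ hn1'' hτ hτn
  refine ⟨ha, ?_⟩
  intro I s m S6 R hs hm h1 h2 h3 h4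
  have hm0 : ∀ i ∈ s, 0 ≤ m i := fun i hi => (hm i hi).1
  have hQl := mn_low hn0 hτ0 h2 h3
  have hQl' : n ^ 6 / ((C * (3 + Cp) + 16) * τ ^ 2) ≤ ∑ i ∈ s, m i ^ 2 := by
    refine le_trans ?_ hQl
    apply div_le_div_of_nonneg_left (by positivity) (by positivity)
    apply mul_le_mul_of_nonneg_right _ (by positivity)
    linarith
  have key := harith n τ e hn1' hτ hτn he0 (by linarith) (by linarith) s m hs hm0 hQl'
  have hneg : (-δ / 2 : ℝ) = -(δ / 2) := by ring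
  rw [hneg] at key
  have hh1 : 1 ≤ n ^ (-(δ / 2)) * (n ^ 2 / τ ^ 2) :=
    le_trans (Real.one_le_rpow hn1'' (by norm_num)) ha
  have hτn' : τ ≤ n := by
    calc τ ≤ n ^ ((2 : ℝ) / 3 - δ) := hτn
      _ ≤ n ^ (1 : ℝ) := Real.rpow_le_rpow_of_exponent_le hn1'' (by linarith only [he1, heδ, he0])
      _ = n := Real.rpow_one n
  have hτe : τ ^ (1 + e) ≤ n ^ (δ / 8) * τ := by
    rw [Real.rpow_add hτ0, Real.rpow_one, mul_comm]
    apply mul_le_mul_of_nonneg_right _ hτ0.le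
    calc τ ^ e ≤ n ^ e := Real.rpow_le_rpow hτ0.le hτn' he0.le
      _ ≤ n ^ (δ / 8) := Real.rpow_le_rpow_of_exponent_le hn1'' (by linarith only [heδ, he0])
  have hK3 : (n ^ e) ^ 3 ≤ n ^ (δ / 8) := by
    rw [← Real.rpow_natCast, ← Real.rpow_mul hn0.le]
    exact Real.rpow_le_rpow_of_exponent_le hn1'' (by push_cast; linarith)
  have hK1 : n ^ e ≤ n ^ (δ / 8) := Real.rpow_le_rpow_of_exponent_le hn1'' (by linarith)
  have hsum := Finset.sum_le_sum (fun i hi => mn_term hC hCp hK1 hK3 (pow_nonneg (npow e).le 3)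
    (npow (δ / 8)).le hh1 ha (npow _).le hτe (Real.rpow_nonneg hτ0.le _) (hm0 i hi)
    (Real.rpow_nonneg (hm0 i hi) (3 / 2 + e)))
  have hrhs : ∑ i ∈ s, (C * (3 + Cp) + 16) * n ^ (δ / 8) * (m i ^ (3 / 2 + e) +
        (n ^ (-(δ / 2)) * (n ^ 2 / τ ^ 2) + n ^ (δ / 8) * τ) * m i) =
      (C * (3 + Cp) + 16) * n ^ (δ / 8) * (∑ i ∈ s, m i ^ (3 / 2 + e) +
        (n ^ (-(δ / 2)) * (n ^ 2 / τ ^ 2) + n ^ (δ / 8) * τ) * ∑ i ∈ s, m i) := by
    rw [← Finset.mul_sum, Finset.sum_add_distrib, ← Finset.mul_sum]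
  rw [hrhs] at hsum
  exact mn_end hn0 hτ0 hbig h1 hQl (hsum.trans key) h4

end Vale.Agent.P054.Y.GF
end
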