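import Mathlib
import Vale.Agent.P054.BdN.N7
import Vale.Agent.P054.BdN.N8
import Vale.Agent.P054.BdN.N3
import Vale.Agent.P054.BdN.N1

set_option linter.all false

section

/-! P054, block R: planar sections of a finite set in `ℝ³` (Lemma S).
`ρ(M)` = minimal number of points of `M` off a line. For distinct planes `Π` the sum of
`ρ(M ∩ Π)³` is at most `5 ρ(M)³`. -/

set_option linter.all false
set_option autoImplicit false

namespace Vale.Agent.P054.Y.Sec

open Finset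

abbrev V3 := Fin 3 → ℝ

/-- `a` is off the line through `x` with direction `b` -/
def Off (x b a : V3) : Prop := crossProduct (a - x) b ≠ 0

theorem normal_unique {u v n w : V3} (hw : crossProduct u v ≠ 0)
    (hn : n ≠ 0) (hnu : n ⬝ᵥ u = 0) (hnv : n ⬝ᵥ v = 0) :
    ∃ c : ℝ, c ≠ 0 ∧ n = c • crossProduct u v := by
  set w := crossProduct u v with hwdef
  have hw2 : w ⬝ᵥ w ≠ 0 := by
    intro h
    exact hw (dotProduct_self_eq_zero.1 h)
  have key : ∀ k, (w ⬝ᵥ w) * n k = (n ⬝ᵥ w) * w k := by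
    intro k
    have e0 : w 0 = u 1 * v 2 - u 2 * v 1 := by simp [hwdef, cross_apply]
    have e1 : w 1 = u 2 * v 0 - u 0 * v 2 := by simp [hwdef, cross_apply]
    have e2 : w 2 = u 0 * v 1 - u 1 * v 0 := by simp [hwdef, cross_apply]
    simp only [dotProduct, Fin.sum_univ_three] at hnu hnv ⊢
    fin_cases k
    · simp only [Fin.zero_eta, Fin.isValue]
      rw [e0, e1, e2]
      linear_combination
        ((u 2 * v 0 - u 0 * v 2) * u 2 - (u 0 * v 1 - u 1 * v 0) * u 1) * hnv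
        - ((u 2 * v 0 - u 0 * v 2) * v 2 - (u 0 * v 1 - u 1 * v 0) * v 1) * hnu
    · simp only [Fin.mk_one, Fin.isValue]
      rw [e0, e1, e2]
      linear_combination
        ((u 0 * v 1 - u 1 * v 0) * u 0 - (u 1 * v 2 - u 2 * v 1) * u 2) * hnv
        - ((u 0 * v 1 - u 1 * v 0) * v 0 - (u 1 * v 2 - u 2 * v 1) * v 2) * hnu
    · simp only [Fin.reduceFinMk, Fin.isValue]
      rw [e0, e1, e2]
      linear_combination
        ((u 1 * v 2 - u 2 * v 1) * u 1 - (u 2 * v 0 - u 0 * v 2) * u 0) * hnv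
        - ((u 1 * v 2 - u 2 * v 1) * v 1 - (u 2 * v 0 - u 0 * v 2) * v 0) * hnu
  have hn' : n = ((n ⬝ᵥ w) / (w ⬝ᵥ w)) • w := by
    funext k
    have := key k
    simp only [Pi.smul_apply, smul_eq_mul]
    field_simp
    linarith
  refine ⟨(n ⬝ᵥ w) / (w ⬝ᵥ w), ?_, hn'⟩
  intro h0
  apply hn
  rw [hn', h0, zero_smul]

/-- two planes with three common non collinear points coincide -/
theorem plane_unique {n m x y z : V3} {d e : ℝ} (hn : n ≠ 0) (hm : m ≠ 0)
    (h : crossProduct (z - x) (y - x) ≠ 0)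
    (hx : n ⬝ᵥ x = d) (hy : n ⬝ᵥ y = d) (hz : n ⬝ᵥ z = d)
    (hx' : m ⬝ᵥ x = e) (hy' : m ⬝ᵥ y = e) (hz' : m ⬝ᵥ z = e) :
    {a : V3 | n ⬝ᵥ a = d} = {a : V3 | m ⬝ᵥ a = e} := by
  obtain ⟨c, hc, hcn⟩ := normal_unique (w := 0) h hn
    (by rw [dotProduct_sub, hz, hx, sub_self]) (by rw [dotProduct_sub, hy, hx, sub_self])
  obtain ⟨c', hc', hcm⟩ := normal_unique (w := 0) h hm
    (by rw [dotProduct_sub, hz', hx', sub_self]) (by rw [dotProduct_sub, hy', hx', sub_self])
  set w := crossProduct (z - x) (y - x)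
  ext a
  simp only [Set.mem_setOf_eq]
  rw [← hx, ← hx', hcn, hcm]
  simp only [smul_dotProduct, smul_eq_mul]
  constructor
  · intro h1
    rw [mul_left_cancel₀ hc h1]
  · intro h1
    rw [mul_left_cancel₀ hc' h1]

open scoped Classical in
/-- ordered non collinear triples of `N` -/
noncomputable def tri (N : Finset V3) : Finset (V3 × V3 × V3) :=
  (N ×ˢ N ×ˢ N).filter (fun t => Off t.1 (t.2.1 - t.1) t.2.2)

theorem on_line {x0 b0 p : V3} (hb0 : b0 ≠ 0) (hp : crossProduct (p - x0) b0 = 0) :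
    ∃ t : ℝ, p = x0 + t • b0 := by
  have c0 : (p 1 - x0 1) * b0 2 - (p 2 - x0 2) * b0 1 = 0 := by
    have := congrFun hp 0
    rw [cross_apply] at this
    exact this
  have c1 : (p 2 - x0 2) * b0 0 - (p 0 - x0 0) * b0 2 = 0 := by
    have := congrFun hp 1
    rw [cross_apply] at this
    exact this
  have c2 : (p 0 - x0 0) * b0 1 - (p 1 - x0 1) * b0 0 = 0 := by
    have := congrFun hp 2
    rw [cross_apply] at this
    exact this
  have hbb : b0 0 * b0 0 + b0 1 * b0 1 + b0 2 * b0 2 ≠ 0 := by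
    intro h
    apply hb0
    apply dotProduct_self_eq_zero.1
    rw [dotProduct, Fin.sum_univ_three]
    exact h
  set t : ℝ := ((p 0 - x0 0) * b0 0 + (p 1 - x0 1) * b0 1 + (p 2 - x0 2) * b0 2) /
    (b0 0 * b0 0 + b0 1 * b0 1 + b0 2 * b0 2) with ht
  have htt : t * (b0 0 * b0 0 + b0 1 * b0 1 + b0 2 * b0 2) =
      (p 0 - x0 0) * b0 0 + (p 1 - x0 1) * b0 1 + (p 2 - x0 2) * b0 2 := by
    rw [ht, div_mul_cancel₀ _ hbb]
  refine ⟨t, ?_⟩
  have hj : ∀ j, (b0 0 * b0 0 + b0 1 * b0 1 + b0 2 * b0 2) * p j =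
      (b0 0 * b0 0 + b0 1 * b0 1 + b0 2 * b0 2) * (x0 + t • b0) j := by
    intro j
    simp only [Pi.add_apply, Pi.smul_apply, smul_eq_mul]
    fin_cases j
    · simp only [Fin.zero_eta, Fin.isValue]
      linear_combination (b0 1) * c2 - (b0 2) * c1 - b0 0 * htt
    · simp only [Fin.mk_one, Fin.isValue]
      linear_combination (b0 2) * c0 - (b0 0) * c2 - b0 1 * htt
    · simp only [Fin.reduceFinMk, Fin.isValue]
      linear_combination (b0 0) * c1 - (b0 1) * c0 - b0 2 * htt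
  funext j
  exact mul_left_cancel₀ hbb (hj j)

theorem off_self {x b : V3} : ¬ Off x b x := by
  simp [Off]

open scoped Classical in
theorem tri_lower (N : Finset V3) (r : ℕ) (hr : 1 ≤ r)
    (h : ∀ x b : V3, b ≠ 0 → r ≤ (N.filter (Off x b)).card) :
    (r + 1) * r * r ≤ (tri N).card := by
  have hN : r + 1 ≤ N.card := by
    have h0 := h 0 (fun _ => 1) (by intro h; have := congrFun h 0; simp at this)
    have hne : N.Nonempty := by
      rw [← Finset.card_pos]
      exact lt_of_lt_of_le (lt_of_lt_of_le Nat.zero_lt_one (le_trans hr h0))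
        (Finset.card_le_card (Finset.filter_subset _ _))
    obtain ⟨x, hx⟩ := hne
    have h1 := h x (fun _ => 1) (by intro h; have := congrFun h 0; simp at this)
    have h2 : (N.filter (Off x (fun _ => 1))).card ≤ (N.erase x).card := by
      apply Finset.card_le_card
      intro a ha
      rw [Finset.mem_filter] at ha
      rw [Finset.mem_erase]
      refine ⟨?_, ha.1⟩
      rintro rfl
      exact off_self ha.2
    rw [Finset.card_erase_of_mem hx] at h2
    have : 0 < N.card := Finset.card_pos.2 ⟨x, hx⟩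
    omega
  have hsig : (tri N).card = ∑ x ∈ N, ∑ y ∈ N, (N.filter (Off x (y - x))).card := by
    rw [tri, Finset.card_filter, Finset.sum_product]
    refine Finset.sum_congr rfl (fun x _ => ?_)
    rw [Finset.sum_product]
    refine Finset.sum_congr rfl (fun y _ => ?_)
    rw [Finset.card_filter]
  rw [hsig]
  have hx : ∀ x ∈ N, r * r ≤ ∑ y ∈ N, (N.filter (Off x (y - x))).card := by
    intro x hx
    calc r * r ≤ (N.erase x).card * r := by
          apply Nat.mul_le_mul_right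
          rw [Finset.card_erase_of_mem hx]
          omega
      _ = ∑ y ∈ N.erase x, r := by simp
      _ ≤ ∑ y ∈ N.erase x, (N.filter (Off x (y - x))).card := by
          refine Finset.sum_le_sum (fun y hy => h x (y - x) ?_)
          rw [Finset.mem_erase] at hy
          exact sub_ne_zero.2 hy.1
      _ ≤ ∑ y ∈ N, (N.filter (Off x (y - x))).card :=
          Finset.sum_le_sum_of_subset (Finset.erase_subset _ _)
  calc (r + 1) * r * r = (r + 1) * (r * r) := by ring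
    _ ≤ N.card * (r * r) := Nat.mul_le_mul_right _ hN
    _ = ∑ x ∈ N, r * r := by simp
    _ ≤ _ := Finset.sum_le_sum hx

theorem cube_sum_le {ι : Type*} (I : Finset ι) (f : ι → ℕ) :
    ∑ i ∈ I, f i ^ 3 ≤ (∑ i ∈ I, f i) ^ 3 := by
  classical
  induction I using Finset.induction_on with
  | empty => simp
  | insert a s ha ih =>
    rw [Finset.sum_insert ha, Finset.sum_insert ha]
    have : f a ^ 3 + (∑ i ∈ s, f i) ^ 3 ≤ (f a + ∑ i ∈ s, f i) ^ 3 := by
      have : (f a + ∑ i ∈ s, f i) ^ 3 = f a ^ 3 + (∑ i ∈ s, f i) ^ 3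
        + 3 * f a * (∑ i ∈ s, f i) * (f a + ∑ i ∈ s, f i) := by ring
      omega
    omega

open scoped Classical in
/-- **Lemma S** (planar sections). `M` has at most `ρ` points off the line through `x0` with
direction `b0`; the planes `{n i · y = d i}` are pairwise different and every line misses at least
`k i ≥ 2` points of `M` in the plane. Then `∑ (k i)^3 ≤ 5 ρ^3`. -/
theorem sections (M : Finset V3) (x0 b0 : V3) (hb0 : b0 ≠ 0) (ρ : ℕ)
    (hρ : (M.filter (Off x0 b0)).card ≤ ρ)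
    {ι : Type*} (I : Finset ι) (n : ι → V3) (d : ι → ℝ) (k : ι → ℕ)
    (hn : ∀ i ∈ I, n i ≠ 0)
    (hinj : ∀ i ∈ I, ∀ j ∈ I, {a : V3 | n i ⬝ᵥ a = d i} = {a : V3 | n j ⬝ᵥ a = d j} → i = j)
    (hk2 : ∀ i ∈ I, 2 ≤ k i)
    (hk : ∀ i ∈ I, ∀ x b : V3, b ≠ 0 →
      k i ≤ ((M.filter (fun a => n i ⬝ᵥ a = d i)).filter (Off x b)).card) :
    ∑ i ∈ I, k i ^ 3 ≤ 5 * ρ ^ 3 := by
  set W := M.filter (Off x0 b0) with hW
  set P : ι → Finset V3 := fun i => W.filter (fun a => n i ⬝ᵥ a = d i) with hP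
  set A := I.filter (fun i => n i ⬝ᵥ x0 = d i ∧ n i ⬝ᵥ b0 = 0) with hA
  set Bd := I.filter (fun i => ¬ (n i ⬝ᵥ x0 = d i ∧ n i ⬝ᵥ b0 = 0)) with hBd
  -- planes through the line
  have h1 : ∑ i ∈ A, k i ^ 3 ≤ ρ ^ 3 := by
    have hle : ∀ i ∈ A, k i ≤ (P i).card := by
      intro i hi
      have hi' := (Finset.mem_filter.1 hi).1
      refine le_trans (hk i hi' x0 b0 hb0) (Finset.card_le_card ?_)
      intro a ha
      simp only [hP, hW, Finset.mem_filter] at ha ⊢
      exact ⟨⟨ha.1.1, ha.2⟩, ha.1.2⟩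
    have hdisj : ∀ i ∈ A, ∀ j ∈ A, i ≠ j → Disjoint (P i) (P j) := by
      intro i hi j hj hij
      rw [Finset.disjoint_left]
      intro a hai haj
      obtain ⟨hi1, hi2, hi3⟩ := Finset.mem_filter.1 hi
      obtain ⟨hj1, hj2, hj3⟩ := Finset.mem_filter.1 hj
      simp only [hP, hW, Finset.mem_filter] at hai haj
      apply hij
      apply hinj i hi1 j hj1
      have hoff : crossProduct (a - x0) ((x0 + b0) - x0) ≠ 0 := by
        have : (x0 + b0) - x0 = b0 := by abel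
        rw [this]
        exact hai.1.2
      refine plane_unique (hn i hi1) (hn j hj1) hoff hi2 ?_ hai.2 hj2 ?_ haj.2
      · rw [dotProduct_add, hi2, hi3, add_zero]
      · rw [dotProduct_add, hj2, hj3, add_zero]
    calc ∑ i ∈ A, k i ^ 3 ≤ ∑ i ∈ A, (P i).card ^ 3 :=
          Finset.sum_le_sum (fun i hi => Nat.pow_le_pow_left (hle i hi) 3)
      _ ≤ (∑ i ∈ A, (P i).card) ^ 3 := cube_sum_le A _
      _ = (A.biUnion P).card ^ 3 := by
          rw [Finset.card_biUnion hdisj]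
      _ ≤ ρ ^ 3 := by
          apply Nat.pow_le_pow_left
          refine le_trans (Finset.card_le_card ?_) hρ
          intro a ha
          rw [Finset.mem_biUnion] at ha
          obtain ⟨i, _, hai⟩ := ha
          exact (Finset.mem_filter.1 hai).1
  -- planes which do not contain the line
  have h2 : ∑ i ∈ Bd, k i ^ 3 ≤ 4 * ρ ^ 3 := by
    have hle : ∀ i ∈ Bd, k i ^ 3 ≤ 4 * (tri (P i)).card := by
      intro i hi
      obtain ⟨hi1, hi2⟩ := Finset.mem_filter.1 hi
      have hk2i := hk2 i hi1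
      have hlow : ∀ x b : V3, b ≠ 0 → k i - 1 ≤ ((P i).filter (Off x b)).card := by
        intro x b hb
        have h3 := hk i hi1 x b hb
        set S := (M.filter (fun a => n i ⬝ᵥ a = d i)).filter (Off x b) with hS
        set T := (M.filter (fun a => n i ⬝ᵥ a = d i)).filter (fun a => ¬ Off x0 b0 a) with hT
        have hT1 : T.card ≤ 1 := by
          rw [Finset.card_le_one]
          intro a ha c hc
          simp only [hT, Finset.mem_filter, Off, not_not] at ha hc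
          by_contra hac
          apply hi2
          -- two different points of the line in the plane
          have hpar : ∀ p : V3, crossProduct (p - x0) b0 = 0 → ∃ t : ℝ, p = x0 + t • b0 :=
            fun p hp => on_line hb0 hp
          obtain ⟨t, rfl⟩ := hpar a ha.2
          obtain ⟨s, rfl⟩ := hpar c hc.2
          have hts : t - s ≠ 0 := by
            intro h
            apply hac
            rw [sub_eq_zero.1 h]
          have ea := ha.1.2
          have ec := hc.1.2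
          rw [dotProduct_add, dotProduct_smul, smul_eq_mul] at ea ec
          have hz : (t - s) * (n i ⬝ᵥ b0) = 0 := by linarith
          have hnb : n i ⬝ᵥ b0 = 0 := by
            rcases mul_eq_zero.1 hz with h | h
            · exact absurd h hts
            · exact h
          refine ⟨?_, hnb⟩
          rw [hnb, mul_zero, add_zero] at ea
          exact ea
        have hST : S ⊆ (P i).filter (Off x b) ∪ T := by
          intro a ha
          simp only [hS, hT, hP, hW, Finset.mem_union, Finset.mem_filter] at ha ⊢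
          by_cases hoa : Off x0 b0 a
          · exact Or.inl ⟨⟨⟨ha.1.1, hoa⟩, ha.1.2⟩, ha.2⟩
          · exact Or.inr ⟨ha.1, hoa⟩
        have h4 := le_trans (Finset.card_le_card hST) (Finset.card_union_le _ _)
        omega
      have h5 := tri_lower (P i) (k i - 1) (by omega) hlow
      obtain ⟨m, hm⟩ : ∃ m, k i = m + 2 := ⟨k i - 2, by omega⟩
      rw [hm] at h5 ⊢
      have h6 : (m + 2 - 1 + 1) * (m + 2 - 1) * (m + 2 - 1) = (m + 2) * (m + 1) * (m + 1) := by
        have : m + 2 - 1 = m + 1 := by omega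
        rw [this]
      rw [h6] at h5
      nlinarith [h5, Nat.zero_le m, Nat.zero_le (m * m), Nat.zero_le (m * m * m)]
    have hdisj : ∀ i ∈ Bd, ∀ j ∈ Bd, i ≠ j → Disjoint (tri (P i)) (tri (P j)) := by
      intro i hi j hj hij
      rw [Finset.disjoint_left]
      rintro ⟨x, y, z⟩ hai haj
      have hi1 := (Finset.mem_filter.1 hi).1
      have hj1 := (Finset.mem_filter.1 hj).1
      simp only [tri, hP, Finset.mem_filter, Finset.mem_product] at hai haj
      apply hij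
      apply hinj i hi1 j hj1
      exact plane_unique (hn i hi1) (hn j hj1) hai.2 hai.1.1.2 hai.1.2.1.2 hai.1.2.2.2
        haj.1.1.2 haj.1.2.1.2 haj.1.2.2.2
    calc ∑ i ∈ Bd, k i ^ 3 ≤ ∑ i ∈ Bd, 4 * (tri (P i)).card := Finset.sum_le_sum hle
      _ = 4 * (Bd.biUnion (fun i => tri (P i))).card := by
          rw [Finset.card_biUnion hdisj, Finset.mul_sum]
      _ ≤ 4 * (W ×ˢ W ×ˢ W).card := by
          apply Nat.mul_le_mul_left
          apply Finset.card_le_card
          intro a ha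
          rw [Finset.mem_biUnion] at ha
          obtain ⟨i, _, hai⟩ := ha
          simp only [tri, hP, Finset.mem_filter, Finset.mem_product] at hai
          simp only [Finset.mem_product]
          exact ⟨hai.1.1.1, hai.1.2.1.1, hai.1.2.2.1⟩
      _ = 4 * W.card ^ 3 := by
          rw [Finset.card_product, Finset.card_product]; ring
      _ ≤ 4 * ρ ^ 3 := Nat.mul_le_mul_left _ (Nat.pow_le_pow_left hρ 3)
  have hsplit : ∑ i ∈ I, k i ^ 3 = ∑ i ∈ A, k i ^ 3 + ∑ i ∈ Bd, k i ^ 3 :=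
    (Finset.sum_filter_add_sum_filter_not I _ _).symm
  rw [hsplit]
  omega

/-- numerical consequence, non comparable sections (`A k i ≤ ρ`): gain `A^(-η)` -/
theorem gain {ι : Type*} (I : Finset ι) (k : ι → ℕ) (ρ : ℕ) (h : ∑ i ∈ I, k i ^ 3 ≤ 5 * ρ ^ 3)
    {η A : ℝ} (hη : 0 ≤ η) (hA : 0 < A) (hk : ∀ i ∈ I, A * (k i : ℝ) ≤ ρ) :
    ∑ i ∈ I, (k i : ℝ) ^ (3 + η) ≤ 5 * A ^ (-η) * (ρ : ℝ) ^ (3 + η) := by
  have h' : ∑ i ∈ I, (k i : ℝ) ^ 3 ≤ 5 * (ρ : ℝ) ^ 3 := by exact_mod_cast h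
  have hρA : 0 ≤ (ρ : ℝ) / A := by positivity
  have hpow : ∀ x : ℝ, 0 ≤ x → x ^ (3 + η) = x ^ 3 * x ^ η := by
    intro x hx
    rw [Real.rpow_add_of_nonneg hx (by norm_num) hη]
    congr 1
    exact_mod_cast Real.rpow_natCast x 3
  calc ∑ i ∈ I, (k i : ℝ) ^ (3 + η) ≤ ∑ i ∈ I, (k i : ℝ) ^ 3 * ((ρ : ℝ) / A) ^ η := by
        refine Finset.sum_le_sum (fun i hi => ?_)
        rw [hpow _ (Nat.cast_nonneg _)]
        refine mul_le_mul_of_nonneg_left ?_ (by positivity)
        refine Real.rpow_le_rpow (Nat.cast_nonneg _) ?_ hη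
        rw [le_div_iff₀ hA]
        linarith [hk i hi]
    _ = (∑ i ∈ I, (k i : ℝ) ^ 3) * ((ρ : ℝ) / A) ^ η := by rw [Finset.sum_mul]
    _ ≤ (5 * (ρ : ℝ) ^ 3) * ((ρ : ℝ) / A) ^ η :=
        mul_le_mul_of_nonneg_right h' (Real.rpow_nonneg hρA _)
    _ = 5 * A ^ (-η) * (ρ : ℝ) ^ (3 + η) := by
        rw [hpow _ (Nat.cast_nonneg _), Real.div_rpow (Nat.cast_nonneg _) hA.le,
          Real.rpow_neg hA.le]
        ring

/-- numerical consequence, comparable sections (`ρ ≤ A k i`): at most `5 A^3` of them -/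
theorem few {ι : Type*} (I : Finset ι) (k : ι → ℕ) (ρ : ℕ) (h : ∑ i ∈ I, k i ^ 3 ≤ 5 * ρ ^ 3)
    (hρ : 0 < ρ) (A : ℕ) (hk : ∀ i ∈ I, ρ ≤ A * k i) : I.card ≤ 5 * A ^ 3 := by
  have h1 : I.card * ρ ^ 3 ≤ (5 * A ^ 3) * ρ ^ 3 := by
    calc I.card * ρ ^ 3 = ∑ i ∈ I, ρ ^ 3 := by simp
      _ ≤ ∑ i ∈ I, A ^ 3 * k i ^ 3 := by
          refine Finset.sum_le_sum (fun i hi => ?_)
          rw [← mul_pow]
          exact Nat.pow_le_pow_left (hk i hi) 3
      _ = A ^ 3 * ∑ i ∈ I, k i ^ 3 := by rw [Finset.mul_sum]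
      _ ≤ A ^ 3 * (5 * ρ ^ 3) := Nat.mul_le_mul_left _ h
      _ = _ := by ring
  exact Nat.le_of_mul_le_mul_right h1 (by positivity)

/-- `V` numbers: `(∑ x_i)^(3+η) ≤ V^(2+η) ∑ x_i^(3+η)` -/
theorem power_mean {ι : Type*} (I : Finset ι) (x : ι → ℝ) (hx : ∀ i ∈ I, 0 ≤ x i)
    {η : ℝ} (hη : 0 ≤ η) :
    (∑ i ∈ I, x i) ^ (3 + η) ≤ (I.card : ℝ) ^ (2 + η) * ∑ i ∈ I, x i ^ (3 + η) := by
  have h := Real.rpow_sum_le_const_mul_sum_rpow_of_nonneg I (p := 3 + η) (by linarith) hx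
  have e : (3 + η) - 1 = 2 + η := by ring
  rw [e] at h
  exact h

end Vale.Agent.P054.Y.Sec
end

section

/-! P054, block R: the functional with weight `ρ ^ (3 + η)` and the absorption inequality. -/

set_option linter.all false
set_option autoImplicit false

namespace Vale.Agent.P054.R

open Finset Matrix

/-- truncated weight -/
noncomputable def wt (η : ℝ) (K1 : ℕ) (S : Finset V3) : ℝ :=
  if K1 ≤ rho S then ((rho S : ℕ) : ℝ) ^ (3 + η) else 0

theorem wt_nonneg (η : ℝ) (K1 : ℕ) (S : Finset V3) : 0 ≤ wt η K1 S := by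
  unfold wt
  split_ifs
  · positivity
  · exact le_rfl

noncomputable def Re (η : ℝ) (K1 : ℕ) (G : Finset Iso) (X Y : Finset V3) : ℝ :=
  ∑ g ∈ G, wt η K1 (M g X Y)

theorem Re_nonneg (η : ℝ) (K1 : ℕ) (G : Finset Iso) (X Y : Finset V3) : 0 ≤ Re η K1 G X Y :=
  Finset.sum_nonneg (fun g _ => wt_nonneg _ _ _)

/-- all isometries with non collinear match -/
noncomputable def GF (X Y : Finset V3) : Finset Iso := (finite_iso X Y).toFinset

theorem mem_GF {X Y : Finset V3} {g : Iso} : g ∈ GF X Y ↔ Orth g ∧ 1 ≤ rho (M g X Y) := by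
  unfold GF
  rw [Set.Finite.mem_toFinset]
  rfl

theorem Re_le_full {η : ℝ} {K1 : ℕ} (hK : 1 ≤ K1) (X Y : Finset V3) (G : Finset Iso)
    (hG : ∀ g ∈ G, Orth g) : Re η K1 G X Y ≤ Re η K1 (GF X Y) X Y := by
  classical
  unfold Re
  have h1 : ∑ g ∈ G, wt η K1 (M g X Y) = ∑ g ∈ G.filter (fun g => K1 ≤ rho (M g X Y)), wt η K1 (M g X Y) := by
    rw [Finset.sum_filter]
    apply Finset.sum_congr rfl
    intro g hg
    split_ifs with h
    · rfl
    · unfold wt; rw [if_neg h]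
  rw [h1]
  apply Finset.sum_le_sum_of_subset_of_nonneg
  · intro g hg
    rw [Finset.mem_filter] at hg
    exact mem_GF.2 ⟨hG g hg.1, hK.trans hg.2⟩
  · intro g _ _
    exact wt_nonneg _ _ _

open scoped Classical in
theorem off_eq (S : Finset V3) (x b : V3) :
    off S x b = (S.filter (Vale.Agent.P054.Y.Sec.Off x b)).card := by
  unfold off
  exact congrArg Finset.card (Finset.filter_congr (fun a _ => Iff.rfl))

open scoped Classical in
theorem absorb_sum {η A : ℝ} (hη : 0 ≤ η) (hA : 0 < A) (K1 : ℕ) (hK1 : 1 ≤ K1) (X Y : Finset V3)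
    (G : Finset Iso) (n : Iso → V3) (d : Iso → ℝ) (k : Iso → ℕ)
    (hG : ∀ g ∈ G, Orth g ∧ n g ≠ 0 ∧ 2 ≤ k g ∧ A * (k g : ℝ) ≤ rho (M (prt g (n g) (d g)) X Y) ∧
      K1 ≤ rho (M (prt g (n g) (d g)) X Y) ∧ ∀ x b : V3, b ≠ 0 →
        k g ≤ (((M g X Y).filter (fun a => n g ⬝ᵥ a = d g)).filter (Vale.Agent.P054.Y.Sec.Off x b)).card) :
    ∑ g ∈ G, ((k g : ℕ) : ℝ) ^ (3 + η) ≤ 5 * A ^ (-η) * Re η K1 (GF X Y) X Y := by
  set f : Iso → Iso := fun g => prt g (n g) (d g) with hf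
  have h1 : ∑ g ∈ G, ((k g : ℕ) : ℝ) ^ (3 + η)
      = ∑ h ∈ G.image f, ∑ g ∈ G.filter (fun g => f g = h), ((k g : ℕ) : ℝ) ^ (3 + η) :=
    (Finset.sum_fiberwise_of_maps_to (fun g hg => Finset.mem_image_of_mem f hg) _).symm
  rw [h1]
  have h2 : ∀ h ∈ G.image f, ∑ g ∈ G.filter (fun g => f g = h), ((k g : ℕ) : ℝ) ^ (3 + η)
      ≤ 5 * A ^ (-η) * wt η K1 (M h X Y) := by
    intro h hh
    obtain ⟨g0, hg0, rfl⟩ := Finset.mem_image.1 hh
    have hK : K1 ≤ rho (M (f g0) X Y) := (hG g0 hg0).2.2.2.2.1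
    have hw : wt η K1 (M (f g0) X Y) = ((rho (M (f g0) X Y) : ℕ) : ℝ) ^ (3 + η) := by
      unfold wt; rw [if_pos hK]
    rw [hw]
    obtain ⟨x0, b0, hb0, hoff⟩ := rho_spec (M (f g0) X Y)
    apply Vale.Agent.P054.Y.Sec.gain _ _ _ _ hη hA
    · intro g hg
      rw [Finset.mem_filter] at hg
      rw [← hg.2]
      exact (hG g hg.1).2.2.2.1
    · apply Vale.Agent.P054.Y.Sec.sections (M (f g0) X Y) x0 b0 hb0 (rho (M (f g0) X Y))
        (le_of_eq (by rw [← hoff, off_eq])) _ n d k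
      · intro g hg
        rw [Finset.mem_filter] at hg
        exact (hG g hg.1).2.1
      · intro g hg g' hg' heq
        rw [Finset.mem_filter] at hg hg'
        have e1 : prt (f g0) (n g) (d g) = g := by
          rw [← hg.2]
          exact prt_prt g (n g) (d g) (hG g hg.1).2.1
        have e2 : prt (f g0) (n g') (d g') = g' := by
          rw [← hg'.2]
          exact prt_prt g' (n g') (d g') (hG g' hg'.1).2.1
        rw [← e1, ← e2]
        apply prt_congr _ (hG g hg.1).2.1 (hG g' hg'.1).2.1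
        intro a
        exact Set.ext_iff.1 heq a
      · intro g hg
        rw [Finset.mem_filter] at hg
        exact (hG g hg.1).2.2.1
      · intro g hg x b hb
        rw [Finset.mem_filter] at hg
        have h3 := (hG g hg.1).2.2.2.2.2 x b hb
        have h4 : (M (f g0) X Y).filter (fun a => n g ⬝ᵥ a = d g)
            = (M g X Y).filter (fun a => n g ⬝ᵥ a = d g) := by
          rw [← hg.2]
          ext a
          rw [Finset.mem_filter, Finset.mem_filter]
          constructor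
          · rintro ⟨h5, h6⟩
            exact ⟨(M_prt_plane g (hG g hg.1).2.1 X Y h6).1 h5, h6⟩
          · rintro ⟨h5, h6⟩
            exact ⟨(M_prt_plane g (hG g hg.1).2.1 X Y h6).2 h5, h6⟩
        rw [h4]
        exact h3
  calc _ ≤ ∑ h ∈ G.image f, 5 * A ^ (-η) * wt η K1 (M h X Y) := Finset.sum_le_sum h2
    _ = 5 * A ^ (-η) * Re η K1 (G.image f) X Y := by
        unfold Re
        rw [Finset.mul_sum]
    _ ≤ _ := by
        apply mul_le_mul_of_nonneg_left _ (by positivity)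
        apply Re_le_full hK1
        intro h hh
        obtain ⟨g, hg, rfl⟩ := Finset.mem_image.1 hh
        exact orth_prt (hG g hg).1 _ _ (hG g hg).2.1

end Vale.Agent.P054.R
end

section

/-! P054, block R, ND: partition into pieces; either the non dominated pieces carry a rich isometry
or it has two rich lines. -/

set_option linter.all false
set_option autoImplicit false

namespace Vale.Agent.P054.R

open Finset Matrix

/-- truncated cube of `rho` -/
noncomputable def rK (K1 : ℕ) (S : Finset V3) : ℕ := if K1 ≤ rho S then rho S else 0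

theorem on_mono {S T : Finset V3} (h : S ⊆ T) (x b : V3) : on S x b ≤ on T x b := by
  classical
  unfold on
  exact Finset.card_le_card (Finset.filter_subset_filter _ h)

open scoped Classical in
theorem nd (K1 B : ℕ) (hB : 1 ≤ B) (X Y : Finset V3) (hX : B ≤ X.card) (hY : B ≤ Y.card) :
    ∃ Xc Yc : ℕ → Finset V3, (∀ i, B * (Xc i).card ≤ 2 * X.card) ∧
      (∀ j, B * (Yc j).card ≤ 2 * Y.card) ∧
      ∀ g : Iso, Orth g → 8 * (500 * (B + 1)) * K1 ≤ rho (M g X Y) → 1 ≤ rho (M g X Y) →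
        (∃ Vis : Finset (ℕ × ℕ), Vis ⊆ Finset.range (B + 1) ×ˢ Finset.range (B + 1) ∧
          Vis.card ≤ 500 * (B + 1) ∧
          rho (M g X Y) ≤ 8 * ∑ v ∈ Vis, rK K1 (M g (Xc v.1) (Yc v.2))) ∨
        ∃ x1 b1 x2 b2 : V3, b1 ≠ 0 ∧ b2 ≠ 0 ∧ DiffL x1 b1 x2 b2 ∧
          rho (M g X Y) ≤ 4 * (500 * (B + 1)) * on (M g X Y) x1 b1 ∧
          rho (M g X Y) ≤ 4 * (500 * (B + 1)) * on (M g X Y) x2 b2 := by
  have hcard : ∀ (Z : Finset V3), B ≤ Z.card →
      Z.card / (Z.card / B + 1) ≤ B ∧ B * (Z.card / B + 1) ≤ 2 * Z.card := by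
    intro Z hZ
    have h1 : 1 ≤ Z.card / B := (Nat.one_le_div_iff (by omega)).2 hZ
    have h2 : B * (Z.card / B) ≤ Z.card := Nat.mul_div_le _ _
    constructor
    · apply Nat.div_le_of_le_mul
      have h3 := Nat.lt_mul_div_succ Z.card (show 0 < B by omega)
      calc Z.card ≤ B * (Z.card / B + 1) := h3.le
        _ = (Z.card / B + 1) * B := by ring
    · nlinarith
  obtain ⟨lX, lY, hlX, hlY, hfX, hfY, hcross⟩ := Vale.Agent.P054.Y.ZO.zorder X Y (X.card / B + 1) (Y.card / B + 1)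
    (Nat.succ_pos _) (Nat.succ_pos _)
  refine ⟨fun i => X.filter (fun x => lX x = i), fun j => Y.filter (fun y => lY y = j), ?_, ?_, ?_⟩
  · intro i
    calc _ ≤ B * (X.card / B + 1) := Nat.mul_le_mul_left _ (hfX i)
      _ ≤ _ := (hcard X hX).2
  · intro j
    calc _ ≤ B * (Y.card / B + 1) := Nat.mul_le_mul_left _ (hfY j)
      _ ≤ _ := (hcard Y hY).2
  intro g hg hK hρ1
  set V := 500 * (B + 1) with hV
  set ρ := rho (M g X Y) with hρ
  by_cases htwo : ∃ x1 b1 x2 b2 : V3, b1 ≠ 0 ∧ b2 ≠ 0 ∧ DiffL x1 b1 x2 b2 ∧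
          ρ ≤ 4 * V * on (M g X Y) x1 b1 ∧ ρ ≤ 4 * V * on (M g X Y) x2 b2
  · exact Or.inr htwo
  left
  obtain ⟨x0, b0, hb0, hoff⟩ := rho_spec (M g X Y)
  rw [← hρ] at hoff
  set N := (M g X Y).filter (fun a => ¬ OnL x0 b0 a) with hN
  have hNc : N.card = ρ := hoff
  set Vis := ((M g X Y).image (fun x => (x, act g x))).image (fun p => (lX p.1, lY p.2)) with hVis
  have hVc : Vis.card ≤ V := by
    have h1 := hcross ((M g X Y).image (fun x => (x, act g x))) (by
      intro p hp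
      rw [Finset.mem_image] at hp
      obtain ⟨x, hx, rfl⟩ := hp
      unfold M at hx
      rw [Finset.mem_filter] at hx
      exact hx) (by
      intro p hp q hq
      rw [Finset.mem_image] at hp hq
      obtain ⟨x, hx, rfl⟩ := hp
      obtain ⟨y, hy, rfl⟩ := hq
      exact (act_dist hg x y).symm)
    have h2 := (hcard X hX).1
    have h3 := (hcard Y hY).1
    calc Vis.card ≤ _ := h1
      _ ≤ V := by rw [hV]; omega
  have hVsub : Vis ⊆ Finset.range (B + 1) ×ˢ Finset.range (B + 1) := by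
    intro v hv
    rw [hVis, Finset.mem_image] at hv
    obtain ⟨p, hp, rfl⟩ := hv
    rw [Finset.mem_image] at hp
    obtain ⟨x, hx, rfl⟩ := hp
    unfold M at hx
    rw [Finset.mem_filter] at hx
    rw [Finset.mem_product, Finset.mem_range, Finset.mem_range]
    have h1 := hlX x hx.1
    have h2 := hlY _ hx.2
    have h3 := (hcard X hX).1
    have h4 := (hcard Y hY).1
    simp only
    omega
  set P : ℕ × ℕ → Finset V3 := fun v => N.filter (fun x => (lX x, lY (act g x)) = v) with hP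
  have hsum : ρ = ∑ v ∈ Vis, (P v).card := by
    rw [← hNc]
    apply Finset.card_eq_sum_card_fiberwise
    intro x hx
    have hx' : x ∈ N := hx
    rw [hN, Finset.mem_filter] at hx'
    rw [Finset.mem_coe, hVis, Finset.mem_image]
    exact ⟨(x, act g x), Finset.mem_image_of_mem _ hx'.1, rfl⟩
  have hPsub : ∀ v, P v ⊆ M g (X.filter (fun x => lX x = v.1)) (Y.filter (fun y => lY y = v.2)) := by
    intro v x hx
    rw [hP, Finset.mem_filter, hN, Finset.mem_filter] at hx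
    obtain ⟨⟨h1, -⟩, h2⟩ := hx
    unfold M at h1 ⊢
    rw [Finset.mem_filter] at h1 ⊢
    rw [Finset.mem_filter, Finset.mem_filter]
    rw [← h2]
    exact ⟨⟨h1.1, rfl⟩, h1.2, rfl⟩
  have hpiece : ∀ v ∈ Vis, 2 * V * (P v).card ≤ 2 * V * (2 * K1 + 2 * rK K1 (M g (X.filter (fun x => lX x = v.1))
      (Y.filter (fun y => lY y = v.2)))) + ρ := by
    intro v hv
    have hmono := rho_mono (hPsub v)
    set ρ' := rho (M g (X.filter (fun x => lX x = v.1)) (Y.filter (fun y => lY y = v.2))) with hρ'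
    by_cases hd : (P v).card ≤ 2 * rho (P v)
    · have h1 : (P v).card ≤ 2 * K1 + 2 * rK K1 (M g (X.filter (fun x => lX x = v.1))
          (Y.filter (fun y => lY y = v.2))) := by
        unfold rK
        rw [← hρ']
        split_ifs with h2
        · omega
        · omega
      calc _ ≤ _ := Nat.mul_le_mul_left _ h1
        _ ≤ _ := Nat.le_add_right _ _
    · rw [not_le] at hd
      obtain ⟨x, b, hb, hoff'⟩ := rho_spec (P v)
      have h1 := off_add_on (P v) x b
      have h2 : (P v).card < 2 * on (P v) x b := by omega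
      have h3 : 4 * V * on (P v) x b < ρ := by
        by_contra hcon
        rw [not_lt] at hcon
        apply htwo
        have h4 : on (P v) x b ≤ on (M g X Y) x b :=
          on_mono ((Finset.filter_subset _ _).trans (Finset.filter_subset _ _)) x b
        refine ⟨x0, b0, x, b, hb0, hb, ?_, ?_, ?_⟩
        · intro heq
          have h5 : 0 < on (P v) x b := by omega
          unfold on at h5
          obtain ⟨a, ha⟩ := Finset.card_pos.1 h5
          rw [Finset.mem_filter] at ha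
          have h6 := ha.1
          rw [hP, Finset.mem_filter, hN, Finset.mem_filter] at h6
          exact h6.1.2 ((heq a).2 ha.2)
        · have h5 := off_add_on (M g X Y) x0 b0
          have h6 := off_add_on (M g X Y) x b
          have h7 := rho_le_off (M g X Y) x b hb
          have h8 : on (M g X Y) x b ≤ on (M g X Y) x0 b0 := by omega
          calc ρ ≤ _ := hcon
            _ ≤ 4 * V * on (M g X Y) x0 b0 := Nat.mul_le_mul_left _ (h4.trans h8)
        · calc ρ ≤ _ := hcon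
            _ ≤ 4 * V * on (M g X Y) x b := Nat.mul_le_mul_left _ h4
      have h5 : 2 * V * (P v).card ≤ 4 * V * on (P v) x b := by
        calc 2 * V * (P v).card ≤ 2 * V * (2 * on (P v) x b) := Nat.mul_le_mul_left _ h2.le
          _ = _ := by ring
      exact h5.trans (h3.le.trans (Nat.le_add_left _ _))
  have hVpos : 0 < V := by rw [hV]; omega
  set Sg := ∑ v ∈ Vis, rK K1 (M g (X.filter (fun x => lX x = v.1)) (Y.filter (fun y => lY y = v.2))) with hSg
  have htot : 2 * V * ρ ≤ Vis.card * (4 * V * K1 + ρ) + 4 * V * Sg := by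
    calc 2 * V * ρ = ∑ v ∈ Vis, 2 * V * (P v).card := by
          conv_lhs => rw [hsum]
          rw [Finset.mul_sum]
      _ ≤ ∑ v ∈ Vis, (2 * V * (2 * K1 + 2 * rK K1 (M g (X.filter (fun x => lX x = v.1))
            (Y.filter (fun y => lY y = v.2)))) + ρ) := Finset.sum_le_sum hpiece
      _ = ∑ v ∈ Vis, ((4 * V * K1 + ρ) + 4 * V * rK K1 (M g (X.filter (fun x => lX x = v.1))
            (Y.filter (fun y => lY y = v.2)))) := by
          apply Finset.sum_congr rfl
          intro v _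
          ring
      _ = _ := by
          rw [Finset.sum_add_distrib, Finset.sum_const, smul_eq_mul, ← Finset.mul_sum]
  have h8 : ρ ≤ 8 * Sg := by
    have h1 : Vis.card * (4 * V * K1 + ρ) ≤ V * (4 * V * K1 + ρ) := Nat.mul_le_mul_right _ hVc
    have h2 : V * (2 * ρ) ≤ V * (4 * V * K1 + ρ + 4 * Sg) := by
      calc V * (2 * ρ) = 2 * V * ρ := by ring
        _ ≤ V * (4 * V * K1 + ρ) + 4 * V * Sg := htot.trans (Nat.add_le_add_right h1 _)
        _ = _ := by ring
    have h3 := Nat.le_of_mul_le_mul_left h2 hVpos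
    have h4 : 8 * V * K1 = 2 * (4 * V * K1) := by ring
    omega
  exact ⟨Vis, hVsub, hVc, h8⟩

end Vale.Agent.P054.R
end

section

/-! P054, block R: the three parts of the sum. -/

set_option linter.all false
set_option autoImplicit false

namespace Vale.Agent.P054.R

open Finset Matrix

/-! ### sizes -/

theorem rho_le_card (S : Finset V3) : rho S ≤ S.card := by
  obtain ⟨x, b, hb, h⟩ := rho_spec S
  have := off_add_on S x b
  omega

theorem M_card_le_X (g : Iso) (X Y : Finset V3) : (M g X Y).card ≤ X.card := by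
  classical
  unfold M
  exact Finset.card_le_card (Finset.filter_subset _ _)

theorem act_inj {g : Iso} (hg : Orth g) {a b : V3} (h : act g a = act g b) : a = b := by
  have h1 := act_dist hg a b
  rw [h] at h1
  simp only [sub_self, ne_eq, OfNat.ofNat_ne_zero, not_false_eq_true, zero_pow,
    Finset.sum_const_zero] at h1
  funext i
  have h2 := (Finset.sum_eq_zero_iff_of_nonneg (fun j _ => sq_nonneg (a j - b j))).1 h1.symm i
    (Finset.mem_univ i)
  have h3 := pow_eq_zero_iff (by norm_num : 2 ≠ 0) |>.1 h2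
  linarith

theorem M_card_le_Y {g : Iso} (hg : Orth g) (X Y : Finset V3) : (M g X Y).card ≤ Y.card := by
  classical
  apply Finset.card_le_card_of_injOn (act g)
  · intro x hx
    have hx' : x ∈ M g X Y := hx
    unfold M at hx'
    rw [Finset.mem_filter] at hx'
    exact hx'.2
  · intro a _ b _ h
    exact act_inj hg h

/-! ### non dominated part -/

theorem nd_sum {η ε : ℝ} (hη : 0 ≤ η) (hε : 0 ≤ ε) (K1 B : ℕ) (hB : 1 ≤ B) (X Y : Finset V3)
    (Xc Yc : ℕ → Finset V3) (hXc : ∀ i, B * (Xc i).card ≤ 2 * X.card)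
    (hYc : ∀ j, B * (Yc j).card ≤ 2 * Y.card) (CR : ℝ) (hCR : 0 ≤ CR)
    (IH : ∀ i j, ∀ G : Finset Iso, (∀ g ∈ G, Orth g) →
      Re η K1 G (Xc i) (Yc j) ≤ CR * (((Xc i).card : ℝ) * (Yc j).card) ^ (2 + ε))
    (G : Finset Iso) (hG : ∀ g ∈ G, Orth g)
    (hnd : ∀ g ∈ G, ∃ Vis : Finset (ℕ × ℕ), Vis ⊆ Finset.range (B + 1) ×ˢ Finset.range (B + 1) ∧
      Vis.card ≤ 500 * (B + 1) ∧
      rho (M g X Y) ≤ 8 * ∑ v ∈ Vis, rK K1 (M g (Xc v.1) (Yc v.2))) :
    ∑ g ∈ G, ((rho (M g X Y) : ℕ) : ℝ) ^ (3 + η) ≤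
      (8:ℝ) ^ (3 + η) * (500 * ((B:ℝ) + 1)) ^ (2 + η) * ((B:ℝ) + 1) ^ 2 * CR *
        (4 * ((X.card : ℝ) * Y.card) / (B:ℝ) ^ 2) ^ (2 + ε) := by
  have hrK : ∀ S : Finset V3, ((rK K1 S : ℕ) : ℝ) ^ (3 + η) = wt η K1 S := by
    intro S
    unfold rK wt
    split_ifs with h
    · rfl
    · rw [Nat.cast_zero, Real.zero_rpow (by linarith)]
  have hBpos : (0:ℝ) < B := by exact_mod_cast hB
  have h1 : ∀ g ∈ G, ((rho (M g X Y) : ℕ) : ℝ) ^ (3 + η) ≤
      (8:ℝ) ^ (3 + η) * (500 * ((B:ℝ) + 1)) ^ (2 + η) *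
        ∑ v ∈ Finset.range (B + 1) ×ˢ Finset.range (B + 1), wt η K1 (M g (Xc v.1) (Yc v.2)) := by
    intro g hg
    obtain ⟨Vis, hsub, hcard, hle⟩ := hnd g hg
    have h2 : ((rho (M g X Y) : ℕ) : ℝ) ≤ 8 * ∑ v ∈ Vis, ((rK K1 (M g (Xc v.1) (Yc v.2)) : ℕ) : ℝ) := by
      exact_mod_cast hle
    have hS0 : (0:ℝ) ≤ ∑ v ∈ Vis, ((rK K1 (M g (Xc v.1) (Yc v.2)) : ℕ) : ℝ) :=
      Finset.sum_nonneg (fun _ _ => Nat.cast_nonneg _)
    have h3 := Vale.Agent.P054.Y.Sec.power_mean Vis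
      (fun v => ((rK K1 (M g (Xc v.1) (Yc v.2)) : ℕ) : ℝ)) (fun _ _ => Nat.cast_nonneg _) hη
    have h4 : (Vis.card : ℝ) ≤ 500 * ((B:ℝ) + 1) := by exact_mod_cast hcard
    calc ((rho (M g X Y) : ℕ) : ℝ) ^ (3 + η)
        ≤ (8 * ∑ v ∈ Vis, ((rK K1 (M g (Xc v.1) (Yc v.2)) : ℕ) : ℝ)) ^ (3 + η) :=
          Real.rpow_le_rpow (Nat.cast_nonneg _) h2 (by linarith)
      _ = (8:ℝ) ^ (3 + η) * (∑ v ∈ Vis, ((rK K1 (M g (Xc v.1) (Yc v.2)) : ℕ) : ℝ)) ^ (3 + η) :=
          Real.mul_rpow (by norm_num) hS0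
      _ ≤ (8:ℝ) ^ (3 + η) * ((Vis.card : ℝ) ^ (2 + η) *
            ∑ v ∈ Vis, ((rK K1 (M g (Xc v.1) (Yc v.2)) : ℕ) : ℝ) ^ (3 + η)) :=
          mul_le_mul_of_nonneg_left h3 (by positivity)
      _ ≤ (8:ℝ) ^ (3 + η) * ((500 * ((B:ℝ) + 1)) ^ (2 + η) *
            ∑ v ∈ Finset.range (B + 1) ×ˢ Finset.range (B + 1), wt η K1 (M g (Xc v.1) (Yc v.2))) := by
          apply mul_le_mul_of_nonneg_left _ (by positivity)
          apply mul_le_mul
          · exact Real.rpow_le_rpow (Nat.cast_nonneg _) h4 (by linarith)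
          · calc ∑ v ∈ Vis, ((rK K1 (M g (Xc v.1) (Yc v.2)) : ℕ) : ℝ) ^ (3 + η)
                = ∑ v ∈ Vis, wt η K1 (M g (Xc v.1) (Yc v.2)) :=
                  Finset.sum_congr rfl (fun v _ => hrK _)
              _ ≤ _ := Finset.sum_le_sum_of_subset_of_nonneg hsub (fun _ _ _ => wt_nonneg _ _ _)
          · exact Finset.sum_nonneg (fun _ _ => by positivity)
          · positivity
      _ = _ := by ring
  have hcell : ∀ i j, (((Xc i).card : ℝ) * (Yc j).card) ≤ 4 * ((X.card : ℝ) * Y.card) / (B:ℝ) ^ 2 := by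
    intro i j
    rw [le_div_iff₀ (by positivity)]
    have h2 : (B:ℝ) * (Xc i).card ≤ 2 * X.card := by exact_mod_cast hXc i
    have h3 : (B:ℝ) * (Yc j).card ≤ 2 * Y.card := by exact_mod_cast hYc j
    calc ((Xc i).card : ℝ) * (Yc j).card * (B:ℝ) ^ 2 = ((B:ℝ) * (Xc i).card) * ((B:ℝ) * (Yc j).card) := by ring
      _ ≤ (2 * X.card) * (2 * Y.card) := mul_le_mul h2 h3 (by positivity) (by positivity)
      _ = _ := by ring
  calc ∑ g ∈ G, ((rho (M g X Y) : ℕ) : ℝ) ^ (3 + η)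
      ≤ ∑ g ∈ G, (8:ℝ) ^ (3 + η) * (500 * ((B:ℝ) + 1)) ^ (2 + η) *
        ∑ v ∈ Finset.range (B + 1) ×ˢ Finset.range (B + 1), wt η K1 (M g (Xc v.1) (Yc v.2)) :=
        Finset.sum_le_sum h1
    _ = (8:ℝ) ^ (3 + η) * (500 * ((B:ℝ) + 1)) ^ (2 + η) *
        ∑ v ∈ Finset.range (B + 1) ×ˢ Finset.range (B + 1), Re η K1 G (Xc v.1) (Yc v.2) := by
        rw [← Finset.mul_sum, Finset.sum_comm]
        rfl
    _ ≤ (8:ℝ) ^ (3 + η) * (500 * ((B:ℝ) + 1)) ^ (2 + η) *
        ∑ v ∈ Finset.range (B + 1) ×ˢ Finset.range (B + 1),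
          CR * (4 * ((X.card : ℝ) * Y.card) / (B:ℝ) ^ 2) ^ (2 + ε) := by
        apply mul_le_mul_of_nonneg_left _ (by positivity)
        apply Finset.sum_le_sum
        intro v _
        refine (IH v.1 v.2 G hG).trans (mul_le_mul_of_nonneg_left ?_ hCR)
        exact Real.rpow_le_rpow (by (clear * -; positivity)) (hcell _ _) (by linarith)
    _ = _ := by
        rw [Finset.sum_const, Finset.card_product, Finset.card_range, nsmul_eq_mul]
        push_cast
        ring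

/-! ### two rich lines -/

theorem two_off {S : Finset V3} {k : ℕ} {x1 b1 x2 b2 n : V3} {d : ℝ} (hb1 : b1 ≠ 0) (hb2 : b2 ≠ 0)
    (hne : DiffL x1 b1 x2 b2) (h1 : LinP x1 b1 n d) (h2 : LinP x2 b2 n d)
    (hk1 : k ≤ on S x1 b1) (hk2 : k ≤ on S x2 b2) (x b : V3) (hb : b ≠ 0) :
    open scoped Classical in
    k - 1 ≤ ((S.filter (fun a => n ⬝ᵥ a = d)).filter (Vale.Agent.P054.Y.Sec.Off x b)).card := by
  classical
  have key : ∀ (x' b' : V3), b' ≠ 0 → DiffL x b x' b' → LinP x' b' n d → k ≤ on S x' b' →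
      k - 1 ≤ ((S.filter (fun a => n ⬝ᵥ a = d)).filter (Vale.Agent.P054.Y.Sec.Off x b)).card := by
    intro x' b' hb' hd hl hk
    unfold on at hk
    have h3 : (S.filter (fun a => OnL x' b' a)) =
        ((S.filter (fun a => OnL x' b' a)).filter (fun a => OnL x b a)) ∪
        ((S.filter (fun a => OnL x' b' a)).filter (fun a => ¬ OnL x b a)) :=
      (Finset.filter_union_filter_not_eq _ _).symm
    have h4 : ((S.filter (fun a => OnL x' b' a)).filter (fun a => OnL x b a)).card ≤ 1 := by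
      rw [Finset.card_le_one]
      intro a ha c hc
      rw [Finset.mem_filter, Finset.mem_filter] at ha hc
      exact DiffL_inter hb hb' hd ha.2 ha.1.2 hc.2 hc.1.2
    have h5 : (S.filter (fun a => OnL x' b' a)).card ≤
        ((S.filter (fun a => OnL x' b' a)).filter (fun a => OnL x b a)).card +
        ((S.filter (fun a => OnL x' b' a)).filter (fun a => ¬ OnL x b a)).card := by
      conv_lhs => rw [h3]
      exact Finset.card_union_le _ _
    have h6 : ((S.filter (fun a => OnL x' b' a)).filter (fun a => ¬ OnL x b a)).card ≤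
        ((S.filter (fun a => n ⬝ᵥ a = d)).filter (Vale.Agent.P054.Y.Sec.Off x b)).card := by
      apply Finset.card_le_card
      intro a ha
      rw [Finset.mem_filter, Finset.mem_filter] at ha
      rw [Finset.mem_filter, Finset.mem_filter]
      exact ⟨⟨ha.1.1, LinP_OnP hb' hl ha.1.2⟩, ha.2⟩
    omega
  by_cases hd1 : DiffL x b x1 b1
  · exact key x1 b1 hb1 hd1 h1 hk1
  · apply key x2 b2 hb2 _ h2 hk2
    intro hd2
    unfold DiffL at hd1
    rw [not_not] at hd1
    exact hne (fun a => (hd1 a).symm.trans (hd2 a))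

end Vale.Agent.P054.R
end

section

/-! P054, block R: isometries with two rich lines, and poor isometries. -/

set_option linter.all false
set_option autoImplicit false

namespace Vale.Agent.P054.R

open Finset Matrix

theorem partT {ε : ℝ} (hε : 0 < ε) (K1 V K2a K3 K2 : ℕ) (hK1 : 1 ≤ K1) (hV : 1 ≤ V) (hK3 : 1 ≤ K3)
    (CT : ℝ) (hCT : 0 < CT) (X Y : Finset V3)
    (hT : ∀ (G : Finset Iso), (∀ g ∈ G, Orth g) →
      ∀ (k : Iso → ℕ) (x1 b1 x2 b2 : Iso → V3),
      (∀ g ∈ G, K2a ≤ k g ∧ b1 g ≠ 0 ∧ b2 g ≠ 0 ∧ DiffL (x1 g) (b1 g) (x2 g) (b2 g) ∧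
        k g ≤ on (M g X Y) (x1 g) (b1 g) ∧ k g ≤ on (M g X Y) (x2 g) (b2 g) ∧
        ∀ (n : V3) (d : ℝ), n ≠ 0 → LinP (x1 g) (b1 g) n d → LinP (x2 g) (b2 g) n d →
          rho (M (prt g n d) X Y) ≤ K3 * k g) →
      ∑ g ∈ G, ((k g : ℕ) : ℝ) ^ 3 ≤ CT * ((X.card : ℝ) * Y.card) ^ (2 + 3 * ε / 4))
    (hK2 : 4 * V * (K2a + K1 + 3) ≤ K2)
    (G : Finset Iso) (hG : ∀ g ∈ G, Orth g ∧ K2 ≤ rho (M g X Y))
    (h2 : ∀ g ∈ G, ∃ x1 b1 x2 b2 : V3, b1 ≠ 0 ∧ b2 ≠ 0 ∧ DiffL x1 b1 x2 b2 ∧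
      rho (M g X Y) ≤ 4 * V * on (M g X Y) x1 b1 ∧ rho (M g X Y) ≤ 4 * V * on (M g X Y) x2 b2) :
    ∑ g ∈ G, ((rho (M g X Y) : ℕ) : ℝ) ^ (3 + ε / 2) ≤
      (8 * (V:ℝ)) ^ (3 + ε / 2) * (CT * ((X.card : ℝ) * Y.card) ^ (2 + ε)) +
      (16 * (V:ℝ)) ^ (3 + ε / 2) * (5 * (K3 : ℝ) ^ (-(ε / 2)) * Re (ε / 2) K1 (GF X Y) X Y) := by
  classical
  choose! x1 b1 x2 b2 hb1 hb2 hne hr1 hr2 using h2
  set k : Iso → ℕ := fun g => rho (M g X Y) / (4 * V) with hk
  have hkK : ∀ g ∈ G, K2a + K1 + 3 ≤ k g := by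
    intro g hg
    have h3 := (hG g hg).2
    show K2a + K1 + 3 ≤ rho (M g X Y) / (4 * V)
    rw [Nat.le_div_iff_mul_le (by omega)]
    calc (K2a + K1 + 3) * (4 * V) = 4 * V * (K2a + K1 + 3) := by ring
      _ ≤ K2 := hK2
      _ ≤ _ := h3
  have hk1 : ∀ g ∈ G, k g ≤ on (M g X Y) (x1 g) (b1 g) := by
    intro g hg
    exact Nat.div_le_of_le_mul (hr1 g hg)
  have hk2 : ∀ g ∈ G, k g ≤ on (M g X Y) (x2 g) (b2 g) := by
    intro g hg
    exact Nat.div_le_of_le_mul (hr2 g hg)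
  have hρk : ∀ g ∈ G, rho (M g X Y) ≤ 8 * V * k g ∧ rho (M g X Y) ≤ 16 * V * (k g - 1) := by
    intro g hg
    have h3 := hkK g hg
    have h4 : rho (M g X Y) < 4 * V * (k g + 1) := Nat.lt_mul_div_succ _ (by omega)
    constructor
    · calc rho (M g X Y) ≤ 4 * V * (k g + 1) := h4.le
        _ ≤ 4 * V * (2 * k g) := Nat.mul_le_mul_left _ (by omega)
        _ = _ := by ring
    · calc rho (M g X Y) ≤ 4 * V * (k g + 1) := h4.le
        _ ≤ 4 * V * (4 * (k g - 1)) := Nat.mul_le_mul_left _ (by omega)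
        _ = _ := by ring
  set Ga := G.filter (fun g => ∃ (n : V3) (d : ℝ), n ≠ 0 ∧ LinP (x1 g) (b1 g) n d ∧
    LinP (x2 g) (b2 g) n d ∧ K3 * k g < rho (M (prt g n d) X Y)) with hGa
  set Gc := G.filter (fun g => ¬ ∃ (n : V3) (d : ℝ), n ≠ 0 ∧ LinP (x1 g) (b1 g) n d ∧
    LinP (x2 g) (b2 g) n d ∧ K3 * k g < rho (M (prt g n d) X Y)) with hGc
  have hsplit : ∑ g ∈ G, ((rho (M g X Y) : ℕ) : ℝ) ^ (3 + ε / 2) =
      ∑ g ∈ Gc, ((rho (M g X Y) : ℕ) : ℝ) ^ (3 + ε / 2) +
      ∑ g ∈ Ga, ((rho (M g X Y) : ℕ) : ℝ) ^ (3 + ε / 2) := by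
    rw [hGa, hGc, Finset.sum_filter_not_add_sum_filter]
  rw [hsplit]
  apply add_le_add
  · -- comparable
    have h3 := hT Gc (fun g hg => (hG g (Finset.mem_filter.1 hg).1).1) k x1 b1 x2 b2 (by
      intro g hg
      rw [hGc, Finset.mem_filter] at hg
      obtain ⟨hg, hn⟩ := hg
      refine ⟨by have := hkK g hg; omega, hb1 g hg, hb2 g hg, hne g hg, hk1 g hg, hk2 g hg, ?_⟩
      intro n d hn0 hl1 hl2
      by_contra hcon
      rw [not_le] at hcon
      exact hn ⟨n, d, hn0, hl1, hl2, hcon⟩)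
    have hpt : ∀ g ∈ Gc, ((rho (M g X Y) : ℕ) : ℝ) ^ (3 + ε / 2) ≤
        (8 * (V:ℝ)) ^ (3 + ε / 2) * (((k g : ℕ) : ℝ) ^ 3 * ((X.card : ℝ) * Y.card) ^ (ε / 4)) := by
      intro g hg
      have hgG := (Finset.mem_filter.1 hg).1
      have h4 : ((rho (M g X Y) : ℕ) : ℝ) ≤ 8 * V * k g := by exact_mod_cast (hρk g hgG).1
      have h5 : ((k g : ℕ) : ℝ) ^ (ε / 2) ≤ ((X.card : ℝ) * Y.card) ^ (ε / 4) := by
        have h6 : k g ≤ (M g X Y).card := (Nat.div_le_self _ _).trans (rho_le_card _)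
        have h7 : ((k g : ℕ) : ℝ) ≤ X.card := by exact_mod_cast h6.trans (M_card_le_X g X Y)
        have h8 : ((k g : ℕ) : ℝ) ≤ Y.card := by
          exact_mod_cast h6.trans (M_card_le_Y (hG g hgG).1 X Y)
        calc ((k g : ℕ) : ℝ) ^ (ε / 2) = (((k g : ℕ) : ℝ) ^ (2:ℝ)) ^ (ε / 4) := by
              rw [← Real.rpow_mul (Nat.cast_nonneg _)]
              congr 1
              ring
          _ ≤ ((X.card : ℝ) * Y.card) ^ (ε / 4) := by
              apply Real.rpow_le_rpow (by positivity) _ (by positivity)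
              rw [Real.rpow_two, sq]
              exact mul_le_mul h7 h8 (Nat.cast_nonneg _) (Nat.cast_nonneg _)
      calc ((rho (M g X Y) : ℕ) : ℝ) ^ (3 + ε / 2) ≤ (8 * V * (k g : ℝ)) ^ (3 + ε / 2) :=
            Real.rpow_le_rpow (Nat.cast_nonneg _) h4 (by positivity)
        _ = (8 * (V:ℝ)) ^ (3 + ε / 2) * ((k g : ℕ) : ℝ) ^ (3 + ε / 2) :=
            Real.mul_rpow (by positivity) (Nat.cast_nonneg _)
        _ = (8 * (V:ℝ)) ^ (3 + ε / 2) * (((k g : ℕ) : ℝ) ^ 3 * ((k g : ℕ) : ℝ) ^ (ε / 2)) := by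
            rw [Real.rpow_add_of_nonneg (Nat.cast_nonneg _) (by norm_num) (by positivity)]
            norm_num
        _ ≤ _ := by
            apply mul_le_mul_of_nonneg_left _ (by positivity)
            exact mul_le_mul_of_nonneg_left h5 (by positivity)
    calc ∑ g ∈ Gc, ((rho (M g X Y) : ℕ) : ℝ) ^ (3 + ε / 2)
        ≤ ∑ g ∈ Gc, (8 * (V:ℝ)) ^ (3 + ε / 2) *
            (((k g : ℕ) : ℝ) ^ 3 * ((X.card : ℝ) * Y.card) ^ (ε / 4)) := Finset.sum_le_sum hpt
      _ = (8 * (V:ℝ)) ^ (3 + ε / 2) *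
            ((∑ g ∈ Gc, ((k g : ℕ) : ℝ) ^ 3) * ((X.card : ℝ) * Y.card) ^ (ε / 4)) := by
          rw [← Finset.mul_sum, Finset.sum_mul]
      _ ≤ (8 * (V:ℝ)) ^ (3 + ε / 2) *
            ((CT * ((X.card : ℝ) * Y.card) ^ (2 + 3 * ε / 4)) * ((X.card : ℝ) * Y.card) ^ (ε / 4)) := by
          apply mul_le_mul_of_nonneg_left _ (by positivity)
          exact mul_le_mul_of_nonneg_right h3 (by (clear * -; positivity))
      _ = _ := by
          rw [mul_assoc CT, ← Real.rpow_add_of_nonneg (by (clear * -; positivity)) (by positivity) (by positivity)]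
          congr 3
          ring
  · -- absorbed
    have hch : ∀ g ∈ Ga, ∃ (n : V3) (d : ℝ), n ≠ 0 ∧ LinP (x1 g) (b1 g) n d ∧
        LinP (x2 g) (b2 g) n d ∧ K3 * k g < rho (M (prt g n d) X Y) := by
      intro g hg
      exact (Finset.mem_filter.1 hg).2
    choose! n d hn hl1 hl2 hlt using hch
    have h3 := absorb_sum (η := ε / 2) (A := (K3 : ℝ)) (by positivity) (by exact_mod_cast hK3) K1 hK1
      X Y Ga n d (fun g => k g - 1) (by
        intro g hg
        have hgG := (Finset.mem_filter.1 hg).1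
        have h4 := hkK g hgG
        have h5 := hlt g hg
        refine ⟨(hG g hgG).1, hn g hg, by show 2 ≤ k g - 1; omega, ?_, ?_, ?_⟩
        · have h6 : K3 * (k g - 1) ≤ rho (M (prt g (n g) (d g)) X Y) :=
            (Nat.mul_le_mul_left _ (Nat.sub_le _ _)).trans h5.le
          exact_mod_cast h6
        · have h7 : k g ≤ K3 * k g := Nat.le_mul_of_pos_left _ (by omega)
          omega
        · intro x b hb
          exact two_off (hb1 g hgG) (hb2 g hgG) (hne g hgG) (hl1 g hg) (hl2 g hg) (hk1 g hgG)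
            (hk2 g hgG) x b hb)
    calc ∑ g ∈ Ga, ((rho (M g X Y) : ℕ) : ℝ) ^ (3 + ε / 2)
        ≤ ∑ g ∈ Ga, (16 * (V:ℝ)) ^ (3 + ε / 2) * (((k g - 1 : ℕ) : ℝ)) ^ (3 + ε / 2) := by
          apply Finset.sum_le_sum
          intro g hg
          have hgG := (Finset.mem_filter.1 hg).1
          rw [← Real.mul_rpow (by positivity) (Nat.cast_nonneg _)]
          apply Real.rpow_le_rpow (Nat.cast_nonneg _) _ (by positivity)
          exact_mod_cast (hρk g hgG).2
      _ = (16 * (V:ℝ)) ^ (3 + ε / 2) * ∑ g ∈ Ga, (((k g - 1 : ℕ) : ℝ)) ^ (3 + ε / 2) := by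
          rw [Finset.mul_sum]
      _ ≤ _ := mul_le_mul_of_nonneg_left h3 (by positivity)

theorem partP {ε : ℝ} (hε : 0 < ε) (K1 K2 A : ℕ) (hK1 : 4 ≤ K1) (hA : 1 ≤ A) (hK12 : K1 ≤ K2)
    (CP : ℝ) (hCP : 0 < CP) (X Y : Finset V3)
    (hP : ∀ (G : Finset Iso), (∀ g ∈ G, Orth g) →
      (∀ g ∈ G, K1 ≤ rho (M g X Y) ∧ ∃ (n : V3) (d : ℝ), n ≠ 0 ∧ (∀ a ∈ M g X Y, OnP n d a) ∧
        rho (M (prt g n d) X Y) ≤ A * K2) →
      (G.card : ℝ) ≤ CP * ((X.card : ℝ) * Y.card) ^ (2 + ε))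
    (G : Finset Iso) (hG : ∀ g ∈ G, Orth g ∧ K1 ≤ rho (M g X Y) ∧ rho (M g X Y) ≤ K2) :
    ∑ g ∈ G, ((rho (M g X Y) : ℕ) : ℝ) ^ (3 + ε / 2) ≤
      (K2 : ℝ) ^ (3 + ε / 2) * (10 * ((X.card : ℝ) * Y.card) ^ 2) +
      (K2 : ℝ) ^ (3 + ε / 2) * (CP * ((X.card : ℝ) * Y.card) ^ (2 + ε)) +
      5 * (A : ℝ) ^ (-(ε / 2)) * Re (ε / 2) K1 (GF X Y) X Y := by
  classical
  have hbound : ∀ G' : Finset Iso, (∀ g ∈ G', rho (M g X Y) ≤ K2) →
      ∑ g ∈ G', ((rho (M g X Y) : ℕ) : ℝ) ^ (3 + ε / 2) ≤ (K2 : ℝ) ^ (3 + ε / 2) * G'.card := by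
    intro G' h'
    calc _ ≤ ∑ g ∈ G', (K2 : ℝ) ^ (3 + ε / 2) := by
          apply Finset.sum_le_sum
          intro g hg
          exact Real.rpow_le_rpow (Nat.cast_nonneg _) (by exact_mod_cast h' g hg) (by positivity)
      _ = _ := by rw [Finset.sum_const, nsmul_eq_mul, mul_comm]
  set Pl : Iso → Prop := fun g => ∃ (n : V3) (d : ℝ), n ≠ 0 ∧ ∀ a ∈ M g X Y, OnP n d a with hPl
  set Gs := G.filter (fun g => ¬ Pl g) with hGs
  set Gp := G.filter (fun g => Pl g) with hGp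
  have hch : ∀ g ∈ Gp, ∃ (n : V3) (d : ℝ), n ≠ 0 ∧ ∀ a ∈ M g X Y, OnP n d a := by
    intro g hg
    exact (Finset.mem_filter.1 hg).2
  choose! n d hn hpl using hch
  set Ge := Gp.filter (fun g => rho (M (prt g (n g) (d g)) X Y) ≤ A * K2) with hGe
  set Ga := Gp.filter (fun g => ¬ rho (M (prt g (n g) (d g)) X Y) ≤ A * K2) with hGa
  have hsplit : ∑ g ∈ G, ((rho (M g X Y) : ℕ) : ℝ) ^ (3 + ε / 2) =
      ∑ g ∈ Gs, ((rho (M g X Y) : ℕ) : ℝ) ^ (3 + ε / 2) +
      ∑ g ∈ Ge, ((rho (M g X Y) : ℕ) : ℝ) ^ (3 + ε / 2) +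
      ∑ g ∈ Ga, ((rho (M g X Y) : ℕ) : ℝ) ^ (3 + ε / 2) := by
    rw [add_assoc, hGe, hGa, Finset.sum_filter_add_sum_filter_not, hGs, hGp,
      Finset.sum_filter_not_add_sum_filter]
  rw [hsplit]
  apply add_le_add
  · apply add_le_add
    · refine (hbound Gs (fun g hg => (hG g (Finset.mem_filter.1 hg).1).2.2)).trans ?_
      apply mul_le_mul_of_nonneg_left _ (by positivity)
      apply span X Y Gs (fun g hg => (hG g (Finset.mem_filter.1 hg).1).1)
      intro g hg
      rw [hGs, Finset.mem_filter] at hg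
      refine ⟨by have := (hG g hg.1).2.1; omega, ?_⟩
      intro n' d' hn'
      by_contra hcon
      apply hg.2
      refine ⟨n', d', hn', ?_⟩
      intro a ha
      by_contra hcon2
      exact hcon ⟨a, ha, hcon2⟩
    · refine (hbound Ge (fun g hg => (hG g (Finset.mem_filter.1 (Finset.mem_filter.1 hg).1).1).2.2)).trans ?_
      apply mul_le_mul_of_nonneg_left _ (by positivity)
      apply hP Ge (fun g hg => (hG g (Finset.mem_filter.1 (Finset.mem_filter.1 hg).1).1).1)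
      intro g hg
      rw [hGe, Finset.mem_filter] at hg
      have hgG := (Finset.mem_filter.1 hg.1).1
      exact ⟨(hG g hgG).2.1, n g, d g, hn g hg.1, hpl g hg.1, hg.2⟩
  · have h3 := absorb_sum (η := ε / 2) (A := (A : ℝ)) (by positivity) (by exact_mod_cast hA) K1
      (by omega) X Y Ga n d (fun g => rho (M g X Y)) (by
        intro g hg
        rw [hGa, Finset.mem_filter, not_le] at hg
        have hgG := (Finset.mem_filter.1 hg.1).1
        obtain ⟨ho, hlo, hhi⟩ := hG g hgG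
        have h5 : A * rho (M g X Y) ≤ A * K2 := Nat.mul_le_mul_left _ hhi
        have h6 : K2 ≤ A * K2 := Nat.le_mul_of_pos_left _ (by omega)
        refine ⟨ho, hn g hg.1, by show 2 ≤ rho (M g X Y); omega, ?_, by omega, ?_⟩
        · have h7 : A * rho (M g X Y) ≤ rho (M (prt g (n g) (d g)) X Y) := h5.trans hg.2.le
          exact_mod_cast h7
        · intro x b hb
          have h8 : (M g X Y).filter (fun a => n g ⬝ᵥ a = d g) = M g X Y := by
            apply Finset.filter_true_of_mem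
            intro a ha
            exact hpl g hg.1 a ha
          show rho (M g X Y) ≤ _
          rw [h8, ← off_eq]
          exact rho_le_off _ x b hb)
    exact h3

end Vale.Agent.P054.R
end

section

/-! P054, block R, output: `RStmt` from `PlanarStmt` and `TwoStmt`. -/

set_option linter.all false
set_option autoImplicit false

namespace Vale.Agent.P054.R

open Finset Matrix

theorem choose_pow (c η : ℝ) (hη : 0 < η) (hc : 0 ≤ c) : ∃ K : ℕ, 1 ≤ K ∧ c * (K : ℝ) ^ (-η) ≤ 1 / 8 := by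
  have h1 := ((tendsto_rpow_atTop hη).comp tendsto_natCast_atTop_atTop).eventually
    (Filter.eventually_ge_atTop (8 * c + 1))
  obtain ⟨K, hK1, hK2⟩ := (h1.and (Filter.eventually_ge_atTop 1)).exists
  refine ⟨K, hK2, ?_⟩
  have hKpos : (0:ℝ) < K := by exact_mod_cast hK2
  have h2 : (8 * c + 1) ≤ (K : ℝ) ^ η := hK1
  rw [Real.rpow_neg hKpos.le, ← div_eq_mul_inv, div_le_iff₀ (by positivity)]
  linarith

theorem choose_B {ε : ℝ} (hε : 0 < ε) (hε1 : ε ≤ 1) : ∃ B : ℕ, 3 ≤ B ∧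
    (8:ℝ) ^ (3 + ε / 2) * (500 * ((B:ℝ) + 1)) ^ (2 + ε / 2) * ((B:ℝ) + 1) ^ 2 *
      (4 / (B:ℝ) ^ 2) ^ (2 + ε) ≤ 1 / 4 := by
  have h1 := ((tendsto_rpow_atTop (show 0 < 3 * ε / 2 by positivity)).comp
    tendsto_natCast_atTop_atTop).eventually
    (Filter.eventually_ge_atTop (4 * (8 ^ 4 * 1000 ^ 3 * 256 : ℝ)))
  obtain ⟨B, hB1, hB2⟩ := (h1.and (Filter.eventually_ge_atTop 3)).exists
  refine ⟨B, hB2, ?_⟩
  have hB1' : 4 * (8 ^ 4 * 1000 ^ 3 * 256 : ℝ) ≤ (B : ℝ) ^ (3 * ε / 2) := hB1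
  have hB : (3:ℝ) ≤ B := by exact_mod_cast hB2
  have hBpos : (0:ℝ) < B := by linarith
  have e1 : (8:ℝ) ^ (3 + ε / 2) ≤ 8 ^ 4 := by
    calc (8:ℝ) ^ (3 + ε / 2) ≤ (8:ℝ) ^ (4:ℝ) :=
          Real.rpow_le_rpow_of_exponent_le (by norm_num) (by linarith)
      _ = 8 ^ 4 := by norm_num
  have e2 : (500 * ((B:ℝ) + 1)) ^ (2 + ε / 2) ≤ 1000 ^ 3 * (B:ℝ) ^ (2 + ε / 2) := by
    calc (500 * ((B:ℝ) + 1)) ^ (2 + ε / 2) ≤ (1000 * (B:ℝ)) ^ (2 + ε / 2) :=
          Real.rpow_le_rpow (by positivity) (by linarith) (by positivity)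
      _ = (1000:ℝ) ^ (2 + ε / 2) * (B:ℝ) ^ (2 + ε / 2) := Real.mul_rpow (by norm_num) hBpos.le
      _ ≤ _ := by
          apply mul_le_mul_of_nonneg_right _ (by positivity)
          calc (1000:ℝ) ^ (2 + ε / 2) ≤ (1000:ℝ) ^ (3:ℝ) :=
                Real.rpow_le_rpow_of_exponent_le (by norm_num) (by linarith)
            _ = 1000 ^ 3 := by norm_num
  have e3 : ((B:ℝ) + 1) ^ 2 ≤ 4 * (B:ℝ) ^ 2 := by (by_contra nlg; linarith only [nlg, mul_nonneg (sub_nonneg.2 hB) (le_of_lt (sub_pos.2 hBpos)), mul_nonneg (sub_nonneg.2 hε1) (sub_nonneg.2 hB), mul_nonneg (le_of_lt (sub_pos.2 hε)) (sub_nonneg.2 hB), mul_nonneg (le_of_lt (sub_pos.2 (not_le.1 nlg))) (sub_nonneg.2 hε1), mul_pos (sub_pos.2 (not_le.1 nlg)) (sub_pos.2 hε)])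
  have e4 : (4 / (B:ℝ) ^ 2) ^ (2 + ε) ≤ 64 * ((B:ℝ) ^ (4 + 2 * ε))⁻¹ := by
    rw [Real.div_rpow (by norm_num) (by positivity), div_eq_mul_inv]
    apply mul_le_mul
    · calc (4:ℝ) ^ (2 + ε) ≤ (4:ℝ) ^ (3:ℝ) :=
            Real.rpow_le_rpow_of_exponent_le (by norm_num) (by linarith)
        _ = 64 := by norm_num
    · apply le_of_eq
      congr 1
      rw [← Real.rpow_natCast, ← Real.rpow_mul hBpos.le]
      congr 1
      push_cast
      ring
    · positivity
    · norm_num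
  have e5 : (B:ℝ) ^ (2 + ε / 2) * (B:ℝ) ^ 2 * ((B:ℝ) ^ (4 + 2 * ε))⁻¹ = ((B:ℝ) ^ (3 * ε / 2))⁻¹ := by
    rw [← Real.rpow_natCast (B:ℝ) 2, ← Real.rpow_add hBpos, ← Real.rpow_neg hBpos.le,
      ← Real.rpow_add hBpos, ← Real.rpow_neg hBpos.le]
    congr 1
    push_cast
    ring
  calc (8:ℝ) ^ (3 + ε / 2) * (500 * ((B:ℝ) + 1)) ^ (2 + ε / 2) * ((B:ℝ) + 1) ^ 2 *
      (4 / (B:ℝ) ^ 2) ^ (2 + ε)
      ≤ 8 ^ 4 * (1000 ^ 3 * (B:ℝ) ^ (2 + ε / 2)) * (4 * (B:ℝ) ^ 2) * (64 * ((B:ℝ) ^ (4 + 2 * ε))⁻¹) := by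
        apply mul_le_mul _ e4 (by positivity) (by positivity)
        apply mul_le_mul _ e3 (by positivity) (by positivity)
        exact mul_le_mul e1 e2 (by positivity) (by positivity)
    _ = (8 ^ 4 * 1000 ^ 3 * 256) * ((B:ℝ) ^ (2 + ε / 2) * (B:ℝ) ^ 2 * ((B:ℝ) ^ (4 + 2 * ε))⁻¹) := by ring
    _ = (8 ^ 4 * 1000 ^ 3 * 256) / (B:ℝ) ^ (3 * ε / 2) := by
        rw [e5]
        exact (div_eq_mul_inv _ _).symm
    _ ≤ 1 / 4 := by
        rw [div_le_iff₀ (by positivity)]
        linarith only [hB1']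

theorem key (hP : PlanarStmt) (hT : TwoStmt) (ε : ℝ) (hε : 0 < ε) (hε1 : ε ≤ 1) :
    ∃ K1 : ℕ, 4 ≤ K1 ∧ ∃ C : ℝ, 0 < C ∧ ∀ (X Y : Finset V3) (G : Finset Iso), (∀ g ∈ G, Orth g) →
      Re (ε / 2) K1 G X Y ≤ C * ((X.card : ℝ) * Y.card) ^ (2 + ε) := by
  classical
  obtain ⟨K1a, hPa⟩ := hP ε hε
  obtain ⟨B, hB3, hBc⟩ := choose_B hε hε1
  obtain ⟨V, hV⟩ : ∃ V : ℕ, V = 500 * (B + 1) := ⟨_, rfl⟩
  obtain ⟨K3, hK31, hK3⟩ := choose_pow (5 * (16 * (V:ℝ)) ^ (3 + ε / 2)) (ε / 2) (by positivity)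
    (by positivity)
  obtain ⟨A, hA1, hA⟩ := choose_pow 5 (ε / 2) (by positivity) (by norm_num)
  obtain ⟨K2a, CT, hCT, hTa⟩ := hT (3 * ε / 4) (by positivity) K3
  obtain ⟨K1, hK1⟩ : ∃ K1 : ℕ, K1 = K1a + 4 := ⟨_, rfl⟩
  obtain ⟨K2, hK2⟩ : ∃ K2 : ℕ, K2 = 8 * V * K1 + 4 * V * (K2a + K1 + 3) + B + K1 := ⟨_, rfl⟩
  obtain ⟨CP, hCP, hPb⟩ := hPa (A * K2)
  refine ⟨K1, by omega, ?_⟩
  obtain ⟨C', hC'⟩ : ∃ C' : ℝ, C' = (8 * (V:ℝ)) ^ (3 + ε / 2) * CT + (K2 : ℝ) ^ (3 + ε / 2) * 10 +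
    (K2 : ℝ) ^ (3 + ε / 2) * CP := ⟨_, rfl⟩
  have hC'0 : 0 ≤ C' := by rw [hC']; (clear * - hCT hCP; positivity)
  refine ⟨2 * C' + 1, by linarith only [hC'0], ?_⟩
  have main : ∀ n : ℕ, ∀ X Y : Finset V3, X.card * Y.card = n → ∀ G : Finset Iso, (∀ g ∈ G, Orth g) →
      Re (ε / 2) K1 G X Y ≤ (2 * C' + 1) * ((X.card : ℝ) * Y.card) ^ (2 + ε) := by
    intro n
    induction n using Nat.strong_induction_on with
    | _ n ih =>
      intro X Y hn G hG
      refine (Re_le_full (by omega) X Y G hG).trans ?_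
      set v : ℝ := (X.card : ℝ) * Y.card with hv
      set R := Re (ε / 2) K1 (GF X Y) X Y with hR
      have hv0 : 0 ≤ v := by (clear * -; positivity)
      have hvv : v ^ 2 ≤ v ^ (2 + ε) := by
        have h1 : v = ((X.card * Y.card : ℕ) : ℝ) := by push_cast; rfl
        rcases Nat.eq_zero_or_pos (X.card * Y.card) with h0 | h0
        · rw [h1, h0, Nat.cast_zero, Real.zero_rpow (by linarith only [hε])]
          norm_num
        · have h2 : (1:ℝ) ≤ v := by rw [h1]; exact_mod_cast h0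
          rw [← Real.rpow_two]
          exact Real.rpow_le_rpow_of_exponent_le h2 (by linarith only [hε])
      -- the pieces of the sum
      set G0 := (GF X Y).filter (fun g => K1 ≤ rho (M g X Y)) with hG0
      have hG0O : ∀ g ∈ G0, Orth g := fun g hg => (mem_GF.1 (Finset.mem_filter.1 hg).1).1
      have hRG0 : R = ∑ g ∈ G0, ((rho (M g X Y) : ℕ) : ℝ) ^ (3 + ε / 2) := by
        rw [hR, hG0, Finset.sum_filter]
        unfold Re
        apply Finset.sum_congr rfl
        intro g _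
        unfold wt
        rfl
      set Gr := G0.filter (fun g => K2 ≤ rho (M g X Y)) with hGr
      set Gp := G0.filter (fun g => ¬ K2 ≤ rho (M g X Y)) with hGp
      have hs1 : R = ∑ g ∈ Gr, ((rho (M g X Y) : ℕ) : ℝ) ^ (3 + ε / 2) +
          ∑ g ∈ Gp, ((rho (M g X Y) : ℕ) : ℝ) ^ (3 + ε / 2) := by
        rw [hRG0, hGr, hGp, Finset.sum_filter_add_sum_filter_not]
      have hpoor : ∑ g ∈ Gp, ((rho (M g X Y) : ℕ) : ℝ) ^ (3 + ε / 2) ≤
          (K2 : ℝ) ^ (3 + ε / 2) * (10 * v ^ 2) + (K2 : ℝ) ^ (3 + ε / 2) * (CP * v ^ (2 + ε)) +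
          5 * (A : ℝ) ^ (-(ε / 2)) * R := by
        apply partP hε K1 K2 A (by omega) hA1 (by omega) CP hCP X Y
        · intro G' hG'O hG'
          apply hPb X Y G' hG'O
          intro g hg
          obtain ⟨h1, n', d', h2, h3, h4⟩ := hG' g hg
          exact ⟨by omega, n', d', h2, h3, h4⟩
        · intro g hg
          rw [hGp, Finset.mem_filter, not_le] at hg
          exact ⟨hG0O g hg.1, (Finset.mem_filter.1 hg.1).2, hg.2.le⟩
      have hrich : ∑ g ∈ Gr, ((rho (M g X Y) : ℕ) : ℝ) ^ (3 + ε / 2) ≤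
          1 / 4 * ((2 * C' + 1) * v ^ (2 + ε)) + ((8 * (V:ℝ)) ^ (3 + ε / 2) * (CT * v ^ (2 + ε)) +
          (16 * (V:ℝ)) ^ (3 + ε / 2) * (5 * (K3 : ℝ) ^ (-(ε / 2)) * R)) := by
        have hR0 : 0 ≤ R := Re_nonneg _ _ _ _ _
        rcases Gr.eq_empty_or_nonempty with hemp | ⟨g0, hg0⟩
        · rw [hemp, Finset.sum_empty]
          (clear * - hC'0 hCT hK31 hR0; positivity)
        have hg0' := Finset.mem_filter.1 hg0
        have hBX : B ≤ X.card := by
          have h1 := (rho_le_card (M g0 X Y)).trans (M_card_le_X g0 X Y)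
          omega
        have hBY : B ≤ Y.card := by
          have h1 := (rho_le_card (M g0 X Y)).trans (M_card_le_Y (hG0O g0 hg0'.1) X Y)
          omega
        obtain ⟨Xc, Yc, hXc, hYc, hnd⟩ := nd K1 B (by omega) X Y hBX hBY
        set Pn : Iso → Prop := fun g => ∃ Vis : Finset (ℕ × ℕ),
          Vis ⊆ Finset.range (B + 1) ×ˢ Finset.range (B + 1) ∧ Vis.card ≤ 500 * (B + 1) ∧
          rho (M g X Y) ≤ 8 * ∑ v ∈ Vis, rK K1 (M g (Xc v.1) (Yc v.2)) with hPn
        rw [← Finset.sum_filter_add_sum_filter_not Gr Pn]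
        apply add_le_add
        · have h1 := nd_sum (η := ε / 2) (ε := ε) (by positivity) hε.le K1 B (by omega) X Y Xc Yc hXc hYc
            (2 * C' + 1) (by linarith only [hC'0]) (by
              intro i j G' hG'
              have h2 := hXc i
              have h3 := hYc j
              have h4 : (Xc i).card * (Yc j).card < n := by
                have h5 : (B * (Xc i).card) * (B * (Yc j).card) ≤ (2 * X.card) * (2 * Y.card) :=
                  Nat.mul_le_mul h2 h3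
                have h6 : (B * (Xc i).card) * (B * (Yc j).card) = (B * B) * ((Xc i).card * (Yc j).card) := by ring
                have h7 : (2 * X.card) * (2 * Y.card) = 4 * (X.card * Y.card) := by ring
                have h8 : 9 ≤ B * B := Nat.mul_le_mul hB3 hB3
                have h9 : 9 * ((Xc i).card * (Yc j).card) ≤ (B * B) * ((Xc i).card * (Yc j).card) :=
                  Nat.mul_le_mul_right _ h8
                have h10 : 0 < X.card * Y.card := Nat.mul_pos (by omega) (by omega)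
                rw [← hn]
                omega
              exact ih _ h4 (Xc i) (Yc j) rfl G' hG')
            (Gr.filter Pn) (fun g hg => hG0O g (Finset.mem_filter.1 (Finset.mem_filter.1 hg).1).1)
            (fun g hg => (Finset.mem_filter.1 hg).2)
          refine h1.trans ?_
          have h2 : (4 * v / (B:ℝ) ^ 2) ^ (2 + ε) = (4 / (B:ℝ) ^ 2) ^ (2 + ε) * v ^ (2 + ε) := by
            rw [← Real.mul_rpow (by positivity) hv0]
            congr 1
            ring
          rw [h2]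
          have h3 : (0:ℝ) ≤ (2 * C' + 1) * v ^ (2 + ε) := by (clear * - hC'0; positivity)
          calc _ = ((8:ℝ) ^ (3 + ε / 2) * (500 * ((B:ℝ) + 1)) ^ (2 + ε / 2) * ((B:ℝ) + 1) ^ 2 *
                (4 / (B:ℝ) ^ 2) ^ (2 + ε)) * ((2 * C' + 1) * v ^ (2 + ε)) := by ring
            _ ≤ _ := mul_le_mul_of_nonneg_right hBc h3
        · apply partT hε K1 V K2a K3 K2 (by omega) (by omega) hK31 CT hCT X Y (hTa X Y) (by omega)
          · intro g hg
            have hg' := Finset.mem_filter.1 (Finset.mem_filter.1 hg).1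
            exact ⟨hG0O g hg'.1, hg'.2⟩
          · intro g hg
            have hg' := Finset.mem_filter.1 hg
            have hg'' := Finset.mem_filter.1 hg'.1
            have h2 : 8 * (500 * (B + 1)) * K1 ≤ rho (M g X Y) := by
              rw [← hV]
              have h3 := hg''.2
              omega
            rcases hnd g (hG0O g hg''.1) h2 (by have h3 := hg''.2; omega) with h3 | h3
            · exact absurd h3 hg'.2
            · rw [hV]
              exact h3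
      have hR0 : 0 ≤ R := Re_nonneg _ _ _ _ _
      have hvr0 : 0 ≤ v ^ (2 + ε) := by (clear * -; positivity)
      have h16 : (16 * (V:ℝ)) ^ (3 + ε / 2) * (5 * (K3 : ℝ) ^ (-(ε / 2)) * R) ≤ 1 / 8 * R := by
        calc _ = (5 * (16 * (V:ℝ)) ^ (3 + ε / 2) * (K3 : ℝ) ^ (-(ε / 2))) * R := by ring
          _ ≤ _ := mul_le_mul_of_nonneg_right hK3 hR0
      have h5A : 5 * (A : ℝ) ^ (-(ε / 2)) * R ≤ 1 / 8 * R := mul_le_mul_of_nonneg_right hA hR0
      have h10 : (K2 : ℝ) ^ (3 + ε / 2) * (10 * v ^ 2) ≤ (K2 : ℝ) ^ (3 + ε / 2) * (10 * v ^ (2 + ε)) := by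
        apply mul_le_mul_of_nonneg_left _ (by positivity)
        linarith only [hvv]
      have htot : R ≤ 1 / 4 * ((2 * C' + 1) * v ^ (2 + ε)) + C' * v ^ (2 + ε) + 1 / 4 * R := by
        have h11 : C' * v ^ (2 + ε) = (8 * (V:ℝ)) ^ (3 + ε / 2) * (CT * v ^ (2 + ε)) +
            (K2 : ℝ) ^ (3 + ε / 2) * (10 * v ^ (2 + ε)) + (K2 : ℝ) ^ (3 + ε / 2) * (CP * v ^ (2 + ε)) := by
          rw [hC']; ring
        rw [h11]
        linarith only [h10, h5A, h16, hrich, hpoor, hs1]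
      linarith only [htot, hvr0]
  intro X Y G hG
  exact main _ X Y rfl G hG

theorem rstmt (hP : PlanarStmt) (hT : TwoStmt) : RStmt := by
  intro ε hε
  obtain ⟨K1, hK1, C, hC, h⟩ := key hP hT (min ε 1) (lt_min hε one_pos) (min_le_right _ _)
  refine ⟨K1, C, hC, ?_⟩
  intro X Y G hG
  have h1 : Rf K1 G X Y ≤ Re (min ε 1 / 2) K1 G X Y := by
    unfold Rf Re
    apply Finset.sum_le_sum
    intro g _
    unfold wt
    split_ifs with h2
    · have h3 : (1:ℝ) ≤ ((rho (M g X Y) : ℕ) : ℝ) := by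
        have : 1 ≤ rho (M g X Y) := by omega
        exact_mod_cast this
      have h4 : (0:ℝ) < min ε 1 := lt_min hε one_pos
      calc ((rho (M g X Y) : ℕ) : ℝ) ^ 3 = ((rho (M g X Y) : ℕ) : ℝ) ^ (3:ℝ) := by norm_num
        _ ≤ _ := Real.rpow_le_rpow_of_exponent_le h3 (by linarith)
    · exact le_rfl
  refine h1.trans ((h X Y G hG).trans ?_)
  apply mul_le_mul_of_nonneg_left _ hC.le
  have h4 : (0:ℝ) < min ε 1 := lt_min hε one_pos
  have h5 : (X.card : ℝ) * Y.card = ((X.card * Y.card : ℕ) : ℝ) := by push_cast; rfl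
  rcases Nat.eq_zero_or_pos (X.card * Y.card) with h0 | h0
  · rw [h5, h0, Nat.cast_zero, Real.zero_rpow (by linarith), Real.zero_rpow (by linarith)]
  · apply Real.rpow_le_rpow_of_exponent_le
    · rw [h5]; exact_mod_cast h0
    · have := min_le_left ε 1
      linarith

end Vale.Agent.P054.R
end

section

/-! Theorem PL: the Cayley geometry. -/

namespace Vale.Agent.P054.PL

open MvPolynomial Matrix

theorem cr (a b : V3) : crossProduct a b =
    ![a 1 * b 2 - a 2 * b 1, a 2 * b 0 - a 0 * b 2, a 0 * b 1 - a 1 * b 0] := cross_apply a b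

theorem dp (a b : V3) : a ⬝ᵥ b = a 0 * b 0 + a 1 * b 1 + a 2 * b 2 := by
  simp [dotProduct, Fin.sum_univ_three]

theorem v3_ext {a b : V3} (h0 : a 0 = b 0) (h1 : a 1 = b 1) (h2 : a 2 = b 2) : a = b := by
  funext i; fin_cases i <;> assumption

theorem v3_eq_zero {a : V3} (h0 : a 0 = 0) (h1 : a 1 = 0) (h2 : a 2 = 0) : a = 0 :=
  v3_ext h0 h1 h2

theorem v3_self {a : V3} (h : a ⬝ᵥ a = 0) : a = 0 := by
  rw [dp] at h
  have h0 : a 0 * a 0 = 0 := by nlinarith [mul_self_nonneg (a 0), mul_self_nonneg (a 1), mul_self_nonneg (a 2)]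
  have h1 : a 1 * a 1 = 0 := by nlinarith [mul_self_nonneg (a 0), mul_self_nonneg (a 1), mul_self_nonneg (a 2)]
  have h2 : a 2 * a 2 = 0 := by nlinarith [mul_self_nonneg (a 0), mul_self_nonneg (a 1), mul_self_nonneg (a 2)]
  exact v3_eq_zero (mul_self_eq_zero.1 h0) (mul_self_eq_zero.1 h1) (mul_self_eq_zero.1 h2)

theorem par_of_cross {a b : V3} (h : crossProduct a b = 0) (hb : b ≠ 0) :
    a = ((a ⬝ᵥ b) / (b ⬝ᵥ b)) • b := by
  have hbb : b ⬝ᵥ b ≠ 0 := fun hc => hb (v3_self hc)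
  rw [cr] at h
  have e0 := congrFun h 0
  have e1 := congrFun h 1
  have e2 := congrFun h 2
  simp at e0 e1 e2
  rw [dp] at hbb
  rw [dp, dp]
  apply v3_ext <;>
  · simp only [Pi.smul_apply, smul_eq_mul]
    rw [div_mul_eq_mul_div, eq_div_iff hbb]
    first
    | linear_combination b 1 * e2 - b 2 * e1
    | linear_combination b 2 * e0 - b 0 * e2
    | linear_combination b 0 * e1 - b 1 * e0

/-- the vectors `u = a' - a`, `v = c' - c`, `s = u + v` of two matched pairs -/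
theorem Mt.sub {p q q' : V3 × V3} (h : Mt p q) (h' : Mt p q') :
    (q'.2 - q.2) - (q'.1 - q.1) = crossProduct p.1 ((q'.1 - q.1) + (q'.2 - q.2)) := by
  unfold Mt at h h'
  rw [cr] at h h' ⊢
  have a0 := congrFun h 0
  have a1 := congrFun h 1
  have a2 := congrFun h 2
  have b0 := congrFun h' 0
  have b1 := congrFun h' 1
  have b2 := congrFun h' 2
  simp at a0 a1 a2 b0 b1 b2
  apply v3_ext <;> simp <;> linarith

/-- `s` -/
def sv (q q' : V3 × V3) : V3 := (q'.1 - q.1) + (q'.2 - q.2)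

theorem two_u {p q q' : V3 × V3} (h : Mt p q) (h' : Mt p q') :
    (2 : ℝ) • (q'.1 - q.1) = sv q q' - crossProduct p.1 (sv q q') := by
  have h1 := h.sub h'
  unfold sv
  rw [← h1]
  apply v3_ext <;> simp <;> ring

theorem sv_ne {p q q' : V3 × V3} (h : Mt p q) (h' : Mt p q') (hne : q.1 ≠ q'.1) :
    sv q q' ≠ 0 := by
  intro hs
  have h1 := two_u h h'
  rw [hs] at h1
  simp at h1
  exact hne (sub_eq_zero.1 h1).symm

theorem Mt.snd_eq {p q q' : V3 × V3} (h : Mt p q) (h' : Mt p q') (he : q.1 = q'.1) : q = q' := by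
  have h1 := h.sub h'
  rw [he] at h1
  simp at h1
  have h2 : (q'.2 - q.2) ⬝ᵥ (q'.2 - q.2) = 0 := by
    have h3 : (q'.2 - q.2) = crossProduct p.1 (q'.2 - q.2) := by
      rw [map_sub]; exact h1
    rw [cr] at h3
    have e0 := congrFun h3 0
    have e1 := congrFun h3 1
    have e2 := congrFun h3 2
    simp only [Matrix.cons_val] at e0 e1 e2
    rw [dp]
    linear_combination (q'.2 - q.2) 0 * e0 + (q'.2 - q.2) 1 * e1 + (q'.2 - q.2) 2 * e2
  exact Prod.ext he (sub_eq_zero.1 (v3_self h2)).symm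

/-- `4 u₁ × u₂` is a linear function of `s₁ × s₂` -/
theorem cross_u {w s1 s2 u1 u2 : V3} (h1 : (2:ℝ) • u1 = s1 - crossProduct w s1)
    (h2 : (2:ℝ) • u2 = s2 - crossProduct w s2) (h : crossProduct s1 s2 = 0) :
    crossProduct u1 u2 = 0 := by
  have k1 : u1 = (1/2:ℝ) • (s1 - crossProduct w s1) := by rw [← h1, smul_smul]; norm_num
  have k2 : u2 = (1/2:ℝ) • (s2 - crossProduct w s2) := by rw [← h2, smul_smul]; norm_num
  have e0 := congrFun h 0
  have e1 := congrFun h 1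
  have e2 := congrFun h 2
  rw [cr] at e0 e1 e2
  simp only [Matrix.cons_val, Pi.zero_apply] at e0 e1 e2
  have e0' : s1 1 * s2 2 = s1 2 * s2 1 := by linarith
  rw [k1, k2]
  simp only [cr]
  apply v3_eq_zero <;>
    simp only [Matrix.cons_val, Pi.sub_apply, Pi.smul_apply, smul_eq_mul]
  · linear_combination (1/4 : ℝ) * (e0 - (w 1 * e2 - w 2 * e1) + w 0 * (w 0 * e0 + w 1 * e1 + w 2 * e2))
  · linear_combination (1/4 : ℝ) * (e1 - (w 2 * e0 - w 0 * e2) + w 1 * (w 0 * e0 + w 1 * e1 + w 2 * e2))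
  · linear_combination (1/4 : ℝ) * (e2 - (w 0 * e1 - w 1 * e0) + w 2 * (w 0 * e0 + w 1 * e1 + w 2 * e2))

/-- two motions matching both `q`, `q'` differ by a multiple of `s` -/
theorem line_param {p p0 q q' : V3 × V3} (h : Mt p q) (h' : Mt p q') (h0 : Mt p0 q)
    (h0' : Mt p0 q') (hne : q.1 ≠ q'.1) :
    ∃ t : ℝ, p.1 = p0.1 + t • sv q q' := by
  have hs : sv q q' ≠ 0 := sv_ne h h' hne
  have e1 := h.sub h'
  have e2 := h0.sub h0'
  have e3 : crossProduct (p.1 - p0.1) (sv q q') = 0 := by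
    unfold sv
    rw [map_sub, LinearMap.sub_apply, ← e1, ← e2, sub_self]
  refine ⟨((p.1 - p0.1) ⬝ᵥ sv q q') / (sv q q' ⬝ᵥ sv q q'), ?_⟩
  rw [← par_of_cross e3 hs]
  simp

theorem mt_iff (p q : V3 × V3) : Mt p q ↔ p.2 = wq q p.1 := by
  unfold Mt wq
  constructor
  · intro h; rw [h]; simp
  · intro h; rw [h]; simp

theorem ext_of_mt {p p' q : V3 × V3} (h : Mt p q) (h' : Mt p' q) (he : p.1 = p'.1) : p = p' := by
  rw [mt_iff] at h h'
  exact Prod.ext he (by rw [h, h', he])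

theorem eval_hq (h : MvPolynomial (Fin 6) ℝ) (q : V3 × V3) (ω : V3) :
    eval ω (hq h q) = eval (pv (ω, wq q ω)) h := by
  unfold hq
  rw [W.eval_aeval]
  have h2 : (fun i => eval ω (Lq q i)) = pv (ω, wq q ω) := by
    funext i
    fin_cases i <;> simp [Lq, pv, wq, cross_apply]
  rw [h2]

theorem totalDegree_hq (h : MvPolynomial (Fin 6) ℝ) (q : V3 × V3) :
    (hq h q).totalDegree ≤ h.totalDegree := by
  have := W.totalDegree_aeval_le (Lq q) 1 ?_ h
  · simpa [hq] using this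
  · intro i
    have hX : ∀ (j : Fin 3) (r : ℝ), (X j * C r : MvPolynomial (Fin 3) ℝ).totalDegree ≤ 1 := by
      intro j r
      refine (totalDegree_mul _ _).trans ?_
      simp
    have hC : ∀ (r : ℝ) (j k : Fin 3) (x y : ℝ),
        (C r - (X j * C x - X k * C y) : MvPolynomial (Fin 3) ℝ).totalDegree ≤ 1 := by
      intro r j k x y
      refine (totalDegree_sub _ _).trans (max_le (by simp) ?_)
      exact (totalDegree_sub _ _).trans (max_le (hX _ _) (hX _ _))
    fin_cases i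
    · simp [Lq]
    · simp [Lq]
    · simp [Lq]
    · exact hC _ _ _ _ _
    · exact hC _ _ _ _ _
    · exact hC _ _ _ _ _

theorem eval_hq_mt (h : MvPolynomial (Fin 6) ℝ) {p q : V3 × V3} (hm : Mt p q) :
    eval p.1 (hq h q) = eval (pv p) h := by
  rw [eval_hq, ← (mt_iff p q).1 hm]

/-- gradient condition on a flat contained in `Z(h)` -/
theorem grad_flat (h : MvPolynomial (Fin 6) ℝ) {p q : V3 × V3} (hm : Mt p q) (hz : hq h q = 0) :
    let g := fun i => eval (pv p) (pderiv i h)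
    let m := q.1 + q.2
    g 0 = m 1 * g 5 - m 2 * g 4 ∧ g 1 = m 2 * g 3 - m 0 * g 5 ∧ g 2 = m 0 * g 4 - m 1 * g 3 := by
  intro g m
  have key : ∀ η : V3, ∑ i, (pv (η, - crossProduct η m)) i * g i = 0 := by
    intro η
    have h1 := W.hasDerivAt_eval h (pv p) (pv (η, - crossProduct η m))
    have h2 : (fun t : ℝ => eval (pv p + t • pv (η, - crossProduct η m)) h) = fun _ => 0 := by
      funext t
      have h3 : pv p + t • pv (η, - crossProduct η m) = pv (p.1 + t • η, wq q (p.1 + t • η)) := by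
        have h4 := (mt_iff p q).1 hm
        have c0 := congrFun h4 0
        have c1 := congrFun h4 1
        have c2 := congrFun h4 2
        simp only [wq, cr] at c0 c1 c2
        simp at c0 c1 c2
        funext i
        fin_cases i <;> simp [pv, wq, cross_apply, m]
        · rw [c0]; ring
        · rw [c1]; ring
        · rw [c2]; ring
      rw [h3, ← eval_hq, hz, map_zero]
    rw [h2] at h1
    exact h1.unique (hasDerivAt_const (0:ℝ) (0:ℝ))
  have k0 := key ![1, 0, 0]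
  have k1 := key ![0, 1, 0]
  have k2 := key ![0, 0, 1]
  simp [Fin.sum_univ_six, pv, cross_apply] at k0 k1 k2
  refine ⟨by linarith, by linarith, by linarith⟩

/-- three flats through `p` inside `Z(h)` with `∇h(p) ≠ 0` have collinear base points -/
theorem collinear_of_flats (h : MvPolynomial (Fin 6) ℝ) {p : V3 × V3}
    (hg : ∃ i, eval (pv p) (pderiv i h) ≠ 0) {q1 q2 q3 : V3 × V3}
    (h1 : Mt p q1) (h2 : Mt p q2) (h3 : Mt p q3)
    (z1 : hq h q1 = 0) (z2 : hq h q2 = 0) (z3 : hq h q3 = 0) :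
    crossProduct (q2.1 - q1.1) (q3.1 - q1.1) = 0 := by
  obtain ⟨a0, a1, a2⟩ := grad_flat h h1 z1
  obtain ⟨b0, b1, b2⟩ := grad_flat h h2 z2
  obtain ⟨c0, c1, c2⟩ := grad_flat h h3 z3
  set g := fun i => eval (pv p) (pderiv i h) with hgdef
  let γ : V3 := ![g 3, g 4, g 5]
  simp only [Pi.add_apply] at a0 a1 a2 b0 b1 b2 c0 c1 c2
  have s1 : crossProduct (sv q1 q2) γ = 0 := by
    rw [cr]
    apply v3_eq_zero <;> simp [sv, γ] <;> linarith
  have s2 : crossProduct (sv q1 q3) γ = 0 := by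
    rw [cr]
    apply v3_eq_zero <;> simp [sv, γ] <;> linarith
  have hγ : γ ≠ 0 := by
    intro hc
    have e3 : g 3 = 0 := by simpa [γ] using congrFun hc 0
    have e4 : g 4 = 0 := by simpa [γ] using congrFun hc 1
    have e5 : g 5 = 0 := by simpa [γ] using congrFun hc 2
    obtain ⟨i, hi⟩ := hg
    apply hi
    change g i = 0
    have e0 : g 0 = 0 := by rw [a0, e4, e5]; ring
    have e1 : g 1 = 0 := by rw [a1, e3, e5]; ring
    have e2 : g 2 = 0 := by rw [a2, e3, e4]; ring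
    fin_cases i
    · exact e0
    · exact e1
    · exact e2
    · exact e3
    · exact e4
    · exact e5
  refine cross_u (two_u h1 h2) (two_u h1 h3) ?_
  rw [par_of_cross s1 hγ, par_of_cross s2 hγ]
  simp

end Vale.Agent.P054.PL
end

section

/-! Theorem PL: the wall count. -/

namespace Vale.Agent.P054.PL

open MvPolynomial Matrix

theorem mem_Ms {S : Finset (V3 × V3)} {p q : V3 × V3} : q ∈ Ms S p ↔ q ∈ S ∧ Mt p q := by
  classical
  simp [Ms]

/-- the normal of the plane of directions `s` -/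
theorem nrm_dot {m w s u : V3} (h : (2:ℝ) • u = s - crossProduct w s) (hm : m ⬝ᵥ u = 0) :
    (m + crossProduct w m) ⬝ᵥ s = 0 := by
  have e0 := congrFun h 0
  have e1 := congrFun h 1
  have e2 := congrFun h 2
  rw [cr] at e0 e1 e2
  simp only [Matrix.cons_val, Pi.sub_apply, Pi.smul_apply, smul_eq_mul] at e0 e1 e2
  rw [dp] at hm
  rw [cr, dp]
  simp only [Matrix.cons_val, Pi.add_apply]
  linear_combination (2:ℝ) * hm - m 0 * e0 - m 1 * e1 - m 2 * e2

theorem nrm_ne {m : V3} (w : V3) (hm : m ≠ 0) : m + crossProduct w m ≠ 0 := by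
  intro h
  apply hm
  apply v3_self
  have e0 := congrFun h 0
  have e1 := congrFun h 1
  have e2 := congrFun h 2
  rw [cr] at e0 e1 e2
  simp only [Matrix.cons_val, Pi.add_apply, Pi.zero_apply] at e0 e1 e2
  rw [dp]
  linear_combination m 0 * e0 + m 1 * e1 + m 2 * e2

theorem TR_of {p q q' : V3 × V3} (h : Mt p q) (h' : Mt p q') {n : V3} {δ : ℝ}
    (hs : n ⬝ᵥ sv q q' = 0) (hn : n ⬝ᵥ p.1 = δ) : TR n δ q q' := by
  refine ⟨hs, ?_⟩
  rw [h.sub h']
  change crossProduct n (crossProduct p.1 (sv q q')) = (-δ) • sv q q'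
  rw [← hn]
  rw [dp] at hs ⊢
  simp only [cr]
  apply v3_ext <;> simp only [Matrix.cons_val, Pi.smul_apply, smul_eq_mul]
  · linear_combination p.1 0 * hs
  · linear_combination p.1 1 * hs
  · linear_combination p.1 2 * hs

/-- (a) transversal lines -/
theorem caseA (hLi : LineStmt) {D : ℕ} {h : MvPolynomial (Fin 6) ℝ} (hD : h.totalDegree ≤ D)
    (S G : Finset (V3 × V3)) (hG : ∀ p ∈ G, eval (pv p) h = 0)
    (hA : ∀ p ∈ G, ∃ q ∈ Ms S p, ∃ q' ∈ Ms S p, q.1 ≠ q'.1 ∧
      ∃ t : ℝ, eval (p.1 + t • sv q q') (hq h q) ≠ 0) :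
    G.card ≤ D * S.card ^ 2 := by
  classical
  choose! q hqS q' hq'S hne ht using hA
  have h1 : G.card ≤ D * (G.image (fun p => (q p, q' p))).card := by
    refine Finset.card_le_mul_card_image G D ?_
    intro a ha
    obtain ⟨p0, hp0, rfl⟩ := Finset.mem_image.1 ha
    set F := G.filter (fun p => (q p, q' p) = (q p0, q' p0)) with hF
    have hFm : ∀ p ∈ F, p ∈ G ∧ Mt p (q p0) ∧ Mt p (q' p0) := by
      intro p hp
      rw [hF, Finset.mem_filter] at hp
      obtain ⟨hpG, he⟩ := hp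
      have e1 : q p = q p0 := congrArg Prod.fst he
      have e2 : q' p = q' p0 := congrArg Prod.snd he
      refine ⟨hpG, ?_, ?_⟩
      · rw [← e1]; exact (mem_Ms.1 (hqS p hpG)).2
      · rw [← e2]; exact (mem_Ms.1 (hq'S p hpG)).2
    have hex : ∀ p ∈ F, ∃ t : ℝ, p.1 = p0.1 + t • sv (q p0) (q' p0) := fun p hp =>
      line_param (hFm p hp).2.1 (hFm p hp).2.2 (mem_Ms.1 (hqS p0 hp0)).2
        (mem_Ms.1 (hq'S p0 hp0)).2 (hne p0 hp0)
    choose! t htp using hex
    have hinj : Set.InjOn t F := by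
      intro p hp p' hp' he
      refine ext_of_mt (hFm p hp).2.1 (hFm p' hp').2.1 ?_
      rw [htp p hp, htp p' hp', he]
    rw [← Finset.card_image_of_injOn hinj]
    refine hLi D (hq h (q p0)) ((totalDegree_hq h _).trans hD) p0.1 (sv (q p0) (q' p0))
      (ht p0 hp0) _ ?_
    intro r hr
    obtain ⟨p, hp, rfl⟩ := Finset.mem_image.1 hr
    rw [← htp p hp, eval_hq_mt h (hFm p hp).2.1]
    exact hG p (hFm p hp).1
  have h2 : (G.image (fun p => (q p, q' p))).card ≤ S.card ^ 2 := by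
    have h3 : G.image (fun p => (q p, q' p)) ⊆ S ×ˢ S := by
      intro a ha
      obtain ⟨p, hp, rfl⟩ := Finset.mem_image.1 ha
      exact Finset.mem_product.2 ⟨(mem_Ms.1 (hqS p hp)).1, (mem_Ms.1 (hq'S p hp)).1⟩
    refine (Finset.card_le_card h3).trans ?_
    rw [Finset.card_product, sq]
  exact h1.trans (Nat.mul_le_mul_left _ h2)

/-- (b) one motion all of whose edge lines are in `Z(h)` -/
theorem caseB_point (hPl : PlaneStmt) (hDi : DirStmt) {D : ℕ} {h : MvPolynomial (Fin 6) ℝ}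
    (hD : h.totalDegree ≤ D) (S : Finset (V3 × V3)) (p : V3 × V3)
    (hp : Good S (D ^ 2 + 2) p) (hg : ∃ i, eval (pv p) (pderiv i h) ≠ 0)
    (hB : ∀ q ∈ Ms S p, ∀ q' ∈ Ms S p, q.1 ≠ q'.1 →
      ∀ t : ℝ, eval (p.1 + t • sv q q') (hq h q) = 0) :
    ∃ q ∈ Ms S p, hq h q ≠ 0 ∧ ∃ n : V3, n ≠ 0 ∧ (∀ q' ∈ Ms S p, n ⬝ᵥ sv q q' = 0) ∧
      ∀ y : V3, n ⬝ᵥ y = n ⬝ᵥ p.1 → eval y (hq h q) = 0 := by
  classical
  have hMt : ∀ q ∈ Ms S p, Mt p q := fun q hq => (mem_Ms.1 hq).2
  have hinj : Set.InjOn (Prod.fst : V3 × V3 → V3) (Ms S p) := fun q hq q' hq' he =>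
    (hMt q hq).snd_eq (hMt q' hq') he
  obtain ⟨a, haA, haB, A', hA'A, haA', hcard, hdir⟩ := hDi D ((Ms S p).image Prod.fst)
    (((Ms S p).filter (fun q => hq h q = 0)).image Prod.fst)
    (Finset.image_subset_image (Finset.filter_subset _ _))
    (by
      intro x b hb
      refine (hp.rho x b hb).trans ?_
      rw [Finset.filter_image, Finset.card_image_of_injOn
        (hinj.mono (fun q hq => (Finset.mem_filter.1 hq).1))])
    (by
      intro x hx y hy z hz
      obtain ⟨q1, hq1, rfl⟩ := Finset.mem_image.1 hx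
      obtain ⟨q2, hq2, rfl⟩ := Finset.mem_image.1 hy
      obtain ⟨q3, hq3, rfl⟩ := Finset.mem_image.1 hz
      rw [Finset.mem_filter] at hq1 hq2 hq3
      exact collinear_of_flats h hg (hMt _ hq1.1) (hMt _ hq2.1) (hMt _ hq3.1) hq1.2 hq2.2 hq3.2)
  obtain ⟨q, hqM, rfl⟩ := Finset.mem_image.1 haA
  have hqne : hq h q ≠ 0 := fun hc =>
    haB (Finset.mem_image.2 ⟨q, Finset.mem_filter.2 ⟨hqM, hc⟩, rfl⟩)
  obtain ⟨m, hm, hmp⟩ := hp.plane
  refine ⟨q, hqM, hqne, m + crossProduct p.1 m, nrm_ne _ hm, ?_, ?_⟩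
  · intro q' hq'
    exact nrm_dot (two_u (hMt q hqM) (hMt q' hq')) (hmp q hqM q' hq')
  · set A'' := (Ms S p).filter (fun q' => q'.1 ∈ A') with hA''
    have hc1 : A''.card = A'.card := by
      have : A''.image Prod.fst = A' := by
        ext x
        rw [Finset.mem_image]
        constructor
        · rintro ⟨q', hq', rfl⟩
          exact (Finset.mem_filter.1 hq').2
        · intro hx
          obtain ⟨q', hq', rfl⟩ := Finset.mem_image.1 (hA'A hx)
          exact ⟨q', Finset.mem_filter.2 ⟨hq', hx⟩, rfl⟩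
      rw [← this, Finset.card_image_of_injOn (hinj.mono (fun q hq => (Finset.mem_filter.1 hq).1))]
    have hcross : ∀ q1 ∈ A'', ∀ q2 ∈ A'', q1 ≠ q2 →
        crossProduct (sv q q1) (sv q q2) ≠ 0 := by
      intro q1 h1 q2 h2 hne hc
      rw [hA'', Finset.mem_filter] at h1 h2
      have h12 : q1.1 ≠ q2.1 := fun he => hne (hinj h1.1 h2.1 he)
      exact hdir q1.1 h1.2 q2.1 h2.2 h12
        (cross_u (two_u (hMt q hqM) (hMt q1 h1.1)) (two_u (hMt q hqM) (hMt q2 h2.1)) hc)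
    have hinj2 : Set.InjOn (sv q) (A'' : Set (V3 × V3)) := by
      intro q1 h1 q2 h2 he
      by_contra hne
      apply hcross q1 h1 q2 h2 hne
      rw [he]
      exact cross_self _
    refine hPl D (hq h q) ((totalDegree_hq h _).trans hD) p.1 _ (nrm_ne p.1 hm) (A''.image (sv q))
      ?_ ?_ ?_
    · rw [Finset.card_image_of_injOn hinj2, hc1]; exact hcard
    · intro s hs
      obtain ⟨q', hq', rfl⟩ := Finset.mem_image.1 hs
      rw [hA'', Finset.mem_filter] at hq'
      have hne : q.1 ≠ q'.1 := fun he => haA' (he ▸ hq'.2)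
      exact ⟨sv_ne (hMt q hqM) (hMt q' hq'.1) hne,
        nrm_dot (two_u (hMt q hqM) (hMt q' hq'.1)) (hmp q hqM q' hq'.1),
        hB q hqM q' hq'.1 hne⟩
    · intro s hs s' hs' hne
      obtain ⟨q1, hq1, rfl⟩ := Finset.mem_image.1 hs
      obtain ⟨q2, hq2, rfl⟩ := Finset.mem_image.1 hs'
      exact hcross q1 hq1 q2 hq2 (fun he => hne (by rw [he]))

/-- (b) the count -/
theorem caseB (hPs : PlanesStmt) {D : ℕ} {h : MvPolynomial (Fin 6) ℝ}
    (hD : h.totalDegree ≤ D) (S G : Finset (V3 × V3)) (B : ℕ) (hF : Fib S G B)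
    (hG : ∀ p ∈ G, ∃ q ∈ Ms S p, hq h q ≠ 0 ∧ ∃ n : V3, n ≠ 0 ∧
      (∀ q' ∈ Ms S p, n ⬝ᵥ sv q q' = 0) ∧
      ∀ y : V3, n ⬝ᵥ y = n ⬝ᵥ p.1 → eval y (hq h q) = 0) :
    G.card ≤ B * (D * S.card) := by
  classical
  choose! q hqM hqne n hn hns hny using hG
  have h1 : G.card ≤ (B * D) * (G.image q).card := by
    refine Finset.card_le_mul_card_image G (B * D) ?_
    intro q0 hq0
    set G0 := G.filter (fun p => q p = q0) with hG0
    have hG0m : ∀ p ∈ G0, p ∈ G ∧ q p = q0 := fun p hp => Finset.mem_filter.1 hp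
    let Φ : V3 × V3 → Set V3 := fun p => {y | n p ⬝ᵥ y = n p ⬝ᵥ p.1}
    have h2 : G0.card ≤ B * (G0.image Φ).card := by
      refine Finset.card_le_mul_card_image G0 B ?_
      intro P hP
      obtain ⟨p0, hp0, rfl⟩ := Finset.mem_image.1 hP
      have hp0' := hG0m p0 hp0
      have hq0S : q0 ∈ S := by
        rw [← hp0'.2]; exact (mem_Ms.1 (hqM p0 hp0'.1)).1
      refine (Finset.card_le_card ?_).trans (hF q0 hq0S (n p0) (hn p0 hp0'.1) (n p0 ⬝ᵥ p0.1))
      intro p hp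
      rw [Finset.mem_filter] at hp
      obtain ⟨hpG0, hΦ⟩ := hp
      have hp' := hG0m p hpG0
      have hqm : q0 ∈ Ms S p := by rw [← hp'.2]; exact hqM p hp'.1
      refine Finset.mem_filter.2 ⟨hp'.1, hqm, ?_⟩
      intro q' hq'
      have e1 : n p0 ⬝ᵥ p.1 = n p0 ⬝ᵥ p0.1 := by
        have : p.1 ∈ Φ p := rfl
        rw [hΦ] at this
        exact this
      have e2 : n p0 ⬝ᵥ (p.1 + sv q0 q') = n p0 ⬝ᵥ p0.1 := by
        have : p.1 + sv q0 q' ∈ Φ p := by
          change n p ⬝ᵥ (p.1 + sv q0 q') = n p ⬝ᵥ p.1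
          rw [dotProduct_add]
          have := hns p hp'.1 q' hq'
          rw [hp'.2] at this
          rw [this, add_zero]
        rw [hΦ] at this
        exact this
      have e3 : n p0 ⬝ᵥ sv q0 q' = 0 := by
        rw [dotProduct_add, e1] at e2
        linarith
      exact TR_of (mem_Ms.1 hqm).2 (mem_Ms.1 hq').2 e3 e1
    have h3 : (G0.image Φ).card ≤ D := by
      rcases Finset.eq_empty_or_nonempty G0 with he | ⟨p1, hp1⟩
      · rw [he]; simp
      have hrep : ∀ P ∈ G0.image Φ, ∃ p ∈ G0, Φ p = P := fun P hP => Finset.mem_image.1 hP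
      choose! r hr hrP using hrep
      have hp1' := hG0m p1 hp1
      have hne : hq h q0 ≠ 0 := by rw [← hp1'.2]; exact hqne p1 hp1'.1
      refine hPs D (hq h q0) hne ((totalDegree_hq h _).trans hD) (Set V3) (G0.image Φ)
        (fun P => n (r P)) (fun P => n (r P) ⬝ᵥ (r P).1) ?_ ?_ ?_
      · intro P hP
        exact hn _ (hG0m _ (hr P hP)).1
      · intro P hP y hy
        have h4 := hny (r P) (hG0m _ (hr P hP)).1 y hy
        rwa [(hG0m _ (hr P hP)).2] at h4
      · intro P hP P' hP' hne hall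
        apply hne
        rw [← hrP P hP, ← hrP P' hP']
        ext y
        exact hall y
    calc G0.card ≤ B * (G0.image Φ).card := h2
      _ ≤ B * D := Nat.mul_le_mul_left _ h3
  have h5 : (G.image q).card ≤ S.card := by
    refine Finset.card_le_card ?_
    intro a ha
    obtain ⟨p, hp, rfl⟩ := Finset.mem_image.1 ha
    exact (mem_Ms.1 (hqM p hp)).1
  calc G.card ≤ (B * D) * (G.image q).card := h1
    _ ≤ (B * D) * S.card := Nat.mul_le_mul_left _ h5
    _ = B * (D * S.card) := by ring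

theorem Fib.mono {S G G' : Finset (V3 × V3)} {B : ℕ} (h : Fib S G B) (hs : G' ⊆ G) :
    Fib S G' B := by
  classical
  intro q0 hq0 n hn δ
  exact (Finset.card_le_card (Finset.filter_subset_filter _ hs)).trans (h q0 hq0 n hn δ)

theorem wallStmt (hPl : PlaneStmt) (hPs : PlanesStmt) (hLi : LineStmt) (hDi : DirStmt) :
    WallStmt := by
  classical
  intro D h hD S G B hGood hF hwall
  let Q : V3 × V3 → Prop := fun p => ∃ q ∈ Ms S p, ∃ q' ∈ Ms S p, q.1 ≠ q'.1 ∧
      ∃ t : ℝ, eval (p.1 + t • sv q q') (hq h q) ≠ 0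
  have h1 : (G.filter Q).card ≤ D * S.card ^ 2 :=
    caseA hLi hD S _ (fun p hp => (hwall p (Finset.mem_filter.1 hp).1).1)
      (fun p hp => (Finset.mem_filter.1 hp).2)
  have h2 : (G.filter (fun p => ¬ Q p)).card ≤ B * (D * S.card) := by
    refine caseB hPs hD S _ B (hF.mono (Finset.filter_subset _ _)) ?_
    intro p hp
    rw [Finset.mem_filter] at hp
    refine caseB_point hPl hDi hD S p (hGood p hp.1) (hwall p hp.1).2 ?_
    intro q hqM q' hq'M hne t
    by_contra hc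
    exact hp.2 ⟨q, hqM, q', hq'M, hne, t, hc⟩
  rw [← Finset.card_filter_add_card_filter_not (s := G) Q]
  exact Nat.add_le_add h1 h2

end Vale.Agent.P054.PL
end

section

/-! Theorem PL for matrix motions `g = (Q, v)`, `Qᵀ Q = 1`, from the Cayley form `CoreStmt`. -/

set_option linter.all false

namespace Vale.Agent.P054.PL

open MvPolynomial Matrix

/-- a motion `x ↦ Q x + v` -/
abbrev Mo := Matrix (Fin 3) (Fin 3) ℝ × V3

/-- the motion `g` maps `q.1` to `q.2` -/
def mm (g : Mo) (q : V3 × V3) : Prop := g.1.mulVec q.1 + g.2 = q.2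

open scoped Classical in
/-- matched pairs -/
noncomputable def MM (S : Finset (V3 × V3)) (g : Mo) : Finset (V3 × V3) := S.filter (mm g)

theorem mem_MM {S : Finset (V3 × V3)} {g : Mo} {q : V3 × V3} : q ∈ MM S g ↔ q ∈ S ∧ mm g q := by
  classical
  simp [MM]

/-- planar, at least `K` matched points off every line -/
structure PGood (S : Finset (V3 × V3)) (K : ℕ) (g : Mo) : Prop where
  rho : open scoped Classical in ∀ x b : V3, b ≠ 0 →
    K ≤ ((MM S g).filter (fun q => crossProduct (q.1 - x) b ≠ 0)).card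
  plane : ∃ m : V3, m ≠ 0 ∧ ∀ q ∈ MM S g, ∀ q' ∈ MM S g, m ⬝ᵥ (q'.1 - q.1) = 0

open scoped Classical in
/-- every motion (proper or not) contains the matched sets of at most `B` motions of `G` -/
def PFib (S : Finset (V3 × V3)) (G : Finset Mo) (B : ℕ) : Prop :=
  ∀ h : Mo, h.1ᵀ * h.1 = 1 → (G.filter (fun g => ∀ q ∈ S, mm g q → mm h q)).card ≤ B

/-! ### the improper partner as a matrix motion -/

noncomputable def nn (n : V3) (δ : ℝ) : ℝ := δ ^ 2 + (n 0 ^ 2 + n 1 ^ 2 + n 2 ^ 2)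

noncomputable def TQ (n : V3) (δ : ℝ) : Matrix (Fin 3) (Fin 3) ℝ :=
  (-(nn n δ)⁻¹) • !![
    (δ ^ 2 - (n 0 ^ 2 + n 1 ^ 2 + n 2 ^ 2)) + 2 * n 0 * n 0, 2 * n 0 * n 1 + 2 * δ * n 2,
      2 * n 0 * n 2 - 2 * δ * n 1;
    2 * n 1 * n 0 - 2 * δ * n 2, (δ ^ 2 - (n 0 ^ 2 + n 1 ^ 2 + n 2 ^ 2)) + 2 * n 1 * n 1,
      2 * n 1 * n 2 + 2 * δ * n 0;
    2 * n 2 * n 0 + 2 * δ * n 1, 2 * n 2 * n 1 - 2 * δ * n 0,
      (δ ^ 2 - (n 0 ^ 2 + n 1 ^ 2 + n 2 ^ 2)) + 2 * n 2 * n 2]

theorem nn_pos {n : V3} (hn : n ≠ 0) (δ : ℝ) : 0 < nn n δ := by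
  unfold nn
  have h : 0 < n 0 ^ 2 + n 1 ^ 2 + n 2 ^ 2 := by
    rcases (by positivity : 0 ≤ n 0 ^ 2 + n 1 ^ 2 + n 2 ^ 2).lt_or_eq with h | h
    · exact h
    · exfalso
      apply hn
      apply v3_self
      rw [dp]
      linarith
  positivity

theorem TQ_orth {n : V3} (hn : n ≠ 0) (δ : ℝ) : (TQ n δ)ᵀ * TQ n δ = 1 := by
  have hN : nn n δ ≠ 0 := (nn_pos hn δ).ne'
  have e : ∀ i j, ((TQ n δ)ᵀ * TQ n δ) i j = (1 : Matrix (Fin 3) (Fin 3) ℝ) i j := by
    intro i j
    fin_cases i <;> fin_cases j <;>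
    · simp [Matrix.mul_apply, Fin.sum_univ_three, TQ]
      field_simp
      unfold nn
      ring
  ext i j
  exact e i j

theorem TQ_of_TR {n : V3} (hn : n ≠ 0) {δ : ℝ} {q0 q : V3 × V3} (h : TR n δ q0 q) :
    (TQ n δ).mulVec (q.1 - q0.1) = q.2 - q0.2 := by
  obtain ⟨h1, h2⟩ := h
  have hN : nn n δ ≠ 0 := (nn_pos hn δ).ne'
  set u := q.1 - q0.1
  set v := q.2 - q0.2
  rw [dp] at h1
  have e0 := congrFun h2 0
  have e1 := congrFun h2 1
  have e2 := congrFun h2 2
  rw [cr] at e0 e1 e2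
  simp only [Matrix.cons_val, Pi.sub_apply, Pi.add_apply, Pi.smul_apply, smul_eq_mul] at e0 e1 e2 h1
  have key : ∀ k, nn n δ * v k = - (nn n δ * (-(TQ n δ).mulVec u k)) := by
    intro k
    have hT : nn n δ * (-(TQ n δ).mulVec u k) =
        (!![
    (δ ^ 2 - (n 0 ^ 2 + n 1 ^ 2 + n 2 ^ 2)) + 2 * n 0 * n 0, 2 * n 0 * n 1 + 2 * δ * n 2,
      2 * n 0 * n 2 - 2 * δ * n 1;
    2 * n 1 * n 0 - 2 * δ * n 2, (δ ^ 2 - (n 0 ^ 2 + n 1 ^ 2 + n 2 ^ 2)) + 2 * n 1 * n 1,
      2 * n 1 * n 2 + 2 * δ * n 0;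
    2 * n 2 * n 0 + 2 * δ * n 1, 2 * n 2 * n 1 - 2 * δ * n 0,
      (δ ^ 2 - (n 0 ^ 2 + n 1 ^ 2 + n 2 ^ 2)) + 2 * n 2 * n 2] : Matrix (Fin 3) (Fin 3) ℝ).mulVec u k := by
      unfold TQ
      rw [Matrix.smul_mulVec]
      simp only [Pi.smul_apply, smul_eq_mul]
      field_simp
    rw [hT]
    unfold nn
    fin_cases k <;> simp [Matrix.mulVec, dotProduct, Fin.sum_univ_three]
    · linear_combination δ * e0 - (n 1 * e2 - n 2 * e1) + n 0 * h1
    · linear_combination δ * e1 - (n 2 * e0 - n 0 * e2) + n 1 * h1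
    · linear_combination δ * e2 - (n 0 * e1 - n 1 * e0) + n 2 * h1
  funext k
  have := key k
  have h3 : nn n δ * v k = nn n δ * (TQ n δ).mulVec u k := by linarith
  exact (mul_left_cancel₀ hN h3).symm

/-- the improper motion of `(n, δ, q0)` -/
noncomputable def TM (n : V3) (δ : ℝ) (q0 : V3 × V3) : Mo :=
  (TQ n δ, q0.2 - (TQ n δ).mulVec q0.1)

theorem mm_TM {n : V3} (hn : n ≠ 0) {δ : ℝ} {q0 q : V3 × V3} (h : TR n δ q0 q) :
    mm (TM n δ q0) q := by
  have h1 := TQ_of_TR hn h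
  unfold mm TM
  simp only
  rw [Matrix.mulVec_sub] at h1
  have : (TQ n δ).mulVec q.1 = q.2 - q0.2 + (TQ n δ).mulVec q0.1 := by rw [← h1]; abel
  rw [this]
  abel

/-! ### Cayley coordinates -/

noncomputable def cp (g : Mo) : V3 × V3 := (J.cyOm g, J.cyW g)

theorem Mt_of_mm {g : Mo} (hQ : g.1ᵀ * g.1 = 1) (hd : (1 + g.1).det ≠ 0) {q : V3 × V3}
    (h : mm g q) : Mt (cp g) q := by
  have h1 := J.cy_flat hQ hd h
  unfold Mt cp
  rw [cr]
  funext k
  have h2 := h1 k
  simp only [Pi.sub_apply, Pi.add_apply]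
  rw [h2]
  fin_cases k <;> simp [J.cyCr]

theorem mm_iff {g : Mo} (hQ : g.1ᵀ * g.1 = 1) (hd : (1 + g.1).det ≠ 0) (q : V3 × V3) :
    Mt (cp g) q ↔ mm g q := by
  constructor
  · intro h
    have h1 : mm g (q.1, g.1.mulVec q.1 + g.2) := rfl
    have h2 := Mt_of_mm hQ hd h1
    have h3 := Mt.snd_eq h h2 rfl
    have h4 : q.2 = g.1.mulVec q.1 + g.2 := congrArg Prod.snd h3
    exact h4.symm
  · exact Mt_of_mm hQ hd

theorem Ms_eq {g : Mo} (hQ : g.1ᵀ * g.1 = 1) (hd : (1 + g.1).det ≠ 0) (S : Finset (V3 × V3)) :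
    Ms S (cp g) = MM S g := by
  ext q
  rw [mem_Ms, mem_MM, mm_iff hQ hd]

theorem final_chart (hC : CoreStmt) (ε : ℝ) (hε : 0 < ε) : ∃ K : ℕ, ∀ B : ℕ, ∃ C : ℝ, 0 < C ∧
    ∀ (S : Finset (V3 × V3)) (G : Finset Mo), (∀ g ∈ G, g.1ᵀ * g.1 = 1) →
      (∀ g ∈ G, (1 + g.1).det ≠ 0) → (∀ g ∈ G, PGood S K g) → PFib S G B →
      (G.card : ℝ) ≤ C * (S.card : ℝ) ^ (2 + ε) := by
  classical
  obtain ⟨K, hK⟩ := hC ε hε
  refine ⟨K, fun B => ?_⟩
  obtain ⟨C, hC0, hC1⟩ := hK B
  refine ⟨C, hC0, fun S G hQ hd hG hF => ?_⟩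
  have hinj : Set.InjOn cp (G : Set Mo) := by
    intro g hg g' hg' he
    exact J.cy_inj (hQ g hg) (hd g hg) (hQ g' hg') (hd g' hg') (congrArg Prod.fst he)
      (congrArg Prod.snd he)
  have h := hC1 S (G.image cp) ?_ ?_
  · rwa [Finset.card_image_of_injOn hinj] at h
  · intro p hp
    obtain ⟨g, hg, rfl⟩ := Finset.mem_image.1 hp
    have h1 := Ms_eq (hQ g hg) (hd g hg) S
    refine ⟨?_, ?_⟩
    · intro x b hb
      rw [h1]
      exact (hG g hg).rho x b hb
    · rw [h1]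
      exact (hG g hg).plane
  · intro q0 hq0 n hn δ
    have h2 := hF (TM n δ q0) (TQ_orth hn δ)
    refine le_trans ?_ h2
    have h3 : (G.image cp).filter (fun p => q0 ∈ Ms S p ∧ ∀ q ∈ Ms S p, TR n δ q0 q) ⊆
        (G.filter (fun g => ∀ q ∈ S, mm g q → mm (TM n δ q0) q)).image cp := by
      intro p hp
      rw [Finset.mem_filter] at hp
      obtain ⟨hp1, hp2, hp3⟩ := hp
      obtain ⟨g, hg, rfl⟩ := Finset.mem_image.1 hp1
      refine Finset.mem_image.2 ⟨g, Finset.mem_filter.2 ⟨hg, ?_⟩, rfl⟩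
      intro q hq hm
      apply mm_TM hn
      apply hp3
      rw [Ms_eq (hQ g hg) (hd g hg)]
      exact mem_MM.2 ⟨hq, hm⟩
    exact (Finset.card_le_card h3).trans Finset.card_image_le

/-! ### transfer by an orthogonal matrix acting on the targets -/

def tS (U : Matrix (Fin 3) (Fin 3) ℝ) (q : V3 × V3) : V3 × V3 := (q.1, U.mulVec q.2)

def tG (U : Matrix (Fin 3) (Fin 3) ℝ) (g : Mo) : Mo := (U * g.1, U.mulVec g.2)

theorem mulVec_inj {U : Matrix (Fin 3) (Fin 3) ℝ} (hU : Uᵀ * U = 1) {x y : V3}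
    (h : U.mulVec x = U.mulVec y) : x = y := by
  have h1 := congrArg (fun u => Uᵀ.mulVec u) h
  simpa [Matrix.mulVec_mulVec, hU] using h1

theorem mm_t {U : Matrix (Fin 3) (Fin 3) ℝ} (hU : Uᵀ * U = 1) (g : Mo) (q : V3 × V3) :
    mm (tG U g) (tS U q) ↔ mm g q := by
  unfold mm tG tS
  simp only
  rw [← Matrix.mulVec_mulVec, ← Matrix.mulVec_add]
  exact ⟨fun h => mulVec_inj hU h, fun h => by rw [h]⟩

theorem tS_inj {U : Matrix (Fin 3) (Fin 3) ℝ} (hU : Uᵀ * U = 1) : Function.Injective (tS U) := by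
  intro q q' h
  have h1 : (tS U q).1 = (tS U q').1 := congrArg Prod.fst h
  exact Prod.ext h1 (mulVec_inj hU (congrArg Prod.snd h))

theorem tG_inj {U : Matrix (Fin 3) (Fin 3) ℝ} (hU : Uᵀ * U = 1) : Function.Injective (tG U) := by
  intro g g' h
  have h1 : U * g.1 = U * g'.1 := congrArg Prod.fst h
  refine Prod.ext ?_ (mulVec_inj hU (congrArg Prod.snd h))
  have h3 := congrArg (fun M => Uᵀ * M) h1
  simpa [← Matrix.mul_assoc, hU] using h3

theorem MM_t {U : Matrix (Fin 3) (Fin 3) ℝ} (hU : Uᵀ * U = 1) (S : Finset (V3 × V3)) (g : Mo) :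
    open scoped Classical in MM (S.image (tS U)) (tG U g) = (MM S g).image (tS U) := by
  classical
  ext q
  rw [mem_MM, Finset.mem_image, Finset.mem_image]
  constructor
  · rintro ⟨⟨q', hq', rfl⟩, hm⟩
    exact ⟨q', mem_MM.2 ⟨hq', (mm_t hU g q').1 hm⟩, rfl⟩
  · rintro ⟨q', hq', rfl⟩
    obtain ⟨h1, h2⟩ := mem_MM.1 hq'
    exact ⟨⟨q', h1, rfl⟩, (mm_t hU g q').2 h2⟩

theorem PGood_t {U : Matrix (Fin 3) (Fin 3) ℝ} (hU : Uᵀ * U = 1) {S : Finset (V3 × V3)} {K : ℕ}
    {g : Mo} (h : PGood S K g) :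
    open scoped Classical in PGood (S.image (tS U)) K (tG U g) := by
  classical
  have h1 := MM_t hU S g
  refine ⟨?_, ?_⟩
  · intro x b hb
    refine (h.rho x b hb).trans ?_
    have h2 : (MM (S.image (tS U)) (tG U g)).filter (fun q => crossProduct (q.1 - x) b ≠ 0) =
        ((MM S g).filter (fun q => crossProduct (q.1 - x) b ≠ 0)).image (tS U) := by
      have h3 : MM (S.image (tS U)) (tG U g) = (MM S g).image (tS U) := by
        convert h1
      rw [h3, Finset.filter_image]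
      rfl
    have h4 := Finset.card_image_of_injective
      ((MM S g).filter (fun q => crossProduct (q.1 - x) b ≠ 0)) (tS_inj hU)
    rw [← h4, ← h2]
  · obtain ⟨m, hm, hp⟩ := h.plane
    refine ⟨m, hm, ?_⟩
    intro q hq q' hq'
    have h3 : MM (S.image (tS U)) (tG U g) = (MM S g).image (tS U) := by
      convert h1
    rw [h3] at hq hq'
    obtain ⟨q1, hq1, rfl⟩ := Finset.mem_image.1 hq
    obtain ⟨q2, hq2, rfl⟩ := Finset.mem_image.1 hq'
    exact hp q1 hq1 q2 hq2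

theorem PFib_t {U : Matrix (Fin 3) (Fin 3) ℝ} (hU : Uᵀ * U = 1) {S : Finset (V3 × V3)}
    {G : Finset Mo} {B : ℕ} (h : PFib S G B) :
    open scoped Classical in PFib (S.image (tS U)) (G.image (tG U)) B := by
  classical
  intro k hk
  have hU' : U * Uᵀ = 1 := mul_eq_one_comm.1 hU
  have hUt : (Uᵀ)ᵀ * Uᵀ = 1 := by rw [Matrix.transpose_transpose]; exact hU'
  have h1 := h (tG Uᵀ k) (by
    show (Uᵀ * k.1)ᵀ * (Uᵀ * k.1) = 1
    rw [Matrix.transpose_mul, Matrix.transpose_transpose, Matrix.mul_assoc, ← Matrix.mul_assoc U,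
      hU', Matrix.one_mul, hk])
  refine le_trans ?_ h1
  have h2 : (G.image (tG U)).filter (fun g => ∀ q ∈ S.image (tS U), mm g q → mm k q) ⊆
      (G.filter (fun g => ∀ q ∈ S, mm g q → mm (tG Uᵀ k) q)).image (tG U) := by
    intro g' hg'
    rw [Finset.mem_filter] at hg'
    obtain ⟨hg1, hg2⟩ := hg'
    obtain ⟨g, hg, rfl⟩ := Finset.mem_image.1 hg1
    refine Finset.mem_image.2 ⟨g, Finset.mem_filter.2 ⟨hg, ?_⟩, rfl⟩
    intro q hq hm
    have h3 := hg2 (tS U q) (Finset.mem_image_of_mem _ hq) ((mm_t hU g q).2 hm)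
    have h4 := (mm_t hUt k (tS U q)).2 h3
    have h5 : tS Uᵀ (tS U q) = q := by
      unfold tS
      simp [Matrix.mulVec_mulVec, hU]
    rwa [h5] at h4
  exact (Finset.card_le_card h2).trans Finset.card_image_le

/-- **Theorem PL** (exclusive planar type) for matrix motions. -/
theorem pl_final (hC : CoreStmt) (ε : ℝ) (hε : 0 < ε) : ∃ K : ℕ, ∀ B : ℕ, ∃ C : ℝ, 0 < C ∧
    ∀ (S : Finset (V3 × V3)) (G : Finset Mo), (∀ g ∈ G, g.1ᵀ * g.1 = 1) →
      (∀ g ∈ G, PGood S K g) → PFib S G B →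
      (G.card : ℝ) ≤ C * (S.card : ℝ) ^ (2 + ε) := by
  classical
  obtain ⟨K, hK⟩ := final_chart hC ε hε
  refine ⟨K, fun B => ?_⟩
  obtain ⟨C, hC0, hC1⟩ := hK B
  refine ⟨2 * C, by positivity, fun S G hQ hG hF => ?_⟩
  -- the part of `G` of determinant `s`
  have part : ∀ s : ℝ, s * s = 1 →
      ((G.filter (fun g => g.1.det = s)).card : ℝ) ≤ C * (S.card : ℝ) ^ (2 + ε) := by
    intro s hs
    set Gs := G.filter (fun g => g.1.det = s) with hGs
    obtain ⟨Q0, ho, hd0, hne⟩ := J.exists_generic ((Gs.image (fun g => s • g.1))) (by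
      intro Q hQ'
      obtain ⟨g, hg, rfl⟩ := Finset.mem_image.1 hQ'
      rw [hGs, Finset.mem_filter] at hg
      constructor
      · rw [Matrix.transpose_smul, Matrix.smul_mul, Matrix.mul_smul, smul_smul, hs, one_smul,
          hQ g hg.1]
      · rw [Matrix.det_smul, hg.2]
        simp
        calc s ^ 3 * s = (s * s) * (s * s) := by ring
          _ = 1 := by rw [hs]; ring)
    set U : Matrix (Fin 3) (Fin 3) ℝ := s • Q0 with hU'
    have hU : Uᵀ * U = 1 := by
      rw [hU', Matrix.transpose_smul, Matrix.smul_mul, Matrix.mul_smul, smul_smul, hs, one_smul, ho]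
    have h1 := hC1 (S.image (tS U)) (Gs.image (tG U)) ?_ ?_ ?_ ?_
    · rw [Finset.card_image_of_injective _ (tG_inj hU),
        Finset.card_image_of_injective _ (tS_inj hU)] at h1
      exact h1
    · intro g' hg'
      obtain ⟨g, hg, rfl⟩ := Finset.mem_image.1 hg'
      rw [hGs, Finset.mem_filter] at hg
      show (U * g.1)ᵀ * (U * g.1) = 1
      rw [Matrix.transpose_mul, Matrix.mul_assoc, ← Matrix.mul_assoc Uᵀ, hU, Matrix.one_mul,
        hQ g hg.1]
    · intro g' hg'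
      obtain ⟨g, hg, rfl⟩ := Finset.mem_image.1 hg'
      have h2 := hne (s • g.1) (Finset.mem_image_of_mem _ hg)
      show (1 + U * g.1).det ≠ 0
      rw [hU', Matrix.smul_mul, ← Matrix.mul_smul]
      exact h2
    · intro g' hg'
      obtain ⟨g, hg, rfl⟩ := Finset.mem_image.1 hg'
      rw [hGs, Finset.mem_filter] at hg
      exact PGood_t hU (hG g hg.1)
    · refine PFib_t hU ?_
      intro k hk
      refine le_trans (Finset.card_le_card ?_) (hF k hk)
      exact Finset.filter_subset_filter _ (Finset.filter_subset _ _)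
  have hcover : G = G.filter (fun g => g.1.det = 1) ∪ G.filter (fun g => g.1.det = -1) := by
    ext g
    rw [Finset.mem_union, Finset.mem_filter, Finset.mem_filter]
    constructor
    · intro hg
      have h1 := congrArg Matrix.det (hQ g hg)
      rw [Matrix.det_mul, Matrix.det_transpose, Matrix.det_one] at h1
      rcases mul_self_eq_one_iff.1 h1 with h | h
      · exact Or.inl ⟨hg, h⟩
      · exact Or.inr ⟨hg, h⟩
    · rintro (h | h) <;> exact h.1
  have h1 := part 1 (by norm_num)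
  have h2 := part (-1) (by norm_num)
  have h3 : (G.card : ℝ) ≤ ((G.filter (fun g => g.1.det = 1)).card : ℝ) +
      ((G.filter (fun g => g.1.det = -1)).card : ℝ) := by
    have h4 := Finset.card_union_le (G.filter (fun g => g.1.det = 1))
      (G.filter (fun g => g.1.det = -1))
    rw [← hcover] at h4
    exact_mod_cast h4
  linarith

end Vale.Agent.P054.PL
end

section

/-! P054, block R, leaf SECTIONS: `∑ ρ(S ∩ Π)³ ≤ 4 ρ(S)³` over different planes.
Proof. `l0` line with `off S l0 = rho S`, `N = S \ l0`, `|N| = ρ`. Planes containing `l0`: the sets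
`N ∩ Π` are disjoint and `ρ(S ∩ Π) ≤ |N ∩ Π|`, so the sum is `≤ ρ³`. Other planes: at most one point
of `S ∩ Π` is on `l0`, `N_Π = N ∩ Π`, `r = ρ(S ∩ Π)`: every line leaves `≥ r - 1` points of `N_Π`,
so `|N_Π| ≥ r + 1` and the set `T_Π` of triples `(x, y, z) ∈ N_Π³` with
`(y - x) ×ᵥ (z - x) ≠ 0` has at least `(r + 1) r (r - 1) ≥ (3/4) r³` elements; the `T_Π ⊆ N³` are
disjoint (`plane_eq_of_three`). -/

set_option linter.all false
set_option autoImplicit false

namespace Vale.Agent.P054.R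

open Finset Matrix

lemma sec_cross_swap (a b : V3) : crossProduct a b = 0 ↔ crossProduct b a = 0 := by
  rw [← cross_anticomm a b, neg_eq_zero]

lemma sec_cross_self (a : V3) : crossProduct a a = 0 := cross_self a

lemma sec_OnL_self (x b : V3) : OnL x b x := by
  unfold OnL
  rw [sub_self]
  simp

lemma sec_OnL_two (x y : V3) : OnL x (y - x) y := by
  unfold OnL
  exact cross_self _

lemma sec_arith (c r : ℕ) (hr : 2 ≤ r) (hc : r + 1 ≤ c) :
    3 * r ^ 3 ≤ 4 * (c * ((c - 1) * (r - 1))) := by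
  obtain ⟨s, rfl⟩ : ∃ s, r = s + 2 := ⟨r - 2, by omega⟩
  obtain ⟨t, rfl⟩ : ∃ t, c = t + (s + 3) := ⟨c - (s + 3), by omega⟩
  have h1 : t + (s + 3) - 1 = t + (s + 2) := by omega
  have h2 : s + 2 - 1 = s + 1 := by omega
  rw [h1, h2]
  nlinarith [Nat.zero_le t, Nat.zero_le s, mul_nonneg (Nat.zero_le t) (Nat.zero_le s),
    Nat.zero_le (s * s * s), Nat.zero_le (t * t), Nat.zero_le (t * t * s), Nat.zero_le (t * s * s),
    Nat.zero_le (s * s)]

open scoped Classical in
/-- the number of non collinear triples of a set which has at least `r - 1` points off every line -/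
lemma sec_triples (N : Finset V3) (r : ℕ) (hr : 2 ≤ r)
    (h : ∀ x b : V3, b ≠ 0 → r ≤ (N.filter (fun a => ¬ OnL x b a)).card + 1) :
    3 * r ^ 3 ≤ 4 * ((N ×ˢ N ×ˢ N).filter
      (fun t : V3 × V3 × V3 => crossProduct (t.2.1 - t.1) (t.2.2 - t.1) ≠ 0)).card := by
  have hne1 : ∃ b : V3, b ≠ 0 := ⟨fun _ => 1, fun h0 => one_ne_zero (congrFun h0 0)⟩
  obtain ⟨b1, hb1⟩ := hne1
  -- a first point
  have hx : ∃ x, x ∈ N := by
    have h1 := h 0 b1 hb1
    have h2 : 0 < (N.filter (fun a => ¬ OnL 0 b1 a)).card := by omega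
    obtain ⟨x, hx⟩ := Finset.card_pos.1 h2
    exact ⟨x, (Finset.mem_filter.1 hx).1⟩
  obtain ⟨x, hx⟩ := hx
  have hy : ∃ y, y ∈ N ∧ y ≠ x := by
    have h1 := h x b1 hb1
    have h2 : 0 < (N.filter (fun a => ¬ OnL x b1 a)).card := by omega
    obtain ⟨y, hy⟩ := Finset.card_pos.1 h2
    obtain ⟨hy1, hy2⟩ := Finset.mem_filter.1 hy
    exact ⟨y, hy1, fun hyx => hy2 (hyx ▸ sec_OnL_self x b1)⟩
  obtain ⟨y, hy, hyx⟩ := hy
  have hcard : r + 1 ≤ N.card := by
    have h1 := h x (y - x) (sub_ne_zero.2 hyx)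
    have h2 : (N.filter (fun a => ¬ OnL x (y - x) a)) ⊆ (N.erase x).erase y := by
      intro a ha
      obtain ⟨ha1, ha2⟩ := Finset.mem_filter.1 ha
      refine Finset.mem_erase.2 ⟨fun hay => ha2 (hay ▸ sec_OnL_two x y), Finset.mem_erase.2
        ⟨fun hax => ha2 (hax ▸ sec_OnL_self x (y - x)), ha1⟩⟩
    have h3 := Finset.card_le_card h2
    rw [Finset.card_erase_of_mem (Finset.mem_erase.2 ⟨hyx, hy⟩), Finset.card_erase_of_mem hx] at h3
    have h4 : 0 < N.card := Finset.card_pos.2 ⟨x, hx⟩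
    omega
  refine (sec_arith N.card r hr hcard).trans ?_
  refine Nat.mul_le_mul_left 4 ?_
  rw [Finset.card_filter, Finset.sum_product]
  calc N.card * ((N.card - 1) * (r - 1))
      = ∑ x ∈ N, ((N.card - 1) * (r - 1)) := by rw [Finset.sum_const, smul_eq_mul]
    _ ≤ _ := by
      refine Finset.sum_le_sum fun x hx => ?_
      rw [Finset.sum_product]
      calc (N.card - 1) * (r - 1) = ∑ y ∈ N.erase x, (r - 1) := by
            rw [Finset.sum_const, smul_eq_mul, Finset.card_erase_of_mem hx]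
        _ ≤ ∑ y ∈ N.erase x, ∑ z ∈ N, (if crossProduct (y - x) (z - x) ≠ 0 then 1 else 0) := by
            refine Finset.sum_le_sum fun y hy => ?_
            rw [← Finset.card_filter]
            have h1 := h x (y - x) (sub_ne_zero.2 (Finset.mem_erase.1 hy).1)
            have h2 : (N.filter (fun a => ¬ OnL x (y - x) a)) ⊆
                N.filter (fun z => crossProduct (y - x) (z - x) ≠ 0) := by
              intro a ha
              obtain ⟨ha1, ha2⟩ := Finset.mem_filter.1 ha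
              refine Finset.mem_filter.2 ⟨ha1, fun h3 => ha2 ?_⟩
              exact (sec_cross_swap _ _).1 h3
            have h3 := Finset.card_le_card h2
            omega
        _ ≤ _ := Finset.sum_le_sum_of_subset (Finset.erase_subset x N)

open scoped Classical in
theorem sections (S : Finset V3) (ι : Type) (I : Finset ι) (n : ι → V3) (d : ι → ℝ)
    (hn : ∀ i ∈ I, n i ≠ 0)
    (hne : ∀ i ∈ I, ∀ j ∈ I, i ≠ j → ¬ (∀ a, OnP (n i) (d i) a ↔ OnP (n j) (d j) a))
    (h2 : ∀ i ∈ I, 2 ≤ rho (S.filter (OnP (n i) (d i)))) :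
    ∑ i ∈ I, (rho (S.filter (OnP (n i) (d i)))) ^ 3 ≤ 4 * rho S ^ 3 := by
  obtain ⟨x0, b0, hb0, hoff⟩ := rho_spec S
  obtain ⟨N, hN⟩ : ∃ N : Finset V3, N = S.filter (fun a => ¬ OnL x0 b0 a) := ⟨_, rfl⟩
  have hNc : N.card = rho S := by
    rw [← hoff, hN]
    rfl
  have hNS : N ⊆ S := by
    rw [hN]
    exact Finset.filter_subset _ _
  rw [← hNc]
  obtain ⟨Ni, hNi⟩ : ∃ Ni : ι → Finset V3, ∀ i, Ni i = N.filter (OnP (n i) (d i)) := ⟨_, fun _ => rfl⟩
  rw [← Finset.sum_filter_add_sum_filter_not I (fun i => LinP x0 b0 (n i) (d i))]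
  -- planes containing the line
  have hA : ∑ i ∈ I.filter (fun i => LinP x0 b0 (n i) (d i)), (rho (S.filter (OnP (n i) (d i)))) ^ 3 ≤
      N.card ^ 3 := by
    have h3 : ∀ i ∈ I.filter (fun i => LinP x0 b0 (n i) (d i)),
        rho (S.filter (OnP (n i) (d i))) ≤ (Ni i).card := by
      intro i hi
      refine (rho_le_off _ x0 b0 hb0).trans (Finset.card_le_card ?_)
      intro a ha
      obtain ⟨ha1, ha2⟩ := Finset.mem_filter.1 ha
      obtain ⟨ha3, ha4⟩ := Finset.mem_filter.1 ha1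
      rw [hNi, Finset.mem_filter, hN, Finset.mem_filter]
      exact ⟨⟨ha3, ha2⟩, ha4⟩
    have h4 : ∑ i ∈ I.filter (fun i => LinP x0 b0 (n i) (d i)), (Ni i).card ≤ N.card := by
      rw [← Finset.card_biUnion]
      · refine Finset.card_le_card (Finset.biUnion_subset.2 fun i _ => ?_)
        rw [hNi]
        exact Finset.filter_subset _ _
      · intro i hi j hj hij
        refine Finset.disjoint_left.2 ?_
        intro a hai haj
        obtain ⟨hi1, hi2⟩ := Finset.mem_filter.1 (Finset.mem_coe.1 hi)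
        obtain ⟨hj1, hj2⟩ := Finset.mem_filter.1 (Finset.mem_coe.1 hj)
        rw [hNi, Finset.mem_filter] at hai haj
        refine hne i hi1 j hj1 hij ?_
        have haN : ¬ OnL x0 b0 a := by
          have h5 := hai.1
          rw [hN, Finset.mem_filter] at h5
          exact h5.2
        refine plane_eq_of_three (a := x0) (b := x0 + b0) (c := a) (hn i hi1) (hn j hj1) ?_ hi2.1 ?_
          hai.2 hj2.1 ?_ haj.2
        · rw [add_sub_cancel_left]
          intro h5
          exact haN ((sec_cross_swap _ _).1 h5)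
        · unfold OnP
          rw [dotProduct_add, hi2.1, hi2.2, add_zero]
        · unfold OnP
          rw [dotProduct_add, hj2.1, hj2.2, add_zero]
    have h5 : ∀ i, (Ni i).card ≤ N.card := fun i => by
      rw [hNi]
      exact Finset.card_filter_le _ _
    calc ∑ i ∈ I.filter (fun i => LinP x0 b0 (n i) (d i)), (rho (S.filter (OnP (n i) (d i)))) ^ 3
        ≤ ∑ i ∈ I.filter (fun i => LinP x0 b0 (n i) (d i)), (Ni i).card * N.card ^ 2 := by
          refine Finset.sum_le_sum fun i hi => ?_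
          calc (rho (S.filter (OnP (n i) (d i)))) ^ 3 ≤ (Ni i).card ^ 3 :=
                Nat.pow_le_pow_left (h3 i hi) 3
            _ = (Ni i).card * (Ni i).card ^ 2 := by ring
            _ ≤ (Ni i).card * N.card ^ 2 := Nat.mul_le_mul_left _ (Nat.pow_le_pow_left (h5 i) 2)
      _ = (∑ i ∈ I.filter (fun i => LinP x0 b0 (n i) (d i)), (Ni i).card) * N.card ^ 2 := by
          rw [Finset.sum_mul]
      _ ≤ N.card * N.card ^ 2 := Nat.mul_le_mul_right _ h4
      _ = N.card ^ 3 := by ring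
  -- the other planes
  have hB : 3 * ∑ i ∈ I.filter (fun i => ¬ LinP x0 b0 (n i) (d i)),
      (rho (S.filter (OnP (n i) (d i)))) ^ 3 ≤ 4 * N.card ^ 3 := by
    obtain ⟨T, hT⟩ : ∃ T : ι → Finset (V3 × V3 × V3), ∀ i, T i = (Ni i ×ˢ Ni i ×ˢ Ni i).filter
      (fun t : V3 × V3 × V3 => crossProduct (t.2.1 - t.1) (t.2.2 - t.1) ≠ 0) := ⟨_, fun _ => rfl⟩
    have h3 : ∀ i ∈ I.filter (fun i => ¬ LinP x0 b0 (n i) (d i)),
        3 * (rho (S.filter (OnP (n i) (d i)))) ^ 3 ≤ 4 * (T i).card := by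
      intro i hi
      obtain ⟨hi1, hi2⟩ := Finset.mem_filter.1 hi
      rw [hT]
      refine sec_triples (Ni i) _ (h2 i hi1) ?_
      intro x b hb
      have h4 := rho_le_off (S.filter (OnP (n i) (d i))) x b hb
      have h5 : ((S.filter (OnP (n i) (d i))).filter (fun a => ¬ OnL x b a)) ⊆
          ((Ni i).filter (fun a => ¬ OnL x b a)) ∪
            ((S.filter (OnP (n i) (d i))).filter (fun a => OnL x0 b0 a)) := by
        intro a ha
        obtain ⟨ha1, ha2⟩ := Finset.mem_filter.1 ha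
        obtain ⟨ha3, ha4⟩ := Finset.mem_filter.1 ha1
        rw [Finset.mem_union]
        by_cases hl : OnL x0 b0 a
        · exact Or.inr (Finset.mem_filter.2 ⟨ha1, hl⟩)
        · left
          rw [Finset.mem_filter, hNi, Finset.mem_filter, hN, Finset.mem_filter]
          exact ⟨⟨⟨ha3, hl⟩, ha4⟩, ha2⟩
      have h6 : ((S.filter (OnP (n i) (d i))).filter (fun a => OnL x0 b0 a)).card ≤ 1 := by
        rw [Finset.card_le_one]
        intro a ha c hc
        by_contra hac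
        obtain ⟨ha1, ha2⟩ := Finset.mem_filter.1 ha
        obtain ⟨hc1, hc2⟩ := Finset.mem_filter.1 hc
        exact hi2 (LinP_of_two hb0 hac ha2 hc2 (Finset.mem_filter.1 ha1).2
          (Finset.mem_filter.1 hc1).2)
      have h7 := (Finset.card_le_card h5).trans (Finset.card_union_le _ _)
      have h8 : off (S.filter (OnP (n i) (d i))) x b =
        ((S.filter (OnP (n i) (d i))).filter (fun a => ¬ OnL x b a)).card := rfl
      rw [h8] at h4
      omega
    have h4 : ∑ i ∈ I.filter (fun i => ¬ LinP x0 b0 (n i) (d i)), (T i).card ≤ N.card ^ 3 := by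
      rw [← Finset.card_biUnion]
      · have h5 : (N ×ˢ N ×ˢ N).card = N.card ^ 3 := by
          rw [Finset.card_product, Finset.card_product]
          ring
        rw [← h5]
        refine Finset.card_le_card (Finset.biUnion_subset.2 fun i _ => ?_)
        rw [hT]
        refine (Finset.filter_subset _ _).trans ?_
        have h6 : Ni i ⊆ N := by
          rw [hNi]
          exact Finset.filter_subset _ _
        exact Finset.product_subset_product h6 (Finset.product_subset_product h6 h6)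
      · intro i hi j hj hij
        refine Finset.disjoint_left.2 ?_
        rintro ⟨a, b, c⟩ hai haj
        obtain ⟨hi1, hi2⟩ := Finset.mem_filter.1 (Finset.mem_coe.1 hi)
        obtain ⟨hj1, hj2⟩ := Finset.mem_filter.1 (Finset.mem_coe.1 hj)
        rw [hT, Finset.mem_filter, Finset.mem_product, Finset.mem_product] at hai haj
        obtain ⟨⟨ha, hb, hc⟩, hcr⟩ := hai
        obtain ⟨⟨ha', hb', hc'⟩, _⟩ := haj
        simp only [hNi, Finset.mem_filter] at ha hb hc ha' hb' hc'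
        exact hne i hi1 j hj1 hij (plane_eq_of_three (hn i hi1) (hn j hj1) hcr ha.2 hb.2 hc.2
          ha'.2 hb'.2 hc'.2)
    calc 3 * ∑ i ∈ I.filter (fun i => ¬ LinP x0 b0 (n i) (d i)),
          (rho (S.filter (OnP (n i) (d i)))) ^ 3
        = ∑ i ∈ I.filter (fun i => ¬ LinP x0 b0 (n i) (d i)),
          3 * (rho (S.filter (OnP (n i) (d i)))) ^ 3 := by rw [Finset.mul_sum]
      _ ≤ ∑ i ∈ I.filter (fun i => ¬ LinP x0 b0 (n i) (d i)), 4 * (T i).card :=
          Finset.sum_le_sum h3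
      _ = 4 * ∑ i ∈ I.filter (fun i => ¬ LinP x0 b0 (n i) (d i)), (T i).card := by
          rw [Finset.mul_sum]
      _ ≤ 4 * N.card ^ 3 := Nat.mul_le_mul_left 4 h4
  omega

end Vale.Agent.P054.R
end

section

/-! `PlanarStmt` of block R from Theorem PL. -/

set_option linter.all false

namespace Vale.Agent.P054.PL

open Matrix
open Vale.Agent.P054.R (act OnP Orth rho off prt refl PlanarStmt)

theorem perp_zero {u w n z : V3} (hu : n ⬝ᵥ u = 0) (hw : n ⬝ᵥ w = 0) (hn : n ≠ 0)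
    (huw : crossProduct u w ≠ 0) (h1 : u ⬝ᵥ z = 0) (h2 : w ⬝ᵥ z = 0) (h3 : n ⬝ᵥ z = 0) : z = 0 := by
  -- `z` and `n` are multiples of `u × w`
  have hz : crossProduct z (crossProduct u w) = 0 := by
    rw [dp] at h1 h2
    simp only [cr]
    apply v3_eq_zero <;> simp only [Matrix.cons_val]
    · linear_combination u 0 * h2 - w 0 * h1
    · linear_combination u 1 * h2 - w 1 * h1
    · linear_combination u 2 * h2 - w 2 * h1
  have hnn : crossProduct n (crossProduct u w) = 0 := by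
    rw [dp] at hu hw
    simp only [cr]
    apply v3_eq_zero <;> simp only [Matrix.cons_val]
    · linear_combination u 0 * hw - w 0 * hu
    · linear_combination u 1 * hw - w 1 * hu
    · linear_combination u 2 * hw - w 2 * hu
  have ez := par_of_cross hz huw
  have en := par_of_cross hnn huw
  set c := crossProduct u w
  set α := (z ⬝ᵥ c) / (c ⬝ᵥ c)
  set β := (n ⬝ᵥ c) / (c ⬝ᵥ c)
  have hβ : β ≠ 0 := by
    intro h
    rw [h, zero_smul] at en
    exact hn en
  have hcc : c ⬝ᵥ c ≠ 0 := fun hc => huw (v3_self hc)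
  rw [ez, en, smul_dotProduct, dotProduct_smul] at h3
  simp only [smul_eq_mul] at h3
  have hα : α = 0 := by
    rcases mul_eq_zero.1 h3 with h | h
    · exact absurd h hβ
    · rcases mul_eq_zero.1 h with h | h
      · exact h
      · exact absurd h hcc
  rw [ez, hα, zero_smul]

theorem fix_eq_one {A : Matrix (Fin 3) (Fin 3) ℝ} (hA : Aᵀ * A = 1) {u w n : V3}
    (hu : n ⬝ᵥ u = 0) (hw : n ⬝ᵥ w = 0) (hn : n ≠ 0) (huw : crossProduct u w ≠ 0)
    (h1 : A.mulVec u = u) (h2 : A.mulVec w = w) (h3 : A.mulVec n = n) : A = 1 := by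
  have tr : ∀ y : V3, A.mulVec y = y → ∀ x : V3, y ⬝ᵥ (A.mulVec x - x) = 0 := by
    intro y hy x
    have h4 : Aᵀ.mulVec y = y := by
      conv_lhs => rw [← hy]
      rw [Matrix.mulVec_mulVec, hA, Matrix.one_mulVec]
    have h5 : y ⬝ᵥ A.mulVec x = y ⬝ᵥ x := by
      rw [Matrix.dotProduct_mulVec, ← Matrix.mulVec_transpose, h4]
    rw [dotProduct_sub, h5, sub_self]
  have h6 : ∀ x : V3, A.mulVec x = x := by
    intro x
    have := perp_zero hu hw hn huw (tr u h1 x) (tr w h2 x) (tr n h3 x)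
    exact sub_eq_zero.1 this
  ext i j
  have h7 := congrFun (h6 (Pi.single j 1)) i
  rw [Matrix.mulVec_single_one] at h7
  rw [Matrix.one_apply]
  simp [Pi.single_apply] at h7
  exact h7

theorem eq_or_prt {g h : Mo} (hg : g.1ᵀ * g.1 = 1) (hh : h.1ᵀ * h.1 = 1) {n : V3} {d : ℝ}
    (hn : n ≠ 0) {a b c : V3} (habc : crossProduct (b - a) (c - a) ≠ 0)
    (ha : OnP n d a) (hb : OnP n d b) (hc : OnP n d c)
    (ea : act g a = act h a) (eb : act g b = act h b) (ec : act g c = act h c) :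
    g = h ∨ prt g n d = h := by
  have hgT : g.1 * g.1ᵀ = 1 := mul_eq_one_comm.1 hg
  set A : Matrix (Fin 3) (Fin 3) ℝ := g.1ᵀ * h.1 with hAdef
  have hA : Aᵀ * A = 1 := by
    rw [hAdef, Matrix.transpose_mul, Matrix.transpose_transpose, Matrix.mul_assoc,
      ← Matrix.mul_assoc g.1, hgT, Matrix.one_mul, hh]
  have hgA : g.1 * A = h.1 := by rw [hAdef, ← Matrix.mul_assoc, hgT, Matrix.one_mul]
  have fixd : ∀ x y : V3, act g x = act h x → act g y = act h y → A.mulVec (y - x) = y - x := by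
    intro x y ex ey
    have h1 : g.1.mulVec (y - x) = h.1.mulVec (y - x) := by
      unfold act at ex ey
      rw [Matrix.mulVec_sub, Matrix.mulVec_sub]
      have h2 := congrArg₂ (· - ·) ey ex
      simpa using h2
    rw [hAdef, ← Matrix.mulVec_mulVec, ← h1, Matrix.mulVec_mulVec, hg, Matrix.one_mulVec]
  set u := b - a with hu
  set w := c - a with hw
  have hAu : A.mulVec u = u := fixd a b ea eb
  have hAw : A.mulVec w = w := fixd a c ea ec
  have hnu : n ⬝ᵥ u = 0 := by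
    unfold OnP at ha hb
    rw [hu, dotProduct_sub, ha, hb, sub_self]
  have hnw : n ⬝ᵥ w = 0 := by
    unfold OnP at ha hc
    rw [hw, dotProduct_sub, ha, hc, sub_self]
  have isoA : ∀ x y : V3, A.mulVec x ⬝ᵥ A.mulVec y = x ⬝ᵥ y := by
    intro x y
    rw [Matrix.dotProduct_mulVec, Matrix.vecMul_mulVec, hA, Matrix.vecMul_one]
  -- `A n = ± n`
  have hAn : A.mulVec n = n ∨ A.mulVec n = -n := by
    have k1 : u ⬝ᵥ A.mulVec n = 0 := by
      have := isoA u n
      rw [hAu, dotProduct_comm u n, hnu] at this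
      exact this
    have k2 : w ⬝ᵥ A.mulVec n = 0 := by
      have := isoA w n
      rw [hAw, dotProduct_comm w n, hnw] at this
      exact this
    have hnn : n ⬝ᵥ n ≠ 0 := fun hc => hn (v3_self hc)
    set lam := (n ⬝ᵥ A.mulVec n) / (n ⬝ᵥ n) with hlam
    have k3 : A.mulVec n = lam • n := by
      have := perp_zero hnu hnw hn habc (z := A.mulVec n - lam • n)
        (by rw [dotProduct_sub, k1, dotProduct_smul, dotProduct_comm u n, hnu]; simp)
        (by rw [dotProduct_sub, k2, dotProduct_smul, dotProduct_comm w n, hnw]; simp)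
        (by
          rw [dotProduct_sub, dotProduct_smul, hlam, smul_eq_mul]
          field_simp
          ring)
      exact sub_eq_zero.1 this
    have k4 := isoA n n
    rw [k3, smul_dotProduct, dotProduct_smul, smul_eq_mul, smul_eq_mul] at k4
    have k5 : lam * lam = 1 := by
      have : (lam * lam) * (n ⬝ᵥ n) = 1 * (n ⬝ᵥ n) := by linarith
      exact mul_right_cancel₀ hnn this
    rcases mul_self_eq_one_iff.1 k5 with h | h
    · left; rw [k3, h, one_smul]
    · right; rw [k3, h, neg_smul, one_smul]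
  rcases hAn with hAn | hAn
  · left
    have h1 := fix_eq_one hA hnu hnw hn habc hAu hAw hAn
    have h2 : g.1 = h.1 := by rw [← hgA, h1, Matrix.mul_one]
    refine Prod.ext h2 ?_
    unfold act at ea
    rw [h2] at ea
    exact add_left_cancel ea
  · right
    have ho := R.orth_prt (show Orth g from hg) n d hn
    set k := prt g n d with hk
    have ek : ∀ x : V3, OnP n d x → act g x = act h x → act k x = act h x := by
      intro x hx he
      rw [hk, R.act_prt g n d hn, R.refl_of_OnP hx, he]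
    -- `A' = kᵀ h` fixes `u, w, n`
    have hkT : k.1 * k.1ᵀ = 1 := mul_eq_one_comm.1 ho
    have hA' : (k.1ᵀ * h.1)ᵀ * (k.1ᵀ * h.1) = 1 := by
      rw [Matrix.transpose_mul, Matrix.transpose_transpose, Matrix.mul_assoc,
        ← Matrix.mul_assoc k.1, hkT, Matrix.one_mul, hh]
    have fixk : ∀ x y : V3, act k x = act h x → act k y = act h y →
        (k.1ᵀ * h.1).mulVec (y - x) = y - x := by
      intro x y ex ey
      have h1 : k.1.mulVec (y - x) = h.1.mulVec (y - x) := by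
        unfold act at ex ey
        rw [Matrix.mulVec_sub, Matrix.mulVec_sub]
        have h2 := congrArg₂ (· - ·) ey ex
        simpa using h2
      rw [← Matrix.mulVec_mulVec, ← h1, Matrix.mulVec_mulVec, ho, Matrix.one_mulVec]
    have hkn : (k.1ᵀ * h.1).mulVec n = n := by
      have hnn : n ⬝ᵥ n ≠ 0 := fun hc => hn (v3_self hc)
      have h1 : k.1.mulVec n = - g.1.mulVec n := by
        rw [hk]
        unfold prt
        simp only
        rw [← Matrix.mulVec_mulVec, Matrix.sub_mulVec, Matrix.one_mulVec, Matrix.smul_mulVec,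
          Matrix.vecMulVec_mulVec]
        have h2 : n - (2 / (n ⬝ᵥ n)) • (MulOpposite.op (n ⬝ᵥ n) • n) = -n := by
          funext i
          simp
          field_simp
          ring
        rw [h2, Matrix.mulVec_neg]
      have h2 : h.1.mulVec n = k.1.mulVec n := by
        rw [h1, ← hgA, ← Matrix.mulVec_mulVec, hAn, Matrix.mulVec_neg]
      rw [← Matrix.mulVec_mulVec, h2, Matrix.mulVec_mulVec, ho, Matrix.one_mulVec]
    have h1 := fix_eq_one hA' hnu hnw hn habc (fixk a b (ek a ha ea) (ek b hb eb))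
      (fixk a c (ek a ha ea) (ek c hc ec)) hkn
    have h2 : k.1 = h.1 := by
      have h3 : k.1 * (k.1ᵀ * h.1) = h.1 := by rw [← Matrix.mul_assoc, hkT, Matrix.one_mul]
      rw [← h3, h1, Matrix.mul_one]
    refine Prod.ext h2 ?_
    have h3 := ek a ha ea
    unfold act at h3
    rw [h2] at h3
    exact add_left_cancel h3

/-- three non collinear points -/
theorem exists_three {S : Finset V3} (h : 1 ≤ rho S) : ∃ a ∈ S, ∃ b ∈ S, ∃ c ∈ S,
    crossProduct (b - a) (c - a) ≠ 0 := by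
  classical
  by_contra hcon
  push Not at hcon
  have hex : ∃ x b : V3, b ≠ 0 ∧ ∀ c ∈ S, R.OnL x b c := by
    by_cases h1 : ∃ a ∈ S, ∃ b ∈ S, a ≠ b
    · obtain ⟨a, ha, b, hb, hab⟩ := h1
      refine ⟨a, b - a, fun hc => hab (sub_eq_zero.1 hc).symm, fun c hc => ?_⟩
      unfold R.OnL
      have h2 := hcon a ha b hb c hc
      rw [← cross_anticomm, h2, neg_zero]
    · push Not at h1
      rcases S.eq_empty_or_nonempty with he | ⟨a, ha⟩
      · refine ⟨0, ![1, 0, 0], fun hc => by simpa using congrFun hc 0, fun c hc => ?_⟩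
        rw [he] at hc
        exact absurd hc (Finset.notMem_empty c)
      · refine ⟨a, ![1, 0, 0], fun hc => by simpa using congrFun hc 0, fun c hc => ?_⟩
        rw [← h1 a ha c hc]
        unfold R.OnL
        simp
  obtain ⟨x, b, hb, hall⟩ := hex
  have h2 := R.rho_le_off S x b hb
  have h3 : off S x b = 0 := by
    unfold off
    rw [Finset.card_eq_zero, Finset.filter_eq_empty_iff]
    intro c hc
    simpa using hall c hc
  omega

theorem planarStmt (hC : CoreStmt) : PlanarStmt := by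
  classical
  intro ε hε
  obtain ⟨K, hK⟩ := pl_final hC ε hε
  refine ⟨max K 2, fun K2 => ?_⟩
  obtain ⟨C, hC0, hC1⟩ := hK (K2 ^ 3 + 1)
  refine ⟨C, hC0, fun X Y G hO hG => ?_⟩
  set S : Finset (V3 × V3) := X ×ˢ Y with hS
  have hcard : (S.card : ℝ) = (X.card : ℝ) * Y.card := by
    rw [hS, Finset.card_product]; push_cast; ring
  rw [← hcard]
  have hmem : ∀ (g : Mo) (q : V3 × V3), q ∈ MM S g ↔ q.1 ∈ R.M g X Y ∧ q.2 = act g q.1 := by
    intro g q
    rw [mem_MM, hS, Finset.mem_product]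
    unfold R.M mm act
    rw [Finset.mem_filter]
    constructor
    · rintro ⟨⟨h1, h2⟩, h3⟩
      exact ⟨⟨h1, by rw [h3]; exact h2⟩, h3.symm⟩
    · rintro ⟨⟨h1, h2⟩, h3⟩
      exact ⟨⟨h1, by rw [h3]; exact h2⟩, h3.symm⟩
  have hMM : ∀ g : Mo, MM S g = (R.M g X Y).image (fun a => (a, act g a)) := by
    intro g
    ext q
    rw [hmem, Finset.mem_image]
    constructor
    · rintro ⟨h1, h2⟩
      exact ⟨q.1, h1, Prod.ext rfl h2.symm⟩
    · rintro ⟨a, ha, rfl⟩
      exact ⟨ha, rfl⟩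
  choose! hrho n d hn hpl hprt using hG
  refine hC1 S G hO ?_ ?_
  · intro g hg
    refine ⟨?_, ⟨n g, hn g hg, ?_⟩⟩
    · intro x b hb
      have h1 : ((MM S g).filter (fun q => crossProduct (q.1 - x) b ≠ 0)).card =
          off (R.M g X Y) x b := by
        rw [hMM, Finset.filter_image, Finset.card_image_of_injective]
        · unfold off
          apply congrArg
          ext a
          rw [Finset.mem_filter, Finset.mem_filter]
          rfl
        · intro a a' h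
          exact congrArg Prod.fst h
      rw [h1]
      exact (le_max_left K 2).trans ((hrho g hg).trans (R.rho_le_off _ _ _ hb))
    · intro q hq q' hq'
      have h1 := hpl g hg q.1 ((hmem g q).1 hq).1
      have h2 := hpl g hg q'.1 ((hmem g q').1 hq').1
      unfold OnP at h1 h2
      rw [dotProduct_sub, h1, h2, sub_self]
  · intro h hh
    set F := G.filter (fun g => ∀ q ∈ S, mm g q → mm h q) with hF
    have hFm : ∀ g ∈ F, g ∈ G ∧ ∀ a ∈ R.M g X Y, a ∈ R.M h X Y ∧ act g a = act h a := by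
      intro g hg
      rw [hF, Finset.mem_filter] at hg
      refine ⟨hg.1, fun a ha => ?_⟩
      have h1 : (a, act g a) ∈ MM S g := (hmem g _).2 ⟨ha, rfl⟩
      have h2 := hg.2 _ (mem_MM.1 h1).1 (mem_MM.1 h1).2
      have h3 : act h a = act g a := h2
      have h4 : (a, act g a) ∈ MM S h := mem_MM.2 ⟨(mem_MM.1 h1).1, h2⟩
      exact ⟨((hmem h _).1 h4).1, h3.symm⟩
    set F' := F.filter (fun g => prt g (n g) (d g) = h) with hF'
    have hsub : F ⊆ insert h F' := by
      intro g hg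
      obtain ⟨hgG, hga⟩ := hFm g hg
      obtain ⟨a, ha, b, hb, c, hc, habc⟩ := exists_three (S := R.M g X Y)
        (le_trans (le_trans (by norm_num) (le_max_right K 2)) (hrho g hgG))
      rcases eq_or_prt (hO g hgG) hh (hn g hgG) habc (hpl g hgG a ha) (hpl g hgG b hb)
        (hpl g hgG c hc) (hga a ha).2 (hga b hb).2 (hga c hc).2 with h1 | h1
      · rw [h1]; exact Finset.mem_insert_self _ _
      · exact Finset.mem_insert_of_mem (Finset.mem_filter.2 ⟨hg, h1⟩)
    have hF'card : F'.card ≤ K2 ^ 3 := by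
      rcases F'.eq_empty_or_nonempty with he | ⟨g0, hg0⟩
      · rw [he]; simp
      have hF'm : ∀ g ∈ F', g ∈ G ∧ prt g (n g) (d g) = h := fun g hg =>
        ⟨(hFm g (Finset.mem_filter.1 hg).1).1, (Finset.mem_filter.1 hg).2⟩
      have hK2 : rho (R.M h X Y) ≤ K2 := by
        have := hprt g0 (hF'm g0 hg0).1
        rwa [(hF'm g0 hg0).2] at this
      have hsec : ∀ g ∈ F', (R.M h X Y).filter (OnP (n g) (d g)) = R.M g X Y := by
        intro g hg
        obtain ⟨hgG, hgp⟩ := hF'm g hg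
        ext a
        rw [Finset.mem_filter, ← hgp]
        constructor
        · rintro ⟨h1, h2⟩
          exact (R.M_prt_plane g (hn g hgG) X Y h2).1 h1
        · intro h1
          have h2 := hpl g hgG a h1
          exact ⟨(R.M_prt_plane g (hn g hgG) X Y h2).2 h1, h2⟩
      have h1 := R.sections (R.M h X Y) Mo F' n d (fun g hg => hn g (hF'm g hg).1) (by
        intro g hg g' hg' hne hall
        apply hne
        have e1 := R.prt_prt g (n g) (d g) (hn g (hF'm g hg).1)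
        have e2 := R.prt_prt g' (n g') (d g') (hn g' (hF'm g' hg').1)
        rw [(hF'm g hg).2] at e1
        rw [(hF'm g' hg').2] at e2
        rw [← e1, ← e2]
        exact R.prt_congr h (hn g (hF'm g hg).1) (hn g' (hF'm g' hg').1) hall) (by
        intro g hg
        have h2 := hsec g hg
        have h4 := hrho g (hF'm g hg).1
        have h5 := le_trans (le_max_right K 2) h4
        rw [← h2] at h5
        convert h5)
      have h2 : F'.card * 8 ≤ ∑ g ∈ F', (rho (R.M g X Y)) ^ 3 := by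
        rw [← smul_eq_mul, ← Finset.sum_const]
        refine Finset.sum_le_sum (fun g hg => ?_)
        have h4 := (le_max_right K 2).trans (hrho g (hF'm g hg).1)
        calc 8 = 2 ^ 3 := by norm_num
          _ ≤ (rho (R.M g X Y)) ^ 3 := Nat.pow_le_pow_left h4 3
      have h3 : ∑ g ∈ F', (rho (R.M g X Y)) ^ 3 ≤ 4 * rho (R.M h X Y) ^ 3 := by
        refine le_trans (le_of_eq (Finset.sum_congr rfl fun g hg => ?_)) h1
        rw [← hsec g hg]
      have h4 : rho (R.M h X Y) ^ 3 ≤ K2 ^ 3 := Nat.pow_le_pow_left hK2 3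
      omega
    exact (Finset.card_le_card hsub).trans ((Finset.card_insert_le _ _).trans (by omega))

end Vale.Agent.P054.PL
end

section

/-! Theorem PL-BIP (bipartite planar type), Cayley form: the statements. -/

namespace Vale.Agent.P054.PL

open MvPolynomial Matrix

open scoped Classical in
/-- a planar motion with at least `K` matched pairs of `S1` on a line and at least `K` matched
pairs of `S2` on another line -/
structure GoodB (S1 S2 : Finset (V3 × V3)) (K : ℕ) (p : V3 × V3) : Prop where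
  lines : ∃ x1 b1 x2 b2 : V3, b1 ≠ 0 ∧ b2 ≠ 0 ∧
    K ≤ ((Ms S1 p).filter (fun q => crossProduct (q.1 - x1) b1 = 0)).card ∧
    K ≤ ((Ms S2 p).filter (fun q => crossProduct (q.1 - x2) b2 = 0)).card ∧
    ¬ (crossProduct b1 b2 = 0 ∧ crossProduct (x2 - x1) b1 = 0)
  plane : ∃ m : V3, m ≠ 0 ∧ ∀ q ∈ Ms (S1 ∪ S2) p, ∀ q' ∈ Ms (S1 ∪ S2) p, m ⬝ᵥ (q'.1 - q.1) = 0

open scoped Classical in
/-- the wall count for one polynomial `h` -/
def WallBipStmt : Prop := ∀ (D : ℕ) (h : MvPolynomial (Fin 6) ℝ), h.totalDegree ≤ D →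
  ∀ (S1 S2 G : Finset (V3 × V3)) (B : ℕ), (∀ p ∈ G, GoodB S1 S2 (D + 3) p) →
  Fib (S1 ∪ S2) G B →
  (∀ p ∈ G, eval (pv p) h = 0 ∧ ∃ i, eval (pv p) (pderiv i h) ≠ 0) →
  G.card ≤ D * (S1.card * S2.card) + B * (D * (S1 ∪ S2).card)

open scoped Classical in
/-- the theorem in Cayley form -/
def CoreBipStmt : Prop := ∀ ε : ℝ, 0 < ε → ∃ K : ℕ, ∀ B : ℕ, ∃ C : ℝ, 0 < C ∧
  ∀ (S1 S2 G : Finset (V3 × V3)), (∀ p ∈ G, GoodB S1 S2 K p) → Fib (S1 ∪ S2) G B →
  (G.card : ℝ) ≤ C * ((S1.card : ℝ) * (S2.card : ℝ)) ^ (1 + ε)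

end Vale.Agent.P054.PL
end

section

/-! Theorem PL-BIP: the wall count. -/

namespace Vale.Agent.P054.PL

open MvPolynomial Matrix

theorem sv_swap (q q' : V3 × V3) : sv q' q = - sv q q' := by
  unfold sv
  apply v3_ext <;> simp <;> ring

/-- on the line `L_q ∩ L_q'` the two parametrisations agree -/
theorem wq_line {p q q' : V3 × V3} (h : Mt p q) (h' : Mt p q') (t : ℝ) :
    wq q (p.1 + t • sv q q') = wq q' (p.1 + t • sv q q') := by
  have e := h.sub h'
  unfold wq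
  unfold sv
  rw [cr] at e
  have e0 := congrFun e 0
  have e1 := congrFun e 1
  have e2 := congrFun e 2
  simp at e0 e1 e2
  simp only [cr]
  apply v3_ext <;> simp
  · linear_combination (-1 : ℝ) * e0
  · linear_combination (-1 : ℝ) * e1
  · linear_combination (-1 : ℝ) * e2

theorem eval_swap (h : MvPolynomial (Fin 6) ℝ) {p q q' : V3 × V3} (hm : Mt p q) (hm' : Mt p q')
    (t : ℝ) : eval (p.1 + t • sv q' q) (hq h q') = eval (p.1 + (-t) • sv q q') (hq h q) := by
  have e1 : p.1 + t • sv q' q = p.1 + (-t) • sv q q' := by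
    rw [sv_swap q q', smul_neg, neg_smul]
  rw [e1, eval_hq, eval_hq, wq_line hm hm']

/-- a point on the line of two points of a line -/
theorem off_line {x b a1 a2 c : V3} (hb : b ≠ 0) (h1 : crossProduct (a1 - x) b = 0)
    (h2 : crossProduct (a2 - x) b = 0) (hne : a1 ≠ a2)
    (h : crossProduct (a2 - a1) (c - a1) = 0) : crossProduct (c - x) b = 0 := by
  have k1 := par_of_cross h1 hb
  have k2 := par_of_cross h2 hb
  set α := ((a1 - x) ⬝ᵥ b) / (b ⬝ᵥ b)
  set β := ((a2 - x) ⬝ᵥ b) / (b ⬝ᵥ b)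
  have k3 : a2 - a1 = (β - α) • b := by
    have : a2 - a1 = (a2 - x) - (a1 - x) := by abel
    rw [this, k1, k2, sub_smul]
  have hαβ : β - α ≠ 0 := by
    intro hc
    rw [hc, zero_smul] at k3
    exact hne (sub_eq_zero.1 k3).symm
  rw [k3, map_smul, LinearMap.smul_apply] at h
  have k4 : crossProduct b (c - a1) = 0 := (smul_eq_zero.1 h).resolve_left hαβ
  have k5 : c - x = (c - a1) + α • b := by rw [← k1]; abel
  rw [k5, map_add, LinearMap.add_apply, map_smul, LinearMap.smul_apply, cross_self, smul_zero,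
    add_zero, ← cross_anticomm, k4, neg_zero]

theorem cross_cyc (a1 a2 c : V3) :
    crossProduct (a1 - c) (a2 - c) = crossProduct (a2 - a1) (c - a1) := by
  rw [cr, cr]
  apply v3_ext <;> simp <;> ring

/-- two different common points of two lines -/
theorem lines_eq {x1 b1 x2 b2 a a' : V3} (h1 : b1 ≠ 0) (h2 : b2 ≠ 0)
    (k1 : crossProduct (a - x1) b1 = 0) (k1' : crossProduct (a' - x1) b1 = 0)
    (k2 : crossProduct (a - x2) b2 = 0) (k2' : crossProduct (a' - x2) b2 = 0) (hne : a ≠ a') :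
    crossProduct b1 b2 = 0 ∧ crossProduct (x2 - x1) b1 = 0 := by
  have hx2 : crossProduct (x2 - x1) b1 = 0 := by
    refine off_line h1 k1 k1' hne ?_
    have e1 := par_of_cross k2 h2
    have e2 := par_of_cross k2' h2
    have e3 : a' - a = (a' - x2) - (a - x2) := by abel
    have e4 : x2 - a = - (a - x2) := by abel
    rw [e3, e4, e1, e2, ← sub_smul, map_smul, LinearMap.smul_apply, map_neg, map_smul, cross_self]
    simp
  refine ⟨?_, hx2⟩
  -- `b2` is a direction
  have e1 := par_of_cross k1 h1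
  have e2 := par_of_cross k1' h1
  have e3 := par_of_cross k2 h2
  have e4 := par_of_cross k2' h2
  set α := ((a - x1) ⬝ᵥ b1) / (b1 ⬝ᵥ b1)
  set α' := ((a' - x1) ⬝ᵥ b1) / (b1 ⬝ᵥ b1)
  set β := ((a - x2) ⬝ᵥ b2) / (b2 ⬝ᵥ b2)
  set β' := ((a' - x2) ⬝ᵥ b2) / (b2 ⬝ᵥ b2)
  have e5 : (α' - α) • b1 = (β' - β) • b2 := by
    rw [sub_smul, sub_smul, ← e1, ← e2, ← e3, ← e4]; abel
  have e6 : α' - α ≠ 0 := by
    intro hc
    have : a' - a = (a' - x1) - (a - x1) := by abel
    rw [e1, e2, ← sub_smul, hc, zero_smul] at this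
    exact hne (sub_eq_zero.1 this).symm
  have e7 : (α' - α) • crossProduct b1 b2 = 0 := by
    rw [← LinearMap.smul_apply, ← map_smul, e5, map_smul, LinearMap.smul_apply, cross_self,
      smul_zero]
  exact (smul_eq_zero.1 e7).resolve_left e6

/-- (a) transversal mixed lines -/
theorem bipA (hLi : LineStmt) {D : ℕ} {h : MvPolynomial (Fin 6) ℝ} (hD : h.totalDegree ≤ D)
    (S1 S2 G : Finset (V3 × V3)) (hG : ∀ p ∈ G, eval (pv p) h = 0)
    (hA : ∀ p ∈ G, ∃ q ∈ Ms S1 p, ∃ q' ∈ Ms S2 p, q.1 ≠ q'.1 ∧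
      ∃ t : ℝ, eval (p.1 + t • sv q q') (hq h q) ≠ 0) :
    G.card ≤ D * (S1.card * S2.card) := by
  classical
  choose! q hqS q' hq'S hne ht using hA
  have h1 : G.card ≤ D * (G.image (fun p => (q p, q' p))).card := by
    refine Finset.card_le_mul_card_image G D ?_
    intro a ha
    obtain ⟨p0, hp0, rfl⟩ := Finset.mem_image.1 ha
    set F := G.filter (fun p => (q p, q' p) = (q p0, q' p0)) with hF
    have hFm : ∀ p ∈ F, p ∈ G ∧ Mt p (q p0) ∧ Mt p (q' p0) := by
      intro p hp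
      rw [hF, Finset.mem_filter] at hp
      obtain ⟨hpG, he⟩ := hp
      have e1 : q p = q p0 := congrArg Prod.fst he
      have e2 : q' p = q' p0 := congrArg Prod.snd he
      refine ⟨hpG, ?_, ?_⟩
      · rw [← e1]; exact (mem_Ms.1 (hqS p hpG)).2
      · rw [← e2]; exact (mem_Ms.1 (hq'S p hpG)).2
    have hex : ∀ p ∈ F, ∃ t : ℝ, p.1 = p0.1 + t • sv (q p0) (q' p0) := fun p hp =>
      line_param (hFm p hp).2.1 (hFm p hp).2.2 (mem_Ms.1 (hqS p0 hp0)).2
        (mem_Ms.1 (hq'S p0 hp0)).2 (hne p0 hp0)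
    choose! t htp using hex
    have hinj : Set.InjOn t F := by
      intro p hp p' hp' he
      refine ext_of_mt (hFm p hp).2.1 (hFm p' hp').2.1 ?_
      rw [htp p hp, htp p' hp', he]
    rw [← Finset.card_image_of_injOn hinj]
    refine hLi D (hq h (q p0)) ((totalDegree_hq h _).trans hD) p0.1 (sv (q p0) (q' p0))
      (ht p0 hp0) _ ?_
    intro r hr
    obtain ⟨p, hp, rfl⟩ := Finset.mem_image.1 hr
    rw [← htp p hp, eval_hq_mt h (hFm p hp).2.1]
    exact hG p (hFm p hp).1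
  have h2 : (G.image (fun p => (q p, q' p))).card ≤ S1.card * S2.card := by
    have h3 : G.image (fun p => (q p, q' p)) ⊆ S1 ×ˢ S2 := by
      intro a ha
      obtain ⟨p, hp, rfl⟩ := Finset.mem_image.1 ha
      exact Finset.mem_product.2 ⟨(mem_Ms.1 (hqS p hp)).1, (mem_Ms.1 (hq'S p hp)).1⟩
    refine (Finset.card_le_card h3).trans ?_
    rw [Finset.card_product]
  exact h1.trans (Nat.mul_le_mul_left _ h2)

/-- a pair which sees many points of a line along lines in `Z(h)` -/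
theorem bip_plane (hPl : PlaneStmt) {D : ℕ} {h : MvPolynomial (Fin 6) ℝ}
    (hD : h.totalDegree ≤ D) (S : Finset (V3 × V3)) (p : V3 × V3) (m : V3) (hm : m ≠ 0)
    (hmp : ∀ q ∈ Ms S p, ∀ q' ∈ Ms S p, m ⬝ᵥ (q'.1 - q.1) = 0) (q : V3 × V3) (hqM : q ∈ Ms S p)
    (A : Finset (V3 × V3)) (hA : A ⊆ Ms S p) (hc : D < A.card) (x b : V3) (hb : b ≠ 0)
    (hline : ∀ q' ∈ A, crossProduct (q'.1 - x) b = 0) (hoff : crossProduct (q.1 - x) b ≠ 0)
    (hz : ∀ q' ∈ A, ∀ t : ℝ, eval (p.1 + t • sv q q') (hq h q) = 0) :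
    ∃ n : V3, n ≠ 0 ∧ (∀ q' ∈ Ms S p, n ⬝ᵥ sv q q' = 0) ∧
      ∀ y : V3, n ⬝ᵥ y = n ⬝ᵥ p.1 → eval y (hq h q) = 0 := by
  classical
  have hMt : ∀ q ∈ Ms S p, Mt p q := fun q hq => (mem_Ms.1 hq).2
  refine ⟨m + crossProduct p.1 m, nrm_ne _ hm, ?_, ?_⟩
  · intro q' hq'
    exact nrm_dot (two_u (hMt q hqM) (hMt q' hq')) (hmp q hqM q' hq')
  · have hcross : ∀ q1 ∈ A, ∀ q2 ∈ A, q1 ≠ q2 → crossProduct (sv q q1) (sv q q2) ≠ 0 := by
      intro q1 h1 q2 h2 hne hc
      have h12 : q1.1 ≠ q2.1 := fun he => hne ((hMt q1 (hA h1)).snd_eq (hMt q2 (hA h2)) he)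
      have h3 := cross_u (two_u (hMt q hqM) (hMt q1 (hA h1)))
        (two_u (hMt q hqM) (hMt q2 (hA h2))) hc
      rw [cross_cyc] at h3
      exact hoff (off_line hb (hline q1 h1) (hline q2 h2) h12 h3)
    have hinj2 : Set.InjOn (sv q) (A : Set (V3 × V3)) := by
      intro q1 h1 q2 h2 he
      by_contra hne
      apply hcross q1 h1 q2 h2 hne
      rw [he]
      exact cross_self _
    refine hPl D (hq h q) ((totalDegree_hq h _).trans hD) p.1 _ (nrm_ne p.1 hm) (A.image (sv q))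
      ?_ ?_ ?_
    · rw [Finset.card_image_of_injOn hinj2]; exact hc
    · intro s hs
      obtain ⟨q', hq', rfl⟩ := Finset.mem_image.1 hs
      have hne : q.1 ≠ q'.1 := fun he => hoff (by rw [he]; exact hline q' hq')
      exact ⟨sv_ne (hMt q hqM) (hMt q' (hA hq')) hne,
        nrm_dot (two_u (hMt q hqM) (hMt q' (hA hq'))) (hmp q hqM q' (hA hq')),
        hz q' hq'⟩
    · intro s hs s' hs' hne
      obtain ⟨q1, hq1, rfl⟩ := Finset.mem_image.1 hs
      obtain ⟨q2, hq2, rfl⟩ := Finset.mem_image.1 hs'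
      exact hcross q1 hq1 q2 hq2 (fun he => hne (by rw [he]))

open scoped Classical in
theorem card_inter_lines (p : V3 × V3) {x1 b1 x2 b2 : V3} (h1 : b1 ≠ 0)
    (h2 : b2 ≠ 0) (hne : ¬ (crossProduct b1 b2 = 0 ∧ crossProduct (x2 - x1) b1 = 0))
    (T : Finset (V3 × V3)) (hT : ∀ q ∈ T, Mt p q) :
    (T.filter (fun q => crossProduct (q.1 - x1) b1 = 0 ∧ crossProduct (q.1 - x2) b2 = 0)).card
      ≤ 1 := by
  rw [Finset.card_le_one]
  intro q hq q' hq'
  rw [Finset.mem_filter] at hq hq'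
  by_contra hc
  have h12 : q.1 ≠ q'.1 := fun he => hc ((hT q hq.1).snd_eq (hT q' hq'.1) he)
  exact hne (lines_eq h1 h2 hq.2.1 hq'.2.1 hq.2.2 hq'.2.2 h12)

/-- (b) one motion all of whose mixed edge lines are in `Z(h)` -/
theorem bipB_point (hPl : PlaneStmt) {D : ℕ} {h : MvPolynomial (Fin 6) ℝ}
    (hD : h.totalDegree ≤ D) (S1 S2 : Finset (V3 × V3)) (p : V3 × V3)
    (hp : GoodB S1 S2 (D + 3) p) (hg : ∃ i, eval (pv p) (pderiv i h) ≠ 0)
    (hB : ∀ q ∈ Ms S1 p, ∀ q' ∈ Ms S2 p, q.1 ≠ q'.1 →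
      ∀ t : ℝ, eval (p.1 + t • sv q q') (hq h q) = 0) :
    open scoped Classical in
    ∃ q ∈ Ms (S1 ∪ S2) p, hq h q ≠ 0 ∧ ∃ n : V3, n ≠ 0 ∧
      (∀ q' ∈ Ms (S1 ∪ S2) p, n ⬝ᵥ sv q q' = 0) ∧
      ∀ y : V3, n ⬝ᵥ y = n ⬝ᵥ p.1 → eval y (hq h q) = 0 := by
  classical
  obtain ⟨x1, b1, x2, b2, hb1, hb2, hc1, hc2, hne⟩ := hp.lines
  obtain ⟨m, hm, hmp⟩ := hp.plane
  set T1 := (Ms S1 p).filter (fun q => crossProduct (q.1 - x1) b1 = 0) with hT1
  set T2 := (Ms S2 p).filter (fun q => crossProduct (q.1 - x2) b2 = 0) with hT2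
  have hM1 : Ms S1 p ⊆ Ms (S1 ∪ S2) p := fun q hq => by
    rw [mem_Ms] at hq ⊢
    exact ⟨Finset.mem_union_left _ hq.1, hq.2⟩
  have hM2 : Ms S2 p ⊆ Ms (S1 ∪ S2) p := fun q hq => by
    rw [mem_Ms] at hq ⊢
    exact ⟨Finset.mem_union_right _ hq.1, hq.2⟩
  have hT1s : T1 ⊆ Ms S1 p := Finset.filter_subset _ _
  have hT2s : T2 ⊆ Ms S2 p := Finset.filter_subset _ _
  have hT1m : ∀ q ∈ T1, Mt p q := fun q hq => (mem_Ms.1 (hT1s hq)).2
  have hT2m : ∀ q ∈ T2, Mt p q := fun q hq => (mem_Ms.1 (hT2s hq)).2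
  by_cases hI : ∃ q ∈ T1, crossProduct (q.1 - x2) b2 ≠ 0 ∧ hq h q ≠ 0
  · obtain ⟨q, hqT, hoff, hq0⟩ := hI
    refine ⟨q, hM1 (hT1s hqT), hq0, ?_⟩
    refine bip_plane hPl hD (S1 ∪ S2) p m hm hmp q (hM1 (hT1s hqT)) T2 (hT2s.trans hM2)
      (by omega) x2 b2 hb2 (fun q' hq' => (Finset.mem_filter.1 hq').2) hoff ?_
    intro q' hq' t
    refine hB q (hT1s hqT) q' (hT2s hq') ?_ t
    intro he
    exact hoff (by rw [he]; exact (Finset.mem_filter.1 hq').2)
  by_cases hII : ∃ q ∈ T2, crossProduct (q.1 - x1) b1 ≠ 0 ∧ hq h q ≠ 0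
  · obtain ⟨q, hqT, hoff, hq0⟩ := hII
    refine ⟨q, hM2 (hT2s hqT), hq0, ?_⟩
    refine bip_plane hPl hD (S1 ∪ S2) p m hm hmp q (hM2 (hT2s hqT)) T1 (hT1s.trans hM1)
      (by omega) x1 b1 hb1 (fun q' hq' => (Finset.mem_filter.1 hq').2) hoff ?_
    intro q' hq' t
    rw [eval_swap h (hT1m q' hq') (hT2m q hqT)]
    refine hB q' (hT1s hq') q (hT2s hqT) ?_ (-t)
    intro he
    exact hoff (by rw [← he]; exact (Finset.mem_filter.1 hq').2)
  exfalso
  push Not at hI hII
  have hA1 : 1 < (T1.filter (fun q => ¬ crossProduct (q.1 - x2) b2 = 0)).card := by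
    have h1 := Finset.card_filter_add_card_filter_not (s := T1)
      (fun q => crossProduct (q.1 - x2) b2 = 0)
    have h2 : (T1.filter (fun q => crossProduct (q.1 - x2) b2 = 0)).card ≤ 1 := by
      refine (Finset.card_le_card ?_).trans (card_inter_lines p hb1 hb2 hne T1 hT1m)
      intro q hq
      rw [Finset.mem_filter] at hq ⊢
      exact ⟨hq.1, (Finset.mem_filter.1 hq.1).2, hq.2⟩
    omega
  have hA2 : 0 < (T2.filter (fun q => ¬ crossProduct (q.1 - x1) b1 = 0)).card := by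
    have h1 := Finset.card_filter_add_card_filter_not (s := T2)
      (fun q => crossProduct (q.1 - x1) b1 = 0)
    have h2 : (T2.filter (fun q => crossProduct (q.1 - x1) b1 = 0)).card ≤ 1 := by
      refine (Finset.card_le_card ?_).trans (card_inter_lines p hb1 hb2 hne T2 hT2m)
      intro q hq
      rw [Finset.mem_filter] at hq ⊢
      exact ⟨hq.1, hq.2, (Finset.mem_filter.1 hq.1).2⟩
    omega
  obtain ⟨q1, hq1, q2, hq2, h12⟩ := Finset.one_lt_card.1 hA1
  obtain ⟨q3, hq3⟩ := Finset.card_pos.1 hA2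
  rw [Finset.mem_filter] at hq1 hq2 hq3
  have z1 := hI q1 hq1.1 hq1.2
  have z2 := hI q2 hq2.1 hq2.2
  have z3 := hII q3 hq3.1 hq3.2
  have h4 := collinear_of_flats h hg (hT1m q1 hq1.1) (hT1m q2 hq2.1) (hT2m q3 hq3.1) z1 z2 z3
  have h12' : q1.1 ≠ q2.1 := fun he => h12 ((hT1m q1 hq1.1).snd_eq (hT1m q2 hq2.1) he)
  exact hq3.2 (off_line hb1 (Finset.mem_filter.1 hq1.1).2 (Finset.mem_filter.1 hq2.1).2 h12' h4)

theorem wallBipStmt (hPl : PlaneStmt) (hPs : PlanesStmt) (hLi : LineStmt) : WallBipStmt := by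
  classical
  intro D h hD S1 S2 G B hGood hF hwall
  let Q : V3 × V3 → Prop := fun p => ∃ q ∈ Ms S1 p, ∃ q' ∈ Ms S2 p, q.1 ≠ q'.1 ∧
      ∃ t : ℝ, eval (p.1 + t • sv q q') (hq h q) ≠ 0
  have h1 : (G.filter Q).card ≤ D * (S1.card * S2.card) :=
    bipA hLi hD S1 S2 _ (fun p hp => (hwall p (Finset.mem_filter.1 hp).1).1)
      (fun p hp => (Finset.mem_filter.1 hp).2)
  have h2 : (G.filter (fun p => ¬ Q p)).card ≤ B * (D * (S1 ∪ S2).card) := by
    refine caseB hPs hD (S1 ∪ S2) _ B (hF.mono (Finset.filter_subset _ _)) ?_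
    intro p hp
    rw [Finset.mem_filter] at hp
    have h3 := bipB_point hPl hD S1 S2 p (hGood p hp.1) (hwall p hp.1).2 (by
      intro q hqM q' hq'M hne t
      by_contra hc
      exact hp.2 ⟨q, hqM, q', hq'M, hne, t, hc⟩)
    convert h3
  rw [← Finset.card_filter_add_card_filter_not (s := G) Q]
  convert Nat.add_le_add h1 h2

end Vale.Agent.P054.PL
end

section

/-! Transfer of Theorem PL and PL-BIP to isometries: the charts. -/

set_option linter.all false

namespace Vale.Agent.P054.PL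

open MvPolynomial Matrix
open Vale.Agent.P054.R (Iso Orth act OnP OnL prt refl LinP DiffL)

/-! ### Cayley coordinates of an isometry -/

/-- Cayley coordinates -/
noncomputable def cay (g : Iso) : V3 × V3 := (J.cyOm g, J.cyW g)

theorem mt_cay_act {g : Iso} (hQ : Orth g) (hd : (1 + g.1).det ≠ 0) (a : V3) :
    Mt (cay g) (a, act g a) := by
  unfold Mt
  have h := J.cy_flat hQ hd (a := a) (c := act g a) rfl
  funext k
  rw [Pi.sub_apply, h k, cr]
  fin_cases k <;> rfl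

theorem mt_cay {g : Iso} (hQ : Orth g) (hd : (1 + g.1).det ≠ 0) (a c : V3) :
    Mt (cay g) (a, c) ↔ act g a = c := by
  constructor
  · intro h
    have h1 := (mt_cay_act hQ hd a).snd_eq h rfl
    exact congrArg Prod.snd h1
  · intro h
    rw [← h]
    exact mt_cay_act hQ hd a

/-! ### the improper isometry of `TR` -/

/-- the matrix `2 r (c - n nᵀ + δ [n]) - 1` -/
def HMr (n : V3) (δ r : ℝ) : Matrix (Fin 3) (Fin 3) ℝ :=
  !![2 * r * (n 1 * n 1 + n 2 * n 2) - 1, 2 * r * (- n 0 * n 1 - δ * n 2),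
      2 * r * (- n 0 * n 2 + δ * n 1);
     2 * r * (- n 1 * n 0 + δ * n 2), 2 * r * (n 0 * n 0 + n 2 * n 2) - 1,
      2 * r * (- n 1 * n 2 - δ * n 0);
     2 * r * (- n 2 * n 0 - δ * n 1), 2 * r * (- n 2 * n 1 + δ * n 0),
      2 * r * (n 0 * n 0 + n 1 * n 1) - 1]

theorem HM_e {n : V3} (hn : n ≠ 0) (δ : ℝ) :
    ∃ r : ℝ, r * (n 0 * n 0 + n 1 * n 1 + n 2 * n 2 + δ * δ) = 1 := by
  refine ⟨(n 0 * n 0 + n 1 * n 1 + n 2 * n 2 + δ * δ)⁻¹, inv_mul_cancel₀ ?_⟩
  intro h
  apply hn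
  apply v3_self
  rw [dp]
  nlinarith [mul_self_nonneg (n 0), mul_self_nonneg (n 1), mul_self_nonneg (n 2),
    mul_self_nonneg δ]

theorem HM_orth {n : V3} {δ r : ℝ}
    (hr : r * (n 0 * n 0 + n 1 * n 1 + n 2 * n 2 + δ * δ) = 1) :
    (HMr n δ r)ᵀ * HMr n δ r = 1 := by
  ext i j
  fin_cases i <;> fin_cases j <;> simp [HMr, Matrix.mul_apply, Fin.sum_univ_three]
  · linear_combination (4 * r * (n 1 * n 1 + n 2 * n 2)) * hr
  · linear_combination (4 * r * (- n 0 * n 1)) * hr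
  · linear_combination (4 * r * (- n 0 * n 2)) * hr
  · linear_combination (4 * r * (- n 1 * n 0)) * hr
  · linear_combination (4 * r * (n 0 * n 0 + n 2 * n 2)) * hr
  · linear_combination (4 * r * (- n 1 * n 2)) * hr
  · linear_combination (4 * r * (- n 2 * n 0)) * hr
  · linear_combination (4 * r * (- n 2 * n 1)) * hr
  · linear_combination (4 * r * (n 0 * n 0 + n 1 * n 1)) * hr

theorem HM_det {n : V3} {δ r : ℝ}
    (hr : r * (n 0 * n 0 + n 1 * n 1 + n 2 * n 2 + δ * δ) = 1) : (HMr n δ r).det = -1 := by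
  rw [Matrix.det_fin_three]
  simp [HMr]
  linear_combination (-4 * r * (n 0 * n 0 + n 1 * n 1 + n 2 * n 2)) * hr

theorem HM_TR {n : V3} {δ r : ℝ}
    (hr : r * (n 0 * n 0 + n 1 * n 1 + n 2 * n 2 + δ * δ) = 1) {u v : V3}
    (h1 : n ⬝ᵥ (u + v) = 0)
    (h2 : crossProduct n (v - u) = (-δ) • (u + v)) : v = (HMr n δ r).mulVec u := by
  rw [dp] at h1
  rw [cr] at h2
  have e0 := congrFun h2 0
  have e1 := congrFun h2 1
  have e2 := congrFun h2 2
  simp at e0 e1 e2 h1
  apply v3_ext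
  · simp [HMr, Matrix.mulVec, dotProduct, Fin.sum_univ_three]
    linear_combination (-(u 0 + v 0)) * hr -
      r * ((n 1) * e2 - (n 2) * e1 - δ * e0 - (n 0) * h1)
  · simp [HMr, Matrix.mulVec, dotProduct, Fin.sum_univ_three]
    linear_combination (-(u 1 + v 1)) * hr -
      r * ((n 2) * e0 - (n 0) * e2 - δ * e1 - (n 1) * h1)
  · simp [HMr, Matrix.mulVec, dotProduct, Fin.sum_univ_three]
    linear_combination (-(u 2 + v 2)) * hr -
      r * ((n 0) * e1 - (n 1) * e0 - δ * e2 - (n 2) * h1)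

/-! ### uniqueness -/

theorem orth_mul_t {A : Matrix (Fin 3) (Fin 3) ℝ} (h : Aᵀ * A = 1) : A * Aᵀ = 1 :=
  mul_eq_one_comm.1 h

theorem orth_dot {A : Matrix (Fin 3) (Fin 3) ℝ} (h : Aᵀ * A = 1) (x y : V3) :
    A.mulVec x ⬝ᵥ A.mulVec y = x ⬝ᵥ y := by
  rw [Matrix.dotProduct_mulVec, ← Matrix.mulVec_transpose, Matrix.mulVec_mulVec, h,
    Matrix.one_mulVec]

theorem cross_cross_eq (w a b : V3) :
    crossProduct w (crossProduct a b) = (w ⬝ᵥ b) • a - (w ⬝ᵥ a) • b := by
  rw [cr, cr, dp, dp]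
  apply v3_ext <;> simp <;> ring

/-- an orthogonal matrix of determinant one which fixes two independent vectors is the identity -/
theorem orth_fix {A : Matrix (Fin 3) (Fin 3) ℝ} (h : Aᵀ * A = 1) (hd : A.det = 1) {a b : V3}
    (hab : crossProduct a b ≠ 0) (ha : A.mulVec a = a) (hb : A.mulVec b = b) : A = 1 := by
  set w := crossProduct a b with hw
  have hwa : w ⬝ᵥ a = 0 := by rw [hw, cr, dp]; simp; ring
  have hwb : w ⬝ᵥ b = 0 := by rw [hw, cr, dp]; simp; ring
  have h1 : crossProduct (A.mulVec w) w = 0 := by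
    have e1 : A.mulVec w ⬝ᵥ b = 0 := by rw [← hb, orth_dot h, hwb]
    have e2 : A.mulVec w ⬝ᵥ a = 0 := by rw [← ha, orth_dot h, hwa]
    conv_lhs => rw [hw]
    rw [← hw, hw, cross_cross_eq, ← hw, e1, e2]
    simp
  obtain ⟨l, hl⟩ : ∃ l : ℝ, A.mulVec w = l • w := ⟨_, par_of_cross h1 hab⟩
  set N : Matrix (Fin 3) (Fin 3) ℝ := Matrix.of ![a, b, w] with hN
  have hNd : N.det = w ⬝ᵥ w := by
    rw [Matrix.det_fin_three, hN, dp, hw, cr]
    simp
    ring
  have hNd0 : N.det ≠ 0 := by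
    rw [hNd]
    intro hc
    exact hab (v3_self hc)
  have hNA : N * Aᵀ = Matrix.of ![a, b, l • w] := by
    ext i j
    have e : (N * Aᵀ) i j = A.mulVec (N i) j := by
      simp [Matrix.mul_apply, Matrix.mulVec, dotProduct, mul_comm]
    rw [e]
    fin_cases i
    · exact congrFun ha j
    · exact congrFun hb j
    · exact congrFun hl j
  have hdet : (Matrix.of ![a, b, l • w] : Matrix (Fin 3) (Fin 3) ℝ).det = l * N.det := by
    rw [Matrix.det_fin_three, Matrix.det_fin_three, hN]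
    simp
    ring
  have hl1 : l = 1 := by
    have e := congrArg Matrix.det hNA
    rw [Matrix.det_mul, Matrix.det_transpose, hd, mul_one, hdet] at e
    have e2 : (l - 1) * N.det = 0 := by linarith
    rcases mul_eq_zero.1 e2 with e3 | e3
    · linarith
    · exact absurd e3 hNd0
  rw [hl1, one_smul, ← hN] at hNA
  have hu : IsUnit N.det := isUnit_iff_ne_zero.2 hNd0
  have hAt : Aᵀ = 1 := by
    calc Aᵀ = N⁻¹ * (N * Aᵀ) := by rw [← Matrix.mul_assoc, Matrix.nonsing_inv_mul _ hu, one_mul]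
      _ = 1 := by rw [hNA, Matrix.nonsing_inv_mul _ hu]
  rw [← Matrix.transpose_transpose A, hAt, Matrix.transpose_one]

theorem iso_unique {g h : Iso} (hg : Orth g) (hh : Orth h) (hd : g.1.det * h.1.det = 1)
    {a b c : V3} (habc : crossProduct (b - a) (c - a) ≠ 0) (ha : act g a = act h a)
    (hb : act g b = act h b) (hc : act g c = act h c) : g = h := by
  unfold act at ha hb hc
  unfold Orth at hg hh
  have e1 : g.1.mulVec (b - a) = h.1.mulVec (b - a) := by
    rw [Matrix.mulVec_sub, Matrix.mulVec_sub]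
    have : g.1.mulVec b - g.1.mulVec a = (g.1.mulVec b + g.2) - (g.1.mulVec a + g.2) := by abel
    rw [this, ha, hb]
    abel
  have e2 : g.1.mulVec (c - a) = h.1.mulVec (c - a) := by
    rw [Matrix.mulVec_sub, Matrix.mulVec_sub]
    have : g.1.mulVec c - g.1.mulVec a = (g.1.mulVec c + g.2) - (g.1.mulVec a + g.2) := by abel
    rw [this, ha, hc]
    abel
  have hA : (h.1ᵀ * g.1)ᵀ * (h.1ᵀ * g.1) = 1 := by
    rw [Matrix.transpose_mul, Matrix.transpose_transpose, Matrix.mul_assoc,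
      ← Matrix.mul_assoc h.1, orth_mul_t hh, one_mul, hg]
  have hAd : (h.1ᵀ * g.1).det = 1 := by
    rw [Matrix.det_mul, Matrix.det_transpose, mul_comm, hd]
  have h3 : h.1ᵀ * g.1 = 1 := by
    refine orth_fix hA hAd habc ?_ ?_
    · rw [← Matrix.mulVec_mulVec, e1, Matrix.mulVec_mulVec, hh, Matrix.one_mulVec]
    · rw [← Matrix.mulVec_mulVec, e2, Matrix.mulVec_mulVec, hh, Matrix.one_mulVec]
  have h4 : g.1 = h.1 := by
    calc g.1 = (h.1 * h.1ᵀ) * g.1 := by rw [orth_mul_t hh, one_mul]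
      _ = h.1 := by rw [Matrix.mul_assoc, h3, mul_one]
  refine Prod.ext h4 ?_
  rw [h4] at ha
  exact add_left_cancel ha

/-! ### the partner -/

theorem nn_ne {n : V3} (hn : n ≠ 0) :
    ∃ r : ℝ, 2 / (n ⬝ᵥ n) = 2 * r ∧ r * (n 0 * n 0 + n 1 * n 1 + n 2 * n 2) = 1 := by
  have h : n ⬝ᵥ n ≠ 0 := fun h => hn (v3_self h)
  refine ⟨(n ⬝ᵥ n)⁻¹, div_eq_mul_inv _ _, ?_⟩
  rw [← dp]
  exact inv_mul_cancel₀ h

/-- the Householder matrix -/
noncomputable def HH (n : V3) : Matrix (Fin 3) (Fin 3) ℝ :=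
  1 - (2 / (n ⬝ᵥ n)) • Matrix.vecMulVec n n

theorem HH_orth {n : V3} (hn : n ≠ 0) : (HH n)ᵀ * HH n = 1 := by
  obtain ⟨r, e1, hr⟩ := nn_ne hn
  unfold HH
  rw [e1]
  ext i j
  fin_cases i <;> fin_cases j <;>
    simp [Matrix.mul_apply, Fin.sum_univ_three, Matrix.vecMulVec_apply, Matrix.one_apply]
  · linear_combination (4 * r * n 0 * n 0) * hr
  · linear_combination (4 * r * n 0 * n 1) * hr
  · linear_combination (4 * r * n 0 * n 2) * hr
  · linear_combination (4 * r * n 1 * n 0) * hr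
  · linear_combination (4 * r * n 1 * n 1) * hr
  · linear_combination (4 * r * n 1 * n 2) * hr
  · linear_combination (4 * r * n 2 * n 0) * hr
  · linear_combination (4 * r * n 2 * n 1) * hr
  · linear_combination (4 * r * n 2 * n 2) * hr

theorem HH_det {n : V3} (hn : n ≠ 0) : (HH n).det = -1 := by
  obtain ⟨r, e1, hr⟩ := nn_ne hn
  unfold HH
  rw [e1, Matrix.det_fin_three]
  simp [Matrix.vecMulVec_apply, Matrix.one_apply]
  linear_combination (-2) * hr

theorem orth_prt' {g : Iso} (hg : Orth g) {n : V3} (hn : n ≠ 0) (d : ℝ) : Orth (prt g n d) := by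
  unfold Orth at hg ⊢
  change (g.1 * HH n)ᵀ * (g.1 * HH n) = 1
  rw [Matrix.transpose_mul, Matrix.mul_assoc, ← Matrix.mul_assoc g.1ᵀ, hg, one_mul, HH_orth hn]

theorem det_prt' (g : Iso) {n : V3} (hn : n ≠ 0) (d : ℝ) : (prt g n d).1.det = - g.1.det := by
  change (g.1 * HH n).det = _
  rw [Matrix.det_mul, HH_det hn]
  ring

theorem act_prt' (g : Iso) {n : V3} (hn : n ≠ 0) {d : ℝ} {a : V3} (ha : OnP n d a) :
    act (prt g n d) a = act g a := by
  obtain ⟨r, e1, hr⟩ := nn_ne hn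
  unfold OnP at ha
  unfold act
  change (g.1 * HH n).mulVec a + (g.1.mulVec ((2 * d / (n ⬝ᵥ n)) • n) + g.2) = _
  rw [← Matrix.mulVec_mulVec, ← add_assoc, ← Matrix.mulVec_add]
  congr 2
  unfold HH
  rw [mul_div_right_comm, e1]
  rw [dp] at ha
  apply v3_ext
  · simp [Matrix.mulVec, dotProduct, Fin.sum_univ_three, Matrix.vecMulVec_apply, Matrix.one_apply]
    linear_combination (-2 * r * n 0) * ha
  · simp [Matrix.mulVec, dotProduct, Fin.sum_univ_three, Matrix.vecMulVec_apply, Matrix.one_apply]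
    linear_combination (-2 * r * n 1) * ha
  · simp [Matrix.mulVec, dotProduct, Fin.sum_univ_three, Matrix.vecMulVec_apply, Matrix.one_apply]
    linear_combination (-2 * r * n 2) * ha

/-- an improper (relative to `g`) isometry which agrees with `g` at three noncollinear points of
the plane is the partner -/
theorem prt_eq_of_three {g h : Iso} (hg : Orth g) (hh : Orth h) {n : V3} (hn : n ≠ 0) {d : ℝ}
    (hd : g.1.det * h.1.det = -1) {a b c : V3} (habc : crossProduct (b - a) (c - a) ≠ 0)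
    (pa : OnP n d a) (pb : OnP n d b) (pc : OnP n d c) (ha : act g a = act h a)
    (hb : act g b = act h b) (hc : act g c = act h c) : prt g n d = h := by
  refine iso_unique (orth_prt' hg hn d) hh ?_ habc ?_ ?_ ?_
  · rw [det_prt' g hn]; linarith
  · rw [act_prt' g hn pa, ha]
  · rw [act_prt' g hn pb, hb]
  · rw [act_prt' g hn pc, hc]

end Vale.Agent.P054.PL
end
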