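import Mathlib

set_option linter.all false

section

/-! Bezout's bound for graph lines in `ℝ³`: if `φ` is irreducible and does not divide `ψ`, then
`φ` and `ψ` vanish together on at most `deg φ * deg ψ` lines
`{(α₀ + β₀ w, α₁ + β₁ w, w)}`. -/

namespace Vale.Agent.P041.SE

open Finset MvPolynomial

/-- The space of real polynomials in three variables of total degree at most `n`. -/
noncomputable abbrev V3 (n : ℕ) : Submodule ℝ (MvPolynomial (Fin 3) ℝ) :=
  restrictTotalDegree (Fin 3) ℝ n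

/-- The index set of the monomials of degree at most `n` in three variables. -/
noncomputable def tetEquiv (n : ℕ) : {m : Fin 3 →₀ ℕ | (m.sum fun _ e => e) ≤ n} ≃
      ↥((range (n + 1)).sigma (fun i => (range (n + 1 - i)).sigma
        (fun j => range (n + 1 - i - j)))) where
  toFun := fun m => ⟨⟨m.1 0, ⟨m.1 1, m.1 2⟩⟩, by
        have := m.2
        simp only [Set.mem_ofPred_eq] at this
        rw [Finsupp.sum_fintype _ _ (fun _ => rfl), Fin.sum_univ_three] at this
        simp only [Finset.mem_sigma, Finset.mem_range]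
        omega⟩
  invFun := fun p => ⟨Finsupp.equivFunOnFinite.symm ![p.1.1, p.1.2.1, p.1.2.2], by
        have := p.2
        simp only [Finset.mem_sigma, Finset.mem_range] at this
        simp only [Set.mem_ofPred_eq]
        rw [Finsupp.sum_fintype _ _ (fun _ => rfl), Fin.sum_univ_three]
        simp
        omega⟩
  left_inv := fun m => by
        apply Subtype.ext
        ext i
        fin_cases i <;> simp
  right_inv := fun p => by
        apply Subtype.ext
        simp

theorem sum_reflect2 (m : ℕ) : (∑ j ∈ range m, (m - j)) * 2 = m * (m + 1) := by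
  induction m with
  | zero => simp
  | succ m ih =>
    rw [sum_range_succ']
    have : ∑ k ∈ range m, (m + 1 - (k + 1)) = ∑ k ∈ range m, (m - k) := by
      apply sum_congr rfl; intro k _; omega
    rw [this, add_mul, ih]
    simp only [Nat.sub_zero]
    ring

theorem sum_reflect3 (m : ℕ) : (∑ i ∈ range m, ∑ j ∈ range (m - i), (m - i - j)) * 6 =
    m * (m + 1) * (m + 2) := by
  induction m with
  | zero => simp
  | succ m ih =>
    rw [sum_range_succ']
    have : ∑ k ∈ range m, ∑ j ∈ range (m + 1 - (k + 1)), (m + 1 - (k + 1) - j) =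
        ∑ i ∈ range m, ∑ j ∈ range (m - i), (m - i - j) := by
      apply sum_congr rfl; intro k _
      rw [show m + 1 - (k + 1) = m - k by omega]
    rw [this, add_mul, ih]
    simp only [Nat.sub_zero]
    have h2 := sum_reflect2 (m + 1)
    nlinarith [h2]

theorem finrank_V3 (n : ℕ) : Module.finrank ℝ (V3 n) * 6 = (n + 1) * (n + 2) * (n + 3) := by
  have h1 : Module.finrank ℝ (V3 n) = Nat.card {m : Fin 3 →₀ ℕ | (m.sum fun _ e => e) ≤ n} :=
    Module.finrank_eq_nat_card_basis (basisRestrictSupport ℝ _)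
  rw [h1, Nat.card_congr (tetEquiv n), Nat.card_eq_fintype_card, Fintype.card_coe,
    Finset.card_sigma]
  simp only [Finset.card_sigma, Finset.card_range]
  rw [sum_reflect3]

/-- Multiplication by `q` as a linear map. -/
noncomputable abbrev mulq (q : MvPolynomial (Fin 3) ℝ) :
    MvPolynomial (Fin 3) ℝ →ₗ[ℝ] MvPolynomial (Fin 3) ℝ := LinearMap.mulLeft ℝ q

theorem finrank_map_mulq {q : MvPolynomial (Fin 3) ℝ} (hq : q ≠ 0) (n : ℕ) :
    Module.finrank ℝ ((V3 n).map (mulq q)) = Module.finrank ℝ (V3 n) := by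
  have hinj : Function.Injective (mulq q) := by
    intro u v huv
    exact mul_left_cancel₀ hq huv
  exact (LinearEquiv.finrank_eq (Submodule.equivMapOfInjective (mulq q) hinj (V3 n))).symm

theorem map_mulq_le {q : MvPolynomial (Fin 3) ℝ} {n m : ℕ} (h : q.totalDegree + m ≤ n) :
    (V3 m).map (mulq q) ≤ V3 n := by
  rintro _ ⟨u, hu, rfl⟩
  have hu' := (mem_restrictTotalDegree _ _ _).1 hu
  rw [mem_restrictTotalDegree]
  have := totalDegree_mul q u
  show (q * u).totalDegree ≤ n
  omega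

/-- Evaluation at a family of points as a linear map. -/
noncomputable def evZ {Z : Type} (pts : Z → Fin 3 → ℝ) :
    MvPolynomial (Fin 3) ℝ →ₗ[ℝ] (Z → ℝ) where
  toFun := fun P z => eval (pts z) P
  map_add' := fun P Q => by
    funext z
    simp
  map_smul' := fun c P => by
    funext z
    simp [smul_eval]

@[simp] theorem evZ_apply {Z : Type} (pts : Z → Fin 3 → ℝ) (P : MvPolynomial (Fin 3) ℝ) (z : Z) :
    evZ pts P z = eval (pts z) P := rfl

/-- The dimension count: if evaluation at the family is onto from degree `a + b + c`, then the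
number of common zeros in the family is at most `ab(a+b+2c+4)/2`. -/
theorem bezout_points {q G : MvPolynomial (Fin 3) ℝ} (hq : Irreducible q) (hG : ¬ q ∣ G)
    {Z : Type} [Fintype Z] (pts : Z → Fin 3 → ℝ) (c : ℕ)
    (hsurj : (V3 (q.totalDegree + G.totalDegree + c)).map (evZ pts) = ⊤)
    (h1 : ∀ z, eval (pts z) q = 0) (h2 : ∀ z, eval (pts z) G = 0) :
    2 * Fintype.card Z ≤ q.totalDegree * G.totalDegree *
      (q.totalDegree + G.totalDegree + 2 * c + 4) := by
  have hq0 : q ≠ 0 := hq.ne_zero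
  have hG0 : G ≠ 0 := fun h => hG (h ▸ dvd_zero q)
  have hqp : Prime q := hq.prime
  set a := q.totalDegree with ha
  set b := G.totalDegree with hb
  set n := a + b + c with hn
  set L := (evZ pts).domRestrict (V3 n) with hL
  have hrange : LinearMap.range L = ⊤ := by
    rw [hL, LinearMap.range_domRestrict, hsurj]
  have hrn := LinearMap.finrank_range_add_finrank_ker L
  rw [hrange, finrank_top, Module.finrank_fintype_fun_eq_card] at hrn
  set Qn := (V3 (b + c)).map (mulq q) with hQn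
  set Gn := (V3 (a + c)).map (mulq G) with hGn
  have hle : Qn ⊔ Gn ≤ (LinearMap.ker L).map (V3 n).subtype := by
    rw [sup_le_iff]
    constructor
    · intro u hu
      have huV : u ∈ V3 n := map_mulq_le (by omega) hu
      refine ⟨⟨u, huV⟩, ?_, rfl⟩
      obtain ⟨v, _, rfl⟩ := hu
      rw [SetLike.mem_coe, LinearMap.mem_ker]
      funext z
      show eval (pts z) (q * v) = 0
      rw [map_mul, h1 z, zero_mul]
    · intro u hu
      have huV : u ∈ V3 n := map_mulq_le (by omega) hu
      refine ⟨⟨u, huV⟩, ?_, rfl⟩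
      obtain ⟨v, _, rfl⟩ := hu
      rw [SetLike.mem_coe, LinearMap.mem_ker]
      funext z
      show eval (pts z) (G * v) = 0
      rw [map_mul, h2 z, zero_mul]
  have hfr : Module.finrank ℝ ((LinearMap.ker L).map (V3 n).subtype) =
      Module.finrank ℝ (LinearMap.ker L) := Submodule.finrank_map_subtype_eq _ _
  have hle' := Submodule.finrank_mono hle
  rw [hfr] at hle'
  have hinf : Qn ⊓ Gn ≤ (V3 c).map (mulq (q * G)) := by
    rintro u ⟨⟨v, hv, rfl⟩, ⟨w, hw, hvw⟩⟩
    have hvw' : G * w = q * v := hvw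
    have hdvd : q ∣ G * w := ⟨v, hvw'⟩
    rcases hqp.dvd_or_dvd hdvd with h | h
    · exact absurd h hG
    · obtain ⟨t, rfl⟩ := h
      have hv' : v = G * t := by
        apply mul_left_cancel₀ hq0
        rw [← hvw']
        ring
      refine ⟨t, ?_, ?_⟩
      · rw [SetLike.mem_coe, mem_restrictTotalDegree]
        rw [SetLike.mem_coe, mem_restrictTotalDegree] at hw
        rcases eq_or_ne t 0 with rfl | ht
        · simp
        · rw [totalDegree_mul_of_isDomain hq0 ht] at hw
          omega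
      · show q * G * t = q * v
        rw [hv']
        ring
  have hinf' := Submodule.finrank_mono hinf
  rw [finrank_map_mulq (mul_ne_zero hq0 hG0)] at hinf'
  have hsum := Submodule.finrank_sup_add_finrank_inf_eq Qn Gn
  rw [hQn, hGn, finrank_map_mulq hq0, finrank_map_mulq hG0, ← hQn, ← hGn] at hsum
  have d1 := finrank_V3 n
  have d2 := finrank_V3 (b + c)
  have d3 := finrank_V3 (a + c)
  have d4 := finrank_V3 c
  rw [hn] at d1
  zify at *
  linarith only [d4, d3, d2, d1, hsum, hinf', hle', hrn]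

/-- Graph lines `w ↦ (α + β w, w)` of `ℝ³`, given by `(α, β)`. -/
abbrev Ln : Type := (Fin 2 → ℝ) × (Fin 2 → ℝ)

/-- The point of the graph line `l` at height `w`. -/
def gpt (l : (Fin 2 → ℝ) × (Fin 2 → ℝ)) (w : ℝ) : Fin 3 → ℝ :=
  ![l.1 0 + l.2 0 * w, l.1 1 + l.2 1 * w, w]

/-- The polynomial `φ` vanishes on the graph line `l`. -/
def On (φ : MvPolynomial (Fin 3) ℝ) (l : Ln) : Prop := ∀ w : ℝ, eval (gpt l w) φ = 0

/-- A linear form vanishing on the line `j`. -/
noncomputable def lform (j : (Fin 2 → ℝ) × (Fin 2 → ℝ)) (b : Bool) : MvPolynomial (Fin 3) ℝ :=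
  if b then X 1 - C (j.1 1) - C (j.2 1) * X 2 else X 0 - C (j.1 0) - C (j.2 0) * X 2

theorem lform_degree (j : (Fin 2 → ℝ) × (Fin 2 → ℝ)) (b : Bool) :
    (lform j b).totalDegree ≤ 1 := by
  have key : ∀ (i : Fin 3) (s t : ℝ), (X i - C s - C t * X 2 : MvPolynomial (Fin 3) ℝ).totalDegree
      ≤ 1 := by
    intro i s t
    refine (totalDegree_sub _ _).trans (max_le ?_ ?_)
    · refine (totalDegree_sub _ _).trans ?_
      simp
    · refine (totalDegree_mul _ _).trans ?_
      simp
  unfold lform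
  split_ifs
  · exact key _ _ _
  · exact key _ _ _

theorem lform_self (j : (Fin 2 → ℝ) × (Fin 2 → ℝ)) (b : Bool) (w : ℝ) :
    eval (gpt j w) (lform j b) = 0 := by
  unfold lform gpt
  cases b <;> simp

/-- Which coordinate separates two lines. -/
noncomputable def sepb (i j : (Fin 2 → ℝ) × (Fin 2 → ℝ)) : Bool :=
  open scoped Classical in
  if i.1 0 = j.1 0 ∧ i.2 0 = j.2 0 then true else false

theorem sep_finite (i j : (Fin 2 → ℝ) × (Fin 2 → ℝ)) (hij : i ≠ j) :
    {w : ℝ | eval (gpt i w) (lform j (sepb i j)) = 0}.Finite := by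
  have key : ∀ s t : ℝ, (s ≠ 0 ∨ t ≠ 0) → {w : ℝ | s + t * w = 0}.Finite := by
    intro s t h
    by_cases ht : t = 0
    · subst ht
      have hs : s ≠ 0 := by tauto
      convert Set.finite_empty
      ext w
      simp [hs]
    · refine Set.Finite.subset (Set.finite_singleton (-s/t)) ?_
      intro w hw
      simp only [Set.mem_ofPred_eq] at hw
      rw [Set.mem_singleton_iff]
      field_simp
      linarith
  unfold lform gpt sepb
  by_cases h : i.1 0 = j.1 0 ∧ i.2 0 = j.2 0
  · have h' : i.1 1 - j.1 1 ≠ 0 ∨ i.2 1 - j.2 1 ≠ 0 := by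
      by_contra hcon
      push Not at hcon
      apply hij
      refine Prod.ext (funext fun k => ?_) (funext fun k => ?_)
      · fin_cases k
        · exact h.1
        · show i.1 1 = j.1 1
          linarith [hcon.1]
      · fin_cases k
        · exact h.2
        · show i.2 1 = j.2 1
          linarith [hcon.2]
    refine (key _ _ h').subset ?_
    intro w hw
    simp [h] at hw
    simp only [Set.mem_ofPred_eq]
    linarith
  · have h' : i.1 0 - j.1 0 ≠ 0 ∨ i.2 0 - j.2 0 ≠ 0 := by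
      by_contra hcon
      push Not at hcon
      exact h ⟨by linarith [hcon.1], by linarith [hcon.2]⟩
    refine (key _ _ h').subset ?_
    intro w hw
    simp [h] at hw
    simp only [Set.mem_ofPred_eq]
    linarith

/-- Evaluation at well chosen points of finitely many graph lines is onto. -/
theorem exists_params (L : Finset ((Fin 2 → ℝ) × (Fin 2 → ℝ))) (r n : ℕ)
    (hn : #L + r ≤ n + 2) (hL : 0 < #L) (hr : 0 < r) :
    ∃ T : Finset ℝ, #T = r ∧ (V3 n).map (evZ (fun z : ↥L × ↥T => gpt z.1.1 z.2.1)) = ⊤ := by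
  classical
  set B : Set ℝ := ⋃ i ∈ L, ⋃ j ∈ L, {w : ℝ | i ≠ j ∧ eval (gpt i w) (lform j (sepb i j)) = 0}
    with hB
  have hBf : B.Finite := by
    refine Set.Finite.biUnion L.finite_toSet (fun i _ =>
      Set.Finite.biUnion L.finite_toSet (fun j _ => ?_))
    by_cases hij : i = j
    · convert Set.finite_empty
      ext w
      simp [hij]
    · exact (sep_finite i j hij).subset (fun w hw => hw.2)
  obtain ⟨T, hT1, hT2⟩ := hBf.infinite_compl.exists_subset_card_eq r
  refine ⟨T, hT2, ?_⟩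
  rw [eq_top_iff, ← (Pi.basisFun ℝ (↥L × ↥T)).span_eq, Submodule.span_le]
  rintro _ ⟨z, rfl⟩
  set P : MvPolynomial (Fin 3) ℝ := (∏ j ∈ L.erase z.1.1, lform j (sepb z.1.1 j)) *
    ∏ w ∈ T.erase z.2.1, (X 2 - C w) with hP
  have hPdeg : P ∈ V3 n := by
    rw [mem_restrictTotalDegree, hP]
    refine (totalDegree_mul _ _).trans ?_
    have e1 : (∏ j ∈ L.erase z.1.1, lform j (sepb z.1.1 j)).totalDegree ≤ #L - 1 := by
      refine (totalDegree_finsetProd _ _).trans ?_
      refine (Finset.sum_le_sum (fun j _ => lform_degree j _)).trans ?_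
      simp [Finset.card_erase_of_mem z.1.2]
    have e2 : (∏ w ∈ T.erase z.2.1, (X 2 - C w : MvPolynomial (Fin 3) ℝ)).totalDegree
        ≤ #T - 1 := by
      refine (totalDegree_finsetProd _ _).trans ?_
      refine (Finset.sum_le_sum (fun w _ => (show (X 2 - C w :
        MvPolynomial (Fin 3) ℝ).totalDegree ≤ 1 from ?_))).trans ?_
      · refine (totalDegree_sub _ _).trans ?_
        simp
      · simp [Finset.card_erase_of_mem z.2.2]
    omega
  have hz : eval (gpt z.1.1 z.2.1) P ≠ 0 := by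
    rw [hP, map_mul, map_prod, map_prod]
    refine mul_ne_zero (Finset.prod_ne_zero_iff.2 fun j hj => ?_)
      (Finset.prod_ne_zero_iff.2 fun w hw => ?_)
    · intro h0
      have hw := hT1 z.2.2
      apply hw
      rw [hB]
      simp only [Set.mem_iUnion, Set.mem_ofPred_eq]
      exact ⟨z.1.1, z.1.2, j, (Finset.mem_erase.1 hj).2, (Finset.mem_erase.1 hj).1.symm, h0⟩
    · simp only [gpt, map_sub, eval_X, eval_C]
      rw [sub_ne_zero]
      simpa using (Finset.mem_erase.1 hw).1.symm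
  have hw : ∀ y : ↥L × ↥T, y ≠ z → eval (gpt y.1.1 y.2.1) P = 0 := by
    intro y hy
    rw [hP, map_mul, map_prod, map_prod]
    by_cases h : y.1 = z.1
    · have h2 : y.2 ≠ z.2 := fun h2 => hy (Prod.ext h h2)
      refine mul_eq_zero_of_right _ (Finset.prod_eq_zero (i := y.2.1)
        (Finset.mem_erase.2 ⟨fun h => h2 (Subtype.ext h), y.2.2⟩) ?_)
      simp [gpt]
    · refine mul_eq_zero_of_left (Finset.prod_eq_zero (i := y.1.1)
        (Finset.mem_erase.2 ⟨fun h' => h (Subtype.ext h'), y.1.2⟩) ?_) _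
      exact lform_self _ _ _
  refine ⟨(eval (gpt z.1.1 z.2.1) P)⁻¹ • P, (V3 n).smul_mem _ hPdeg, ?_⟩
  rw [map_smul]
  funext y
  simp only [Pi.smul_apply, evZ_apply, smul_eq_mul, Pi.basisFun_apply]
  by_cases h : y = z
  · subst h
    rw [inv_mul_cancel₀ hz]
    simp
  · rw [hw y h, mul_zero, Pi.single_eq_of_ne h]

/-- **Bezout's bound for graph lines.** -/
theorem graph_bezout {φ ψ : MvPolynomial (Fin 3) ℝ} (hφ : Irreducible φ) (hψ : ¬ φ ∣ ψ)
    (L : Finset ((Fin 2 → ℝ) × (Fin 2 → ℝ)))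
    (h1 : ∀ l ∈ L, ∀ w : ℝ, eval (gpt l w) φ = 0)
    (h2 : ∀ l ∈ L, ∀ w : ℝ, eval (gpt l w) ψ = 0) :
    #L ≤ φ.totalDegree * ψ.totalDegree := by
  classical
  rcases Nat.eq_zero_or_pos (#L) with h0 | hpos
  · omega
  set a := φ.totalDegree with ha
  set b := ψ.totalDegree with hb
  set N := #L with hN
  by_contra hcon
  rw [not_le] at hcon
  -- n = a + b + c with c = N ^ 2
  obtain ⟨T, hT, hs⟩ := exists_params L (a + b + N ^ 2 + 2 - N) (a + b + N ^ 2)
    (by rw [← hN]; have : N ≤ N ^ 2 := Nat.le_self_pow (by norm_num) N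
        omega) hpos (by have : N ≤ N ^ 2 := Nat.le_self_pow (by norm_num) N
                        omega)
  have key := bezout_points hφ hψ (fun z : ↥L × ↥T => gpt z.1.1 z.2.1) (N ^ 2) hs
    (fun z => h1 _ z.1.2 _) (fun z => h2 _ z.1.2 _)
  rw [Fintype.card_prod, Fintype.card_coe, Fintype.card_coe, hT, ← ha, ← hb, ← hN] at key
  have h3 : N ≤ N ^ 2 := Nat.le_self_pow (by norm_num) N
  obtain ⟨r, hr⟩ : ∃ r, a + b + N ^ 2 + 2 = N + r := ⟨a + b + N ^ 2 + 2 - N, by omega⟩
  rw [hr, Nat.add_sub_cancel_left] at key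
  -- 2 N r ≤ a b (a + b + 2 N^2 + 4)
  have h4 : a + b + 2 * N ^ 2 + 4 ≤ 2 * (N + r) := by omega
  have h5 : 2 * (N * r) ≤ (a * b) * (2 * (N + r)) := le_trans key (Nat.mul_le_mul_left _ h4)
  have h6 : N * r ≤ (a * b) * (N + r) := by linarith
  have h7 : (a * b) * (N + r) ≤ (N - 1) * (N + r) := Nat.mul_le_mul_right _ (by omega)
  have fin : ∀ M r a b N : ℕ, N = M + 1 → a + b + N ^ 2 + 2 = N + r →
      N * r ≤ (N - 1) * (N + r) → False := by
    intro M r a b N hM hr h
    subst hM
    rw [Nat.add_sub_cancel] at h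
    linarith only [hr, h]
  exact fin (N - 1) r a b N (by omega) hr (le_trans h6 h7)

end Vale.Agent.P041.SE
end

section

/-!
P054, block (G), leaves (4) and (7): the lines of a quadric `det ((1 - A) + [w](1 + A)) = 0`.
-/

set_option autoImplicit false

namespace Vale.Agent.P054.Y.G

open Matrix

/-- matrix of the cross product with `w` -/
def cr (w : Fin 3 → ℝ) : Matrix (Fin 3) (Fin 3) ℝ :=
  !![0, -w 2, w 1; w 2, 0, -w 0; -w 1, w 0, 0]

theorem cr_mulVec (w v : Fin 3 → ℝ) : (cr w).mulVec v = crossProduct w v := by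
  ext i
  fin_cases i <;> simp [cr, Matrix.mulVec, dotProduct, Fin.sum_univ_three, cross_apply] <;> ring

theorem eq3 {u v : Fin 3 → ℝ} (h0 : u 0 = v 0) (h1 : u 1 = v 1) (h2 : u 2 = v 2) : u = v := by
  ext i
  fin_cases i
  · exact h0
  · exact h1
  · exact h2

/-- the rotation of `w` preserves the inner product -/
theorem cayley_dot (w p p' q q' : Fin 3 → ℝ) (hp : p' - p = crossProduct w (p + p'))
    (hq : q' - q = crossProduct w (q + q')) : p ⬝ᵥ q = p' ⬝ᵥ q' := by
  have p0 := congrFun hp 0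
  have p1 := congrFun hp 1
  have p2 := congrFun hp 2
  have q0 := congrFun hq 0
  have q1 := congrFun hq 1
  have q2 := congrFun hq 2
  simp only [cross_apply, Pi.sub_apply, Pi.add_apply, Matrix.cons_val_zero, Matrix.cons_val_one,
    Matrix.cons_val] at p0 p1 p2 q0 q1 q2
  simp only [dotProduct, Fin.sum_univ_three]
  linear_combination (-1/2) * (q 0 + q' 0) * p0 + (-1/2) * (q 1 + q' 1) * p1 +
    (-1/2) * (q 2 + q' 2) * p2 + (-1/2) * (p 0 + p' 0) * q0 + (-1/2) * (p 1 + p' 1) * q1 +
    (-1/2) * (p 2 + p' 2) * q2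

/-- parallel vectors -/
theorem exists_smul_of_cross {u v : Fin 3 → ℝ} (hu : u ≠ 0) (h : crossProduct u v = 0) :
    ∃ c : ℝ, v = c • u := by
  have h0 := congrFun h 0
  have h1 := congrFun h 1
  have h2 := congrFun h 2
  simp only [cross_apply, Pi.zero_apply, Matrix.cons_val_zero, Matrix.cons_val_one,
    Matrix.cons_val] at h0 h1 h2
  have hne : u 0 ≠ 0 ∨ u 1 ≠ 0 ∨ u 2 ≠ 0 := by
    by_contra hcon
    push Not at hcon
    exact hu (eq3 hcon.1 hcon.2.1 hcon.2.2)
  rcases hne with h | h | h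
  · refine ⟨v 0 / u 0, eq3 ?_ ?_ ?_⟩ <;> simp only [Pi.smul_apply, smul_eq_mul] <;> field_simp <;>
      linarith
  · refine ⟨v 1 / u 1, eq3 ?_ ?_ ?_⟩ <;> simp only [Pi.smul_apply, smul_eq_mul] <;> field_simp <;>
      linarith
  · refine ⟨v 2 / u 2, eq3 ?_ ?_ ?_⟩ <;> simp only [Pi.smul_apply, smul_eq_mul] <;> field_simp <;>
      linarith

/-- a vector orthogonal to two independent vectors is a multiple of the cross product -/
theorem orth_two {u v z : Fin 3 → ℝ} (huv : crossProduct u v ≠ 0) (h1 : z ⬝ᵥ u = 0)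
    (h2 : z ⬝ᵥ v = 0) : ∃ c : ℝ, z = c • crossProduct u v := by
  apply exists_smul_of_cross huv
  simp only [dotProduct, Fin.sum_univ_three] at h1 h2
  apply eq3 <;>
  simp only [cross_apply, Pi.zero_apply, Matrix.cons_val_zero, Matrix.cons_val_one,
    Matrix.cons_val]
  · linear_combination v 0 * h1 - u 0 * h2
  · linear_combination v 1 * h1 - u 1 * h2
  · linear_combination v 2 * h1 - u 2 * h2

/-- in a plane, two independent isotropic vectors of a nondegenerate form are not orthogonal -/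
theorem iso_pair {Q : Matrix (Fin 3) (Fin 3) ℝ} (hQ : Q.det ≠ 0) (hs : Qᵀ = Q)
    {u v : Fin 3 → ℝ} (huv : crossProduct u v ≠ 0) (h1 : Q.mulVec u ⬝ᵥ u = 0)
    (h2 : Q.mulVec v ⬝ᵥ v = 0) : Q.mulVec u ⬝ᵥ v ≠ 0 := by
  intro h3
  have h4 : Q.mulVec v ⬝ᵥ u = 0 := by
    rw [dotProduct_comm, dotProduct_mulVec, ← mulVec_transpose, hs]
    exact h3
  obtain ⟨c, hc⟩ := orth_two huv h1 h3
  obtain ⟨d, hd⟩ := orth_two huv h4 h2
  have h5 : Q.mulVec (d • u - c • v) = 0 := by
    rw [mulVec_sub, mulVec_smul, mulVec_smul, hc, hd, smul_smul, smul_smul, mul_comm d c,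
      sub_self]
  have h6 : d • u - c • v = 0 := by
    by_contra hne
    exact hQ (Matrix.exists_mulVec_eq_zero_iff.1 ⟨_, hne, h5⟩)
  have h7 : c = 0 := by
    by_contra hc0
    apply huv
    have h8 : v = (d / c) • u := by
      have : c • v = d • u := (sub_eq_zero.1 h6).symm
      rw [div_eq_inv_mul, mul_smul, ← this, smul_smul, inv_mul_cancel₀ hc0, one_smul]
    rw [h8, map_smul, cross_self, smul_zero]
  have hu : u ≠ 0 := by
    intro h
    apply huv
    rw [h, map_zero, LinearMap.zero_apply]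
  rw [h7, zero_smul] at hc
  exact hQ (Matrix.exists_mulVec_eq_zero_iff.1 ⟨u, hu, hc⟩)

/-- among three isotropic vectors of a plane, two are parallel -/
theorem iso_three {Q : Matrix (Fin 3) (Fin 3) ℝ} (hQ : Q.det ≠ 0) (hs : Qᵀ = Q)
    {n u v z : Fin 3 → ℝ} (hn : n ≠ 0) (hu : n ⬝ᵥ u = 0) (hv : n ⬝ᵥ v = 0) (hz : n ⬝ᵥ z = 0)
    (h1 : Q.mulVec u ⬝ᵥ u = 0) (h2 : Q.mulVec v ⬝ᵥ v = 0) (h3 : Q.mulVec z ⬝ᵥ z = 0) :
    crossProduct u v = 0 ∨ crossProduct u z = 0 ∨ crossProduct v z = 0 := by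
  by_contra hcon
  push Not at hcon
  obtain ⟨huv, huz, hvz⟩ := hcon
  have k12 := iso_pair hQ hs huv h1 h2
  have k13 := iso_pair hQ hs huz h1 h3
  have k23 := iso_pair hQ hs hvz h2 h3
  -- `z = α u + β v`
  obtain ⟨c, hc⟩ := orth_two huv hu hv
  have hc0 : c ≠ 0 := by
    rintro rfl
    apply hn
    rw [hc, zero_smul]
  have hz' : crossProduct u v ⬝ᵥ z = 0 := by
    rw [hc, smul_dotProduct, smul_eq_mul] at hz
    exact (mul_eq_zero.1 hz).resolve_left hc0
  -- `(u × v) × z = 0`-type identity: `z × (u × v) = u (z.v) - v (z.u)`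
  have hN : crossProduct u v ⬝ᵥ crossProduct u v ≠ 0 := by
    intro h
    exact huv (dotProduct_self_eq_zero.1 h)
  have hdec : (crossProduct u v ⬝ᵥ crossProduct u v) • z =
      (crossProduct z v ⬝ᵥ crossProduct u v) • u + (crossProduct u z ⬝ᵥ crossProduct u v) • v := by
    simp only [dotProduct, Fin.sum_univ_three, cross_apply, Matrix.cons_val_zero,
      Matrix.cons_val_one, Matrix.cons_val] at hz' ⊢
    apply eq3 <;>
    simp only [Pi.smul_apply, Pi.add_apply, smul_eq_mul]
    · linear_combination (u 1 * v 2 - u 2 * v 1) * hz'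
    · linear_combination (u 2 * v 0 - u 0 * v 2) * hz'
    · linear_combination (u 0 * v 1 - u 1 * v 0) * hz'
  set N := crossProduct u v ⬝ᵥ crossProduct u v with hNdef
  set α := crossProduct z v ⬝ᵥ crossProduct u v with hα
  set β := crossProduct u z ⬝ᵥ crossProduct u v with hβ
  have hsym : Q.mulVec v ⬝ᵥ u = Q.mulVec u ⬝ᵥ v := by
    rw [dotProduct_comm, dotProduct_mulVec, ← mulVec_transpose, hs]
  have h5 : Q.mulVec (N • z) ⬝ᵥ (N • z) = 0 := by
    rw [mulVec_smul, smul_dotProduct, dotProduct_smul, h3, smul_zero, smul_zero]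
  rw [hdec, mulVec_add, mulVec_smul, mulVec_smul] at h5
  simp only [add_dotProduct, dotProduct_add, smul_dotProduct, dotProduct_smul, smul_eq_mul, h1, h2,
    hsym] at h5
  have h6 : α * β = 0 := by
    have : (α * β) * (2 * (Q.mulVec u ⬝ᵥ v)) = 0 := by linarith
    rcases mul_eq_zero.1 this with h | h
    · exact h
    · exact absurd (by linarith : Q.mulVec u ⬝ᵥ v = 0) k12
  rcases mul_eq_zero.1 h6 with h | h
  · -- `z` parallel to `v`
    apply hvz
    have h7 : N • z = β • v := by rw [hdec, h, zero_smul, zero_add]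
    have h8 : N • crossProduct v z = 0 := by
      rw [← map_smul, h7, map_smul, cross_self, smul_zero]
    exact (smul_eq_zero.1 h8).resolve_left hN
  · apply huz
    have h7 : N • z = α • u := by rw [hdec, h, zero_smul, add_zero]
    have h8 : N • crossProduct u z = 0 := by
      rw [← map_smul, h7, map_smul, cross_self, smul_zero]
    exact (smul_eq_zero.1 h8).resolve_left hN

/-- a point of the line of `(x, y)` -/
theorem line_point {x y : Fin 3 → ℝ} (hxy : x ⬝ᵥ x = y ⬝ᵥ y) (hs : x + y ≠ 0) (s : ℝ) :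
    y - x = crossProduct ((((x + y) ⬝ᵥ (x + y))⁻¹) • crossProduct (x + y) (y - x) +
      s • (x + y)) (x + y) := by
  have hN : (x + y) ⬝ᵥ (x + y) ≠ 0 := by
    intro h
    exact hs (dotProduct_self_eq_zero.1 h)
  have h1 : (x + y) ⬝ᵥ (y - x) = 0 := by
    simp only [dotProduct, Fin.sum_univ_three, Pi.add_apply, Pi.sub_apply] at hxy ⊢
    linarith
  have h2 : crossProduct (crossProduct (x + y) (y - x)) (x + y) =
      ((x + y) ⬝ᵥ (x + y)) • (y - x) := by
    generalize x + y = u at h1 ⊢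
    generalize y - x = v at h1 ⊢
    simp only [dotProduct, Fin.sum_univ_three] at h1 ⊢
    apply eq3 <;>
    simp only [cross_apply, Matrix.cons_val_zero, Matrix.cons_val_one,
      Matrix.cons_val, Pi.smul_apply, smul_eq_mul]
    · linear_combination (-u 0) * h1
    · linear_combination (-u 1) * h1
    · linear_combination (-u 2) * h1
  generalize x + y = u at h1 h2 hN ⊢
  rw [map_add, LinearMap.add_apply, map_smul, LinearMap.smul_apply, map_smul,
    LinearMap.smul_apply, cross_self, smul_zero, add_zero, h2, smul_smul, inv_mul_cancel₀ hN,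
    one_smul]

/-- **leaf (4)**: the lines in the quadric `det ((1 - A) + [w](1 + A)) = 0` -/
theorem class_line (A : Matrix (Fin 3) (Fin 3) ℝ) (hA : (1 - Aᵀ * A).det ≠ 0)
    (x y : Fin 3 → ℝ) (hxy : x ⬝ᵥ x = y ⬝ᵥ y) (hs : x + y ≠ 0)
    (h : ∀ w : Fin 3 → ℝ, y - x = crossProduct w (x + y) →
      ((1 - A) + cr w * (1 + A)).det = 0) :
    A.mulVec x = y ∨ Aᵀ.mulVec y = x := by
  by_contra hcon
  push Not at hcon
  obtain ⟨hAx, hAy⟩ := hcon
  set w : ℝ → Fin 3 → ℝ := fun s => (((x + y) ⬝ᵥ (x + y))⁻¹) • crossProduct (x + y) (y - x) +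
      s • (x + y) with hw
  have hwline : ∀ s, y - x = crossProduct (w s) (x + y) := fun s => line_point hxy hs s
  have hker : ∀ s, ∃ v : Fin 3 → ℝ, v ≠ 0 ∧
      A.mulVec v - v = crossProduct (w s) (v + A.mulVec v) := by
    intro s
    obtain ⟨v, hv, hv0⟩ := Matrix.exists_mulVec_eq_zero_iff.2 (h (w s) (hwline s))
    refine ⟨v, hv, ?_⟩
    rw [add_mulVec, sub_mulVec, one_mulVec, ← mulVec_mulVec, add_mulVec, one_mulVec,
      cr_mulVec] at hv0
    have : crossProduct (w s) (v + A.mulVec v) = A.mulVec v - v := by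
      have h2 : v - A.mulVec v + crossProduct (w s) (v + A.mulVec v) = 0 := hv0
      rw [← sub_eq_zero]
      rw [← h2]
      abel
    exact this.symm
  choose v hv0 hv using hker
  -- isotropy
  have hiso : ∀ s, (1 - Aᵀ * A).mulVec (v s) ⬝ᵥ (v s) = 0 := by
    intro s
    have h1 := cayley_dot (w s) (v s) (A.mulVec (v s)) (v s) (A.mulVec (v s)) (hv s) (hv s)
    rw [sub_mulVec, one_mulVec, sub_dotProduct, ← mulVec_mulVec, h1]
    rw [mulVec_transpose, ← dotProduct_mulVec]
    ring
  have hpl : ∀ s, (x - Aᵀ.mulVec y) ⬝ᵥ (v s) = 0 := by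
    intro s
    have h1 := cayley_dot (w s) x y (v s) (A.mulVec (v s)) (hwline s) (hv s)
    rw [sub_dotProduct, h1, mulVec_transpose, ← dotProduct_mulVec]
    ring
  have hn : x - Aᵀ.mulVec y ≠ 0 := by
    intro h0
    exact hAy (sub_eq_zero.1 h0).symm
  have hsymm : (1 - Aᵀ * A)ᵀ = 1 - Aᵀ * A := by
    rw [transpose_sub, transpose_one, transpose_mul, transpose_transpose]
  -- two parameters with parallel kernel vectors
  have hfin : ∀ s s' : ℝ, s ≠ s' → crossProduct (v s) (v s') = 0 → False := by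
    intro s s' hss hc
    obtain ⟨c, hc⟩ := exists_smul_of_cross (hv0 s) hc
    have hc0 : c ≠ 0 := by
      rintro rfl
      exact hv0 s' (by rw [hc, zero_smul])
    have e1 := hv s
    have e2 := hv s'
    rw [hc, mulVec_smul, ← smul_sub, ← smul_add, map_smul] at e2
    have e3 : A.mulVec (v s) - v s = crossProduct (w s') (v s + A.mulVec (v s)) :=
      smul_right_injective _ hc0 e2
    have e4 : crossProduct (x + y) (v s + A.mulVec (v s)) = 0 := by
      have e5 : crossProduct (w s - w s') (v s + A.mulVec (v s)) = 0 := by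
        rw [map_sub, LinearMap.sub_apply, ← e1, ← e3, sub_self]
      have e6 : w s - w s' = (s - s') • (x + y) := by
        simp only [hw]
        rw [sub_smul]
        abel
      rw [e6, map_smul, LinearMap.smul_apply] at e5
      exact (smul_eq_zero.1 e5).resolve_left (sub_ne_zero.2 hss)
    obtain ⟨m, hm⟩ := exists_smul_of_cross hs e4
    have e7 : A.mulVec (v s) - v s = m • (y - x) := by
      rw [e1, hm, map_smul, ← hwline s]
    have e8 : v s = m • x := by
      have : (2 : ℝ) • v s = (2 : ℝ) • (m • x) := by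
        have h1 : (2 : ℝ) • v s = (v s + A.mulVec (v s)) - (A.mulVec (v s) - v s) := by
          rw [two_smul]
          abel
        rw [h1, hm, e7, smul_add, smul_sub, two_smul]
        abel
      exact smul_right_injective _ (two_ne_zero) this
    have e9 : A.mulVec (v s) = m • y := by
      have h1 : A.mulVec (v s) = (A.mulVec (v s) - v s) + v s := by abel
      rw [h1, e7, e8, smul_sub]
      abel
    have hm0 : m ≠ 0 := by
      rintro rfl
      exact hv0 s (by rw [e8, zero_smul])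
    rw [e8, mulVec_smul] at e9
    exact hAx (smul_right_injective _ hm0 e9)
  rcases iso_three hA hsymm hn (hpl 0) (hpl 1) (hpl 2) (hiso 0) (hiso 1) (hiso 2) with h | h | h
  · exact hfin 0 1 (by norm_num) h
  · exact hfin 0 2 (by norm_num) h
  · exact hfin 1 2 (by norm_num) h

/-- determinant of a symmetric matrix with zero diagonal -/
theorem det_zero_diag (M : Matrix (Fin 3) (Fin 3) ℝ) (hd : ∀ i, M i i = 0)
    (hs : ∀ i j, M i j = M j i) : M.det = 2 * M 0 1 * M 0 2 * M 1 2 := by
  rw [Matrix.det_fin_three, hd 0, hd 1, hd 2, hs 1 0, hs 2 0, hs 2 1]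
  ring

/-- **leaf (7)**: three pairwise skew lines with independent ends -/
theorem good_triple (x y : Fin 3 → (Fin 3 → ℝ)) (hx : LinearIndependent ℝ x)
    (hy : LinearIndependent ℝ y) (hn : ∀ i, x i ⬝ᵥ x i = y i ⬝ᵥ y i)
    (hc : ∀ i j, i ≠ j → x i ⬝ᵥ x j ≠ y i ⬝ᵥ y j) :
    ∃ A : Matrix (Fin 3) (Fin 3) ℝ, (∀ i, A.mulVec (x i) = y i) ∧ (1 - Aᵀ * A).det ≠ 0 ∧
      A.det ≠ 0 ∧ ∀ u v : Fin 3 → ℝ, (∀ i, u ⬝ᵥ x i = v ⬝ᵥ y i) → Aᵀ.mulVec v = u := by
  set X : Matrix (Fin 3) (Fin 3) ℝ := Matrix.of x with hX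
  set Y : Matrix (Fin 3) (Fin 3) ℝ := Matrix.of y with hY
  have hXu : IsUnit X := Matrix.linearIndependent_rows_iff_isUnit.1 hx
  have hYu : IsUnit Y := Matrix.linearIndependent_rows_iff_isUnit.1 hy
  have hXd : X.det ≠ 0 := ((Matrix.isUnit_iff_isUnit_det _).1 hXu).ne_zero
  have hYd : Y.det ≠ 0 := ((Matrix.isUnit_iff_isUnit_det _).1 hYu).ne_zero
  have hXi : X * X⁻¹ = 1 := Matrix.mul_nonsing_inv _ (Ne.isUnit hXd)
  have hXi' : X⁻¹ * X = 1 := Matrix.nonsing_inv_mul _ (Ne.isUnit hXd)
  obtain ⟨B, hXB⟩ : ∃ B : Matrix (Fin 3) (Fin 3) ℝ, X * B = Y :=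
    ⟨X⁻¹ * Y, by rw [← Matrix.mul_assoc, hXi, Matrix.one_mul]⟩
  refine ⟨Bᵀ, ?_, ?_, ?_, ?_⟩
  · intro i
    have h1 : (X * B) i = Y i := by rw [hXB]
    have h2 : (x i) ᵥ* B = (X * B) i := rfl
    rw [mulVec_transpose, h2, h1]
    rfl
  · -- `X (1 - B Bᵀ) Xᵀ = X Xᵀ - Y Yᵀ`
    rw [transpose_transpose]
    have h1 : X * (1 - B * Bᵀ) * Xᵀ = X * Xᵀ - Y * Yᵀ := by
      rw [← hXB, transpose_mul, Matrix.mul_sub, Matrix.mul_one, Matrix.sub_mul]
      simp only [Matrix.mul_assoc]
    have h2 : (X * Xᵀ - Y * Yᵀ).det ≠ 0 := by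
      have hij : ∀ i j, (X * Xᵀ - Y * Yᵀ) i j = x i ⬝ᵥ x j - y i ⬝ᵥ y j := by
        intro i j
        rfl
      rw [det_zero_diag]
      · rw [hij, hij, hij]
        have c01 := sub_ne_zero.2 (hc 0 1 (by decide))
        have c02 := sub_ne_zero.2 (hc 0 2 (by decide))
        have c12 := sub_ne_zero.2 (hc 1 2 (by decide))
        exact mul_ne_zero (mul_ne_zero (mul_ne_zero two_ne_zero c01) c02) c12
      · intro i
        rw [hij, hn i, sub_self]
      · intro i j
        rw [hij, hij, dotProduct_comm (x i), dotProduct_comm (y i)]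
    intro h0
    apply h2
    rw [← h1, det_mul, det_mul, h0]
    ring
  · rw [det_transpose]
    intro h0
    apply hYd
    rw [← hXB, det_mul, h0, mul_zero]
  · intro u v huv
    rw [transpose_transpose]
    have h1 : X.mulVec u = Y.mulVec v := by
      ext i
      have := huv i
      rw [dotProduct_comm u, dotProduct_comm v] at this
      exact this
    have h2 : X⁻¹.mulVec (X.mulVec u) = X⁻¹.mulVec (Y.mulVec v) := by rw [h1]
    rw [← hXB, mulVec_mulVec, hXi', one_mulVec, mulVec_mulVec, ← Matrix.mul_assoc, hXi',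
      Matrix.one_mul] at h2
    exact h2.symm

end Vale.Agent.P054.Y.G
end
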