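import Mathlib
import Vale.Agent.P054.BdN.N4

set_option linter.all false

section

/-! Elekes–Sharir lines `L_ac` and the vector field lemma: an irreducible polynomial `φ` vanishes on
at most `(deg φ * (deg φ + 1) + 1) * #K` of the lines `L_ac`, `a, c ∈ K`. -/

namespace Vale.Agent.P041.SE

open Finset MvPolynomial

/-- The Elekes–Sharir line of the ordered pair `(a, c)`. -/
noncomputable def esl (a c : ℂ) : Ln :=
  (![(a.re + c.re) / 2, (a.im + c.im) / 2], ![-(c.im - a.im) / 2, (c.re - a.re) / 2])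

/-! ### Geometry of the lines -/

theorem gpt_esl_inj (a c c' : ℂ) (w : ℝ) (h : gpt (esl a c) w = gpt (esl a c') w) :
    c = c' := by
  have h0 := congrFun h 0
  have h1 := congrFun h 1
  simp only [gpt, esl, Matrix.cons_val_zero, Matrix.cons_val_one] at h0 h1
  have e0 : (c.re - c'.re) = (c.im - c'.im) * w := by linarith
  have e1 : (c.im - c'.im) = -(c.re - c'.re) * w := by linarith
  have e2 : (c.re - c'.re) * (1 + w ^ 2) = 0 := by
    have e5 : (c.im - c'.im) * w = -(c.re - c'.re) * w * w := by rw [e1]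
    linear_combination e0 + e5
  have e3 : c.re - c'.re = 0 := by
    rcases mul_eq_zero.1 e2 with h | h
    · exact h
    · nlinarith [sq_nonneg w]
  have e4 : c.im - c'.im = 0 := by rw [e1, e3]; ring
  exact Complex.ext (by linarith) (by linarith)

theorem esl_injective : Function.Injective (fun p : ℂ × ℂ => esl p.1 p.2) := by
  rintro ⟨a, c⟩ ⟨b, d⟩ h
  have h1 := congrArg Prod.fst h
  have h2 := congrArg Prod.snd h
  simp only [esl] at h1 h2
  have e0 := congrFun h1 0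
  have e1 := congrFun h1 1
  have e2 := congrFun h2 0
  have e3 := congrFun h2 1
  simp only [Matrix.cons_val_zero, Matrix.cons_val_one] at e0 e1 e2 e3
  refine Prod.ext (Complex.ext ?_ ?_) (Complex.ext ?_ ?_)
  · show a.re = b.re
    linarith
  · show a.im = b.im
    linarith
  · show c.re = d.re
    linarith
  · show c.im = d.im
    linarith

/-- Two pairs at equal distances which are not translates give meeting lines. -/
theorem esl_meet_sq (a b c d : ℂ)
    (h : (a.re - b.re) ^ 2 + (a.im - b.im) ^ 2 = (c.re - d.re) ^ 2 + (c.im - d.im) ^ 2)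
    (hne : ¬ (a.re - b.re = c.re - d.re ∧ a.im - b.im = c.im - d.im)) :
    ∃ w : ℝ, gpt (esl a c) w = gpt (esl b d) w := by
  set p0 := a.re - b.re with hp0
  set p1 := a.im - b.im with hp1
  set q0 := c.re - d.re with hq0
  set q1 := c.im - d.im with hq1
  -- need `p0 + q0 = (q1 - p1) w` and `p1 + q1 = -(q0 - p0) w`
  set n := (q0 - p0) ^ 2 + (q1 - p1) ^ 2 with hn
  have hnpos : 0 < n := by
    by_contra hcon
    apply hne
    have h1 : (q0 - p0) ^ 2 = 0 := by nlinarith [sq_nonneg (q0 - p0), sq_nonneg (q1 - p1)]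
    have h2 : (q1 - p1) ^ 2 = 0 := by nlinarith [sq_nonneg (q0 - p0), sq_nonneg (q1 - p1)]
    constructor
    · have := pow_eq_zero_iff (two_ne_zero) |>.1 h1
      linarith
    · have := pow_eq_zero_iff (two_ne_zero) |>.1 h2
      linarith
  set w := ((p0 + q0) * (q1 - p1) - (p1 + q1) * (q0 - p0)) / n with hw
  have hwn : w * n = (p0 + q0) * (q1 - p1) - (p1 + q1) * (q0 - p0) := by
    rw [hw]; field_simp
  have horth : (p0 + q0) * (q0 - p0) + (p1 + q1) * (q1 - p1) = 0 := by nlinarith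
  have k0 : p0 + q0 = (q1 - p1) * w := by
    have : (p0 + q0 - (q1 - p1) * w) * n = 0 := by
      have : (p0 + q0 - (q1 - p1) * w) * n = (p0 + q0) * n - (q1 - p1) * (w * n) := by ring
      rw [this, hwn, hn]
      linear_combination (q0 - p0) * horth
    rcases mul_eq_zero.1 this with h | h
    · linarith
    · exact absurd h hnpos.ne'
  have k1 : p1 + q1 = -(q0 - p0) * w := by
    have : (p1 + q1 + (q0 - p0) * w) * n = 0 := by
      have : (p1 + q1 + (q0 - p0) * w) * n = (p1 + q1) * n + (q0 - p0) * (w * n) := by ring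
      rw [this, hwn, hn]
      linear_combination (q1 - p1) * horth
    rcases mul_eq_zero.1 this with h | h
    · linarith
    · exact absurd h hnpos.ne'
  refine ⟨w, ?_⟩
  funext i
  fin_cases i
  · show (a.re + c.re) / 2 + -(c.im - a.im) / 2 * w = (b.re + d.re) / 2 + -(d.im - b.im) / 2 * w
    rw [hp0, hq0, hp1, hq1] at k0
    linarith
  · show (a.im + c.im) / 2 + (c.re - a.re) / 2 * w = (b.im + d.im) / 2 + (d.re - b.re) / 2 * w
    rw [hp0, hq0, hp1, hq1] at k1
    linarith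
  · rfl

theorem esl_meet (a b c d : ℂ) (h : ‖a - b‖ = ‖c - d‖) (hne : a - b ≠ c - d) :
    ∃ w : ℝ, gpt (esl a c) w = gpt (esl b d) w := by
  apply esl_meet_sq
  · have h1 : ‖a - b‖ ^ 2 = ‖c - d‖ ^ 2 := by rw [h]
    rw [← Complex.normSq_eq_norm_sq, ← Complex.normSq_eq_norm_sq, Complex.normSq_apply,
      Complex.normSq_apply] at h1
    simp only [Complex.sub_re, Complex.sub_im] at h1
    linarith
  · rintro ⟨h1, h2⟩
    apply hne
    exact Complex.ext (by simpa using h1) (by simpa using h2)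

/-! ### Polynomials: chain rule, degrees, commuting derivatives -/

theorem chain_rule (p : Fin 3 → Polynomial ℝ) (φ : MvPolynomial (Fin 3) ℝ) :
    Polynomial.derivative (aeval p φ) =
      ∑ i, aeval p (pderiv i φ) * Polynomial.derivative (p i) := by
  induction φ using MvPolynomial.induction_on with
  | C c => simp
  | add f g hf hg =>
    simp only [map_add, hf, hg, add_mul, sum_add_distrib]
  | mul_X f j hf =>
    have hX : ∀ i : Fin 3, aeval p (pderiv i (X j : MvPolynomial (Fin 3) ℝ)) =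
        if i = j then (1 : Polynomial ℝ) else 0 := by
      intro i
      by_cases h : i = j
      · subst h; rw [pderiv_X_self, map_one, if_pos rfl]
      · rw [pderiv_X_of_ne (fun h' => h h'.symm), map_zero, if_neg h]
    rw [map_mul, aeval_X, Polynomial.derivative_mul, hf]
    simp only [pderiv_mul, map_add, map_mul, aeval_X, hX, add_mul, sum_add_distrib]
    congr 1
    · rw [Finset.sum_mul]
      apply sum_congr rfl
      intro i _
      ring
    · simp [mul_ite]

theorem pderiv_comm' (i j : Fin 3) (φ : MvPolynomial (Fin 3) ℝ) :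
    pderiv i (pderiv j φ) = pderiv j (pderiv i φ) := by
  induction φ using MvPolynomial.induction_on with
  | C c => simp
  | add f g hf hg => simp only [map_add, hf, hg]
  | mul_X f k hf =>
    have h1 : ∀ a b : Fin 3, pderiv a (pderiv b (X k : MvPolynomial (Fin 3) ℝ)) = 0 := by
      intro a b
      by_cases h : k = b
      · subst h; rw [pderiv_X_self, pderiv_one]
      · rw [pderiv_X_of_ne h, map_zero]
    simp only [pderiv_mul, map_add, hf, h1]
    ring

theorem totalDegree_pderiv_le (i : Fin 3) (φ : MvPolynomial (Fin 3) ℝ) :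
    (pderiv i φ).totalDegree ≤ φ.totalDegree - 1 := by
  classical
  have h : pderiv i φ = ∑ s ∈ φ.support, pderiv i (monomial s (coeff s φ)) := by
    conv_lhs => rw [← φ.support_sum_monomial_coeff]
    rw [map_sum]
  rw [h]
  refine totalDegree_finsetSum_le (fun s hs => ?_)
  rw [pderiv_monomial]
  by_cases h0 : s i = 0
  · rw [h0]
    simp
  · refine (totalDegree_monomial_le _ _).trans ?_
    have h1 := le_totalDegree hs
    have h2 : (s - Finsupp.single i 1 : Fin 3 →₀ ℕ).sum (fun _ e => e) + 1 = s.sum (fun _ e => e) := by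
      rw [Finsupp.sum_fintype _ _ (fun _ => rfl), Finsupp.sum_fintype _ _ (fun _ => rfl)]
      rw [← Finset.add_sum_erase _ _ (mem_univ i), ← Finset.add_sum_erase _ (fun j => s j)
        (mem_univ i)]
      have h3 : ∑ x ∈ univ.erase i, (s - Finsupp.single i 1 : Fin 3 →₀ ℕ) x =
          ∑ x ∈ univ.erase i, s x := by
        apply sum_congr rfl
        intro x hx
        rw [Finsupp.tsub_apply, Finsupp.single_eq_of_ne (Finset.mem_erase.1 hx).1]
        simp
      rw [h3, Finsupp.tsub_apply, Finsupp.single_eq_same]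
      omega
    have h4 : (s - Finsupp.single i 1 : Fin 3 →₀ ℕ).sum (fun _ => (id : ℕ → ℕ)) =
      (s - Finsupp.single i 1 : Fin 3 →₀ ℕ).sum (fun _ e => e) := rfl
    rw [h4]
    omega


/-! ### The vector fields -/

/-- The vector field whose integral lines are the lines `esl a c`, `c ∈ ℂ`. -/
noncomputable def Vf (a : ℂ) (φ : MvPolynomial (Fin 3) ℝ) : MvPolynomial (Fin 3) ℝ :=
  (X 2 * (X 0 - C a.re) - (X 1 - C a.im)) * pderiv 0 φ +
    ((X 0 - C a.re) + X 2 * (X 1 - C a.im)) * pderiv 1 φ + (1 + X 2 ^ 2) * pderiv 2 φ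

/-- The difference of two of the vector fields. -/
noncomputable def Wf (h0 h1 : ℝ) (φ : MvPolynomial (Fin 3) ℝ) : MvPolynomial (Fin 3) ℝ :=
  (C h0 * X 2 - C h1) * pderiv 0 φ + (C h0 + C h1 * X 2) * pderiv 1 φ

theorem Vf_sub_Vf (a a' : ℂ) (φ : MvPolynomial (Fin 3) ℝ) :
    Vf a' φ - Vf a φ = Wf (a.re - a'.re) (a.im - a'.im) φ := by
  unfold Vf Wf
  simp only [map_sub]
  ring

theorem Vf_mul (a : ℂ) (φ ψ : MvPolynomial (Fin 3) ℝ) :
    Vf a (φ * ψ) = Vf a φ * ψ + φ * Vf a ψ := by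
  unfold Vf
  simp only [pderiv_mul]
  ring

theorem Wf_mul (h0 h1 : ℝ) (φ ψ : MvPolynomial (Fin 3) ℝ) :
    Wf h0 h1 (φ * ψ) = Wf h0 h1 φ * ψ + φ * Wf h0 h1 ψ := by
  unfold Wf
  simp only [pderiv_mul]
  ring

theorem commutator (a : ℂ) (h0 h1 : ℝ) (φ : MvPolynomial (Fin 3) ℝ) :
    Vf a (Wf h0 h1 φ) - Wf h0 h1 (Vf a φ) = -2 * Wf (-h1) h0 φ := by
  have p01 : ∀ ψ : MvPolynomial (Fin 3) ℝ, pderiv 1 (pderiv 0 ψ) = pderiv 0 (pderiv 1 ψ) :=
    fun ψ => pderiv_comm' 1 0 ψ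
  have p02 : ∀ ψ : MvPolynomial (Fin 3) ℝ, pderiv 2 (pderiv 0 ψ) = pderiv 0 (pderiv 2 ψ) :=
    fun ψ => pderiv_comm' 2 0 ψ
  have p12 : ∀ ψ : MvPolynomial (Fin 3) ℝ, pderiv 2 (pderiv 1 ψ) = pderiv 1 (pderiv 2 ψ) :=
    fun ψ => pderiv_comm' 2 1 ψ
  have x01 : pderiv 0 (X 1 : MvPolynomial (Fin 3) ℝ) = 0 := pderiv_X_of_ne (by decide)
  have x02 : pderiv 0 (X 2 : MvPolynomial (Fin 3) ℝ) = 0 := pderiv_X_of_ne (by decide)
  have x10 : pderiv 1 (X 0 : MvPolynomial (Fin 3) ℝ) = 0 := pderiv_X_of_ne (by decide)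
  have x12 : pderiv 1 (X 2 : MvPolynomial (Fin 3) ℝ) = 0 := pderiv_X_of_ne (by decide)
  unfold Vf Wf
  simp only [pderiv_mul, map_add, map_sub, pderiv_C, pderiv_one, pderiv_X_self, x01, x02, x10,
    x12, pow_two, p01, p02, p12, map_neg]
  ring

theorem totalDegree_Vf_le (a : ℂ) (φ : MvPolynomial (Fin 3) ℝ) (hφ : 0 < φ.totalDegree) :
    (Vf a φ).totalDegree ≤ φ.totalDegree + 1 := by
  have h0 := totalDegree_pderiv_le 0 φ
  have h1 := totalDegree_pderiv_le 1 φ
  have h2 := totalDegree_pderiv_le 2 φ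
  have l : ∀ (i : Fin 3) (s : ℝ), (X i - C s : MvPolynomial (Fin 3) ℝ).totalDegree ≤ 1 := by
    intro i s
    refine (totalDegree_sub _ _).trans ?_
    simp
  have m : ∀ (i : Fin 3) (s : ℝ), (X 2 * (X i - C s) : MvPolynomial (Fin 3) ℝ).totalDegree ≤ 2 := by
    intro i s
    refine (totalDegree_mul _ _).trans ?_
    have := l i s
    rw [totalDegree_X]
    omega
  unfold Vf
  refine (totalDegree_add _ _).trans (max_le ((totalDegree_add _ _).trans (max_le ?_ ?_)) ?_)
  · refine (totalDegree_mul _ _).trans ?_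
    have : (X 2 * (X 0 - C a.re) - (X 1 - C a.im) : MvPolynomial (Fin 3) ℝ).totalDegree ≤ 2 :=
      (totalDegree_sub _ _).trans (max_le (m _ _) ((l _ _).trans (by norm_num)))
    omega
  · refine (totalDegree_mul _ _).trans ?_
    have : ((X 0 - C a.re) + X 2 * (X 1 - C a.im) : MvPolynomial (Fin 3) ℝ).totalDegree ≤ 2 :=
      (totalDegree_add _ _).trans (max_le ((l _ _).trans (by norm_num)) (m _ _))
    omega
  · refine (totalDegree_mul _ _).trans ?_
    have : (1 + X 2 ^ 2 : MvPolynomial (Fin 3) ℝ).totalDegree ≤ 2 := by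
      refine (totalDegree_add _ _).trans (max_le (by simp) ?_)
      simp
    omega

/-- `V_a φ` vanishes on `L_ac` when `φ` does. -/
theorem On_Vf {φ : MvPolynomial (Fin 3) ℝ} {a c : ℂ} (h : On φ (esl a c)) :
    On (Vf a φ) (esl a c) := by
  set p : Fin 3 → Polynomial ℝ := ![Polynomial.C ((a.re + c.re) / 2) +
    Polynomial.C (-(c.im - a.im) / 2) * Polynomial.X, Polynomial.C ((a.im + c.im) / 2) +
    Polynomial.C ((c.re - a.re) / 2) * Polynomial.X, Polynomial.X] with hp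
  have hev : ∀ (ψ : MvPolynomial (Fin 3) ℝ) (w : ℝ),
      (aeval p ψ).eval w = eval (gpt (esl a c) w) ψ := by
    intro ψ w
    rw [← Polynomial.coe_evalRingHom, ← MvPolynomial.coe_aeval_eq_eval]
    induction ψ using MvPolynomial.induction_on with
    | C r => simp
    | add f g hf hg => simp only [map_add, hf, hg]
    | mul_X f j hf =>
      simp only [map_mul, hf, aeval_X]
      congr 1
      fin_cases j <;> simp [hp, gpt, esl]
  have h0 : aeval p φ = 0 := Polynomial.funext (fun w => by rw [hev, h w]; simp)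
  have h1 := chain_rule p φ
  rw [h0, Polynomial.derivative_zero, Fin.sum_univ_three] at h1
  intro w
  have h2 := congrArg (Polynomial.eval w) h1
  simp only [Polynomial.eval_zero, Polynomial.eval_add, Polynomial.eval_mul, hev] at h2
  have d0 : Polynomial.eval w (Polynomial.derivative (p 0)) = -(c.im - a.im) / 2 := by
    simp [hp]
  have d1 : Polynomial.eval w (Polynomial.derivative (p 1)) = (c.re - a.re) / 2 := by
    simp [hp]
  have d2 : Polynomial.eval w (Polynomial.derivative (p 2)) = 1 := by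
    simp [hp]
  rw [d0, d1, d2] at h2
  have e0 : gpt (esl a c) w 0 = (a.re + c.re) / 2 + -(c.im - a.im) / 2 * w := rfl
  have e1 : gpt (esl a c) w 1 = (a.im + c.im) / 2 + (c.re - a.re) / 2 * w := rfl
  have e2 : gpt (esl a c) w 2 = w := rfl
  unfold Vf
  simp only [map_add, map_mul, map_sub, eval_X, eval_C, map_one, map_pow, e0, e1, e2]
  linear_combination (-(1 + w ^ 2)) * h2


theorem totalDegree_pos_of_On {φ : MvPolynomial (Fin 3) ℝ} (hφ : Irreducible φ) {l : Ln}
    (h : On φ l) : 0 < φ.totalDegree := by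
  rw [Nat.pos_iff_ne_zero]
  intro h0
  rw [totalDegree_eq_zero_iff_eq_C] at h0
  have h1 := h 0
  rw [h0, eval_C] at h1
  rw [h1, C_0] at h0
  exact hφ.ne_zero h0

theorem pderiv_eq_zero_of_dvd {φ : MvPolynomial (Fin 3) ℝ} (hpos : 0 < φ.totalDegree) (i : Fin 3)
    (h : φ ∣ pderiv i φ) : pderiv i φ = 0 := by
  by_contra hne
  obtain ⟨g, hg⟩ := h
  have hφ0 : φ ≠ 0 := by rintro rfl; simp at hpos
  have hg0 : g ≠ 0 := by rintro rfl; exact hne (by rw [hg, mul_zero])
  have h1 := totalDegree_pderiv_le i φ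
  rw [hg, totalDegree_mul_of_isDomain hφ0 hg0] at h1
  omega

/-- A polynomial independent of the first two variables which vanishes on a graph line is zero. -/
theorem eq_zero_of_pderiv {φ : MvPolynomial (Fin 3) ℝ} (h0 : pderiv 0 φ = 0)
    (h1 : pderiv 1 φ = 0) {l : Ln} (hl : On φ l) : φ = 0 := by
  have hev : ∀ (p : Fin 3 → Polynomial ℝ) (ψ : MvPolynomial (Fin 3) ℝ) (t : ℝ),
      (aeval p ψ).eval t = eval (fun i => (p i).eval t) ψ := by
    intro p ψ t
    induction ψ using MvPolynomial.induction_on with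
    | C r => simp
    | add f g hf hg => simp only [map_add, Polynomial.eval_add, hf, hg]
    | mul_X f j hf => simp only [map_mul, Polynomial.eval_mul, hf, aeval_X, eval_X]
  -- the derivative in the directions 0, 1 vanishes
  have key : ∀ (p : Fin 3 → Polynomial ℝ), Polynomial.derivative (p 2) = 0 → ∀ s t : ℝ,
      eval (fun i => (p i).eval s) φ = eval (fun i => (p i).eval t) φ := by
    intro p hp2 s t
    have h2 := chain_rule p φ
    rw [Fin.sum_univ_three, h0, h1, hp2, map_zero, zero_mul, zero_mul, mul_zero, add_zero,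
      add_zero] at h2
    have h3 := Polynomial.eq_C_of_natDegree_eq_zero
      (Polynomial.derivative_eq_zero.1 h2)
    rw [← hev, ← hev, h3]
    simp
  apply MvPolynomial.funext
  intro x
  rw [map_zero]
  set P : Fin 3 → Polynomial ℝ :=
    ![Polynomial.C (x 0) + Polynomial.C (l.1 0 + l.2 0 * x 2 - x 0) * Polynomial.X,
    Polynomial.C (x 1) + Polynomial.C (l.1 1 + l.2 1 * x 2 - x 1) * Polynomial.X,
    Polynomial.C (x 2)] with hP
  have h4 := key P (by simp [hP]) 0 1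
  have ex : (fun i => (P i).eval 0) = x := by
    funext i
    fin_cases i <;> simp [hP]
  have ey : (fun i => (P i).eval 1) = gpt l (x 2) := by
    funext i
    fin_cases i <;> simp [hP, gpt]
  rw [ex, ey, hl (x 2)] at h4
  exact h4

theorem not_both {φ : MvPolynomial (Fin 3) ℝ} (hφ : Irreducible φ) {l : Ln} (hl : On φ l)
    {a a' : ℂ} (hne : a ≠ a') (h1 : φ ∣ Vf a φ) (h2 : φ ∣ Vf a' φ) : False := by
  have hpos := totalDegree_pos_of_On hφ hl
  set k0 := a.re - a'.re with hk0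
  set k1 := a.im - a'.im with hk1
  have hn : k0 ^ 2 + k1 ^ 2 ≠ 0 := by
    intro h
    apply hne
    have e0 : k0 ^ 2 = 0 := by nlinarith [sq_nonneg k0, sq_nonneg k1]
    have e1 : k1 ^ 2 = 0 := by nlinarith [sq_nonneg k0, sq_nonneg k1]
    have e0' := pow_eq_zero_iff (two_ne_zero) |>.1 e0
    have e1' := pow_eq_zero_iff (two_ne_zero) |>.1 e1
    exact Complex.ext (by linarith) (by linarith)
  have hW : φ ∣ Wf k0 k1 φ := by
    rw [← Vf_sub_Vf]
    exact dvd_sub h2 h1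
  have hW' : φ ∣ Wf (-k1) k0 φ := by
    obtain ⟨A, hA⟩ := h1
    obtain ⟨B, hB⟩ := hW
    have hc := commutator a k0 k1 φ
    rw [hA, hB, Vf_mul, Wf_mul, hA, hB] at hc
    have e : Wf (-k1) k0 φ = C (-1/2 : ℝ) * ((-2 : MvPolynomial (Fin 3) ℝ) *
        Wf (-k1) k0 φ) := by
      have h2 : (-2 : MvPolynomial (Fin 3) ℝ) = C (-2 : ℝ) := by
        rw [map_neg]; rfl
      rw [h2, ← mul_assoc, ← C_mul]
      norm_num
    rw [e, ← hc]
    refine ⟨C (-1/2 : ℝ) * (Vf a B - Wf k0 k1 A), ?_⟩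
    ring
  have hp := hφ.prime
  have hu : φ ∣ (1 + X 2 ^ 2) * (C (k0 ^ 2 + k1 ^ 2) * pderiv 0 φ) := by
    have : (1 + X 2 ^ 2) * (C (k0 ^ 2 + k1 ^ 2) * pderiv 0 φ) =
        (C k0 * X 2 - C k1) * Wf k0 k1 φ - (C k0 + C k1 * X 2) * Wf (-k1) k0 φ := by
      unfold Wf
      simp only [map_add, map_pow, map_neg]
      ring
    rw [this]
    exact dvd_sub (Dvd.dvd.mul_left hW _) (Dvd.dvd.mul_left hW' _)
  have hv : φ ∣ (1 + X 2 ^ 2) * (C (k0 ^ 2 + k1 ^ 2) * pderiv 1 φ) := by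
    have : (1 + X 2 ^ 2) * (C (k0 ^ 2 + k1 ^ 2) * pderiv 1 φ) =
        (C k0 + C k1 * X 2) * Wf k0 k1 φ + (C k0 * X 2 - C k1) * Wf (-k1) k0 φ := by
      unfold Wf
      simp only [map_add, map_pow, map_neg]
      ring
    rw [this]
    exact dvd_add (Dvd.dvd.mul_left hW _) (Dvd.dvd.mul_left hW' _)
  have hnd1 : ¬ φ ∣ (1 + X 2 ^ 2) := by
    rintro ⟨g, hg⟩
    have := congrArg (eval (gpt l 0)) hg
    rw [map_mul, hl 0, zero_mul] at this
    simp [gpt] at this
  have hnd2 : ¬ φ ∣ (C (k0 ^ 2 + k1 ^ 2)) := by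
    rintro ⟨g, hg⟩
    have := congrArg (eval (gpt l 0)) hg
    rw [map_mul, hl 0, zero_mul, eval_C] at this
    exact hn this
  have hu' : φ ∣ pderiv 0 φ := by
    rcases hp.dvd_or_dvd hu with h | h
    · exact absurd h hnd1
    rcases hp.dvd_or_dvd h with h | h
    · exact absurd h hnd2
    exact h
  have hv' : φ ∣ pderiv 1 φ := by
    rcases hp.dvd_or_dvd hv with h | h
    · exact absurd h hnd1
    rcases hp.dvd_or_dvd h with h | h
    · exact absurd h hnd2
    exact h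
  exact hφ.ne_zero (eq_zero_of_pderiv (pderiv_eq_zero_of_dvd hpos 0 hu')
    (pderiv_eq_zero_of_dvd hpos 1 hv') hl)

open scoped Classical in
theorem es_fiber {φ : MvPolynomial (Fin 3) ℝ} (hφ : Irreducible φ) (a : ℂ)
    (hnd : ¬ φ ∣ Vf a φ) (K : Finset ℂ) :
    #{c ∈ K | On φ (esl a c)} ≤ φ.totalDegree * (φ.totalDegree + 1) := by
  rcases Finset.eq_empty_or_nonempty ({c ∈ K | On φ (esl a c)} : Finset ℂ) with h0 | ⟨c0, hc0⟩
  · rw [h0]; simp
  have hpos := totalDegree_pos_of_On hφ (Finset.mem_filter.1 hc0).2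
  have hinj : Function.Injective (fun c => esl a c) := by
    intro c c' h
    have := esl_injective (a₁ := (a, c)) (a₂ := (a, c')) h
    exact (Prod.ext_iff.1 this).2
  rw [← Finset.card_image_of_injective _ hinj]
  refine le_trans (graph_bezout hφ hnd _ ?_ ?_) (Nat.mul_le_mul_left _
    (totalDegree_Vf_le a φ hpos))
  · intro l hl
    obtain ⟨c, hc, rfl⟩ := Finset.mem_image.1 hl
    exact (Finset.mem_filter.1 hc).2
  · intro l hl
    obtain ⟨c, hc, rfl⟩ := Finset.mem_image.1 hl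
    exact On_Vf (Finset.mem_filter.1 hc).2

open scoped Classical in
/-- **Surfaces of low degree contain few Elekes–Sharir lines.** -/
theorem es_surface_explicit (D : ℕ) (K : Finset ℂ) (φ : MvPolynomial (Fin 3) ℝ)
    (hφ : Irreducible φ) (hD : φ.totalDegree ≤ D) :
    #{p ∈ K ×ˢ K | On φ (esl p.1 p.2)} ≤ (D * (D + 1) + 1) * #K := by
  rcases Finset.eq_empty_or_nonempty ({p ∈ K ×ˢ K | On φ (esl p.1 p.2)} : Finset (ℂ × ℂ))
    with h0 | ⟨p0, hp0⟩
  · rw [h0]; simp
  have hl := (Finset.mem_filter.1 hp0).2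
  have e1 : #{p ∈ K ×ˢ K | On φ (esl p.1 p.2)} = ∑ a ∈ K, #{c ∈ K | On φ (esl a c)} := by
    rw [Finset.card_filter, Finset.sum_product]
    apply sum_congr rfl
    intro a _
    rw [Finset.card_filter]
  rw [e1]
  have e2 : ∀ a ∈ K, #{c ∈ K | On φ (esl a c)} ≤ D * (D + 1) +
      (if φ ∣ Vf a φ then #K else 0) := by
    intro a _
    split_ifs with h
    · exact le_add_left (Finset.card_filter_le _ _)
    · refine (es_fiber hφ a h K).trans ?_
      rw [add_zero]
      exact Nat.mul_le_mul hD (by omega)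
  refine (Finset.sum_le_sum e2).trans ?_
  rw [Finset.sum_add_distrib, Finset.sum_const, smul_eq_mul, ← Finset.sum_filter,
    Finset.sum_const, smul_eq_mul]
  have e3 : #(K.filter (fun a => φ ∣ Vf a φ)) ≤ 1 := by
    rw [Finset.card_le_one]
    intro a ha b hb
    by_contra hne
    exact not_both hφ hl hne (Finset.mem_filter.1 ha).2 (Finset.mem_filter.1 hb).2
  nlinarith [Nat.mul_le_mul_right (#K) e3]

open scoped Classical in
theorem es_surface_ln (D : ℕ) : ∃ C : ℕ, ∀ K : Finset ℂ, ∀ φ : MvPolynomial (Fin 3) ℝ,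
    Irreducible φ → φ.totalDegree ≤ D →
    #{p ∈ K ×ˢ K | On φ (esl p.1 p.2)} ≤ C * #K :=
  ⟨D * (D + 1) + 1, fun K φ hφ hD => es_surface_explicit D K φ hφ hD⟩

end Vale.Agent.P041.SE
end

section

/-! Fibre lines in the Cayley chart of `SO(3)` and the vector field lemma (`V_b` argument): an
irreducible polynomial `φ` vanishes on at most `deg φ (deg φ + 1) #U + 2 #V` of the lines
`{ω : v - u = ω × (u + v)}`, `u ∈ U`, `v ∈ V`. -/

namespace Vale.Agent.P054.Y.G

open Finset MvPolynomial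
open Vale.Agent.P041.SE

/-- The fibre line `{ω : v - u = ω × (u + v)}` (for `|u| = |v|`, `u 2 + v 2 ≠ 0`) as a graph
line. -/
noncomputable def fl (u v : Fin 3 → ℝ) : Ln :=
  (![-(v 1 - u 1) / (u 2 + v 2), (v 0 - u 0) / (u 2 + v 2)],
    ![(u 0 + v 0) / (u 2 + v 2), (u 1 + v 1) / (u 2 + v 2)])

/-- admissible pairs: equal length, and not in the plane at infinity of the chart -/
def Adm (u v : Fin 3 → ℝ) : Prop :=
  u 0 ^ 2 + u 1 ^ 2 + u 2 ^ 2 = v 0 ^ 2 + v 1 ^ 2 + v 2 ^ 2 ∧ u 2 + v 2 ≠ 0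

/-- The vector field `c_u(ω) = u + ω × u + (ω · u) ω`. -/
noncomputable def W (u : Fin 3 → ℝ) (φ : MvPolynomial (Fin 3) ℝ) : MvPolynomial (Fin 3) ℝ :=
  (C (u 0) + (X 1 * C (u 2) - X 2 * C (u 1)) +
      (X 0 * C (u 0) + X 1 * C (u 1) + X 2 * C (u 2)) * X 0) * pderiv 0 φ +
    (C (u 1) + (X 2 * C (u 0) - X 0 * C (u 2)) +
      (X 0 * C (u 0) + X 1 * C (u 1) + X 2 * C (u 2)) * X 1) * pderiv 1 φ +
    (C (u 2) + (X 0 * C (u 1) - X 1 * C (u 0)) +
      (X 0 * C (u 0) + X 1 * C (u 1) + X 2 * C (u 2)) * X 2) * pderiv 2 φ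

theorem W_mul (u : Fin 3 → ℝ) (φ ψ : MvPolynomial (Fin 3) ℝ) :
    W u (φ * ψ) = W u φ * ψ + φ * W u ψ := by
  unfold W
  simp only [pderiv_mul]
  ring

/-- cross product -/
def crs (u v : Fin 3 → ℝ) : Fin 3 → ℝ :=
  ![u 1 * v 2 - u 2 * v 1, u 2 * v 0 - u 0 * v 2, u 0 * v 1 - u 1 * v 0]

theorem W_comm (u u' : Fin 3 → ℝ) (φ : MvPolynomial (Fin 3) ℝ) :
    W u (W u' φ) - W u' (W u φ) = 2 * W (crs u u') φ := by
  have p01 : ∀ ψ : MvPolynomial (Fin 3) ℝ, pderiv 1 (pderiv 0 ψ) = pderiv 0 (pderiv 1 ψ) :=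
    fun ψ => pderiv_comm' 1 0 ψ
  have p02 : ∀ ψ : MvPolynomial (Fin 3) ℝ, pderiv 2 (pderiv 0 ψ) = pderiv 0 (pderiv 2 ψ) :=
    fun ψ => pderiv_comm' 2 0 ψ
  have p12 : ∀ ψ : MvPolynomial (Fin 3) ℝ, pderiv 2 (pderiv 1 ψ) = pderiv 1 (pderiv 2 ψ) :=
    fun ψ => pderiv_comm' 2 1 ψ
  have x01 : pderiv 0 (X 1 : MvPolynomial (Fin 3) ℝ) = 0 := pderiv_X_of_ne (by decide)
  have x02 : pderiv 0 (X 2 : MvPolynomial (Fin 3) ℝ) = 0 := pderiv_X_of_ne (by decide)
  have x10 : pderiv 1 (X 0 : MvPolynomial (Fin 3) ℝ) = 0 := pderiv_X_of_ne (by decide)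
  have x12 : pderiv 1 (X 2 : MvPolynomial (Fin 3) ℝ) = 0 := pderiv_X_of_ne (by decide)
  have x20 : pderiv 2 (X 0 : MvPolynomial (Fin 3) ℝ) = 0 := pderiv_X_of_ne (by decide)
  have x21 : pderiv 2 (X 1 : MvPolynomial (Fin 3) ℝ) = 0 := pderiv_X_of_ne (by decide)
  unfold W crs
  simp only [pderiv_mul, map_add, map_sub, pderiv_C, pderiv_X_self, x01, x02, x10,
    x12, x20, x21, p01, p02, p12, map_mul, Matrix.cons_val_zero, Matrix.cons_val_one,
    Matrix.cons_val]
  ring

theorem totalDegree_W_le (u : Fin 3 → ℝ) (φ : MvPolynomial (Fin 3) ℝ) (hφ : 0 < φ.totalDegree) :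
    (W u φ).totalDegree ≤ φ.totalDegree + 1 := by
  have l : ∀ (i : Fin 3) (s : ℝ), (X i * C s : MvPolynomial (Fin 3) ℝ).totalDegree ≤ 1 := by
    intro i s
    refine (totalDegree_mul _ _).trans ?_
    simp
  have l2 : ∀ (i j k m : Fin 3) (r s t : ℝ), (C r + (X i * C s - X j * C t) +
      (X 0 * C (u 0) + X 1 * C (u 1) + X 2 * C (u 2)) * X m :
        MvPolynomial (Fin 3) ℝ).totalDegree ≤ 2 := by
    intro i j k m r s t
    refine (totalDegree_add _ _).trans (max_le ((totalDegree_add _ _).trans (max_le ?_ ?_)) ?_)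
    · simp
    · exact (totalDegree_sub _ _).trans (max_le ((l _ _).trans (by norm_num))
        ((l _ _).trans (by norm_num)))
    · refine (totalDegree_mul _ _).trans ?_
      have h1 : (X 0 * C (u 0) + X 1 * C (u 1) + X 2 * C (u 2) :
          MvPolynomial (Fin 3) ℝ).totalDegree ≤ 1 :=
        (totalDegree_add _ _).trans (max_le ((totalDegree_add _ _).trans
          (max_le (l _ _) (l _ _))) (l _ _))
      have h2 : (X m : MvPolynomial (Fin 3) ℝ).totalDegree = 1 := totalDegree_X m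
      omega
  have h0 := totalDegree_pderiv_le 0 φ
  have h1 := totalDegree_pderiv_le 1 φ
  have h2 := totalDegree_pderiv_le 2 φ
  unfold W
  refine (totalDegree_add _ _).trans (max_le ((totalDegree_add _ _).trans (max_le ?_ ?_)) ?_)
  · refine (totalDegree_mul _ _).trans ?_
    have := l2 1 2 0 0 (u 0) (u 2) (u 1)
    omega
  · refine (totalDegree_mul _ _).trans ?_
    have := l2 2 0 0 1 (u 1) (u 0) (u 2)
    omega
  · refine (totalDegree_mul _ _).trans ?_
    have := l2 0 1 0 2 (u 2) (u 1) (u 0)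
    omega

/-- points of the fibre line: `v - u = ω × (u + v)` -/
theorem mem_fl_iff {u v : Fin 3 → ℝ} (h : Adm u v) (x : Fin 3 → ℝ) :
    (∃ w, gpt (fl u v) w = x) ↔ (v 0 - u 0 = x 1 * (u 2 + v 2) - x 2 * (u 1 + v 1) ∧
      v 1 - u 1 = x 2 * (u 0 + v 0) - x 0 * (u 2 + v 2) ∧
      v 2 - u 2 = x 0 * (u 1 + v 1) - x 1 * (u 0 + v 0)) := by
  obtain ⟨hl, hs⟩ := h
  constructor
  · rintro ⟨w, rfl⟩
    have e0 : gpt (fl u v) w 0 = -(v 1 - u 1) / (u 2 + v 2) + (u 0 + v 0) / (u 2 + v 2) * w := rfl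
    have e1 : gpt (fl u v) w 1 = (v 0 - u 0) / (u 2 + v 2) + (u 1 + v 1) / (u 2 + v 2) * w := rfl
    have e2 : gpt (fl u v) w 2 = w := rfl
    rw [e0, e1, e2]
    refine ⟨by field_simp; ring, by field_simp; ring, ?_⟩
    field_simp
    linear_combination -hl
  · rintro ⟨h0, h1, h2⟩
    refine ⟨x 2, ?_⟩
    funext i
    fin_cases i
    · show -(v 1 - u 1) / (u 2 + v 2) + (u 0 + v 0) / (u 2 + v 2) * x 2 = x 0
      field_simp
      linear_combination -h1
    · show (v 0 - u 0) / (u 2 + v 2) + (u 1 + v 1) / (u 2 + v 2) * x 2 = x 1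
      field_simp
      linear_combination h0
    · rfl

theorem On_W {φ : MvPolynomial (Fin 3) ℝ} {u v : Fin 3 → ℝ} (h : Adm u v)
    (hφ : On φ (fl u v)) : On (W u φ) (fl u v) := by
  set b0 : ℝ := (u 0 + v 0) / (u 2 + v 2) with hb0
  set b1 : ℝ := (u 1 + v 1) / (u 2 + v 2) with hb1
  set a0 : ℝ := -(v 1 - u 1) / (u 2 + v 2) with ha0
  set a1 : ℝ := (v 0 - u 0) / (u 2 + v 2) with ha1
  set p : Fin 3 → Polynomial ℝ := ![Polynomial.C a0 + Polynomial.C b0 * Polynomial.X,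
    Polynomial.C a1 + Polynomial.C b1 * Polynomial.X, Polynomial.X] with hp
  have hev : ∀ (ψ : MvPolynomial (Fin 3) ℝ) (w : ℝ),
      (aeval p ψ).eval w = eval (gpt (fl u v) w) ψ := by
    intro ψ w
    rw [← Polynomial.coe_evalRingHom, ← MvPolynomial.coe_aeval_eq_eval]
    induction ψ using MvPolynomial.induction_on with
    | C r => simp
    | add f g hf hg => simp only [map_add, hf, hg]
    | mul_X f j hf =>
      simp only [map_mul, hf, aeval_X]
      congr 1
      fin_cases j <;> simp [hp, gpt, fl, ha0, ha1, hb0, hb1]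
  have h0 : aeval p φ = 0 := Polynomial.funext (fun w => by rw [hev, hφ w]; simp)
  have h1 := chain_rule p φ
  rw [h0, Polynomial.derivative_zero, Fin.sum_univ_three] at h1
  intro w
  have h2 := congrArg (Polynomial.eval w) h1
  simp only [Polynomial.eval_zero, Polynomial.eval_add, Polynomial.eval_mul, hev] at h2
  have d0 : Polynomial.eval w (Polynomial.derivative (p 0)) = b0 := by
    simp [hp]
  have d1 : Polynomial.eval w (Polynomial.derivative (p 1)) = b1 := by
    simp [hp]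
  have d2 : Polynomial.eval w (Polynomial.derivative (p 2)) = 1 := by
    simp [hp]
  rw [d0, d1, d2] at h2
  obtain ⟨E0, E1, E2⟩ := (mem_fl_iff h _).1 ⟨w, rfl⟩
  set x := gpt (fl u v) w with hx
  have hs := h.2
  have c0 : u 0 + (x 1 * u 2 - x 2 * u 1) + (x 0 * u 0 + x 1 * u 1 + x 2 * u 2) * x 0 =
      (1 + x 0 ^ 2 + x 1 ^ 2 + x 2 ^ 2) * (u 0 + v 0) / 2 := by
    linear_combination (-1/2) * (E0 + x 1 * E2 - x 2 * E1 + x 0 * (x 0 * E0 + x 1 * E1 + x 2 * E2))
  have c1 : u 1 + (x 2 * u 0 - x 0 * u 2) + (x 0 * u 0 + x 1 * u 1 + x 2 * u 2) * x 1 =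
      (1 + x 0 ^ 2 + x 1 ^ 2 + x 2 ^ 2) * (u 1 + v 1) / 2 := by
    linear_combination (-1/2) * (E1 + x 2 * E0 - x 0 * E2 + x 1 * (x 0 * E0 + x 1 * E1 + x 2 * E2))
  have c2 : u 2 + (x 0 * u 1 - x 1 * u 0) + (x 0 * u 0 + x 1 * u 1 + x 2 * u 2) * x 2 =
      (1 + x 0 ^ 2 + x 1 ^ 2 + x 2 ^ 2) * (u 2 + v 2) / 2 := by
    linear_combination (-1/2) * (E2 + x 0 * E1 - x 1 * E0 + x 2 * (x 0 * E0 + x 1 * E1 + x 2 * E2))
  have f0 : (u 0 + v 0) = b0 * (u 2 + v 2) := by rw [hb0]; field_simp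
  have f1 : (u 1 + v 1) = b1 * (u 2 + v 2) := by rw [hb1]; field_simp
  unfold W
  simp only [map_add, map_mul, map_sub, eval_X, eval_C]
  rw [c0, c1, c2, f0, f1]
  linear_combination (-((1 + x 0 ^ 2 + x 1 ^ 2 + x 2 ^ 2) * (u 2 + v 2) / 2)) * h2

/-- the three fields of a basis cannot all be tangent to an irreducible surface containing a
line -/
theorem not_both {φ : MvPolynomial (Fin 3) ℝ} (hφ : Irreducible φ) {l : Ln} (hl : On φ l)
    {u u' : Fin 3 → ℝ} (hne : crs u u' ≠ 0) (h1 : φ ∣ W u φ) (h2 : φ ∣ W u' φ) : False := by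
  have hpos := totalDegree_pos_of_On hφ hl
  set z := crs u u' with hz
  have z0 : z 0 = u 1 * u' 2 - u 2 * u' 1 := rfl
  have z1 : z 1 = u 2 * u' 0 - u 0 * u' 2 := rfl
  have z2 : z 2 = u 0 * u' 1 - u 1 * u' 0 := rfl
  have h3 : φ ∣ W z φ := by
    obtain ⟨A, hA⟩ := h1
    obtain ⟨B, hB⟩ := h2
    have hc := W_comm u u' φ
    rw [hA, hB, W_mul, W_mul, hA, hB, ← hz] at hc
    have e : W z φ = C (1/2 : ℝ) * ((2 : MvPolynomial (Fin 3) ℝ) * W z φ) := by
      have h2 : (2 : MvPolynomial (Fin 3) ℝ) = C (2 : ℝ) := rfl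
      rw [h2, ← mul_assoc, ← C_mul]
      norm_num
    rw [e, ← hc]
    refine ⟨C (1/2 : ℝ) * (W u B - W u' A), ?_⟩
    ring
  -- the fields `W e` for all `e`
  set N : ℝ := z 0 ^ 2 + z 1 ^ 2 + z 2 ^ 2 with hN
  have hN0 : N ≠ 0 := by
    intro h
    apply hne
    have e0 : z 0 ^ 2 = 0 := by nlinarith [sq_nonneg (z 0), sq_nonneg (z 1), sq_nonneg (z 2)]
    have e1 : z 1 ^ 2 = 0 := by nlinarith [sq_nonneg (z 0), sq_nonneg (z 1), sq_nonneg (z 2)]
    have e2 : z 2 ^ 2 = 0 := by nlinarith [sq_nonneg (z 0), sq_nonneg (z 1), sq_nonneg (z 2)]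
    funext i
    fin_cases i
    · exact pow_eq_zero_iff (two_ne_zero) |>.1 e0
    · exact pow_eq_zero_iff (two_ne_zero) |>.1 e1
    · exact pow_eq_zero_iff (two_ne_zero) |>.1 e2
  -- `e = ((u' × z)·e u + (z × u)·e u' + z·e z) / N`
  have hall : ∀ e : Fin 3 → ℝ, φ ∣ W e φ := by
    intro e
    set a : ℝ := ((u' 1 * z 2 - u' 2 * z 1) * e 0 + (u' 2 * z 0 - u' 0 * z 2) * e 1 +
      (u' 0 * z 1 - u' 1 * z 0) * e 2) / N with ha
    set b : ℝ := ((z 1 * u 2 - z 2 * u 1) * e 0 + (z 2 * u 0 - z 0 * u 2) * e 1 +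
      (z 0 * u 1 - z 1 * u 0) * e 2) / N with hb
    set c : ℝ := (z 0 * e 0 + z 1 * e 1 + z 2 * e 2) / N with hc
    have k0 : e 0 = a * u 0 + b * u' 0 + c * z 0 := by
      rw [ha, hb, hc]
      field_simp
      rw [hN, z0, z1, z2]
      ring
    have k1 : e 1 = a * u 1 + b * u' 1 + c * z 1 := by
      rw [ha, hb, hc]
      field_simp
      rw [hN, z0, z1, z2]
      ring
    have k2 : e 2 = a * u 2 + b * u' 2 + c * z 2 := by
      rw [ha, hb, hc]
      field_simp
      rw [hN, z0, z1, z2]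
      ring
    have hW : W e φ = C a * W u φ + C b * W u' φ + C c * W z φ := by
      unfold W
      rw [k0, k1, k2]
      simp only [C_add, C_mul]
      ring
    rw [hW]
    exact dvd_add (dvd_add (Dvd.dvd.mul_left h1 _) (Dvd.dvd.mul_left h2 _))
      (Dvd.dvd.mul_left h3 _)
  have hp := hφ.prime
  have hnd1 : ¬ φ ∣ (1 + X 0 ^ 2 + X 1 ^ 2 + X 2 ^ 2) := by
    rintro ⟨g, hg⟩
    have := congrArg (eval (gpt l 0)) hg
    rw [map_mul, hl 0, zero_mul] at this
    simp only [map_add, map_one, map_pow, eval_X] at this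
    linarith only [sq_nonneg (gpt l 0 2), sq_nonneg (gpt l 0 1), sq_nonneg (gpt l 0 0), this]
  have w0 := hall ![1, 0, 0]
  have w1 := hall ![0, 1, 0]
  have w2 := hall ![0, 0, 1]
  have g0 : φ ∣ (1 + X 0 ^ 2 + X 1 ^ 2 + X 2 ^ 2) * pderiv 0 φ := by
    have : (1 + X 0 ^ 2 + X 1 ^ 2 + X 2 ^ 2) * pderiv 0 φ =
        W ![1, 0, 0] φ - X 2 * W ![0, 1, 0] φ + X 1 * W ![0, 0, 1] φ := by
      unfold W
      simp only [Matrix.cons_val_zero, Matrix.cons_val_one, Matrix.cons_val, C_0, C_1]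
      ring
    rw [this]
    exact dvd_add (dvd_sub w0 (Dvd.dvd.mul_left w1 _)) (Dvd.dvd.mul_left w2 _)
  have g1 : φ ∣ (1 + X 0 ^ 2 + X 1 ^ 2 + X 2 ^ 2) * pderiv 1 φ := by
    have : (1 + X 0 ^ 2 + X 1 ^ 2 + X 2 ^ 2) * pderiv 1 φ =
        W ![0, 1, 0] φ - X 0 * W ![0, 0, 1] φ + X 2 * W ![1, 0, 0] φ := by
      unfold W
      simp only [Matrix.cons_val_zero, Matrix.cons_val_one, Matrix.cons_val, C_0, C_1]
      ring
    rw [this]
    exact dvd_add (dvd_sub w1 (Dvd.dvd.mul_left w2 _)) (Dvd.dvd.mul_left w0 _)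
  have g2 : φ ∣ (1 + X 0 ^ 2 + X 1 ^ 2 + X 2 ^ 2) * pderiv 2 φ := by
    have : (1 + X 0 ^ 2 + X 1 ^ 2 + X 2 ^ 2) * pderiv 2 φ =
        W ![0, 0, 1] φ - X 1 * W ![1, 0, 0] φ + X 0 * W ![0, 1, 0] φ := by
      unfold W
      simp only [Matrix.cons_val_zero, Matrix.cons_val_one, Matrix.cons_val, C_0, C_1]
      ring
    rw [this]
    exact dvd_add (dvd_sub w2 (Dvd.dvd.mul_left w0 _)) (Dvd.dvd.mul_left w1 _)
  have q0 := pderiv_eq_zero_of_dvd hpos 0 ((hp.dvd_or_dvd g0).resolve_left hnd1)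
  have q1 := pderiv_eq_zero_of_dvd hpos 1 ((hp.dvd_or_dvd g1).resolve_left hnd1)
  exact hφ.ne_zero (eq_zero_of_pderiv q0 q1 hl)

/-- lines of one source direction -/
theorem lines_of_dir {φ : MvPolynomial (Fin 3) ℝ} (hφ : Irreducible φ) (u : Fin 3 → ℝ)
    (hu : ¬ φ ∣ W u φ) (S : Finset Ln)
    (hS : ∀ l ∈ S, ∃ v, Adm u v ∧ l = fl u v ∧ On φ l) :
    #S ≤ φ.totalDegree * (φ.totalDegree + 1) := by
  rcases S.eq_empty_or_nonempty with h0 | ⟨l0, hl0⟩
  · rw [h0]; simp
  obtain ⟨v0, -, -, hon⟩ := hS l0 hl0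
  have hpos := totalDegree_pos_of_On hφ hon
  refine (graph_bezout hφ hu S (fun l hl => ?_) (fun l hl => ?_)).trans
    (Nat.mul_le_mul_left _ (totalDegree_W_le u φ hpos))
  · obtain ⟨v, -, -, h⟩ := hS l hl
    exact h
  · obtain ⟨v, h1, h2, h⟩ := hS l hl
    rw [h2] at h ⊢
    exact On_W h1 h

theorem eq_or_neg_of_crs {u u' : Fin 3 → ℝ} (h : crs u u' = 0)
    (hn : u 0 ^ 2 + u 1 ^ 2 + u 2 ^ 2 = u' 0 ^ 2 + u' 1 ^ 2 + u' 2 ^ 2) : u' = u ∨ u' = -u := by
  have h0 : u 1 * u' 2 - u 2 * u' 1 = 0 := congrFun h 0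
  have h1 : u 2 * u' 0 - u 0 * u' 2 = 0 := congrFun h 1
  have h2 : u 0 * u' 1 - u 1 * u' 0 = 0 := congrFun h 2
  -- `|u' - u|² |u' + u|² = (|u|² - |u'|²)² + 4 |u × u'|²`
  have key : ((u' 0 - u 0) ^ 2 + (u' 1 - u 1) ^ 2 + (u' 2 - u 2) ^ 2) *
      ((u' 0 + u 0) ^ 2 + (u' 1 + u 1) ^ 2 + (u' 2 + u 2) ^ 2) = 0 := by
    linear_combination (u 0 ^ 2 + u 1 ^ 2 + u 2 ^ 2 - (u' 0 ^ 2 + u' 1 ^ 2 + u' 2 ^ 2)) * hn +
      4 * (u 1 * u' 2 - u 2 * u' 1) * h0 + 4 * (u 2 * u' 0 - u 0 * u' 2) * h1 +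
      4 * (u 0 * u' 1 - u 1 * u' 0) * h2
  have aux : ∀ a b c : ℝ, a ^ 2 + b ^ 2 + c ^ 2 = 0 → a = 0 ∧ b = 0 ∧ c = 0 := by
    intro a b c h
    refine ⟨?_, ?_, ?_⟩ <;> apply pow_eq_zero_iff (two_ne_zero) |>.1 <;>
      nlinarith [sq_nonneg a, sq_nonneg b, sq_nonneg c]
  rcases mul_eq_zero.1 key with h | h
  · left
    obtain ⟨e0, e1, e2⟩ := aux _ _ _ h
    funext i
    fin_cases i
    · show u' 0 = u 0
      linarith
    · show u' 1 = u 1
      linarith
    · show u' 2 = u 2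
      linarith
  · right
    obtain ⟨e0, e1, e2⟩ := aux _ _ _ h
    funext i
    fin_cases i
    · show u' 0 = -u 0
      linarith
    · show u' 1 = -u 1
      linarith
    · show u' 2 = -u 2
      linarith

/-- **The vector field lemma.** An irreducible polynomial `φ` vanishes on at most
`deg φ (deg φ + 1) #U + 2 #V` of the lines `fl u v`, `u ∈ U`, `v ∈ V`. -/
theorem vb {φ : MvPolynomial (Fin 3) ℝ} (hφ : Irreducible φ) (U V : Finset (Fin 3 → ℝ))
    (S : Finset Ln)
    (hS : ∀ l ∈ S, ∃ u ∈ U, ∃ v ∈ V, Adm u v ∧ l = fl u v ∧ On φ l) :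
    #S ≤ φ.totalDegree * (φ.totalDegree + 1) * #U + 2 * #V := by
  classical
  choose! fu hfu using hS
  choose! fv hfv using fun l hl => (hfu l hl).2
  set A := S.filter (fun l => ¬ φ ∣ W (fu l) φ) with hA
  set B := S.filter (fun l => ¬ ¬ φ ∣ W (fu l) φ) with hB
  have hAB : #S = #A + #B := by
    rw [hA, hB]
    exact (Finset.card_filter_add_card_filter_not _).symm
  have hcA : #A ≤ φ.totalDegree * (φ.totalDegree + 1) * #U := by
    refine Finset.card_le_mul_card_image_of_maps_to (f := fu) (fun l hl => ?_) _ (fun u hu => ?_)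
    · exact (hfu l (Finset.mem_filter.1 hl).1).1
    · by_cases hd : φ ∣ W u φ
      · have : (A.filter (fun l => fu l = u)) = ∅ := by
          apply Finset.filter_eq_empty_iff.2
          intro l hl h
          apply (Finset.mem_filter.1 hl).2
          rw [h]
          exact hd
        rw [this]
        simp
      · apply lines_of_dir hφ u hd
        intro l hl
        obtain ⟨hl1, hl2⟩ := Finset.mem_filter.1 hl
        have h1 := hfv l (Finset.mem_filter.1 hl1).1
        rw [hl2] at h1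
        exact ⟨fv l, h1.2.1, h1.2.2.1, h1.2.2.2⟩
  have hcB : #B ≤ 2 * #V := by
    refine Finset.card_le_mul_card_image_of_maps_to (f := fv) (fun l hl => ?_) _ (fun v hv => ?_)
    · exact (hfv l (Finset.mem_filter.1 hl).1).1
    · rcases (B.filter (fun l => fv l = v)).eq_empty_or_nonempty with h0 | ⟨l0, hl0⟩
      · rw [h0]; simp
      obtain ⟨h1, h2⟩ := Finset.mem_filter.1 hl0
      obtain ⟨h3, h4⟩ := Finset.mem_filter.1 h1
      have h5 := hfv l0 h3
      have hsub : (B.filter (fun l => fv l = v)) ⊆ {fl (fu l0) v, fl (-fu l0) v} := by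
        intro l hl
        obtain ⟨g1, g2⟩ := Finset.mem_filter.1 hl
        obtain ⟨g3, g4⟩ := Finset.mem_filter.1 g1
        have g5 := hfv l g3
        have hc : crs (fu l0) (fu l) = 0 := by
          by_contra hne
          exact not_both hφ h5.2.2.2 hne (not_not.1 h4) (not_not.1 g4)
        rw [h2] at h5
        rw [g2] at g5
        have hn : (fu l0) 0 ^ 2 + (fu l0) 1 ^ 2 + (fu l0) 2 ^ 2 =
            (fu l) 0 ^ 2 + (fu l) 1 ^ 2 + (fu l) 2 ^ 2 := by
          rw [h5.2.1.1, g5.2.1.1]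
        rw [Finset.mem_insert, Finset.mem_singleton, g5.2.2.1]
        rcases eq_or_neg_of_crs hc hn with h | h
        · left; rw [h]
        · right; rw [h]
      exact (Finset.card_le_card hsub).trans Finset.card_le_two
  omega

/-- inner product -/
def dt (u v : Fin 3 → ℝ) : ℝ := u 0 * v 0 + u 1 * v 1 + u 2 * v 2

/-- two fibre lines which are not parallel meet iff the inner products agree -/
theorem fl_meet {u v u' v' : Fin 3 → ℝ} (h : Adm u v) (h' : Adm u' v')
    (hne : crs (u + v) (u' + v') ≠ 0) :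
    (∃ w, gpt (fl u v) w = gpt (fl u' v') w) ↔ dt u u' = dt v v' := by
  constructor
  · rintro ⟨w, hw⟩
    obtain ⟨a0, a1, a2⟩ := (mem_fl_iff h _).1 ⟨w, rfl⟩
    obtain ⟨b0, b1, b2⟩ := (mem_fl_iff h' _).1 ⟨w, hw.symm⟩
    set x := gpt (fl u v) w with hx
    unfold dt
    linear_combination (-1/2) * ((u' 0 + v' 0) * a0 + (u' 1 + v' 1) * a1 + (u' 2 + v' 2) * a2 +
      (u 0 + v 0) * b0 + (u 1 + v 1) * b1 + (u 2 + v 2) * b2)
  · intro hd
    set s := u + v with hs
    set s' := u' + v' with hs'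
    have s0 : s 0 = u 0 + v 0 := rfl
    have s1 : s 1 = u 1 + v 1 := rfl
    have s2 : s 2 = u 2 + v 2 := rfl
    have t0 : s' 0 = u' 0 + v' 0 := rfl
    have t1 : s' 1 = u' 1 + v' 1 := rfl
    have t2 : s' 2 = u' 2 + v' 2 := rfl
    set z := crs s s' with hz
    have z0 : z 0 = s 1 * s' 2 - s 2 * s' 1 := rfl
    have z1 : z 1 = s 2 * s' 0 - s 0 * s' 2 := rfl
    have z2 : z 2 = s 0 * s' 1 - s 1 * s' 0 := rfl
    set N : ℝ := z 0 ^ 2 + z 1 ^ 2 + z 2 ^ 2 with hN
    have hN0 : N ≠ 0 := by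
      intro h
      apply hne
      have e0 : z 0 ^ 2 = 0 := by nlinarith [sq_nonneg (z 0), sq_nonneg (z 1), sq_nonneg (z 2)]
      have e1 : z 1 ^ 2 = 0 := by nlinarith [sq_nonneg (z 0), sq_nonneg (z 1), sq_nonneg (z 2)]
      have e2 : z 2 ^ 2 = 0 := by nlinarith [sq_nonneg (z 0), sq_nonneg (z 1), sq_nonneg (z 2)]
      funext i
      fin_cases i
      · exact pow_eq_zero_iff (two_ne_zero) |>.1 e0
      · exact pow_eq_zero_iff (two_ne_zero) |>.1 e1
      · exact pow_eq_zero_iff (two_ne_zero) |>.1 e2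
    -- the meeting point
    set p : ℝ := (v 0 - u 0) * s' 0 + (v 1 - u 1) * s' 1 + (v 2 - u 2) * s' 2 with hp
    set q : ℝ := (v' 0 - u' 0) * z 0 + (v' 1 - u' 1) * z 1 + (v' 2 - u' 2) * z 2 with hq
    set r : ℝ := (v 0 - u 0) * z 0 + (v 1 - u 1) * z 1 + (v 2 - u 2) * z 2 with hr
    set x : Fin 3 → ℝ := fun i => (p * z i + q * s i - r * s' i) / N with hx
    have o1 : (v 0 - u 0) * s 0 + (v 1 - u 1) * s 1 + (v 2 - u 2) * s 2 = 0 := by
      rw [s0, s1, s2]; linear_combination -h.1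
    have o2 : (v' 0 - u' 0) * s' 0 + (v' 1 - u' 1) * s' 1 + (v' 2 - u' 2) * s' 2 = 0 := by
      rw [t0, t1, t2]; linear_combination -h'.1
    have o3 : (v 0 - u 0) * s' 0 + (v 1 - u 1) * s' 1 + (v 2 - u 2) * s' 2 +
        ((v' 0 - u' 0) * s 0 + (v' 1 - u' 1) * s 1 + (v' 2 - u' 2) * s 2) = 0 := by
      unfold dt at hd
      rw [s0, s1, s2, t0, t1, t2]; linear_combination (-2) * hd
    have x0 : x 0 * N = p * z 0 + q * s 0 - r * s' 0 := by
      simp only [hx]; field_simp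
    have x1 : x 1 * N = p * z 1 + q * s 1 - r * s' 1 := by
      simp only [hx]; field_simp
    have x2 : x 2 * N = p * z 2 + q * s 2 - r * s' 2 := by
      simp only [hx]; field_simp
    clear_value x
    have m1 : ∃ w, gpt (fl u v) w = x := by
      rw [mem_fl_iff h, ← s0, ← s1, ← s2]
      refine ⟨mul_right_cancel₀ hN0 ?_, mul_right_cancel₀ hN0 ?_, mul_right_cancel₀ hN0 ?_⟩
      · have e : (x 1 * s 2 - x 2 * s 1) * N = (x 1 * N) * s 2 - (x 2 * N) * s 1 := by ring
        rw [e, x1, x2, hN, hp, hq, hr, z0, z1, z2]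
        linear_combination (s' 1 * (s 0 * s' 1 - s 1 * s' 0) -
          s' 2 * (s 2 * s' 0 - s 0 * s' 2)) * o1
      · have e : (x 2 * s 0 - x 0 * s 2) * N = (x 2 * N) * s 0 - (x 0 * N) * s 2 := by ring
        rw [e, x0, x2, hN, hp, hq, hr, z0, z1, z2]
        linear_combination (s' 2 * (s 1 * s' 2 - s 2 * s' 1) -
          s' 0 * (s 0 * s' 1 - s 1 * s' 0)) * o1
      · have e : (x 0 * s 1 - x 1 * s 0) * N = (x 0 * N) * s 1 - (x 1 * N) * s 0 := by ring
        rw [e, x0, x1, hN, hp, hq, hr, z0, z1, z2]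
        linear_combination (s' 0 * (s 2 * s' 0 - s 0 * s' 2) -
          s' 1 * (s 1 * s' 2 - s 2 * s' 1)) * o1
    have m2 : ∃ w, gpt (fl u' v') w = x := by
      rw [mem_fl_iff h', ← t0, ← t1, ← t2]
      refine ⟨mul_right_cancel₀ hN0 ?_, mul_right_cancel₀ hN0 ?_, mul_right_cancel₀ hN0 ?_⟩
      · have e : (x 1 * s' 2 - x 2 * s' 1) * N = (x 1 * N) * s' 2 - (x 2 * N) * s' 1 := by ring
        rw [e, x1, x2, hN, hp, hq, hr, z0, z1, z2]
        linear_combination (s' 1 * (s 0 * s' 1 - s 1 * s' 0) -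
          s' 2 * (s 2 * s' 0 - s 0 * s' 2)) * o3 +
          ((s 2 * s' 0 - s 0 * s' 2) * s 2 - (s 0 * s' 1 - s 1 * s' 0) * s 1) * o2
      · have e : (x 2 * s' 0 - x 0 * s' 2) * N = (x 2 * N) * s' 0 - (x 0 * N) * s' 2 := by ring
        rw [e, x0, x2, hN, hp, hq, hr, z0, z1, z2]
        linear_combination (s' 2 * (s 1 * s' 2 - s 2 * s' 1) -
          s' 0 * (s 0 * s' 1 - s 1 * s' 0)) * o3 +
          ((s 0 * s' 1 - s 1 * s' 0) * s 0 - (s 1 * s' 2 - s 2 * s' 1) * s 2) * o2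
      · have e : (x 0 * s' 1 - x 1 * s' 0) * N = (x 0 * N) * s' 1 - (x 1 * N) * s' 0 := by ring
        rw [e, x0, x1, hN, hp, hq, hr, z0, z1, z2]
        linear_combination (s' 0 * (s 2 * s' 0 - s 0 * s' 2) -
          s' 1 * (s 1 * s' 2 - s 2 * s' 1)) * o3 +
          ((s 1 * s' 2 - s 2 * s' 1) * s 1 - (s 2 * s' 0 - s 0 * s' 2) * s 0) * o2
    obtain ⟨w, hw⟩ := m1
    obtain ⟨w', hw'⟩ := m2
    have e1 : w = x 2 := by rw [← hw]; rfl
    have e2 : w' = x 2 := by rw [← hw']; rfl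
    exact ⟨w, by rw [hw, e1, ← e2, hw']⟩

end Vale.Agent.P054.Y.G
end

section

/-!
Definitions for the three-dimensional part (Guth-Katz with an epsilon loss), see P041 note 7308.
Points of 3-space are elements of `ℂ × ℝ`; a graph line is a pair `(α, β) : ℂ × ℂ`, the line
`w ↦ (α + β w, w)`.
-/

set_option autoImplicit false

open Finset

namespace Vale.Agent.P041.SE

/-- coordinates of a point of 3-space -/
noncomputable def xyz (p : ℂ × ℝ) : Fin 3 → ℝ := ![p.1.re, p.1.im, p.2]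

/-- value of a polynomial at a point of 3-space -/
noncomputable def ev (φ : MvPolynomial (Fin 3) ℝ) (p : ℂ × ℝ) : ℝ := MvPolynomial.eval (xyz p) φ

/-- point with height `w` of the graph line `l` -/
noncomputable def at3 (l : ℂ × ℂ) (w : ℝ) : ℂ × ℝ := (l.1 + l.2 * (w : ℂ), w)

/-- incidence of a graph line and a point -/
def OnL (l : ℂ × ℂ) (p : ℂ × ℝ) : Prop := p.1 = l.1 + l.2 * (p.2 : ℂ)

/-- the graph line `l` lies in the zero set of `φ` -/
def InZ (φ : MvPolynomial (Fin 3) ℝ) (l : ℂ × ℂ) : Prop := ∀ w : ℝ, ev φ (at3 l w) = 0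

open scoped Classical in
/-- number of lines of `T` through `p` -/
noncomputable def rich (T : Finset (ℂ × ℂ)) (p : ℂ × ℝ) : ℕ := (T.filter (fun l => OnL l p)).card

open scoped Classical in
/-- the lines of `T` in the zero set of `φ` -/
noncomputable def inside (T : Finset (ℂ × ℂ)) (φ : MvPolynomial (Fin 3) ℝ) : Finset (ℂ × ℂ) :=
  T.filter (fun l => InZ φ l)

open scoped Classical in
/-- ordered pairs of distinct lines of `T` that meet at a point on at most `s` lines of `T` and do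
not lie in a common irreducible surface of degree at most `D` with at least `τ` lines of `T` -/
noncomputable def Good (D : ℕ) (T : Finset (ℂ × ℂ)) (s τ : ℝ) : Finset ((ℂ × ℂ) × (ℂ × ℂ)) :=
  (T ×ˢ T).filter (fun q => q.1 ≠ q.2 ∧ (∃ p, OnL q.1 p ∧ OnL q.2 p ∧ (rich T p : ℝ) ≤ s) ∧
    ∀ φ : MvPolynomial (Fin 3) ℝ, Irreducible φ → φ.totalDegree ≤ D → InZ φ q.1 → InZ φ q.2 →
      ((inside T φ).card : ℝ) < τ)

/-- Elekes–Sharir line of the rotations taking `a` to `c` -/
noncomputable def es (a c : ℂ) : ℂ × ℂ := ((a + c) / 2, (Complex.I / 2) * (c - a))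

end Vale.Agent.P041.SE
end

section

set_option autoImplicit false

open Finset

namespace Vale.Agent.P041.SE

/-- the same graph line in real coordinates -/
def toLn (l : ℂ × ℂ) : Ln := (![l.1.re, l.1.im], ![l.2.re, l.2.im])

theorem toLn_injective : Function.Injective toLn := by
  intro l l' h
  have h1 := congrArg (fun t : Ln => t.1 0) h
  have h2 := congrArg (fun t : Ln => t.1 1) h
  have h3 := congrArg (fun t : Ln => t.2 0) h
  have h4 := congrArg (fun t : Ln => t.2 1) h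
  simp only [toLn, Matrix.cons_val_zero, Matrix.cons_val_one] at h1 h2 h3 h4
  exact Prod.ext (Complex.ext h1 h2) (Complex.ext h3 h4)

theorem gpt_toLn (l : ℂ × ℂ) (w : ℝ) : gpt (toLn l) w = xyz (at3 l w) := by
  funext i
  fin_cases i <;> simp [gpt, toLn, xyz, at3]

theorem on_toLn (φ : MvPolynomial (Fin 3) ℝ) (l : ℂ × ℂ) (h : InZ φ l) (w : ℝ) :
    MvPolynomial.eval (gpt (toLn l) w) φ = 0 := by
  rw [gpt_toLn]
  exact h w

/-- two polynomials without common factor have few common graph lines -/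
theorem common_lines (f g : MvPolynomial (Fin 3) ℝ) (D : ℕ) (hf : Irreducible f) (hg : ¬ f ∣ g)
    (hfD : f.totalDegree ≤ D) (hgD : g.totalDegree ≤ D) (T : Finset (ℂ × ℂ))
    (hT : ∀ l ∈ T, InZ f l ∧ InZ g l) : T.card ≤ 6 * D ^ 2 := by
  classical
  have h := graph_bezout hf hg (T.image toLn)
    (by
      intro l hl w
      obtain ⟨l', hl', rfl⟩ := mem_image.1 hl
      exact on_toLn f l' (hT l' hl').1 w)
    (by
      intro l hl w
      obtain ⟨l', hl', rfl⟩ := mem_image.1 hl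
      exact on_toLn g l' (hT l' hl').2 w)
  rw [card_image_of_injective _ toLn_injective] at h
  calc T.card ≤ f.totalDegree * g.totalDegree := h
    _ ≤ D * D := Nat.mul_le_mul hfD hgD
    _ ≤ 6 * D ^ 2 := by nlinarith [Nat.zero_le (D * D)]

end Vale.Agent.P041.SE
end

section

set_option autoImplicit false

open Finset

namespace Vale.Agent.P041.SE

/-! `Vf a φ`, the derivative of `φ` along the vector field `((w + i)(z - a), 1 + w ^ 2)`, is defined
in `ESV.lean`. -/

theorem toLn_es (a c : ℂ) : toLn (es a c) = esl a c := by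
  refine Prod.ext (funext fun i => ?_) (funext fun i => ?_)
  · fin_cases i <;> simp [toLn, es, esl]
  · fin_cases i <;> simp [toLn, es, esl] <;> ring

theorem inZ_iff_on (φ : MvPolynomial (Fin 3) ℝ) (l : ℂ × ℂ) : InZ φ l ↔ On φ (toLn l) := by
  unfold InZ On ev
  simp only [gpt_toLn]

theorem Vf_degree (a : ℂ) (φ : MvPolynomial (Fin 3) ℝ) :
    (Vf a φ).totalDegree ≤ φ.totalDegree + 1 := by
  rcases Nat.eq_zero_or_pos φ.totalDegree with h | h
  · have h2 : Vf a φ = 0 := by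
      rw [MvPolynomial.totalDegree_eq_zero_iff_eq_C] at h
      rw [h]
      unfold Vf
      simp
    rw [h2]
    simp
  · exact totalDegree_Vf_le a φ h

/-- the vector field is tangent to the lines `es a c` -/
theorem Vf_vanish (a c : ℂ) (φ : MvPolynomial (Fin 3) ℝ) (h : InZ φ (es a c)) :
    InZ (Vf a φ) (es a c) := by
  rw [inZ_iff_on, toLn_es] at *
  exact On_Vf h

end Vale.Agent.P041.SE
end

section

set_option autoImplicit false

open Finset

namespace Vale.Agent.P041.SE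

open scoped Classical in
/-- an irreducible surface contains few Elekes–Sharir lines -/
theorem es_surface (φ : MvPolynomial (Fin 3) ℝ) (hφ : Irreducible φ) (D : ℕ)
    (hD : φ.totalDegree ≤ D) (K : Finset ℂ) :
    ((K ×ˢ K).filter (fun q => InZ φ (es q.1 q.2))).card ≤ (6 * (D + 1) ^ 2 + 1) * K.card := by
  have h := es_surface_explicit D K φ hφ hD
  have e : (K ×ˢ K).filter (fun q => InZ φ (es q.1 q.2)) =
      (K ×ˢ K).filter (fun q => On φ (esl q.1 q.2)) := by
    apply filter_congr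
    intro q _
    rw [inZ_iff_on, toLn_es]
  rw [e]
  refine h.trans (Nat.mul_le_mul_right _ ?_)
  nlinarith

end Vale.Agent.P041.SE
end
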