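import Mathlib
import Vale.Agent.P054.BdN.N3
import Vale.Agent.P054.BdN.N8
import Vale.Agent.P054.BdN.N5
import Vale.Agent.P054.BdN.N7
import Vale.Agent.P054.BdN.N6

set_option linter.all false

section

/-! P054, block PL: `LineStmt`, `PlaneStmt`, `PlanesStmt` (helper249). -/

namespace Vale.Agent.P054.PL

open MvPolynomial Matrix

/-- the restriction of `f` to the line `x + t s` -/
noncomputable def lp (x s : V3) (f : MvPolynomial (Fin 3) ℝ) : Polynomial ℝ :=
  aeval (fun i => Polynomial.C (x i) + Polynomial.C (s i) * Polynomial.X) f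

theorem lp_eval (x s : V3) (f : MvPolynomial (Fin 3) ℝ) (t : ℝ) :
    (lp x s f).eval t = eval (x + t • s) f := by
  unfold lp
  have h : (Polynomial.evalRingHom t).comp ((aeval (fun i => Polynomial.C (x i) +
      Polynomial.C (s i) * Polynomial.X) : MvPolynomial (Fin 3) ℝ →ₐ[ℝ] Polynomial ℝ) :
      MvPolynomial (Fin 3) ℝ →+* Polynomial ℝ) = MvPolynomial.eval (x + t • s) := by
    apply MvPolynomial.ringHom_ext
    · intro r
      rw [RingHom.comp_apply, RingHom.coe_coe, MvPolynomial.aeval_C, MvPolynomial.eval_C]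
      exact Polynomial.eval_C
    · intro i
      rw [RingHom.comp_apply, RingHom.coe_coe, MvPolynomial.aeval_X, MvPolynomial.eval_X,
        Polynomial.coe_evalRingHom, Polynomial.eval_add, Polynomial.eval_C_mul, Polynomial.eval_C,
        Polynomial.eval_X, Pi.add_apply, Pi.smul_apply, smul_eq_mul, mul_comm]
  exact congrArg (fun φ => φ f) h

theorem lp_natDegree (x s : V3) (f : MvPolynomial (Fin 3) ℝ) (D : ℕ) (h : f.totalDegree ≤ D) :
    (lp x s f).natDegree ≤ D := by
  unfold lp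
  have := MvPolynomial.aeval_natDegree_le f h
    (fun i => Polynomial.C (x i) + Polynomial.C (s i) * Polynomial.X) (n := 1) (by
      intro i
      refine le_trans (Polynomial.natDegree_add_le _ _) ?_
      simp only [Polynomial.natDegree_C, zero_le, sup_of_le_right]
      refine le_trans (Polynomial.natDegree_C_mul_le _ _) ?_
      exact Polynomial.natDegree_X_le)
  simpa using this

theorem lineStmt : LineStmt := by
  intro D f hf x s hex T hT
  obtain ⟨t0, ht0⟩ := hex
  have hne : lp x s f ≠ 0 := by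
    intro h
    apply ht0
    rw [← lp_eval, h, Polynomial.eval_zero]
  have hsub : T ⊆ (lp x s f).roots.toFinset := by
    intro t ht
    rw [Multiset.mem_toFinset, Polynomial.mem_roots hne, Polynomial.IsRoot, lp_eval]
    exact hT t ht
  calc T.card ≤ (lp x s f).roots.toFinset.card := Finset.card_le_card hsub
    _ ≤ Multiset.card (lp x s f).roots := Multiset.toFinset_card_le _
    _ ≤ (lp x s f).natDegree := Polynomial.card_roots' _
    _ ≤ D := lp_natDegree x s f D hf

/-- the plane statement in coordinates of the plane -/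
theorem plane_aux (D : ℕ) (f : MvPolynomial (Fin 3) ℝ) (hf : f.totalDegree ≤ D)
    (x e1 e2 : V3) (A : Finset (ℝ × ℝ)) (hA : D < A.card) (hne : ∀ s ∈ A, s ≠ 0)
    (h0 : ∀ s ∈ A, ∀ t : ℝ, eval (x + (t * s.1) • e1 + (t * s.2) • e2) f = 0)
    (hd : ∀ s ∈ A, ∀ s' ∈ A, s ≠ s' → s.1 * s'.2 - s.2 * s'.1 ≠ 0) (p q : ℝ) :
    eval (x + p • e1 + q • e2) f = 0 := by
  classical
  by_contra hpq
  -- (p, q) is not zero
  obtain ⟨s0, hs0⟩ : A.Nonempty := Finset.card_pos.mp (by omega)
  have hv : ¬ (p = 0 ∧ q = 0) := by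
    rintro ⟨rfl, rfl⟩
    apply hpq
    have := h0 s0 hs0 0
    simpa using this
  -- the slope
  obtain ⟨lam, hlam⟩ := Infinite.exists_notMem_finset
    (insert (q / p) (A.image (fun s => s.2 / s.1)))
  rw [Finset.mem_insert, not_or] at hlam
  obtain ⟨hl1, hl2⟩ := hlam
  have hvd : p * lam - q ≠ 0 := by
    intro h
    by_cases hp : p = 0
    · apply hv
      refine ⟨hp, ?_⟩
      rw [hp] at h
      linarith
    · apply hl1
      field_simp
      linarith
  have hsd : ∀ s ∈ A, s.1 * lam - s.2 ≠ 0 := by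
    intro s hs h
    by_cases hp : s.1 = 0
    · apply hne s hs
      rw [hp] at h
      ext
      · exact hp
      · simp only [Prod.snd_zero]
        linarith
    · apply hl2
      rw [Finset.mem_image]
      refine ⟨s, hs, ?_⟩
      field_simp
      linarith
  -- the parameter of the crossing point with the line of direction s
  set τ : ℝ × ℝ → ℝ := fun s => (p * s.2 - q * s.1) / (s.1 * lam - s.2) with hτ
  have hτ0 : ∀ s ∈ A, (p + τ s) * s.2 - (q + τ s * lam) * s.1 = 0 := by
    intro s hs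
    have := hsd s hs
    rw [hτ]
    field_simp
    ring
  have hinj : Set.InjOn τ (A : Set (ℝ × ℝ)) := by
    intro s hs s' hs' hss
    by_contra hne'
    have d := hd s hs s' hs' hne'
    have a1 := hτ0 s hs
    have a2 := hτ0 s' hs'
    rw [← hss] at a2
    have b1 : (p + τ s) * (s.1 * s'.2 - s.2 * s'.1) = 0 := by
      linear_combination s.1 * a2 - s'.1 * a1
    have b2 : (q + τ s * lam) * (s.1 * s'.2 - s.2 * s'.1) = 0 := by
      linear_combination s.2 * a2 - s'.2 * a1
    have c1 := (mul_eq_zero.mp b1).resolve_right d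
    have c2 := (mul_eq_zero.mp b2).resolve_right d
    apply hvd
    linear_combination lam * c1 - c2
  have hT := lineStmt D f hf (x + p • e1 + q • e2) (e1 + lam • e2)
    ⟨0, by simpa using hpq⟩ (A.image τ) (by
      intro t ht
      rw [Finset.mem_image] at ht
      obtain ⟨s, hs, rfl⟩ := ht
      have a1 := hτ0 s hs
      -- multiple r of s
      obtain ⟨r, hr1, hr2⟩ : ∃ r, p + τ s = r * s.1 ∧ q + τ s * lam = r * s.2 := by
        by_cases hp : s.1 = 0
        · have hs2 : s.2 ≠ 0 := by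
            intro h
            exact hne s hs (Prod.ext hp h)
          refine ⟨(q + τ s * lam) / s.2, ?_, ?_⟩
          · rw [hp] at a1 ⊢
            have : (p + τ s) * s.2 = 0 := by linarith
            rw [(mul_eq_zero.mp this).resolve_right hs2]
            simp
          · field_simp
        · refine ⟨(p + τ s) / s.1, ?_, ?_⟩
          · field_simp
          · field_simp
            linarith
      have h := h0 s hs r
      rw [← hr1, ← hr2] at h
      rw [← h]
      congr 1
      congr 1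
      ext i
      simp only [Pi.add_apply, Pi.smul_apply, smul_eq_mul]
      ring)
  rw [Finset.card_image_of_injOn hinj] at hT
  omega

theorem dot3 (a b : V3) : a ⬝ᵥ b = a 0 * b 0 + a 1 * b 1 + a 2 * b 2 := by
  simp [dotProduct, Fin.sum_univ_three]

theorem dot_self_ne (a : V3) (ha : a ≠ 0) : a 0 * a 0 + a 1 * a 1 + a 2 * a 2 ≠ 0 := by
  intro h
  apply ha
  have h0 := mul_self_nonneg (a 0)
  have h1 := mul_self_nonneg (a 1)
  have h2 := mul_self_nonneg (a 2)
  have e0 : a 0 = 0 := mul_self_eq_zero.mp (by linarith)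
  have e1 : a 1 = 0 := mul_self_eq_zero.mp (by linarith)
  have e2 : a 2 = 0 := mul_self_eq_zero.mp (by linarith)
  funext i
  fin_cases i
  · exact e0
  · exact e1
  · exact e2

theorem cross0 (a b : V3) : crossProduct a b 0 = a 1 * b 2 - a 2 * b 1 := by
  simp [cross_apply]

theorem cross1 (a b : V3) : crossProduct a b 1 = a 2 * b 0 - a 0 * b 2 := by
  simp [cross_apply]

theorem cross2 (a b : V3) : crossProduct a b 2 = a 0 * b 1 - a 1 * b 0 := by
  simp [cross_apply]

/-- coordinates in the plane orthogonal to `n`: the basis `u`, `n × u` -/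
theorem plane_coord (n u a : V3) (hn : n ≠ 0) (hu : u ≠ 0) (hnu : n ⬝ᵥ u = 0) (hna : n ⬝ᵥ a = 0) :
    a = ((u ⬝ᵥ a) / (u 0 * u 0 + u 1 * u 1 + u 2 * u 2)) • u +
      ((crossProduct n u ⬝ᵥ a) / ((n 0 * n 0 + n 1 * n 1 + n 2 * n 2) *
        (u 0 * u 0 + u 1 * u 1 + u 2 * u 2))) • crossProduct n u := by
  have hN := dot_self_ne n hn
  have hU := dot_self_ne u hu
  have hNU := mul_ne_zero hN hU
  rw [dot3] at hnu hna
  have key : ∀ (z v w p q : ℝ), z * ((n 0 * n 0 + n 1 * n 1 + n 2 * n 2) *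
      (u 0 * u 0 + u 1 * u 1 + u 2 * u 2)) =
      (n 0 * n 0 + n 1 * n 1 + n 2 * n 2) * p * v + q * w →
      z = p / (u 0 * u 0 + u 1 * u 1 + u 2 * u 2) * v +
        q / ((n 0 * n 0 + n 1 * n 1 + n 2 * n 2) * (u 0 * u 0 + u 1 * u 1 + u 2 * u 2)) * w := by
    intro z v w p q h
    generalize (n 0 * n 0 + n 1 * n 1 + n 2 * n 2) = N at *
    generalize (u 0 * u 0 + u 1 * u 1 + u 2 * u 2) = U at *
    have e : z = z * (N * U) / (N * U) := by
      rw [mul_div_cancel_right₀ _ hNU]
    rw [e, h]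
    field_simp
  funext i
  simp only [Pi.add_apply, Pi.smul_apply, smul_eq_mul]
  apply key
  rw [dot3, dot3, cross0, cross1, cross2]
  fin_cases i
  · simp only [Fin.zero_eta, Fin.isValue, cross0]
    linear_combination ((u 0 * u 0 + u 1 * u 1 + u 2 * u 2) * n 0 -
      (n 0 * u 0 + n 1 * u 1 + n 2 * u 2) * u 0) * hna +
      ((n 0 * u 0 + n 1 * u 1 + n 2 * u 2) * a 0 -
        (u 0 * a 0 + u 1 * a 1 + u 2 * a 2) * n 0) * hnu
  · simp only [Fin.mk_one, Fin.isValue, cross1]
    linear_combination ((u 0 * u 0 + u 1 * u 1 + u 2 * u 2) * n 1 -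
      (n 0 * u 0 + n 1 * u 1 + n 2 * u 2) * u 1) * hna +
      ((n 0 * u 0 + n 1 * u 1 + n 2 * u 2) * a 1 -
        (u 0 * a 0 + u 1 * a 1 + u 2 * a 2) * n 1) * hnu
  · simp only [Fin.reduceFinMk, Fin.isValue, cross2]
    linear_combination ((u 0 * u 0 + u 1 * u 1 + u 2 * u 2) * n 2 -
      (n 0 * u 0 + n 1 * u 1 + n 2 * u 2) * u 2) * hna +
      ((n 0 * u 0 + n 1 * u 1 + n 2 * u 2) * a 2 -
        (u 0 * a 0 + u 1 * a 1 + u 2 * a 2) * n 2) * hnu

theorem planeStmt : PlaneStmt := by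
  classical
  intro D f hf x n hn A hA hA1 hA2 y hy
  obtain ⟨u, hu⟩ : A.Nonempty := Finset.card_pos.mp (by omega)
  obtain ⟨hu0, hun, -⟩ := hA1 u hu
  set P : V3 → ℝ × ℝ := fun a => ((u ⬝ᵥ a) / (u 0 * u 0 + u 1 * u 1 + u 2 * u 2),
    (crossProduct n u ⬝ᵥ a) / ((n 0 * n 0 + n 1 * n 1 + n 2 * n 2) *
        (u 0 * u 0 + u 1 * u 1 + u 2 * u 2))) with hP
  have hco : ∀ a : V3, n ⬝ᵥ a = 0 → a = (P a).1 • u + (P a).2 • crossProduct n u :=
    fun a ha => plane_coord n u a hn hu0 hun ha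
  have hdet : ∀ s ∈ A, ∀ s' ∈ A, s ≠ s' → (P s).1 * (P s').2 - (P s).2 * (P s').1 ≠ 0 := by
    intro s hs s' hs' hss h
    apply hA2 s hs s' hs' hss
    rw [hco s (hA1 s hs).2.1, hco s' (hA1 s' hs').2.1]
    set w := crossProduct n u with hw
    have : crossProduct ((P s).1 • u + (P s).2 • w) ((P s').1 • u + (P s').2 • w) =
        ((P s).1 * (P s').2 - (P s).2 * (P s').1) • crossProduct u w := by
      funext i
      fin_cases i
      · simp only [Fin.zero_eta, Fin.isValue, cross0, Pi.add_apply, Pi.smul_apply, smul_eq_mul]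
        ring
      · simp only [Fin.mk_one, Fin.isValue, cross1, Pi.add_apply, Pi.smul_apply, smul_eq_mul]
        ring
      · simp only [Fin.reduceFinMk, Fin.isValue, cross2, Pi.add_apply, Pi.smul_apply, smul_eq_mul]
        ring
    rw [this, h, zero_smul]
  have hinj : Set.InjOn P (A : Set V3) := by
    intro s hs s' hs' hss
    rw [hco s (hA1 s hs).2.1, hco s' (hA1 s' hs').2.1, hss]
  have hyx : n ⬝ᵥ (y - x) = 0 := by
    rw [dotProduct_sub, hy, sub_self]
  have key := plane_aux D f hf x u (crossProduct n u) (A.image P)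
    (by rw [Finset.card_image_of_injOn hinj]; exact hA)
    (by
      intro s hs h
      rw [Finset.mem_image] at hs
      obtain ⟨s, hs, rfl⟩ := hs
      apply (hA1 s hs).1
      rw [hco s (hA1 s hs).2.1, h]
      simp)
    (by
      intro s hs t
      rw [Finset.mem_image] at hs
      obtain ⟨s, hs, rfl⟩ := hs
      have h := (hA1 s hs).2.2 t
      rw [hco s (hA1 s hs).2.1, smul_add, smul_smul, smul_smul, ← add_assoc] at h
      exact h)
    (by
      intro s hs s' hs' hss
      rw [Finset.mem_image] at hs hs'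
      obtain ⟨s, hs, rfl⟩ := hs
      obtain ⟨s', hs', rfl⟩ := hs'
      exact hdet s hs s' hs' (fun h => hss (by rw [h])))
    (P (y - x)).1 (P (y - x)).2
  rw [add_assoc, ← hco (y - x) hyx] at key
  rwa [add_sub_cancel] at key

/-- a direction off finitely many planes through the origin -/
theorem exists_dir {α : Type} (M : Finset α) (m : α → V3) (hM : ∀ i ∈ M, m i ≠ 0) :
    ∃ d : V3, ∀ i ∈ M, m i ⬝ᵥ d ≠ 0 := by
  classical
  set Q : α → Polynomial ℝ := fun i => Polynomial.C (m i 0) + Polynomial.C (m i 1) * Polynomial.X +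
    Polynomial.C (m i 2) * Polynomial.X ^ 2 with hQ
  have hQ0 : ∀ i ∈ M, Q i ≠ 0 := by
    intro i hi h
    apply hM i hi
    have c0 := congrArg (fun p => Polynomial.coeff p 0) h
    have c1 := congrArg (fun p => Polynomial.coeff p 1) h
    have c2 := congrArg (fun p => Polynomial.coeff p 2) h
    simp only [hQ, Polynomial.coeff_add, Polynomial.coeff_C_mul, Polynomial.coeff_zero,
      Polynomial.coeff_X, Polynomial.coeff_X_pow, Polynomial.coeff_C] at c0 c1 c2
    norm_num at c0 c1 c2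
    funext j
    fin_cases j
    · exact c0
    · exact c1
    · exact c2
  have hprod : ∏ i ∈ M, Q i ≠ 0 := Finset.prod_ne_zero_iff.mpr hQ0
  obtain ⟨lam, hlam⟩ : ∃ lam : ℝ, (∏ i ∈ M, Q i).eval lam ≠ 0 := by
    by_contra hcon
    push Not at hcon
    apply hprod
    apply Polynomial.funext
    intro r
    rw [hcon r, Polynomial.eval_zero]
  refine ⟨![1, lam, lam ^ 2], ?_⟩
  intro i hi h
  apply hlam
  rw [Polynomial.eval_prod]
  apply Finset.prod_eq_zero hi
  rw [dot3] at h
  simp [hQ] at h ⊢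
  linarith

theorem planesStmt : PlanesStmt := by
  classical
  intro D f hf0 hf ι I n δ hn hI hdist
  obtain ⟨x0, hx0⟩ : ∃ x0 : V3, eval x0 f ≠ 0 := by
    by_contra hcon
    push Not at hcon
    apply hf0
    apply MvPolynomial.funext
    intro r
    rw [hcon r, map_zero]
  set a : ι → ℝ := fun i => δ i - n i ⬝ᵥ x0 with ha
  have ha0 : ∀ i ∈ I, a i ≠ 0 := by
    intro i hi h
    apply hx0
    apply hI i hi
    rw [ha] at h
    simp only at h
    linarith
  -- directions
  obtain ⟨d, hd⟩ := exists_dir ((I ×ˢ I).filter (fun ij => a ij.1 • n ij.2 - a ij.2 • n ij.1 ≠ 0)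
      ∪ (I.image (fun i => (i, i))))
    (fun ij => if ij.1 = ij.2 then n ij.1 else a ij.1 • n ij.2 - a ij.2 • n ij.1) (by
      intro ij hij
      rw [Finset.mem_union, Finset.mem_filter, Finset.mem_image] at hij
      rcases hij with hij | ⟨i, hi, rfl⟩
      · by_cases h : ij.1 = ij.2
        · simp only [h, if_true]
          rw [Finset.mem_product] at hij
          exact hn _ hij.1.2
        · simp only [h, if_false]
          exact hij.2
      · simp only [if_true]
        exact hn i hi)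
  have hdn : ∀ i ∈ I, n i ⬝ᵥ d ≠ 0 := by
    intro i hi
    have := hd (i, i) (Finset.mem_union_right _ (Finset.mem_image_of_mem _ hi))
    simpa using this
  have hdm : ∀ i ∈ I, ∀ j ∈ I, i ≠ j → (a i • n j - a j • n i) ⬝ᵥ d ≠ 0 := by
    intro i hi j hj hij
    have hne : a i • n j - a j • n i ≠ 0 := by
      intro h
      apply hdist i hi j hj hij
      intro y
      have h2 : a i * (n j ⬝ᵥ (y - x0)) = a j * (n i ⬝ᵥ (y - x0)) := by
        have := congrArg (fun v => v ⬝ᵥ (y - x0)) h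
        simp only [sub_dotProduct, smul_dotProduct, zero_dotProduct, smul_eq_mul] at this
        linarith
      rw [dotProduct_sub, dotProduct_sub] at h2
      have hai := ha0 i hi
      have haj := ha0 j hj
      have e1 : n i ⬝ᵥ y = δ i ↔ n i ⬝ᵥ y - n i ⬝ᵥ x0 = a i := by
        rw [ha]
        constructor <;> intro h' <;> simp only at * <;> linarith
      have e2 : n j ⬝ᵥ y = δ j ↔ n j ⬝ᵥ y - n j ⬝ᵥ x0 = a j := by
        rw [ha]
        constructor <;> intro h' <;> simp only at * <;> linarith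
      rw [e1, e2]
      constructor
      · intro h'
        rw [h', mul_comm] at h2
        exact mul_right_cancel₀ hai h2
      · intro h'
        rw [h', mul_comm] at h2
        exact (mul_left_cancel₀ haj h2).symm
    have := hd (i, j) (Finset.mem_union_left _ (by
      rw [Finset.mem_filter, Finset.mem_product]
      exact ⟨⟨hi, hj⟩, hne⟩))
    simpa [hij] using this
  set τ : ι → ℝ := fun i => a i / (n i ⬝ᵥ d) with hτ
  have hinj : Set.InjOn τ (I : Set ι) := by
    intro i hi j hj hij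
    by_contra hne
    apply hdm i hi j hj hne
    rw [hτ] at hij
    simp only at hij
    have h1 := hdn i hi
    have h2 := hdn j hj
    rw [div_eq_div_iff h1 h2] at hij
    rw [sub_dotProduct, smul_dotProduct, smul_dotProduct, smul_eq_mul, smul_eq_mul]
    linarith
  have hT := lineStmt D f hf x0 d ⟨0, by simpa using hx0⟩ (I.image τ) (by
    intro t ht
    rw [Finset.mem_image] at ht
    obtain ⟨i, hi, rfl⟩ := ht
    apply hI i hi
    rw [dotProduct_add, dotProduct_smul, smul_eq_mul, hτ]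
    have h1 := hdn i hi
    simp only
    rw [div_mul_cancel₀ _ h1, ha]
    simp only
    ring)
  rw [Finset.card_image_of_injOn hinj] at hT
  exact hT

end Vale.Agent.P054.PL
end

section

/-! Theorem J for isometries of both orientations. -/

set_option linter.all false
set_option autoImplicit false

namespace Vale.Agent.P054.Two

open Finset Matrix Vale.Agent.P054.J

/-- `g = (Q, v)`, `Q` orthogonal, matches four affinely independent points, two of each family -/
def JointE (S1 S2 : Finset ((Fin 3 → ℝ) × (Fin 3 → ℝ)))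
    (g : Matrix (Fin 3) (Fin 3) ℝ × (Fin 3 → ℝ)) : Prop :=
  g.1ᵀ * g.1 = 1 ∧
    ∃ p : Fin 4 → (Fin 3 → ℝ) × (Fin 3 → ℝ), p 0 ∈ S1 ∧ p 1 ∈ S1 ∧ p 2 ∈ S2 ∧ p 3 ∈ S2 ∧
      (∀ i, g.1.mulVec (p i).1 + g.2 = (p i).2) ∧ AffineIndependent ℝ (fun i => (p i).1)

theorem det_pm (Q : Matrix (Fin 3) (Fin 3) ℝ) (h : Qᵀ * Q = 1) : Q.det = 1 ∨ Q.det = -1 := by
  have h1 := congrArg Matrix.det h
  rw [Matrix.det_mul, Matrix.det_transpose, Matrix.det_one] at h1
  exact mul_self_eq_one_iff.1 h1

theorem jointE_card (S1 S2 : Finset ((Fin 3 → ℝ) × (Fin 3 → ℝ)))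
    (G : Finset (Matrix (Fin 3) (Fin 3) ℝ × (Fin 3 → ℝ)))
    (hG : ∀ g ∈ G, JointE S1 S2 g) : G.card ≤ 10 * (S1.card * S2.card) := by
  classical
  set Gp := G.filter (fun g => g.1.det = 1) with hGp
  set Gm := G.filter (fun g => ¬ g.1.det = 1) with hGm
  have hsplit : Gp.card + Gm.card = G.card := Finset.card_filter_add_card_filter_not _
  have h1 : Gp.card ≤ 5 * S1.card * S2.card := by
    refine simplex_joints S1 S2 Gp ?_
    intro g hg
    rw [hGp, mem_filter] at hg
    obtain ⟨ho, p, h0, h1, h2, h3, hm, ha⟩ := hG g hg.1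
    exact ⟨ho, hg.2, p, h0, h1, h2, h3, hm, ha⟩
  have h2 : Gm.card ≤ 5 * S1.card * S2.card := by
    set neg : (Fin 3 → ℝ) × (Fin 3 → ℝ) → (Fin 3 → ℝ) × (Fin 3 → ℝ) := fun q => (q.1, -q.2) with hneg
    set ng : Matrix (Fin 3) (Fin 3) ℝ × (Fin 3 → ℝ) → Matrix (Fin 3) (Fin 3) ℝ × (Fin 3 → ℝ) :=
      fun g => (-g.1, -g.2) with hng
    have hinj : Function.Injective ng := by
      intro a b hab
      have e1 := congrArg Prod.fst hab
      have e2 := congrArg Prod.snd hab
      simp only [hng, neg_inj] at e1 e2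
      exact Prod.ext e1 e2
    have hcard : (Gm.image ng).card = Gm.card := Finset.card_image_of_injective _ hinj
    have h3 : (Gm.image ng).card ≤ 5 * (S1.image neg).card * (S2.image neg).card := by
      refine simplex_joints (S1.image neg) (S2.image neg) (Gm.image ng) ?_
      intro g' hg'
      rw [mem_image] at hg'
      obtain ⟨g, hg, rfl⟩ := hg'
      rw [hGm, mem_filter] at hg
      obtain ⟨ho, p, h0, h1, h2, h3, hm, ha⟩ := hG g hg.1
      have hdet : g.1.det = -1 := (det_pm g.1 ho).resolve_left hg.2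
      refine ⟨?_, ?_, fun i => neg (p i), mem_image_of_mem _ h0, mem_image_of_mem _ h1,
        mem_image_of_mem _ h2, mem_image_of_mem _ h3, ?_, ha⟩
      · simp only [hng, Matrix.transpose_neg, neg_mul_neg]
        exact ho
      · simp only [hng]
        rw [Matrix.det_neg, hdet]
        norm_num [Fintype.card_fin]
      · intro i
        simp only [hng, hneg, Matrix.neg_mulVec]
        rw [← hm i]
        abel
    rw [← hcard]
    refine le_trans h3 ?_
    exact Nat.mul_le_mul (Nat.mul_le_mul_left _ card_image_le) card_image_le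
  rw [← hsplit]
  calc Gp.card + Gm.card ≤ 5 * S1.card * S2.card + 5 * S1.card * S2.card := Nat.add_le_add h1 h2
    _ = 10 * (S1.card * S2.card) := by ring

end Vale.Agent.P054.Two
end

section

/-! Block L2, leaf LINERED: reduction of one of the four sets to lines.
Proof: `Ls = D.G.image (fun g => lineSet (D.p i g) (D.v i g))`. For `l ∈ Ls` restrict the data to
`G_l = {g | line i of g is l}`, `X' i = (D.X i).filter (· ∈ l)`, `X' j = D.X j` (`D.restrict`, `T`
unchanged); `OnFlat 1` by `onFlat_line`. Hence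
`wt = ∑_l wt_l ≤ C ∑_l (#(X i ∩ l) * R)^(1+ε) ≤ C (∑_l #(X i ∩ l)) * #(X i)^ε * R^(1+ε)`, `R` = product
of the other three cardinalities, and `∑_l #(X i ∩ l) = ∑_x #{l ∋ x} ≤ M #(X i)`. -/

set_option linter.all false
set_option autoImplicit false

namespace Vale.Agent.P054.L3

open Finset MvPolynomial
open Vale.Agent.P054.L2 (V3 sqd lpt lineSet trk ONF coord emb InFlat OnFlat onFlat_line lr176_count lr176_real)

open scoped Classical in
theorem lr176_piece (K : ℕ) (B e₀ : ℝ) (ε : ℝ) (f : Fin 4 → ℕ) (i : Fin 4) (C : ℝ)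
    (hcl : Claim K B e₀ (Function.update f i 1) ε C) {ι : Type} (D : L2D K B e₀ ι)
    (hflat : ∀ j, j ≠ i → OnFlat (f j) (D.X j)) (l : Set V3)
    (hl : l ∈ D.G.image (fun g => lineSet (D.p i g) (D.v i g))) :
    ∑ g ∈ D.G.filter (fun g => lineSet (D.p i g) (D.v i g) = l),
      (psi K (D.T 0 g).card (D.T 1 g).card : ℝ) ≤
      C * (((((D.X i).filter (fun x => x ∈ l)).card : ℝ) *
        ((∏ j ∈ univ.erase i, (D.X j).card : ℕ) : ℝ)) ^ (1 + ε)) := by
  obtain ⟨g0, hg0, hg0l⟩ := Finset.mem_image.1 hl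
  set X' : Fin 4 → Finset V3 := Function.update D.X i ((D.X i).filter (fun x => x ∈ l)) with hX'
  have hX'i : X' i = (D.X i).filter (fun x => x ∈ l) := by simp [hX']
  have hX'j : ∀ j, j ≠ i → X' j = D.X j := fun j hj => by simp [hX', hj]
  let D' : L2D K B e₀ ι := D.restrict (D.G.filter (fun g => lineSet (D.p i g) (D.v i g) = l))
    (Finset.filter_subset _ _) X' D.T (fun k g _ => Finset.Subset.refl _) (by
      intro j g hg t ht
      rw [Finset.mem_filter] at hg
      have h1 := D.hX j g hg.1 t ht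
      by_cases hj : j = i
      · subst hj
        rw [hX'i, Finset.mem_filter]
        refine ⟨h1, ?_⟩
        rw [← hg.2]
        exact ⟨t, rfl⟩
      · rw [hX'j j hj]
        exact h1)
  have h2 := hcl ι D' (by
    intro j
    by_cases hj : j = i
    · subst hj
      rw [Function.update_self]
      change OnFlat 1 (X' j)
      rw [hX'i]
      refine onFlat_line (D.p j g0) (D.v j g0) (D.hv j g0 hg0) _ ?_
      intro x hx
      rw [Finset.mem_filter] at hx
      rw [hg0l]
      exact hx.2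
    · rw [Function.update_of_ne hj]
      change OnFlat (f j) (X' j)
      rw [hX'j j hj]
      exact hflat j hj)
  have h3 : D'.wt = ∑ g ∈ D.G.filter (fun g => lineSet (D.p i g) (D.v i g) = l),
      (psi K (D.T 0 g).card (D.T 1 g).card : ℝ) := rfl
  have h4 : D'.N = ((D.X i).filter (fun x => x ∈ l)).card * ∏ j ∈ univ.erase i, (D.X j).card := by
    change ∏ j, (X' j).card = _
    rw [← Finset.mul_prod_erase univ (fun j => (X' j).card) (Finset.mem_univ i), hX'i]
    congr 1
    refine Finset.prod_congr rfl fun j hj => ?_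
    rw [hX'j j (Finset.ne_of_mem_erase hj)]
  rw [h3, h4] at h2
  push_cast at h2 ⊢
  exact h2

open scoped Classical in
theorem line_red (K : ℕ) (B e₀ : ℝ) (ε : ℝ) (hε : 0 < ε) (f : Fin 4 → ℕ) (i : Fin 4) (C : ℝ) (hC : 0 ≤ C)
    (hcl : Claim K B e₀ (Function.update f i 1) ε C) (M : ℕ) {ι : Type} (D : L2D K B e₀ ι)
    (hflat : ∀ j, j ≠ i → OnFlat (f j) (D.X j))
    (hM : ∀ x ∈ D.X i, ((D.G.image (fun g => lineSet (D.p i g) (D.v i g))).filter
      (fun l => x ∈ l)).card ≤ M) :
    D.wt ≤ C * M * (D.N : ℝ) ^ (1 + ε) := by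
  have hA0 : (0 : ℝ) ≤ ((D.X i).card : ℝ) := Nat.cast_nonneg _
  have hR0 : (0 : ℝ) ≤ ((∏ j ∈ univ.erase i, (D.X j).card : ℕ) : ℝ) := Nat.cast_nonneg _
  have hε1 : (1 : ℝ) + ε ≠ 0 := by positivity
  have hN : D.N = (D.X i).card * ∏ j ∈ univ.erase i, (D.X j).card :=
    (Finset.mul_prod_erase univ (fun j => (D.X j).card) (Finset.mem_univ i)).symm
  have h1 : D.wt = ∑ l ∈ D.G.image (fun g => lineSet (D.p i g) (D.v i g)),
      ∑ g ∈ D.G.filter (fun g => lineSet (D.p i g) (D.v i g) = l),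
      (psi K (D.T 0 g).card (D.T 1 g).card : ℝ) :=
    (Finset.sum_fiberwise_of_maps_to (fun g hg => Finset.mem_image_of_mem _ hg) _).symm
  have h8 := lr176_count (α := V3) (D.G.image (fun g => lineSet (D.p i g) (D.v i g))) (D.X i) M hM
  have h10 : (∑ l ∈ D.G.image (fun g => lineSet (D.p i g) (D.v i g)),
      (((D.X i).filter (fun x => x ∈ l)).card : ℝ)) ≤ (M : ℝ) * ((D.X i).card : ℝ) := by
    exact_mod_cast h8
  have h11 : (0 : ℝ) ≤ C * (((D.X i).card : ℝ) ^ ε *
      ((∏ j ∈ univ.erase i, (D.X j).card : ℕ) : ℝ) ^ (1 + ε)) :=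
    mul_nonneg hC (mul_nonneg (Real.rpow_nonneg hA0 _) (Real.rpow_nonneg hR0 _))
  rw [h1]
  refine le_trans (Finset.sum_le_sum fun l hl =>
    le_trans (lr176_piece K B e₀ ε f i C hcl D hflat l hl)
      (lr176_real ε hε C hC _ (D.X i).card _ (Finset.card_le_card (Finset.filter_subset _ _)))) ?_
  rw [← Finset.mul_sum]
  refine le_trans (mul_le_mul_of_nonneg_left h10 h11) (le_of_eq ?_)
  rw [hN, Nat.cast_mul, Real.mul_rpow hA0 hR0, Real.rpow_one_add' hA0 hε1]
  ring

end Vale.Agent.P054.L3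
end

section

/-! Block L2, leaf WALLS, first part: lines through a point in the plane, planes in space. -/

set_option linter.all false
set_option autoImplicit false

namespace Vale.Agent.P054.L2

open Finset MvPolynomial

/-- restriction of a polynomial to a line: at most `d` zeros -/
theorem wallsa_card {n : ℕ} {α : Type*} (F : MvPolynomial (Fin n) ℝ) (d : ℕ)
    (hd : F.totalDegree ≤ d) (x0 u : Fin n → ℝ) (hx0 : eval x0 F ≠ 0) (L : Finset α) (s : α → ℝ)
    (hinj : ∀ a ∈ L, ∀ b ∈ L, a ≠ b → s a ≠ s b)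
    (hz : ∀ a ∈ L, eval (x0 + s a • u) F = 0) : L.card ≤ d := by
  classical
  let f : Fin n → Polynomial ℝ := fun i => Polynomial.C (x0 i) + Polynomial.C (u i) * Polynomial.X
  let g : Polynomial ℝ := aeval f F
  have hg : ∀ t : ℝ, g.eval t = eval (x0 + t • u) F := by
    intro t
    have h1 : g.eval t = Polynomial.eval t (eval₂ (algebraMap ℝ (Polynomial ℝ)) f F) := rfl
    have h2 : (Polynomial.evalRingHom t).comp (algebraMap ℝ (Polynomial ℝ)) = RingHom.id ℝ := by
      ext
      simp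
    have h3 : (fun i => Polynomial.eval t (f i)) = x0 + t • u := by
      funext i
      simp only [f, Polynomial.eval_add, Polynomial.eval_C, Polynomial.eval_mul, Polynomial.eval_X,
        Pi.add_apply, Pi.smul_apply, smul_eq_mul]
      ring
    rw [h1, polynomial_eval_eval₂, h2, h3]
    exact eval₂_id _
  have hg0 : g ≠ 0 := by
    intro h0
    have := hg 0
    rw [h0] at this
    simp at this
    exact hx0 this.symm
  have hdeg : g.natDegree ≤ d := by
    have h1 := aeval_natDegree_le F hd f (n := 1) fun i => by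
      refine (Polynomial.natDegree_add_le _ _).trans ?_
      refine max_le (by simp) ?_
      refine (Polynomial.natDegree_C_mul_le _ _).trans ?_
      exact Polynomial.natDegree_X_le
    simpa using h1
  have h1 : (L.image s).card = L.card := Finset.card_image_of_injOn fun a ha b hb hab => by
    by_contra hne
    exact hinj a ha b hb hne hab
  rw [← h1]
  have h2 : L.image s ⊆ g.roots.toFinset := by
    intro t ht
    obtain ⟨a, ha, rfl⟩ := Finset.mem_image.mp ht
    rw [Multiset.mem_toFinset, Polynomial.mem_roots hg0, Polynomial.IsRoot.def, hg]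
    exact hz a ha
  exact (Finset.card_le_card h2).trans ((Multiset.toFinset_card_le _).trans
    ((Polynomial.card_roots' g).trans hdeg))

/-- a common non-zero of finitely many nonzero linear forms -/
theorem wallsa_exists {n : ℕ} (S : Finset (Fin n → ℝ)) (hS : ∀ a ∈ S, a ≠ 0) :
    ∃ v : Fin n → ℝ, ∀ a ∈ S, ∑ k, a k * v k ≠ 0 := by
  classical
  let q : (Fin n → ℝ) → MvPolynomial (Fin n) ℝ := fun a => ∑ k, C (a k) * X k
  have hq : ∀ a v, eval v (q a) = ∑ k, a k * v k := by
    intro a v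
    simp [q]
  have hq0 : ∀ a ∈ S, q a ≠ 0 := by
    intro a ha h0
    apply hS a ha
    funext k
    have h1 := hq a (Pi.single k 1)
    rw [h0, map_zero] at h1
    rw [Finset.sum_eq_single k] at h1
    · simpa using h1.symm
    · intro b _ hb
      rw [Pi.single_eq_of_ne hb, mul_zero]
    · intro hk
      exact absurd (Finset.mem_univ k) hk
  have hprod : ∏ a ∈ S, q a ≠ 0 := Finset.prod_ne_zero_iff.mpr hq0
  have hex : ∃ v, eval v (∏ a ∈ S, q a) ≠ 0 := by
    by_contra hcon
    push Not at hcon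
    exact hprod (MvPolynomial.funext fun v => by rw [hcon v, map_zero])
  obtain ⟨v, hv⟩ := hex
  rw [map_prod, Finset.prod_ne_zero_iff] at hv
  exact ⟨v, fun a ha => by rw [← hq]; exact hv a ha⟩

theorem wallsa_nonzero {n : ℕ} (F : MvPolynomial (Fin n) ℝ) (hF : F ≠ 0) :
    ∃ x0, eval x0 F ≠ 0 := by
  by_contra hcon
  push Not at hcon
  exact hF (MvPolynomial.funext fun v => by rw [hcon v, map_zero])

/-- A nonzero polynomial of degree `≤ d` in the plane vanishes on at most `d` lines through `p`.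
Proof: `x0` with `F x0 ≠ 0`; choose a direction `u` not proportional to any of the `d+1` directions
nor to `p - x0`; the line `x0 + t u` meets the `d+1` lines in distinct points (two of the lines meet
only in `p`), so `F` restricted to it has `d+1` zeros and is nonzero at `t = 0`. -/
theorem lines_through_2d (F : MvPolynomial (Fin 2) ℝ) (hF : F ≠ 0) (d : ℕ)
    (hd : F.totalDegree ≤ d) (p : Fin 2 → ℝ) (L : Finset (Fin 2 → ℝ))
    (h0 : ∀ w ∈ L, w ≠ 0)
    (hpar : ∀ w ∈ L, ∀ w' ∈ L, w ≠ w' → w 0 * w' 1 - w 1 * w' 0 ≠ 0)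
    (hz : ∀ w ∈ L, ∀ t : ℝ, eval (p + t • w) F = 0) : L.card ≤ d := by
  classical
  rcases L.eq_empty_or_nonempty with rfl | ⟨w0, hw0⟩
  · simp
  obtain ⟨x0, hx0⟩ := wallsa_nonzero F hF
  have hp : p ≠ x0 := by
    rintro rfl
    apply hx0
    have := hz w0 hw0 0
    rwa [zero_smul, add_zero] at this
  obtain ⟨u, hu⟩ := wallsa_exists
    (insert (![p 1 - x0 1, -(p 0 - x0 0)] : Fin 2 → ℝ) (L.image fun w => ![w 1, -w 0])) (by
      intro a ha
      rw [Finset.mem_insert, Finset.mem_image] at ha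
      rcases ha with rfl | ⟨w, hw, rfl⟩
      · intro h1
        apply hp
        have e0 := congrFun h1 0
        have e1 := congrFun h1 1
        simp at e0 e1
        funext i
        fin_cases i
        · show p 0 = x0 0
          linarith
        · show p 1 = x0 1
          linarith
      · intro h1
        apply h0 w hw
        have e0 := congrFun h1 0
        have e1 := congrFun h1 1
        simp at e0 e1
        funext i
        fin_cases i
        · exact e1
        · exact e0)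
  have hu1 : ∀ w ∈ L, u 0 * w 1 - u 1 * w 0 ≠ 0 := by
    intro w hw h1
    have h2 := hu ![w 1, -w 0] (Finset.mem_insert_of_mem (Finset.mem_image_of_mem _ hw))
    apply h2
    rw [Fin.sum_univ_two]
    simp
    linarith
  have hu2 : u 0 * (p 1 - x0 1) - u 1 * (p 0 - x0 0) ≠ 0 := by
    intro h1
    have h2 := hu _ (Finset.mem_insert_self _ _)
    apply h2
    rw [Fin.sum_univ_two]
    simp
    linarith
  -- parameters of the intersection points
  let s : (Fin 2 → ℝ) → ℝ := fun w =>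
    ((p 0 - x0 0) * w 1 - (p 1 - x0 1) * w 0) / (u 0 * w 1 - u 1 * w 0)
  let t : (Fin 2 → ℝ) → ℝ := fun w =>
    ((p 0 - x0 0) * u 1 - (p 1 - x0 1) * u 0) / (u 0 * w 1 - u 1 * w 0)
  have hst : ∀ w ∈ L, x0 + s w • u = p + t w • w := by
    intro w hw
    have h1 := hu1 w hw
    have hs : s w * (u 0 * w 1 - u 1 * w 0) =
        (p 0 - x0 0) * w 1 - (p 1 - x0 1) * w 0 := div_mul_cancel₀ _ h1
    have ht : t w * (u 0 * w 1 - u 1 * w 0) =
        (p 0 - x0 0) * u 1 - (p 1 - x0 1) * u 0 := div_mul_cancel₀ _ h1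
    funext i
    fin_cases i
    · show x0 0 + s w * u 0 = p 0 + t w * w 0
      refine mul_right_cancel₀ h1 ?_
      linear_combination u 0 * hs - w 0 * ht
    · show x0 1 + s w * u 1 = p 1 + t w * w 1
      refine mul_right_cancel₀ h1 ?_
      linear_combination u 1 * hs - w 1 * ht
  refine wallsa_card F d hd x0 u hx0 L s (fun w hw w' hw' hne he => ?_) fun w hw => ?_
  · have e1 := hst w hw
    have e2 := hst w' hw'
    rw [← he, e1] at e2
    have a0 := congrFun e2 0
    have a1 := congrFun e2 1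
    simp only [Pi.add_apply, Pi.smul_apply, smul_eq_mul] at a0 a1
    have h3 := hpar w hw w' hw' hne
    have h4 : t w * (w 0 * w' 1 - w 1 * w' 0) = 0 := by linear_combination w' 1 * a0 - w' 0 * a1
    have h5 : t w = 0 := by
      rcases mul_eq_zero.mp h4 with h | h
      · exact h
      · exact absurd h h3
    apply hu2
    have h6 : t w * (u 0 * w 1 - u 1 * w 0) = (p 0 - x0 0) * u 1 - (p 1 - x0 1) * u 0 := by
      simp only [t]
      rw [div_mul_cancel₀ _ (hu1 w hw)]
    rw [h5, zero_mul] at h6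
    linarith
  · rw [hst w hw]
    exact hz w hw _

/-- A nonzero polynomial of degree `≤ d` in space vanishes on at most `d` planes.
Proof: `x0` with `F x0 ≠ 0`; planes `n_i x = c_i`, `c_i' = c_i - n_i x0 ≠ 0`; choose `v` with
`n_i v ≠ 0` and `c_i' (n_j v) ≠ c_j' (n_i v)` (`c_i' n_j - c_j' n_i ≠ 0` for different planes; finitely
many nonzero linear forms have a common non-zero); `F (x0 + t v)` has the distinct zeros
`c_i'/(n_i v)`. -/
theorem planes_count (F : MvPolynomial (Fin 3) ℝ) (hF : F ≠ 0) (d : ℕ)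
    (hd : F.totalDegree ≤ d) (P : Finset (Set V3))
    (hP : ∀ Q ∈ P, ∃ (n : V3) (c : ℝ), n ≠ 0 ∧ Q = {x | ∑ k, n k * x k = c} ∧
      ∀ x ∈ Q, eval x F = 0) : P.card ≤ d := by
  classical
  obtain ⟨x0, hx0⟩ := wallsa_nonzero F hF
  choose! n c hn hQ hz using hP
  let c' : Set V3 → ℝ := fun Q => c Q - ∑ k, n Q k * x0 k
  have hc' : ∀ Q ∈ P, c' Q ≠ 0 := by
    intro Q hQP h1
    apply hx0
    apply hz Q hQP
    have : x0 ∈ {x | ∑ k, n Q k * x k = c Q} := by
      show ∑ k, n Q k * x0 k = c Q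
      simp only [c'] at h1
      linarith
    rwa [← hQ Q hQP] at this
  have hmem : ∀ Q ∈ P, ∀ x : V3, x ∈ Q ↔ ∑ k, n Q k * (x k - x0 k) = c' Q := by
    intro Q hQP x
    have h1 : x ∈ Q ↔ ∑ k, n Q k * x k = c Q := by
      conv_lhs => rw [hQ Q hQP]
      rfl
    rw [h1]
    simp only [c', mul_sub, Finset.sum_sub_distrib]
    constructor <;> intro h2 <;> linarith
  obtain ⟨v, hv⟩ := wallsa_exists
    ((P.image n) ∪ ((P ×ˢ P).filter fun q => q.1 ≠ q.2).image
      (fun q => (fun k => c' q.1 * n q.2 k - c' q.2 * n q.1 k : Fin 3 → ℝ))) (by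
      intro a ha
      rw [Finset.mem_union, Finset.mem_image, Finset.mem_image] at ha
      rcases ha with ⟨Q, hQP, rfl⟩ | ⟨⟨Q, Q'⟩, hq, rfl⟩
      · exact hn Q hQP
      · rw [Finset.mem_filter, Finset.mem_product] at hq
        obtain ⟨⟨h1, h2⟩, h3⟩ := hq
        intro h4
        apply h3
        have h5 : ∀ k, c' Q * n Q' k = c' Q' * n Q k := fun k => by
          have := congrFun h4 k
          simp only [Pi.zero_apply] at this
          linarith
        ext x
        have e1 : c' Q * ∑ k, n Q' k * (x k - x0 k) = c' Q' * ∑ k, n Q k * (x k - x0 k) := by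
          rw [Finset.mul_sum, Finset.mul_sum]
          exact Finset.sum_congr rfl fun k _ => by linear_combination (x k - x0 k) * h5 k
        rw [hmem Q h1 x, hmem Q' h2 x]
        constructor
        · intro h6
          rw [h6] at e1
          have : c' Q * (∑ k, n Q' k * (x k - x0 k)) = c' Q * c' Q' := by rw [e1]; ring
          exact mul_left_cancel₀ (hc' Q h1) this
        · intro h6
          rw [h6] at e1
          have : c' Q' * (∑ k, n Q k * (x k - x0 k)) = c' Q' * c' Q := by rw [← e1]; ring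
          exact mul_left_cancel₀ (hc' Q' h2) this)
  have hv1 : ∀ Q ∈ P, ∑ k, n Q k * v k ≠ 0 := fun Q hQP =>
    hv _ (Finset.mem_union_left _ (Finset.mem_image_of_mem _ hQP))
  have hv2 : ∀ Q ∈ P, ∀ Q' ∈ P, Q ≠ Q' →
      c' Q * ∑ k, n Q' k * v k ≠ c' Q' * ∑ k, n Q k * v k := by
    intro Q h1 Q' h2 hne he
    have h3 := hv (fun k => c' Q * n Q' k - c' Q' * n Q k)
      (Finset.mem_union_right _ (Finset.mem_image.mpr ⟨(Q, Q'),
        Finset.mem_filter.mpr ⟨Finset.mem_product.mpr ⟨h1, h2⟩, hne⟩, rfl⟩))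
    apply h3
    have : ∑ k, (c' Q * n Q' k - c' Q' * n Q k) * v k =
        c' Q * (∑ k, n Q' k * v k) - c' Q' * ∑ k, n Q k * v k := by
      rw [Finset.mul_sum, Finset.mul_sum, ← Finset.sum_sub_distrib]
      exact Finset.sum_congr rfl fun k _ => by ring
    rw [this, he, sub_self]
  refine wallsa_card F d hd x0 v hx0 P (fun Q => c' Q / ∑ k, n Q k * v k)
    (fun Q h1 Q' h2 hne he => ?_) fun Q h1 => ?_
  · rw [div_eq_div_iff (hv1 Q h1) (hv1 Q' h2)] at he
    exact hv2 Q h1 Q' h2 hne he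
  · apply hz Q h1
    rw [hmem Q h1]
    have : ∑ k, n Q k * ((x0 + (c' Q / ∑ k, n Q k * v k) • v) k - x0 k) =
        (c' Q / ∑ k, n Q k * v k) * ∑ k, n Q k * v k := by
      rw [Finset.mul_sum]
      exact Finset.sum_congr rfl fun k _ => by
        simp only [Pi.add_apply, Pi.smul_apply, smul_eq_mul]
        ring
    rw [this, div_mul_cancel₀ _ (hv1 Q h1)]

end Vale.Agent.P054.L2
end

section

/-! Block L3, WallThree part (1): the lines contained in finitely many planes (helper611). -/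

set_option linter.all false
set_option autoImplicit false

namespace Vale.Agent.P054.L3

open Finset MvPolynomial
open Vale.Agent.P054.L2 (V3 sqd lpt lineSet trk ONF coord emb InFlat OnFlat)

open scoped Classical in
/-- one plane -/
theorem wtha_piece (K : ℕ) (B e₀ : ℝ) (ε : ℝ) (hε : 0 < ε) (f : Fin 4 → ℕ) (i : Fin 4) (C : ℝ)
    (hC : 0 ≤ C) (hcl : Claim K B e₀ (Function.update f i 2) ε C) {ι : Type} (D : L2D K B e₀ ι)
    (hflat : ∀ j, j ≠ i → OnFlat (f j) (D.X j)) (Q : Set V3)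
    (hQ : ∃ (n : V3) (c : ℝ), n ≠ 0 ∧ Q = {x | ∑ k, n k * x k = c}) :
    ∑ g ∈ D.G.filter (fun g => lineSet (D.p i g) (D.v i g) ⊆ Q),
      (psi K (D.T 0 g).card (D.T 1 g).card : ℝ) ≤ C * (D.N : ℝ) ^ (1 + ε) := by
  obtain ⟨n, c, hn, rfl⟩ := hQ
  set Q : Set V3 := {x | ∑ k, n k * x k = c} with hQd
  set X' : Fin 4 → Finset V3 := Function.update D.X i ((D.X i).filter (fun x => x ∈ Q)) with hX'
  have hX'i : X' i = (D.X i).filter (fun x => x ∈ Q) := by simp [hX']
  have hX'j : ∀ j, j ≠ i → X' j = D.X j := fun j hj => by simp [hX', hj]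
  let D' : L2D K B e₀ ι := D.restrict (D.G.filter (fun g => lineSet (D.p i g) (D.v i g) ⊆ Q))
    (Finset.filter_subset _ _) X' D.T (fun k g _ => Finset.Subset.refl _) (by
      intro j g hg t ht
      rw [Finset.mem_filter] at hg
      have h1 := D.hX j g hg.1 t ht
      by_cases hj : j = i
      · subst hj
        rw [hX'i, Finset.mem_filter]
        exact ⟨h1, hg.2 ⟨t, rfl⟩⟩
      · rw [hX'j j hj]
        exact h1)
  have h2 := hcl ι D' (by
    intro j
    by_cases hj : j = i
    · subst hj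
      rw [Function.update_self]
      change OnFlat 2 (X' j)
      rw [hX'i]
      refine Vale.Agent.P054.L2.onFlat_plane n hn c _ ?_
      intro x hx
      exact (Finset.mem_filter.1 hx).2
    · rw [Function.update_of_ne hj]
      change OnFlat (f j) (X' j)
      rw [hX'j j hj]
      exact hflat j hj)
  have h3 : D'.wt = ∑ g ∈ D.G.filter (fun g => lineSet (D.p i g) (D.v i g) ⊆ Q),
      (psi K (D.T 0 g).card (D.T 1 g).card : ℝ) := rfl
  have h4 : D'.N ≤ D.N := by
    change ∏ j, (X' j).card ≤ ∏ j, (D.X j).card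
    refine Finset.prod_le_prod' fun j _ => ?_
    by_cases hj : j = i
    · subst hj
      rw [hX'i]
      exact Finset.card_le_card (Finset.filter_subset _ _)
    · rw [hX'j j hj]
  rw [h3] at h2
  refine h2.trans (mul_le_mul_of_nonneg_left ?_ hC)
  exact Real.rpow_le_rpow (Nat.cast_nonneg _) (Nat.cast_le.2 h4) (by linarith)

open scoped Classical in
/-- all the lines number `i` lie in one of finitely many planes -/
theorem planes_red (K : ℕ) (B e₀ : ℝ) (ε : ℝ) (hε : 0 < ε) (f : Fin 4 → ℕ) (i : Fin 4) (C : ℝ)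
    (hC : 0 ≤ C) (hcl : Claim K B e₀ (Function.update f i 2) ε C) {ι : Type} (D : L2D K B e₀ ι)
    (hflat : ∀ j, j ≠ i → OnFlat (f j) (D.X j)) (P : Finset (Set V3))
    (hP : ∀ Q ∈ P, ∃ (n : V3) (c : ℝ), n ≠ 0 ∧ Q = {x | ∑ k, n k * x k = c})
    (hG : ∀ g ∈ D.G, ∃ Q ∈ P, lineSet (D.p i g) (D.v i g) ⊆ Q) :
    D.wt ≤ C * P.card * (D.N : ℝ) ^ (1 + ε) := by
  have h1 : D.wt ≤ ∑ Q ∈ P, ∑ g ∈ D.G.filter (fun g => lineSet (D.p i g) (D.v i g) ⊆ Q),
      (psi K (D.T 0 g).card (D.T 1 g).card : ℝ) := by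
    rw [Finset.sum_comm' (t' := D.G)
      (s' := fun g => P.filter (fun Q => lineSet (D.p i g) (D.v i g) ⊆ Q))]
    · refine Finset.sum_le_sum fun g hg => ?_
      obtain ⟨Q, hQ, hl⟩ := hG g hg
      rw [Finset.sum_const, nsmul_eq_mul]
      have h2 : 1 ≤ (P.filter (fun Q => lineSet (D.p i g) (D.v i g) ⊆ Q)).card :=
        Finset.card_pos.2 ⟨Q, Finset.mem_filter.2 ⟨hQ, hl⟩⟩
      have h3 : (1 : ℝ) ≤ ((P.filter (fun Q => lineSet (D.p i g) (D.v i g) ⊆ Q)).card : ℝ) := by
        exact_mod_cast h2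
      linarith only [mul_nonneg (sub_nonneg.2 h3) (sub_nonneg.2 (Nat.cast_nonneg (α := ℝ) (psi K (D.T 0 g).card (D.T 1 g).card)))]
    · intro Q g
      simp only [Finset.mem_filter]
      tauto
  refine h1.trans ?_
  refine (Finset.sum_le_card_nsmul P _ _ fun Q hQ =>
    wtha_piece K B e₀ ε hε f i C hC hcl D hflat Q (hP Q hQ)).trans (le_of_eq ?_)
  rw [nsmul_eq_mul]
  ring

end Vale.Agent.P054.L3
end

section

/-! Block L2, leaf PIECES (pure combinatorics).
Proof. `a = #A`, `b = #B`. Heavy pieces: `a ≤ 4 V x` where `x` = size of the piece. The light pieces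
of `A'` contain together at most `V * a/(4V) = a/4` points, so the heavy ones contain `≥ a/4`;
same for `B'`. A heavy piece has `x ≥ a/(4V) ≥ 2` points. For two heavy pieces
`psi x y = x y min(x,y) ≥ x y min(a,b)/(4V)`. Summing: `≥ (a/4)(b/4) min(a,b)/(4V)`. -/

set_option linter.all false
set_option autoImplicit false

namespace Vale.Agent.P054.L3

open Finset

/-- the heavy pieces contain a quarter of the points -/
theorem heavy_sum {α κ : Type*} [DecidableEq κ] (A A' : Finset α) (c : α → κ)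
    (hA2 : A.card ≤ 2 * A'.card) (V : ℕ) (hV : 1 ≤ V) (hcA : (A'.image c).card ≤ V) :
    A.card ≤ 4 * ∑ k ∈ (A'.image c).filter
      (fun k => A.card ≤ 4 * V * (A'.filter (fun a => c a = k)).card),
        (A'.filter (fun a => c a = k)).card := by
  set x : κ → ℕ := fun k => (A'.filter (fun a => c a = k)).card with hx
  set P : κ → Prop := fun k => A.card ≤ 4 * V * x k with hP
  have h1 : ∑ k ∈ A'.image c, x k = A'.card :=
    (Finset.card_eq_sum_card_image c A').symm
  have h2 : (∑ k ∈ (A'.image c).filter P, x k) +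
      ∑ k ∈ (A'.image c).filter (fun k => ¬ P k), x k = ∑ k ∈ A'.image c, x k :=
    Finset.sum_filter_add_sum_filter_not _ _ _
  have h3 : 4 * V * ∑ k ∈ (A'.image c).filter (fun k => ¬ P k), x k ≤ V * A.card := by
    rw [Finset.mul_sum]
    calc ∑ k ∈ (A'.image c).filter (fun k => ¬ P k), 4 * V * x k
        ≤ ∑ k ∈ (A'.image c).filter (fun k => ¬ P k), A.card :=
          Finset.sum_le_sum fun k hk => by
            have := (Finset.mem_filter.1 hk).2
            exact (not_le.1 this).le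
      _ = ((A'.image c).filter (fun k => ¬ P k)).card * A.card := by
          rw [Finset.sum_const, smul_eq_mul]
      _ ≤ V * A.card := Nat.mul_le_mul_right _ ((Finset.card_filter_le _ _).trans hcA)
  have h4 : 4 * ∑ k ∈ (A'.image c).filter (fun k => ¬ P k), x k ≤ A.card := by
    have h5 : V * (4 * ∑ k ∈ (A'.image c).filter (fun k => ¬ P k), x k) ≤ V * A.card := by
      calc V * (4 * ∑ k ∈ (A'.image c).filter (fun k => ¬ P k), x k)
          = 4 * V * ∑ k ∈ (A'.image c).filter (fun k => ¬ P k), x k := by ring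
        _ ≤ _ := h3
    exact Nat.le_of_mul_le_mul_left h5 hV
  change A.card ≤ 4 * ∑ k ∈ (A'.image c).filter P, x k
  omega

theorem psi_pieces (K : ℕ) (hK : 2 ≤ K) {α β κ κ' : Type*} [DecidableEq κ] [DecidableEq κ']
    (A A' : Finset α) (B B' : Finset β) (c : α → κ) (c' : β → κ')
    (hA' : A' ⊆ A) (hB' : B' ⊆ B) (hA2 : A.card ≤ 2 * A'.card) (hB2 : B.card ≤ 2 * B'.card)
    (V : ℕ) (hV : 1 ≤ V) (hcA : (A'.image c).card ≤ V) (hcB : (B'.image c').card ≤ V)
    (hA : 4 * V * K ≤ A.card) (hB : 4 * V * K ≤ B.card) :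
    psi K A.card B.card ≤ 64 * V * ∑ k ∈ A'.image c, ∑ l ∈ B'.image c',
      psi K (A'.filter (fun a => c a = k)).card (B'.filter (fun b => c' b = l)).card := by
  set x : κ → ℕ := fun k => (A'.filter (fun a => c a = k)).card with hx
  set y : κ' → ℕ := fun l => (B'.filter (fun b => c' b = l)).card with hy
  set a := A.card with ha
  set b := B.card with hb
  have hXA := heavy_sum A A' c hA2 V hV hcA
  have hXB := heavy_sum B B' c' hB2 V hV hcB
  set H := (A'.image c).filter (fun k => a ≤ 4 * V * x k) with hH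
  set H' := (B'.image c').filter (fun l => b ≤ 4 * V * y l) with hH'
  have hsub : ∑ k ∈ H, ∑ l ∈ H', psi K (x k) (y l) ≤
      ∑ k ∈ A'.image c, ∑ l ∈ B'.image c', psi K (x k) (y l) := by
    refine le_trans (Finset.sum_le_sum fun k _ =>
      Finset.sum_le_sum_of_subset (Finset.filter_subset _ _)) ?_
    exact Finset.sum_le_sum_of_subset (Finset.filter_subset _ _)
  have hpt : ∀ k ∈ H, ∀ l ∈ H', x k * y l * min a b ≤ 4 * V * psi K (x k) (y l) := by
    intro k hk l hl
    have h1 : a ≤ 4 * V * x k := (Finset.mem_filter.1 hk).2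
    have h2 : b ≤ 4 * V * y l := (Finset.mem_filter.1 hl).2
    have h3 : K ≤ x k :=
      Nat.le_of_mul_le_mul_left (le_trans hA h1) (by omega)
    have h4 : K ≤ y l :=
      Nat.le_of_mul_le_mul_left (le_trans hB h2) (by omega)
    have h5 : min a b ≤ 4 * V * min (x k) (y l) := by
      rcases le_total (x k) (y l) with h | h
      · rw [min_eq_left h]
        exact (min_le_left _ _).trans h1
      · rw [min_eq_right h]
        exact (min_le_right _ _).trans h2
    unfold psi
    rw [if_pos ⟨h3, h4⟩]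
    calc x k * y l * min a b ≤ x k * y l * (4 * V * min (x k) (y l)) :=
          Nat.mul_le_mul_left _ h5
      _ = 4 * V * (x k * y l * min (x k) (y l)) := by ring
  have hsum : (∑ k ∈ H, x k) * (∑ l ∈ H', y l) * min a b ≤
      4 * V * ∑ k ∈ H, ∑ l ∈ H', psi K (x k) (y l) := by
    rw [Finset.sum_mul_sum, Finset.sum_mul, Finset.mul_sum]
    refine Finset.sum_le_sum fun k hk => ?_
    rw [Finset.sum_mul, Finset.mul_sum]
    exact Finset.sum_le_sum fun l hl => hpt k hk l hl
  have hA2' : a * b ≤ 16 * ((∑ k ∈ H, x k) * (∑ l ∈ H', y l)) := by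
    calc a * b ≤ (4 * ∑ k ∈ H, x k) * (4 * ∑ l ∈ H', y l) := Nat.mul_le_mul hXA hXB
      _ = _ := by ring
  have hpsi : psi K a b ≤ a * b * min a b := by
    unfold psi
    split_ifs
    · exact le_rfl
    · exact Nat.zero_le _
  calc psi K a b ≤ a * b * min a b := hpsi
    _ ≤ 16 * ((∑ k ∈ H, x k) * (∑ l ∈ H', y l)) * min a b := Nat.mul_le_mul_right _ hA2'
    _ = 16 * ((∑ k ∈ H, x k) * (∑ l ∈ H', y l) * min a b) := by ring
    _ ≤ 16 * (4 * V * ∑ k ∈ H, ∑ l ∈ H', psi K (x k) (y l)) := Nat.mul_le_mul_left _ hsum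
    _ ≤ 16 * (4 * V * ∑ k ∈ A'.image c, ∑ l ∈ B'.image c', psi K (x k) (y l)) :=
        Nat.mul_le_mul_left _ (Nat.mul_le_mul_left _ hsub)
    _ = 64 * V * ∑ k ∈ A'.image c, ∑ l ∈ B'.image c', psi K (x k) (y l) := by ring

/-- `psi` is monotone -/
theorem psi_mono (K : ℕ) {x x' y y' : ℕ} (hx : x ≤ x') (hy : y ≤ y') : psi K x y ≤ psi K x' y' := by
  unfold psi
  split_ifs with h1 h2
  · exact Nat.mul_le_mul (Nat.mul_le_mul hx hy) (min_le_min hx hy)
  · exact absurd ⟨h1.1.trans hx, h1.2.trans hy⟩ h2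
  · exact Nat.zero_le _
  · exact Nat.zero_le _

/-- losing a constant factor in one argument; `x` is replaced by `x'` with `x ≤ M x'` -/
theorem psi_scale (K : ℕ) {x x' y M : ℕ} (hM : 1 ≤ M) (hx : x ≤ M * x') (hx' : K ≤ x') :
    psi K x y ≤ M ^ 2 * psi K x' y := by
  unfold psi
  split_ifs with h1 h2
  · have h3 : min x y ≤ M * min x' y := by
      rcases le_total x' y with h | h
      · rw [min_eq_left h]
        exact (min_le_left _ _).trans hx
      · rw [min_eq_right h]
        exact (min_le_right _ _).trans (Nat.le_mul_of_pos_left _ hM)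
    calc x * y * min x y ≤ M * x' * y * (M * min x' y) :=
          Nat.mul_le_mul (Nat.mul_le_mul_right _ hx) h3
      _ = M ^ 2 * (x' * y * min x' y) := by ring
  · exact absurd ⟨hx', h1.2⟩ h2
  · exact Nat.zero_le _
  · exact Nat.zero_le _

theorem psi_comm (K x y : ℕ) : psi K x y = psi K y x := by
  unfold psi
  rw [min_comm x y, mul_comm x y]
  split_ifs with h1 h2 h3
  · rfl
  · exact absurd ⟨h1.2, h1.1⟩ h2
  · exact absurd ⟨h3.2, h3.1⟩ h1
  · rfl

end Vale.Agent.P054.L3
end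

section

/-! Block L2, leaf WALLS: lines and planes in zero sets. -/

set_option linter.all false
set_option autoImplicit false

namespace Vale.Agent.P054.L2

open Finset MvPolynomial

private noncomputable def wb670g (p v : V3) : Fin 3 → Polynomial ℝ := fun j => Polynomial.C (p j) + Polynomial.X * Polynomial.C (v j)

private theorem wb670_ev (p v : V3) (F : MvPolynomial (Fin 3) ℝ) (t : ℝ) :
    (aeval (wb670g p v) F).eval t = eval (lpt p v t) F := by
  have h : (Polynomial.evalRingHom t).comp (aeval (wb670g p v) : MvPolynomial (Fin 3) ℝ →ₐ[ℝ] Polynomial ℝ).toRingHom =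
      eval (lpt p v t) := by
    refine MvPolynomial.ringHom_ext (fun a => ?_) (fun j => ?_)
    · simp
    · simp [wb670g, lpt]
      ring
  exact RingHom.congr_fun h F

private theorem wb670_chain (F : MvPolynomial (Fin 3) ℝ) (p v : V3) :
    Polynomial.derivative (aeval (wb670g p v) F) =
      ∑ j, aeval (wb670g p v) (pderiv j F) * Polynomial.C (v j) := by
  induction F using MvPolynomial.induction_on with
  | C a => simp
  | add F G hF hG => simp only [map_add, hF, hG, add_mul, Finset.sum_add_distrib]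
  | mul_X F k hF =>
    rw [map_mul, Polynomial.derivative_mul, hF, aeval_X]
    have h1 : Polynomial.derivative (wb670g p v k) = Polynomial.C (v k) := by
      simp [wb670g]
    have h2 : ∀ j, aeval (wb670g p v) (pderiv j (F * X k)) * Polynomial.C (v j) =
        aeval (wb670g p v) (pderiv j F) * Polynomial.C (v j) * wb670g p v k +
          aeval (wb670g p v) F * (if j = k then Polynomial.C (v k) else 0) := by
      intro j
      rw [pderiv_mul, map_add, map_mul, map_mul, aeval_X]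
      by_cases hj : j = k
      · subst hj
        rw [pderiv_X_self, map_one, if_pos rfl]
        ring
      · rw [pderiv_X_of_ne (fun h => hj h.symm), map_zero, if_neg hj]
        ring
    rw [h1]
    simp only [h2, Finset.sum_add_distrib, ← Finset.mul_sum, ← Finset.sum_mul]
    simp

/-- the tangent plane at a point of a line in the zero set contains the direction of the line -/
private theorem wb670_tan (F : MvPolynomial (Fin 3) ℝ) (p v : V3) (h : ∀ t, eval (lpt p v t) F = 0) :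
    ∑ j, eval p (pderiv j F) * v j = 0 := by
  have h0 : aeval (wb670g p v) F = 0 := by
    refine Polynomial.funext fun s => ?_
    rw [wb670_ev, h s, Polynomial.eval_zero]
  have h1 := wb670_chain F p v
  rw [h0, Polynomial.derivative_zero] at h1
  have h2 := congrArg (Polynomial.eval 0) h1
  have h3 : lpt p v 0 = p := by simp [lpt]
  simp only [Polynomial.eval_zero, Polynomial.eval_finset_sum, Polynomial.eval_mul, Polynomial.eval_C, wb670_ev, h3] at h2
  exact h2.symm

private theorem wb670_deg (L : Fin 3 → MvPolynomial (Fin 2) ℝ) (hL : ∀ i, (L i).totalDegree ≤ 1)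
    (F : MvPolynomial (Fin 3) ℝ) : (aeval L F).totalDegree ≤ F.totalDegree := by
  rw [aeval_def, eval₂_eq]
  refine totalDegree_finsetSum_le fun m hm => ?_
  refine (totalDegree_mul _ _).trans ?_
  rw [algebraMap_eq, totalDegree_C, zero_add]
  refine (totalDegree_finsetProd _ _).trans ?_
  refine le_trans (Finset.sum_le_sum fun i _ => (totalDegree_pow (L i) (m i)).trans
    (Nat.mul_le_mul_left _ (hL i))) ?_
  simp only [mul_one]
  exact le_totalDegree hm

private theorem wb670_par (w w' : Fin 2 → ℝ) (hw : w ≠ 0) (hw' : w' ≠ 0)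
    (h : w 0 * w' 1 - w 1 * w' 0 = 0) : ∃ c : ℝ, c ≠ 0 ∧ w' = c • w := by
  by_cases h0 : w 0 = 0
  · have h1 : w 1 ≠ 0 := by
      intro h1
      apply hw
      funext j
      fin_cases j
      · exact h0
      · exact h1
    have e0 : w' 0 = 0 := by
      rw [h0, zero_mul, zero_sub, neg_eq_zero] at h
      exact (mul_eq_zero.1 h).resolve_left h1
    have e : w' = (w' 1 / w 1) • w := by
      funext j
      fin_cases j
      · simp [e0, h0]
      · simp [div_mul_cancel₀, h1]
    refine ⟨w' 1 / w 1, ?_, e⟩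
    intro hc
    rw [hc, zero_smul] at e
    exact hw' e
  · have e : w' = (w' 0 / w 0) • w := by
      funext j
      fin_cases j
      · simp [div_mul_cancel₀, h0]
      · show w' 1 = w' 0 / w 0 * w 1
        field_simp
        linarith
    refine ⟨w' 0 / w 0, ?_, e⟩
    intro hc
    rw [hc, zero_smul] at e
    exact hw' e

/-- regular points: all lines through `p` in the zero set lie in the tangent plane; if `F` does not
vanish on the tangent plane there are at most `d` of them (use `lines_through_2d` in the tangent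
plane). -/
theorem regular_lines (F : MvPolynomial (Fin 3) ℝ) (d : ℕ)
    (hd : F.totalDegree ≤ d) (p : V3) (hreg : ∃ i, eval p (pderiv i F) ≠ 0)
    (x₀ : V3) (hx₀ : ∑ k, eval p (pderiv k F) * (x₀ k - p k) = 0) (hx₀F : eval x₀ F ≠ 0)
    (L : Finset (Set V3))
    (hL : ∀ l ∈ L, ∃ v : V3, v ≠ 0 ∧ l = lineSet p v ∧ ∀ x ∈ l, eval x F = 0) : L.card ≤ d := by
  classical
  obtain ⟨i0, hi0⟩ := hreg
  have hn : (fun k => eval p (pderiv k F) : V3) ≠ 0 := fun h => hi0 (congrFun h i0)
  obtain ⟨e, he, r, hr, hne⟩ := fr687_perp _ hn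
  have hnk : ∀ k, eval p (pderiv k F) = r * e 2 k := fun k => congrFun hne k
  -- the plane
  set e' : Fin 2 → V3 := fun j => e j.castSucc with he'
  have hpl : ∀ v : V3, ∑ k, eval p (pderiv k F) * v k = 0 →
      v = (∑ k, v k * e' 0 k) • e' 0 + (∑ k, v k * e' 1 k) • e' 1 := by
    intro v hv
    have h1 := fr687_full e he p (p + v)
    have h2 : coord p e (p + v) 2 = 0 := by
      simp only [coord, Pi.add_apply, add_sub_cancel_left]
      simp only [hnk] at hv
      have h3 : ∑ k, r * e 2 k * v k = r * ∑ k, v k * e 2 k := by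
        rw [Finset.mul_sum]
        exact Finset.sum_congr rfl fun k _ => by ring
      rw [h3] at hv
      exact (mul_eq_zero.1 hv).resolve_left hr
    simp only [emb, Fin.sum_univ_three, h2, zero_smul, add_zero] at h1
    have h4 : coord p e (p + v) 0 = ∑ k, v k * e' 0 k := by
      simp only [coord, Pi.add_apply, add_sub_cancel_left]
      rfl
    have h5 : coord p e (p + v) 1 = ∑ k, v k * e' 1 k := by
      simp only [coord, Pi.add_apply, add_sub_cancel_left]
      rfl
    rw [h4, h5] at h1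
    exact (add_left_cancel h1).symm
  set P : Fin 3 → MvPolynomial (Fin 2) ℝ := fun k => C (p k) + X 0 * C (e' 0 k) + X 1 * C (e' 1 k) with hP
  have hPd : ∀ k, (P k).totalDegree ≤ 1 := by
    intro k
    simp only [hP]
    refine (totalDegree_add _ _).trans (max_le ((totalDegree_add _ _).trans (max_le ?_ ?_)) ?_)
    · rw [totalDegree_C]
      exact Nat.zero_le _
    · refine (totalDegree_mul _ _).trans ?_
      rw [totalDegree_C]
      have := totalDegree_X (R := ℝ) (0 : Fin 2)
      omega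
    · refine (totalDegree_mul _ _).trans ?_
      rw [totalDegree_C]
      have := totalDegree_X (R := ℝ) (1 : Fin 2)
      omega
  have hPe : ∀ y : Fin 2 → ℝ, eval y (aeval P F) = eval (p + (y 0 • e' 0 + y 1 • e' 1)) F := by
    intro y
    have h : (eval y).comp (aeval P : MvPolynomial (Fin 3) ℝ →ₐ[ℝ] MvPolynomial (Fin 2) ℝ).toRingHom =
        eval (p + (y 0 • e' 0 + y 1 • e' 1)) := by
      refine MvPolynomial.ringHom_ext (fun a => ?_) (fun j => ?_)
      · simp
      · simp [hP]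
        ring
    exact RingHom.congr_fun h F
  have hF2 : aeval P F ≠ 0 := by
    intro h0
    apply hx₀F
    have h1 := hpl (fun k => x₀ k - p k) hx₀
    have h2 := hPe ![∑ k, (x₀ k - p k) * e' 0 k, ∑ k, (x₀ k - p k) * e' 1 k]
    rw [h0, map_zero] at h2
    have h3 : p + ((![∑ k, (x₀ k - p k) * e' 0 k, ∑ k, (x₀ k - p k) * e' 1 k] : Fin 2 → ℝ) 0 • e' 0 +
        (![∑ k, (x₀ k - p k) * e' 0 k, ∑ k, (x₀ k - p k) * e' 1 k] : Fin 2 → ℝ) 1 • e' 1) = x₀ := by
      change p + ((∑ k, (x₀ k - p k) * e' 0 k) • e' 0 + (∑ k, (x₀ k - p k) * e' 1 k) • e' 1) = x₀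
      rw [← h1]
      funext k
      simp
    rw [h3] at h2
    exact h2.symm
  have hd2 : (aeval P F).totalDegree ≤ d := (wb670_deg P hPd F).trans hd
  rcases L.eq_empty_or_nonempty with h0 | ⟨l0, hl0⟩
  · rw [h0]
    simp
  haveI : Nonempty V3 := ⟨0⟩
  choose! v hv hlv hz using hL
  have hvt : ∀ l ∈ L, ∀ t, eval (lpt p (v l) t) F = 0 := by
    intro l hl t
    exact hz l hl _ ((Set.ext_iff.1 (hlv l hl) _).2 ⟨t, rfl⟩)
  set w : Set V3 → (Fin 2 → ℝ) := fun l => ![∑ k, v l k * e' 0 k, ∑ k, v l k * e' 1 k] with hw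
  have hvw : ∀ l ∈ L, v l = w l 0 • e' 0 + w l 1 • e' 1 := fun l hl =>
    hpl (v l) (wb670_tan F p (v l) (hvt l hl))
  have hw0 : ∀ l ∈ L, w l ≠ 0 := by
    intro l hl h
    apply hv l hl
    rw [hvw l hl, h]
    simp
  have hdet : ∀ l ∈ L, ∀ l' ∈ L, l ≠ l' → w l 0 * w l' 1 - w l 1 * w l' 0 ≠ 0 := by
    intro l hl l' hl' hne h
    obtain ⟨c, hc, h'⟩ := wb670_par _ _ (hw0 l hl) (hw0 l' hl') h
    have h1 : v l' = c • v l := by
      rw [hvw l' hl', hvw l hl, h']
      simp [smul_smul, smul_add]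
    apply hne
    rw [hlv l hl, hlv l' hl', h1]
    ext z
    constructor
    · rintro ⟨t, rfl⟩
      exact ⟨t / c, by simp [lpt, smul_smul, div_mul_cancel₀ _ hc]⟩
    · rintro ⟨t, rfl⟩
      exact ⟨t * c, by simp [lpt, smul_smul]⟩
  have hinj : Set.InjOn w (L : Set (Set V3)) := by
    intro l hl l' hl' h
    by_contra hne
    apply hdet l hl l' hl' hne
    rw [h]
    ring
  rw [← Finset.card_image_of_injOn hinj]
  refine lines_through_2d (aeval P F) hF2 d hd2 0 (L.image w) ?_ ?_ ?_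
  · intro y hy
    obtain ⟨l, hl, rfl⟩ := Finset.mem_image.1 hy
    exact hw0 l hl
  · intro y hy y' hy' hne
    obtain ⟨l, hl, rfl⟩ := Finset.mem_image.1 hy
    obtain ⟨l', hl', rfl⟩ := Finset.mem_image.1 hy'
    exact hdet l hl l' hl' (fun h => hne (by rw [h]))
  · intro y hy t
    obtain ⟨l, hl, rfl⟩ := Finset.mem_image.1 hy
    rw [hPe, ← hvt l hl t]
    congr 2
    funext k
    have h1 := congrFun (hvw l hl) k
    simp only [lpt, Pi.add_apply, Pi.smul_apply, smul_eq_mul, Pi.zero_apply, zero_add] at h1 ⊢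
    rw [h1]
    ring

end Vale.Agent.P054.L2
end

section

/-! Block L3, WallThree: all the lines number `i` lie in a surface `F = 0` in space (helper611). -/

set_option linter.all false
set_option autoImplicit false

namespace Vale.Agent.P054.L3

open Finset MvPolynomial
open Vale.Agent.P054.L2 (V3 sqd lpt lineSet trk ONF coord emb InFlat OnFlat)

theorem wt3_der (g : Fin 3 → Polynomial ℝ) (F : MvPolynomial (Fin 3) ℝ) :
    Polynomial.derivative (aeval g F) =
      ∑ k, aeval g (pderiv k F) * Polynomial.derivative (g k) := by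
  induction F using MvPolynomial.induction_on with
  | C a => simp [pderiv_C, algebraMap_eq]
  | add p q hp hq =>
    simp only [map_add, hp, hq, add_mul, Finset.sum_add_distrib]
  | mul_X p i hp =>
    rw [map_mul, aeval_X, Polynomial.derivative_mul, hp]
    have h : ∀ k, aeval g (pderiv k (p * X i)) * Polynomial.derivative (g k) =
        aeval g (pderiv k p) * Polynomial.derivative (g k) * g i +
        (if k = i then aeval g p * Polynomial.derivative (g i) else 0) := by
      intro k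
      rw [pderiv_mul, map_add, map_mul, map_mul, aeval_X]
      by_cases hk : k = i
      · subst hk
        rw [pderiv_X_self, map_one, if_pos rfl]
        ring
      · rw [pderiv_X_of_ne (Ne.symm hk), map_zero, if_neg hk]
        ring
    simp_rw [h]
    rw [Finset.sum_add_distrib, ← Finset.sum_mul]
    simp

theorem wt3_eval (g : Fin 3 → Polynomial ℝ) (F : MvPolynomial (Fin 3) ℝ) (t : ℝ) :
    (aeval g F).eval t = eval (fun k => (g k).eval t) F := by
  have h := MvPolynomial.eval₂_comp_left (Polynomial.evalRingHom t) (algebraMap ℝ (Polynomial ℝ)) g F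
  rw [aeval_def]
  have h2 : (Polynomial.evalRingHom t).comp (algebraMap ℝ (Polynomial ℝ)) = RingHom.id ℝ := by
    ext x
    simp
  rw [h2] at h
  exact h

/-- the derivative of a polynomial along a line -/
theorem wt3_tangent (F : MvPolynomial (Fin 3) ℝ) (p v : V3)
    (h : ∀ t : ℝ, eval (lpt p v t) F = 0) (t : ℝ) :
    ∑ k, eval (lpt p v t) (pderiv k F) * v k = 0 := by
  set g : Fin 3 → Polynomial ℝ := fun k => Polynomial.C (p k) + Polynomial.C (v k) * Polynomial.X
    with hg
  have hgt : ∀ s : ℝ, (fun k => (g k).eval s) = lpt p v s := by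
    intro s
    funext k
    simp only [hg, Polynomial.eval_add, Polynomial.eval_mul, Polynomial.eval_C, Polynomial.eval_X, lpt,
      Pi.add_apply, Pi.smul_apply, smul_eq_mul]
    ring
  have h0 : aeval g F = 0 := by
    refine Polynomial.funext fun s => ?_
    rw [wt3_eval, hgt, h s, Polynomial.eval_zero]
  have h1 := wt3_der g F
  rw [h0, Polynomial.derivative_zero] at h1
  have h2 := congrArg (Polynomial.eval t) h1
  rw [Polynomial.eval_zero, Polynomial.eval_finset_sum] at h2
  rw [h2]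
  refine Finset.sum_congr rfl fun k _ => ?_
  rw [Polynomial.eval_mul, wt3_eval, hgt]
  congr 1
  simp [hg]

/-- a polynomial all of whose derivatives vanish is constant -/
theorem wt3_const (F : MvPolynomial (Fin 3) ℝ) (h : ∀ k, pderiv k F = 0) : ∃ c : ℝ, F = C c := by
  refine ⟨eval 0 F, MvPolynomial.funext fun x => ?_⟩
  rw [eval_C]
  set g : Fin 3 → Polynomial ℝ := fun k => Polynomial.C (x k) * Polynomial.X with hg
  have h1 := wt3_der g F
  have h2 : Polynomial.derivative (aeval g F) = 0 := by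
    rw [h1]
    refine Finset.sum_eq_zero fun k _ => ?_
    rw [h k, map_zero, zero_mul]
  have h3 := Polynomial.natDegree_eq_zero_of_derivative_eq_zero h2
  obtain ⟨a, ha⟩ := Polynomial.natDegree_eq_zero.1 h3
  have e1 := wt3_eval g F 1
  have e0 := wt3_eval g F 0
  rw [← ha, Polynomial.eval_C] at e1 e0
  have f1 : (fun k => (g k).eval 1) = x := by
    funext k
    simp [hg]
  have f0 : (fun k => (g k).eval 0) = (0 : V3) := by
    funext k
    simp [hg]
  rw [f1] at e1
  rw [f0] at e0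
  rw [← e1, ← e0]

theorem wt3_pderiv_deg (F : MvPolynomial (Fin 3) ℝ) (d : ℕ) (hd : F.totalDegree ≤ d + 1)
    (k : Fin 3) : (pderiv k F).totalDegree ≤ d := by
  refine Finset.sup_le fun m hm => ?_
  rw [mem_support_iff, coeff_pderiv] at hm
  have h1 : coeff (m + Finsupp.single k 1) F ≠ 0 := left_ne_zero_of_mul hm
  have h2 := le_totalDegree (mem_support_iff.2 h1)
  have h3 : (m + Finsupp.single k 1).sum (fun _ e => e) = m.sum (fun _ e => e) + 1 := by
    rw [Finsupp.sum_add_index' (fun _ => rfl) (fun _ _ _ => rfl), Finsupp.sum_single_index rfl]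
  omega

/-- restriction to fewer elements -/
def wt3sub {K : ℕ} {B e₀ : ℝ} {ι : Type} (D : L2D K B e₀ ι) (G' : Finset ι) (hG : G' ⊆ D.G) :
    L2D K B e₀ ι :=
  D.restrict G' hG D.X D.T (fun _ _ _ => Finset.Subset.refl _)
    (fun j g hg t ht => D.hX j g (hG hg) t ht)

theorem wt3_lineSet (p v : V3) (t : ℝ) : lineSet p v = lineSet (lpt p v t) v := by
  ext x
  constructor
  · rintro ⟨s, rfl⟩
    refine ⟨s - t, ?_⟩
    funext k
    simp only [lpt, Pi.add_apply, Pi.smul_apply, smul_eq_mul]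
    ring
  · rintro ⟨s, rfl⟩
    refine ⟨t + s, ?_⟩
    funext k
    simp only [lpt, Pi.add_apply, Pi.smul_apply, smul_eq_mul]
    ring

open scoped Classical in
/-- case (2): elements whose line has a regular point, many parameters -/
theorem wt3_regular (K : ℕ) (hK : 2 ≤ K) (B e₀ : ℝ) (ε : ℝ) (hε : 0 < ε) (f : Fin 4 → ℕ)
    (i : Fin 4) (C : ℝ) (hC : 0 ≤ C)
    (hcl1 : Claim K B e₀ (Function.update f i 1) ε C) (d : ℕ) {ι : Type} (D : L2D K B e₀ ι)
    (hflat : ∀ j, j ≠ i → OnFlat (f j) (D.X j))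
    (F : MvPolynomial (Fin 3) ℝ) (hF : F ≠ 0) (hd : F.totalDegree ≤ d)
    (hG : ∀ g ∈ D.G, ∀ t : ℝ, eval (lpt (D.p i g) (D.v i g) t) F = 0)
    (h1 : ∀ g ∈ D.G, ∀ (n : V3) (c : ℝ), n ≠ 0 →
      lineSet (D.p i g) (D.v i g) ⊆ {x | ∑ k, n k * x k = c} →
      ∃ x ∈ {x : V3 | ∑ k, n k * x k = c}, eval x F ≠ 0)
    (h2 : ∀ g ∈ D.G, ∃ k, ∃ t : ℝ, eval (lpt (D.p i g) (D.v i g) t) (pderiv k F) ≠ 0)
    (h3 : ∀ g ∈ D.G, 2 * d + 2 * K ≤ (D.T (trk i) g).card) :
    D.wt ≤ 4 * (C * d) * (D.N : ℝ) ^ (1 + ε) := by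
  set R : V3 → Prop := fun x => (∃ k, eval x (pderiv k F) ≠ 0) ∧
    ∃ x₀ : V3, ∑ k, eval x (pderiv k F) * (x₀ k - x k) = 0 ∧ eval x₀ F ≠ 0 with hR
  set X' : Fin 4 → Finset V3 := Function.update D.X i ((D.X i).filter R) with hX'
  have hX'i : X' i = (D.X i).filter R := by simp [hX']
  have hX'j : ∀ j, j ≠ i → X' j = D.X j := fun j hj => by simp [hX', hj]
  set T' : Fin 2 → ι → Finset ℝ := Function.update D.T (trk i)
    (fun g => (D.T (trk i) g).filter (fun t => R (lpt (D.p i g) (D.v i g) t))) with hT'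
  have hT'i : ∀ g, T' (trk i) g =
      (D.T (trk i) g).filter (fun t => R (lpt (D.p i g) (D.v i g) t)) := fun g => by simp [hT']
  have hT'j : ∀ k, k ≠ trk i → T' k = D.T k := fun k hk => by simp [hT', hk]
  have hTsub : ∀ k g, T' k g ⊆ D.T k g := by
    intro k g
    by_cases hk : k = trk i
    · subst hk
      rw [hT'i]
      exact Finset.filter_subset _ _
    · rw [hT'j k hk]
  let D' : L2D K B e₀ ι := D.restrict D.G (Finset.Subset.refl _) X' T'
    (fun k g _ => hTsub k g) (by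
      intro j g hg t ht
      have h5 := D.hX j g hg t (hTsub _ _ ht)
      by_cases hj : j = i
      · subst hj
        rw [hX'i, Finset.mem_filter]
        rw [hT'i, Finset.mem_filter] at ht
        exact ⟨h5, ht.2⟩
      · rw [hX'j j hj]
        exact h5)
  -- most parameters are regular
  have hmost : ∀ g ∈ D.G, (D.T (trk i) g).card ≤ (T' (trk i) g).card + d := by
    intro g hg
    obtain ⟨k, t0, hk⟩ := h2 g hg
    have hbad : ((D.T (trk i) g).filter
        (fun t => ¬ R (lpt (D.p i g) (D.v i g) t))).card ≤ d := by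
      by_contra hcon
      push Not at hcon
      apply hk
      have h7 : (pderiv k F).totalDegree ≤ d := by
        rcases Nat.eq_zero_or_pos d with h0 | h0
        · have := wt3_pderiv_deg F 0 (by omega) k
          omega
        · have := wt3_pderiv_deg F (d - 1) (by omega) k
          omega
      refine Vale.Agent.P054.L2.few_zeros (pderiv k F) d h7 (D.p i g) (D.v i g) _ ?_ hcon t0
      intro t ht
      rw [Finset.mem_filter] at ht
      by_contra hne
      apply ht.2
      refine ⟨⟨k, hne⟩, ?_⟩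
      have hn : (fun k => eval (lpt (D.p i g) (D.v i g) t) (pderiv k F) : V3) ≠ 0 := by
        intro h0
        exact hne (congrFun h0 k)
      obtain ⟨x₀, hx, hx0⟩ := h1 g hg _
        (∑ k, eval (lpt (D.p i g) (D.v i g) t) (pderiv k F) * (lpt (D.p i g) (D.v i g) t) k) hn (by
        rintro x ⟨s, rfl⟩
        have htan := wt3_tangent F (D.p i g) (D.v i g) (hG g hg) t
        show ∑ k, eval (lpt (D.p i g) (D.v i g) t) (pderiv k F) * (lpt (D.p i g) (D.v i g) s) k =
          ∑ k, eval (lpt (D.p i g) (D.v i g) t) (pderiv k F) * (lpt (D.p i g) (D.v i g) t) k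
        have e1 : ∑ k, eval (lpt (D.p i g) (D.v i g) t) (pderiv k F) *
            (lpt (D.p i g) (D.v i g) s) k =
            ∑ k, eval (lpt (D.p i g) (D.v i g) t) (pderiv k F) * (lpt (D.p i g) (D.v i g) t) k +
            (s - t) * ∑ k, eval (lpt (D.p i g) (D.v i g) t) (pderiv k F) * D.v i g k := by
          rw [Finset.mul_sum, ← Finset.sum_add_distrib]
          refine Finset.sum_congr rfl fun k _ => ?_
          simp only [lpt, Pi.add_apply, Pi.smul_apply, smul_eq_mul]
          ring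
        rw [e1, htan, mul_zero, add_zero])
      refine ⟨x₀, ?_, hx0⟩
      simp_rw [mul_sub]
      rw [Finset.sum_sub_distrib]
      exact sub_eq_zero.2 hx
    have h8 := Finset.card_filter_add_card_filter_not (s := D.T (trk i) g)
      (fun t => R (lpt (D.p i g) (D.v i g) t))
    rw [hT'i]
    omega
  -- comparison of the weights
  have hwt : D.wt ≤ 4 * D'.wt := by
    show ∑ g ∈ D.G, (psi K (D.T 0 g).card (D.T 1 g).card : ℝ) ≤
      4 * ∑ g ∈ D.G, (psi K (T' 0 g).card (T' 1 g).card : ℝ)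
    rw [Finset.mul_sum]
    refine Finset.sum_le_sum fun g hg => ?_
    have h9 := hmost g hg
    have h10 := h3 g hg
    have key : psi K (D.T 0 g).card (D.T 1 g).card ≤ 4 * psi K (T' 0 g).card (T' 1 g).card := by
      rcases Fin.exists_fin_two.1 ⟨trk i, rfl⟩ with h | h
      · rw [h] at h9 h10
        have h11 : T' 1 = D.T 1 := hT'j 1 (by rw [h]; decide)
        rw [h11]
        exact psi_scale K (M := 2) (by norm_num) (by omega) (by omega)
      · rw [h] at h9 h10
        have h11 : T' 0 = D.T 0 := hT'j 0 (by rw [h]; decide)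
        rw [h11, psi_comm K (D.T 0 g).card, psi_comm K (D.T 0 g).card]
        exact psi_scale K (M := 2) (by norm_num) (by omega) (by omega)
    exact_mod_cast key
  have hN : D'.N ≤ D.N := by
    change ∏ j, (X' j).card ≤ ∏ j, (D.X j).card
    refine Finset.prod_le_prod' fun j _ => ?_
    by_cases hj : j = i
    · subst hj
      rw [hX'i]
      exact Finset.card_le_card (Finset.filter_subset _ _)
    · rw [hX'j j hj]
  have hlr := line_red K B e₀ ε hε f i C hC hcl1 d D' (by
      intro j hj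
      change OnFlat (f j) (X' j)
      rw [hX'j j hj]
      exact hflat j hj) (by
      intro x hx
      change x ∈ X' i at hx
      rw [hX'i, Finset.mem_filter] at hx
      obtain ⟨-, hreg, x₀, hx₀, hx₀F⟩ := hx
      refine Vale.Agent.P054.L2.regular_lines F d hd x hreg x₀ hx₀ hx₀F _ ?_
      intro l hl
      rw [Finset.mem_filter, Finset.mem_image] at hl
      obtain ⟨⟨g, hg, rfl⟩, t, ht⟩ := hl
      refine ⟨D.v i g, D.hv i g hg, ?_, ?_⟩
      · rw [← ht]
        exact wt3_lineSet _ _ t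
      · rintro y ⟨s, rfl⟩
        exact hG g hg s)
  calc D.wt ≤ 4 * D'.wt := hwt
    _ ≤ 4 * (C * d * (D'.N : ℝ) ^ (1 + ε)) := by linarith
    _ ≤ 4 * (C * d * (D.N : ℝ) ^ (1 + ε)) := by
        have h12 : (D'.N : ℝ) ^ (1 + ε) ≤ (D.N : ℝ) ^ (1 + ε) :=
          Real.rpow_le_rpow (Nat.cast_nonneg _) (Nat.cast_le.2 hN) (by linarith)
        have h13 : 0 ≤ C * d := mul_nonneg hC (Nat.cast_nonneg _)
        have := mul_le_mul_of_nonneg_left h12 h13
        linarith
    _ = _ := by ring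

theorem wt3sub_wt {K : ℕ} {B e₀ : ℝ} {ι : Type} (D : L2D K B e₀ ι) (G' : Finset ι)
    (hG : G' ⊆ D.G) : (wt3sub D G' hG).wt =
      ∑ g ∈ G', (psi K (D.T 0 g).card (D.T 1 g).card : ℝ) := rfl

/-- case of space -/
theorem wall_red_three (K : ℕ) (hK : 2 ≤ K) (B e₀ : ℝ) (ε : ℝ) (hε : 0 < ε) (f : Fin 4 → ℕ)
    (hf : ∀ j, 1 ≤ f j)
    (i : Fin 4) (C : ℝ) (hC : 0 ≤ C)
    (hcl1 : Claim K B e₀ (Function.update f i 1) ε C)
    (hcl2 : Claim K B e₀ (Function.update f i 2) ε C)
    (hbase : BaseClaim K B e₀ ε)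
    (d : ℕ) : ∃ C' : ℝ, 0 ≤ C' ∧ ∀ (ι : Type) (D : L2D K B e₀ ι)
      (hflat : ∀ j, j ≠ i → OnFlat (f j) (D.X j))
      (F : MvPolynomial (Fin 3) ℝ) (hF : F ≠ 0) (hd : F.totalDegree ≤ d)
      (hG : ∀ g ∈ D.G, ∀ t : ℝ, eval (lpt (D.p i g) (D.v i g) t) F = 0),
      D.wt ≤ C' * (D.N : ℝ) ^ (1 + ε) := by
  classical
  induction d with
  | zero =>
    refine ⟨0, le_rfl, fun ι D hflat F hF hd hG => ?_⟩
    have hc := totalDegree_eq_zero_iff_eq_C.1 (Nat.le_zero.1 hd)
    have hempty : D.G = ∅ := by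
      rw [Finset.eq_empty_iff_forall_notMem]
      intro g hg
      have h1 := hG g hg 0
      rw [hc, eval_C] at h1
      apply hF
      rw [hc, h1, C_0]
    have : D.wt = 0 := by
      show ∑ g ∈ D.G, (psi K (D.T 0 g).card (D.T 1 g).card : ℝ) = 0
      rw [hempty, Finset.sum_empty]
    rw [this, zero_mul]
  | succ d ih =>
    obtain ⟨C1, hC1, ih⟩ := ih
    obtain ⟨C0, hC0, hb⟩ := hbase (2 * (d + 1) + 2 * K)
    refine ⟨C * (d + 1 : ℕ) + (C1 + (4 * (C * (d + 1 : ℕ)) + C0)), by positivity,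
      fun ι D hflat F hF hd hG => ?_⟩
    set M : ℝ := (D.N : ℝ) ^ (1 + ε) with hM
    have hM0 : 0 ≤ M := Real.rpow_nonneg (Nat.cast_nonneg _) _
    set PL : ι → Prop := fun g => ∃ (n : V3) (c : ℝ), n ≠ 0 ∧
      lineSet (D.p i g) (D.v i g) ⊆ {x | ∑ k, n k * x k = c} ∧
      ∀ x ∈ {x : V3 | ∑ k, n k * x k = c}, eval x F = 0 with hPL
    set w : ι → ℝ := fun g => (psi K (D.T 0 g).card (D.T 1 g).card : ℝ) with hw
    have hwD : D.wt = ∑ g ∈ D.G, w g := rfl
    -- part (1)
    have p1 : ∑ g ∈ D.G.filter PL, w g ≤ C * (d + 1 : ℕ) * M := by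
      have hch : ∀ g : ι, ∃ Q : Set V3, g ∈ D.G.filter PL → (∃ (n : V3) (c : ℝ), n ≠ 0 ∧
          Q = {x | ∑ k, n k * x k = c} ∧ ∀ x ∈ Q, eval x F = 0) ∧
          lineSet (D.p i g) (D.v i g) ⊆ Q := by
        intro g
        by_cases hg : g ∈ D.G.filter PL
        · obtain ⟨n, c, hn, hl, hz⟩ := (Finset.mem_filter.1 hg).2
          exact ⟨_, fun _ => ⟨⟨n, c, hn, rfl, hz⟩, hl⟩⟩
        · exact ⟨∅, fun h => absurd h hg⟩
      choose Q hQ using hch
      have hcard : ((D.G.filter PL).image Q).card ≤ d + 1 := by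
        refine Vale.Agent.P054.L2.planes_count F hF (d + 1) hd _ ?_
        intro q hq
        obtain ⟨g, hg, rfl⟩ := Finset.mem_image.1 hq
        exact (hQ g hg).1
      have h1 := planes_red K B e₀ ε hε f i C hC hcl2
        (wt3sub D (D.G.filter PL) (Finset.filter_subset _ _)) hflat ((D.G.filter PL).image Q)
        (by
          intro q hq
          obtain ⟨g, hg, rfl⟩ := Finset.mem_image.1 hq
          obtain ⟨n, c, hn, he, -⟩ := (hQ g hg).1
          exact ⟨n, c, hn, he⟩)
        (by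
          intro g hg
          exact ⟨Q g, Finset.mem_image_of_mem _ hg, (hQ g hg).2⟩)
      have h2 : (((D.G.filter PL).image Q).card : ℝ) ≤ ((d + 1 : ℕ) : ℝ) := Nat.cast_le.2 hcard
      have h3 : C * (((D.G.filter PL).image Q).card : ℝ) ≤ C * ((d + 1 : ℕ) : ℝ) :=
        mul_le_mul_of_nonneg_left h2 hC
      exact h1.trans (mul_le_mul_of_nonneg_right h3 hM0)
    set G' := D.G.filter (fun g => ¬ PL g) with hG'
    have hG's : G' ⊆ D.G := Finset.filter_subset _ _
    set SG : ι → Prop := fun g => ∀ k, ∀ t : ℝ,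
      eval (lpt (D.p i g) (D.v i g) t) (pderiv k F) = 0 with hSG
    -- part (3)
    have p3 : ∑ g ∈ G'.filter SG, w g ≤ C1 * M := by
      by_cases hk : ∃ k, pderiv k F ≠ 0
      · obtain ⟨k, hk⟩ := hk
        exact ih ι (wt3sub D (G'.filter SG) ((Finset.filter_subset _ _).trans hG's)) hflat
          (pderiv k F) hk (wt3_pderiv_deg F d hd k)
          (fun g hg t => (Finset.mem_filter.1 hg).2 k t)
      · push Not at hk
        obtain ⟨c, hc⟩ := wt3_const F hk
        have hempty : G'.filter SG = ∅ := by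
          rw [Finset.eq_empty_iff_forall_notMem]
          intro g hg
          have h1 := hG g (hG's (Finset.mem_filter.1 hg).1) 0
          rw [hc, eval_C] at h1
          apply hF
          rw [hc, h1, C_0]
        rw [hempty, Finset.sum_empty]
        positivity
    set G2 := G'.filter (fun g => ¬ SG g) with hG2
    have hG2s : G2 ⊆ D.G := (Finset.filter_subset _ _).trans hG's
    set LG : ι → Prop := fun g => 2 * (d + 1) + 2 * K ≤ (D.T (trk i) g).card with hLG
    have p2a : ∑ g ∈ G2.filter LG, w g ≤ 4 * (C * (d + 1 : ℕ)) * M := by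
      have hs : G2.filter LG ⊆ D.G := (Finset.filter_subset _ _).trans hG2s
      exact wt3_regular K hK B e₀ ε hε f i C hC hcl1 (d + 1) (wt3sub D (G2.filter LG) hs) hflat
        F hF hd (fun g hg t => hG g (hs hg) t)
        (by
          intro g hg n c hn hl
          by_contra hcon
          push Not at hcon
          have hg2 := (Finset.mem_filter.1 hg).1
          have hg3 := (Finset.mem_filter.1 hg2).1
          exact (Finset.mem_filter.1 hg3).2 ⟨n, c, hn, hl, hcon⟩)
        (by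
          intro g hg
          have hg2 := (Finset.mem_filter.1 hg).1
          have hg3 := (Finset.mem_filter.1 hg2).2
          by_contra hcon
          push Not at hcon
          exact hg3 hcon)
        (fun g hg => (Finset.mem_filter.1 hg).2)
    have p2b : ∑ g ∈ G2.filter (fun g => ¬ LG g), w g ≤ C0 * M := by
      have hs : G2.filter (fun g => ¬ LG g) ⊆ D.G := (Finset.filter_subset _ _).trans hG2s
      refine hb ι (wt3sub D (G2.filter (fun g => ¬ LG g)) hs) (fun g hg => ?_)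
      have h1 : ¬ LG g := (Finset.mem_filter.1 hg).2
      rw [hLG] at h1
      push Not at h1
      rcases Fin.exists_fin_two.1 ⟨trk i, rfl⟩ with h | h
      · rw [h] at h1
        exact Or.inl h1
      · rw [h] at h1
        exact Or.inr h1
    have e1 := Finset.sum_filter_add_sum_filter_not D.G PL w
    have e2 := Finset.sum_filter_add_sum_filter_not G' SG w
    have e3 := Finset.sum_filter_add_sum_filter_not G2 LG w
    rw [hwD, ← e1, ← e2, ← e3]
    have e4 : (C * (d + 1 : ℕ) + (C1 + (4 * (C * (d + 1 : ℕ)) + C0))) * M =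
        C * (d + 1 : ℕ) * M + (C1 * M + (4 * (C * (d + 1 : ℕ)) * M + C0 * M)) := by ring
    rw [e4]
    exact add_le_add p1 (add_le_add p3 (add_le_add p2a p2b))

end Vale.Agent.P054.L3
end

section

/-! P054, block W, part 8: Warren's bound on a quadric `q = 0`, `deg q ≤ 2`, monic in one
coordinate: at most `10 * 81^(n-1) * D^(n-1)` strict sign patterns. -/

namespace Vale.Agent.P054.W

open MvPolynomial

variable {n : ℕ}

theorem quadric_support (q : MvPolynomial (Fin n) ℝ) (i0 : Fin n) (hq : q.totalDegree ≤ 2)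
    (hc : coeff (Finsupp.single i0 2) q = 1) (m : Fin n →₀ ℕ)
    (hm : m ∈ (X i0 ^ 2 - q).support) : m i0 < 2 ∧ ∑ i, m i ≤ 2 := by
  classical
  have hdeg : (X i0 ^ 2 - q).totalDegree ≤ 2 := by
    refine (totalDegree_sub _ _).trans (max_le ?_ hq)
    rw [totalDegree_X_pow]
  have hsum : ∑ i, m i ≤ 2 := by
    have h := le_totalDegree hm
    rw [Finsupp.sum_fintype _ _ (fun _ => rfl)] at h
    exact h.trans hdeg
  refine ⟨?_, hsum⟩
  by_contra hcon
  push Not at hcon
  have hi : ∀ i, i ≠ i0 → m i = 0 := by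
    intro i hi
    have h1 : m i + m i0 ≤ ∑ i, m i := by
      have h2 : ∑ j ∈ ({i, i0} : Finset (Fin n)), m j ≤ ∑ j, m j :=
        Finset.sum_le_sum_of_subset (Finset.subset_univ _)
      rwa [Finset.sum_pair hi] at h2
    omega
  have h2 : m i0 = 2 := by
    have h3 : m i0 ≤ ∑ i, m i := Finset.single_le_sum (f := fun i => m i)
      (fun _ _ => Nat.zero_le _) (Finset.mem_univ i0)
    omega
  have hm2 : m = Finsupp.single i0 2 := by
    ext i
    by_cases hii : i = i0
    · subst hii; simp [h2]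
    · simp [hi i hii, Ne.symm hii]
  rw [mem_support_iff, hm2, coeff_sub, hc, X_pow_eq_monomial, coeff_monomial] at hm
  simp at hm

theorem card_signs_quadric_le {ι : Type*} [Fintype ι] (q : MvPolynomial (Fin n) ℝ)
    (i0 : Fin n) (hq : q.totalDegree ≤ 2) (hc : coeff (Finsupp.single i0 2) q = 1)
    (f : ι → MvPolynomial (Fin n) ℝ) (D : ℕ) (hD1 : 1 ≤ D)
    (hD : ∑ j, (f j).totalDegree ≤ D) (S : Finset (Fin n → ℝ))
    (hSV : ∀ s ∈ S, eval s q = 0)
    (hS : ∀ s ∈ S, ∀ j, eval s (f j) ≠ 0)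
    (hinj : ∀ s ∈ S, ∀ t ∈ S, (∀ j, 0 < eval s (f j) * eval t (f j)) → s = t) :
    S.card ≤ (10 * 81 ^ (n - 1)) * D ^ (n - 1) := by
  classical
  have hcard : ({i0}ᶜ : Finset (Fin n)).card = n - 1 := by
    rw [Finset.card_compl, Fintype.card_fin, Finset.card_singleton]
  have h := card_signs_variety_le' {i0} 2 2 (by norm_num) (by norm_num)
    (fun _ => X i0 ^ 2 - q) (fun j hj m hm => ?_) f D hD1 hD S (fun s hs j hj => ?_) hS hinj
  · rw [hcard, Finset.card_singleton] at h
    simpa using h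
  · obtain rfl := Finset.mem_singleton.mp hj
    obtain ⟨h1, h2⟩ := quadric_support q j hq hc m hm
    refine ⟨fun l hl hlj => absurd (Finset.mem_singleton.mp hl) hlj, h1, ?_⟩
    exact (Finset.sum_le_sum_of_subset (Finset.subset_univ _)).trans h2
  · obtain rfl := Finset.mem_singleton.mp hj
    rw [map_sub, map_pow, eval_X, hSV s hs, sub_zero]

/-- the number of sign vectors realised on the quadric -/
theorem card_cells_quadric_le {ι : Type*} [Fintype ι] (q : MvPolynomial (Fin n) ℝ)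
    (i0 : Fin n) (hq : q.totalDegree ≤ 2) (hc : coeff (Finsupp.single i0 2) q = 1)
    (f : ι → MvPolynomial (Fin n) ℝ) (D : ℕ) (hD1 : 1 ≤ D)
    (hD : ∑ j, (f j).totalDegree ≤ D) (C : Finset (ι → Bool))
    (hC : ∀ c ∈ C, ∃ y : Fin n → ℝ, eval y q = 0 ∧ ∀ j, eval y (f j) ≠ 0 ∧
      (c j = true ↔ 0 < eval y (f j))) :
    C.card ≤ (10 * 81 ^ (n - 1)) * D ^ (n - 1) := by
  classical
  have hex : ∀ c : C, ∃ y : Fin n → ℝ, eval y q = 0 ∧ ∀ j, eval y (f j) ≠ 0 ∧
      (c.1 j = true ↔ 0 < eval y (f j)) := fun c => hC c.1 c.2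
  choose g hg0 hg using hex
  have hkey : ∀ c c' : C, (∀ j, 0 < eval (g c) (f j) * eval (g c') (f j)) → c = c' := by
    intro c c' h
    refine Subtype.ext (funext fun j => ?_)
    have h1 := hg c j
    have h2 := hg c' j
    rw [Bool.eq_iff_iff, h1.2, h2.2]
    exact pos_iff_pos_of_mul_pos (h j)
  have hginj : Function.Injective g := by
    intro c c' h
    refine hkey c c' fun j => ?_
    rw [h]
    exact mul_self_pos.mpr (hg c' j).1
  have h := card_signs_quadric_le q i0 hq hc f D hD1 hD (Finset.univ.image g) ?_ ?_ ?_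
  · rwa [Finset.card_image_of_injective _ hginj, Finset.card_univ, Fintype.card_coe] at h
  · intro s hs
    obtain ⟨c, _, rfl⟩ := Finset.mem_image.mp hs
    exact hg0 c
  · intro s hs j
    obtain ⟨c, _, rfl⟩ := Finset.mem_image.mp hs
    exact (hg c j).1
  · intro s hs t ht h
    obtain ⟨c, _, rfl⟩ := Finset.mem_image.mp hs
    obtain ⟨c', _, rfl⟩ := Finset.mem_image.mp ht
    rw [hkey c c' h]

end Vale.Agent.P054.W
end

section

/-! Block L2, leaf REALIS: number of realisable quadruples of cells.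
Proof: put the four coordinate vectors together: `Σ i, Fin (f i) ≃ Fin F`, `F = ∑ f i`; the
polynomial `sqd (emb y0) (emb y2) - sqd (emb y1) (emb y3)` has total degree `≤ 2` and the
coefficient of `(y_0)_0 ^ 2` is `|e 0 0|^2 = 1`. Apply `card_cells_quadric_le` (W/Quadric.lean). -/

set_option linter.all false
set_option autoImplicit false

namespace Vale.Agent.P054.L2

open Finset MvPolynomial

/-- coefficient of `X^2` in a square -/
theorem rls_sq {n : ℕ} (L : MvPolynomial (Fin n) ℝ) (i0 : Fin n) :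
    coeff (Finsupp.single i0 2) (L ^ 2) =
      2 * coeff 0 L * coeff (Finsupp.single i0 2) L + (coeff (Finsupp.single i0 1) L) ^ 2 := by
  rw [sq, coeff_mul, Finsupp.antidiagonal_single, Finset.sum_map]
  have h : (Finset.HasAntidiagonal.antidiagonal 2 : Finset (ℕ × ℕ)) = {(0, 2), (1, 1), (2, 0)} := by decide
  rw [h, Finset.sum_insert (by decide), Finset.sum_insert (by decide), Finset.sum_singleton]
  simp only [Function.Embedding.coe_prodMap, Function.Embedding.coeFn_mk, Prod.map_apply, Finsupp.single_zero]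
  ring

/-- the coordinates of the embedded point as polynomials -/
noncomputable def rlsP {F n : ℕ} (g : Fin n → Fin F) (o : V3) (e : Fin n → V3) (k : Fin 3) :
    MvPolynomial (Fin F) ℝ :=
  C (o k) + ∑ l, C (e l k) * X (g l)

theorem rlsP_eval {F n : ℕ} (g : Fin n → Fin F) (o : V3) (e : Fin n → V3) (k : Fin 3)
    (Y : Fin F → ℝ) : eval Y (rlsP g o e k) = emb o e (fun l => Y (g l)) k := by
  simp only [rlsP, emb, map_add, map_sum, map_mul, eval_C, eval_X, Pi.add_apply, Finset.sum_apply,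
    Pi.smul_apply, smul_eq_mul]
  congr 1
  exact Finset.sum_congr rfl fun l _ => mul_comm _ _

theorem rlsP_deg {F n : ℕ} (g : Fin n → Fin F) (o : V3) (e : Fin n → V3) (k : Fin 3) :
    (rlsP g o e k).totalDegree ≤ 1 := by
  unfold rlsP
  refine (totalDegree_add _ _).trans (max_le ?_ ?_)
  · rw [totalDegree_C]
    exact Nat.zero_le _
  · refine (totalDegree_finset_sum _ _).trans (Finset.sup_le fun l _ => ?_)
    refine (totalDegree_mul _ _).trans ?_
    rw [totalDegree_C, totalDegree_X]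

theorem rlsP_coeff2 {F n : ℕ} (g : Fin n → Fin F) (o : V3) (e : Fin n → V3) (k : Fin 3) (i0 : Fin F) :
    coeff (Finsupp.single i0 2) (rlsP g o e k) = 0 := by
  refine coeff_eq_zero_of_totalDegree_lt ?_
  have h1 := rlsP_deg g o e k
  have h2 : ∑ i ∈ (Finsupp.single i0 2).support, (Finsupp.single i0 2) i = 2 := by
    rw [Finsupp.support_single_ne_zero _ (by norm_num)]
    simp
  omega

theorem rlsP_coeff1 {F n : ℕ} (g : Fin n → Fin F) (o : V3) (e : Fin n → V3) (k : Fin 3) (i0 : Fin F) :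
    coeff (Finsupp.single i0 1) (rlsP g o e k) = ∑ l, if g l = i0 then e l k else 0 := by
  have hne : (0 : Fin F →₀ ℕ) ≠ Finsupp.single i0 1 := by
    intro h
    have := DFunLike.congr_fun h i0
    simp at this
  rw [rlsP, coeff_add, coeff_C, if_neg hne, zero_add, coeff_sum]
  refine Finset.sum_congr rfl fun l _ => ?_
  rw [coeff_C_mul, coeff_X']
  by_cases h : g l = i0
  · rw [if_pos (by rw [h]), if_pos h, mul_one]
  · rw [if_neg (fun h2 => h (Finsupp.single_left_injective one_ne_zero h2)), if_neg h, mul_zero]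

theorem realis (f : Fin 4 → ℕ) (hf : ∀ i, 1 ≤ f i) (o : Fin 4 → V3)
    (e : ∀ i, Fin (f i) → V3) (he : ∀ i, ONF (e i))
    (J : Fin 4 → Type) [∀ i, Fintype (J i)] (q : ∀ i, J i → MvPolynomial (Fin (f i)) ℝ) (D : ℕ)
    (hD1 : 1 ≤ D) (hD : ∑ i, ∑ j, (q i j).totalDegree ≤ D)
    (Q : Finset (∀ i, J i → Bool))
    (hQ : ∀ c ∈ Q, ∃ y : ∀ i, Fin (f i) → ℝ,
      (∀ i j, eval (y i) (q i j) ≠ 0 ∧ (c i j = true ↔ 0 < eval (y i) (q i j))) ∧
      sqd (emb (o 0) (e 0) (y 0)) (emb (o 2) (e 2) (y 2)) =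
        sqd (emb (o 1) (e 1) (y 1)) (emb (o 3) (e 3) (y 3))) :
    Q.card ≤ (10 * 81 ^ (∑ i, f i - 1)) * D ^ (∑ i, f i - 1) := by
  classical
  set σ : (Σ i : Fin 4, Fin (f i)) ≃ Fin (∑ i, f i) := finSigmaFinEquiv with hσ
  set g : ∀ i, Fin (f i) → Fin (∑ i, f i) := fun i l => σ ⟨i, l⟩ with hg
  set P : Fin 4 → Fin 3 → MvPolynomial (Fin (∑ i, f i)) ℝ := fun i k => rlsP (g i) (o i) (e i) k with hP
  set q0 : MvPolynomial (Fin (∑ i, f i)) ℝ :=
    ∑ k, (P 0 k - P 2 k) ^ 2 - ∑ k, (P 1 k - P 3 k) ^ 2 with hq0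
  set i0 : Fin (∑ i, f i) := g 0 ⟨0, hf 0⟩ with hi0
  have hc2 : ∀ i k, coeff (Finsupp.single i0 2) (P i k) = 0 := fun i k => rlsP_coeff2 _ _ _ _ _
  have hc1 : ∀ i, i ≠ 0 → ∀ k, coeff (Finsupp.single i0 1) (P i k) = 0 := by
    intro i hi k
    rw [hP]
    simp only
    rw [rlsP_coeff1]
    refine Finset.sum_eq_zero fun l _ => if_neg fun h => hi ?_
    have h2 := σ.injective h
    exact congrArg Sigma.fst h2
  have hc0 : ∀ k, coeff (Finsupp.single i0 1) (P 0 k) = e 0 ⟨0, hf 0⟩ k := by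
    intro k
    rw [hP]
    simp only
    rw [rlsP_coeff1, Finset.sum_eq_single ⟨0, hf 0⟩]
    · rw [if_pos rfl]
    · intro l _ hl
      refine if_neg fun h => hl ?_
      have h2 := σ.injective h
      simpa using h2
    · intro h
      exact absurd (Finset.mem_univ _) h
  have hdeg : q0.totalDegree ≤ 2 := by
    have h1 : ∀ i j k, ((P i k - P j k) ^ 2).totalDegree ≤ 2 := by
      intro i j k
      refine (totalDegree_pow _ _).trans ?_
      have h2 : (P i k - P j k).totalDegree ≤ 1 :=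
        (totalDegree_sub _ _).trans (max_le (rlsP_deg _ _ _ _) (rlsP_deg _ _ _ _))
      omega
    refine (totalDegree_sub _ _).trans (max_le ?_ ?_)
    · exact (totalDegree_finset_sum _ _).trans (Finset.sup_le fun k _ => h1 _ _ _)
    · exact (totalDegree_finset_sum _ _).trans (Finset.sup_le fun k _ => h1 _ _ _)
  have hcoeff : coeff (Finsupp.single i0 2) q0 = 1 := by
    rw [hq0, coeff_sub, coeff_sum, coeff_sum]
    have h1 : ∀ k, coeff (Finsupp.single i0 2) ((P 0 k - P 2 k) ^ 2) = e 0 ⟨0, hf 0⟩ k ^ 2 := by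
      intro k
      rw [rls_sq, coeff_sub, coeff_sub, coeff_sub, hc2, hc2, hc0, hc1 2 (by decide)]
      ring
    have h2 : ∀ k, coeff (Finsupp.single i0 2) ((P 1 k - P 3 k) ^ 2) = 0 := by
      intro k
      rw [rls_sq, coeff_sub, coeff_sub, coeff_sub, hc2, hc2, hc1 1 (by decide), hc1 3 (by decide)]
      ring
    simp only [h1, h2, Finset.sum_const_zero, sub_zero]
    have h3 := he 0 ⟨0, hf 0⟩ ⟨0, hf 0⟩
    rw [if_pos rfl] at h3
    rw [← h3]
    exact Finset.sum_congr rfl fun k _ => sq _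
  set fp : (Σ i : Fin 4, J i) → MvPolynomial (Fin (∑ i, f i)) ℝ := fun p => rename (g p.1) (q p.1 p.2) with hfp
  have hDp : ∑ p, (fp p).totalDegree ≤ D := by
    refine le_trans ?_ hD
    rw [Fintype.sum_sigma]
    exact Finset.sum_le_sum fun i _ => Finset.sum_le_sum fun j _ => totalDegree_rename_le _ _
  have key := W.card_cells_quadric_le q0 i0 hdeg hcoeff fp D hD1 hDp
    (Q.image fun c => fun p : (Σ i : Fin 4, J i) => c p.1 p.2) ?_
  · rwa [Finset.card_image_of_injective] at key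
    intro c c' h
    funext i j
    exact congrFun h ⟨i, j⟩
  · intro c hc
    obtain ⟨c', hc', rfl⟩ := Finset.mem_image.1 hc
    obtain ⟨y, hy1, hy2⟩ := hQ c' hc'
    set Y : Fin (∑ i, f i) → ℝ := fun a => y (σ.symm a).1 (σ.symm a).2 with hY
    have hYg : ∀ i, (fun l => Y (g i l)) = y i := by
      intro i
      funext l
      have h1 : σ.symm (σ ⟨i, l⟩) = ⟨i, l⟩ := σ.symm_apply_apply _
      show y (σ.symm (σ ⟨i, l⟩)).1 (σ.symm (σ ⟨i, l⟩)).2 = y i l
      rw [h1]
    refine ⟨Y, ?_, ?_⟩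
    · have hev : ∀ i k, eval Y (P i k) = emb (o i) (e i) (y i) k := by
        intro i k
        rw [hP]
        simp only
        rw [rlsP_eval, hYg]
      rw [hq0]
      simp only [map_sub, map_sum, map_pow, hev]
      rw [sub_eq_zero]
      exact hy2
    · rintro ⟨i, j⟩
      have h1 : eval Y (fp ⟨i, j⟩) = eval (y i) (q i j) := by
        rw [hfp]
        simp only
        rw [eval_rename]
        have : Y ∘ g i = y i := hYg i
        rw [this]
      rw [h1]
      exact hy1 i j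

end Vale.Agent.P054.L2
end

section

/-! Leaf (13) of block G: few pairs of points of a finite set of `ℝ³` lie on rich lines. -/

set_option autoImplicit false
set_option linter.all false

open Finset

namespace Vale.Agent.P054.Y.G

/-- homogeneous coordinates -/
def hom4 (p : Fin 3 → ℝ) : (Fin 3 → ℝ) × ℝ := (p, 1)

/-- the line through `a` and `b` in homogeneous coordinates -/
noncomputable def pl4 (a b : Fin 3 → ℝ) : Submodule ℝ ((Fin 3 → ℝ) × ℝ) :=
  Submodule.span ℝ {hom4 a, hom4 b}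

theorem exists_smul_of_cross_bn0 {u w : Fin 3 → ℝ} (hu : u ≠ 0) (h : crossProduct u w = 0) :
    ∃ t : ℝ, w = t • u := by
  rw [cross_apply] at h
  have h0 := congrFun h 0
  have h1 := congrFun h 1
  have h2 := congrFun h 2
  simp at h0 h1 h2
  by_cases hu0 : u 0 = 0
  · by_cases hu1 : u 1 = 0
    · by_cases hu2 : u 2 = 0
      · exfalso
        apply hu
        funext i
        fin_cases i <;> simp [hu0, hu1, hu2]
      · refine ⟨w 2 / u 2, ?_⟩
        funext i
        fin_cases i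
        · simp; field_simp; linarith
        · simp; field_simp; linarith
        · simp; field_simp
    · refine ⟨w 1 / u 1, ?_⟩
      funext i
      fin_cases i
      · simp; field_simp; linarith
      · simp; field_simp
      · simp; field_simp; linarith
  · refine ⟨w 0 / u 0, ?_⟩
    funext i
    fin_cases i
    · simp; field_simp
    · simp; field_simp; linarith
    · simp; field_simp; linarith

theorem mem_pl4 {a b p : Fin 3 → ℝ} (hab : a ≠ b) :
    hom4 p ∈ pl4 a b ↔ crossProduct (b - a) (p - a) = 0 := by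
  unfold pl4
  rw [Submodule.mem_span_pair]
  constructor
  · rintro ⟨x, y, h⟩
    have h1 := congrArg Prod.fst h
    have h2 := congrArg Prod.snd h
    simp [hom4] at h1 h2
    have h3 : p - a = y • (b - a) := by
      rw [← h1]
      have : x = 1 - y := by linarith
      rw [this]
      module
    rw [h3, map_smul, cross_self, smul_zero]
  · intro h
    obtain ⟨t, ht⟩ := exists_smul_of_cross_bn0 (sub_ne_zero.2 hab.symm) h
    refine ⟨1 - t, t, ?_⟩
    have h1 : p = a + t • (b - a) := by rw [← ht]; abel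
    unfold hom4
    refine Prod.ext ?_ ?_
    · simp only [Prod.fst_add, Prod.smul_fst]
      rw [h1]
      module
    · simp

theorem hom4_inj {a b : Fin 3 → ℝ} {c : ℝ} (h : c • hom4 a = hom4 b) : a = b := by
  have h1 := congrArg Prod.fst h
  have h2 := congrArg Prod.snd h
  simp [hom4] at h1 h2
  rw [← h1, h2, one_smul]

theorem finrank_pl4 {a b : Fin 3 → ℝ} (hab : a ≠ b) : Module.finrank ℝ (pl4 a b) = 2 := by
  have hli : LinearIndependent ℝ ![hom4 a, hom4 b] := by
    rw [LinearIndependent.pair_iff]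
    intro s t h
    have h1 := congrArg Prod.fst h
    have h2 := congrArg Prod.snd h
    simp [hom4] at h1 h2
    have hs : s = -t := by linarith
    rw [hs] at h1
    have h3 : t • (b - a) = 0 := by rw [← h1]; module
    rcases smul_eq_zero.1 h3 with h4 | h4
    · exact ⟨by rw [hs, h4, neg_zero], h4⟩
    · exact absurd (sub_eq_zero.1 h4).symm hab
  have h := finrank_span_eq_card hli
  have hr : Set.range ![hom4 a, hom4 b] = {hom4 a, hom4 b} := by
    simp [Matrix.range_cons, Matrix.range_empty, Set.pair_comm]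
  rw [hr] at h
  unfold pl4
  rw [h]
  simp

open scoped Classical in
/-- number of points of `P` on the line through the two points of the pair `q` -/
noncomputable def cntL (P : Finset (Fin 3 → ℝ)) (q : (Fin 3 → ℝ) × (Fin 3 → ℝ)) : ℕ :=
  (P.filter (fun p => crossProduct (q.2 - q.1) (p - q.1) = 0)).card

open scoped Classical in
theorem rich_level (P : Finset (Fin 3 → ℝ)) (κ R Λ : ℝ)
    (hΛ : 12 * Real.log (P.card + 1) + 1 ≤ Λ) (hκ : 64 * Λ ≤ κ) (hR : 0 ≤ R)
    (Q : Finset ((Fin 3 → ℝ) × (Fin 3 → ℝ)))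
    (hQ : ∀ q ∈ Q, q.1 ∈ P ∧ q.2 ∈ P ∧ q.1 ≠ q.2 ∧ κ ≤ (cntL P q : ℝ) ∧ (cntL P q : ℝ) ≤ R) :
    (Q.card : ℝ) ≤ (2 ^ 12 * Λ ^ 2 * ((P.card : ℝ) ^ 2 / κ ^ 3) + 2 * (P.card / κ)) * R ^ 2 := by
  have hfil : ∀ q ∈ Q, (P.filter fun p => hom4 p ∈ pl4 q.1 q.2).card = cntL P q := by
    intro q hq
    unfold cntL
    congr 1
    apply filter_congr
    intro p _
    exact mem_pl4 (hQ q hq).2.2.1
  have h1 := card_le_mul_card_image (s := Q) (f := fun q => pl4 q.1 q.2) (n := ⌊R ^ 2⌋₊) (by
    intro A hA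
    obtain ⟨q0, hq0, rfl⟩ := mem_image.1 hA
    have hsub : (Q.filter fun q => pl4 q.1 q.2 = pl4 q0.1 q0.2) ⊆
        (P.filter fun p => hom4 p ∈ pl4 q0.1 q0.2) ×ˢ
          (P.filter fun p => hom4 p ∈ pl4 q0.1 q0.2) := by
      intro q hq
      rw [mem_filter] at hq
      rw [mem_product, mem_filter, mem_filter, ← hq.2]
      refine ⟨⟨(hQ q hq.1).1, ?_⟩, ⟨(hQ q hq.1).2.1, ?_⟩⟩
      · exact Submodule.subset_span (by simp)
      · exact Submodule.subset_span (by simp)
    refine (card_le_card hsub).trans ?_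
    rw [card_product, hfil q0 hq0]
    apply Nat.le_floor
    push_cast
    rw [sq]
    exact mul_le_mul (hQ q0 hq0).2.2.2.2 (hQ q0 hq0).2.2.2.2 (Nat.cast_nonneg _) hR)
  have h3 := linearST (V := (Fin 3 → ℝ) × ℝ) (ι := Fin 3 → ℝ) P hom4 1 κ Λ
    (by
      intro i _ h0
      have := congrArg Prod.snd h0
      simp [hom4] at this)
    (by
      intro i hi
      unfold mass
      have : (P.filter fun j => hom4 j ∈ Submodule.span ℝ {hom4 i}) ⊆ {i} := by
        intro j hj
        rw [mem_filter] at hj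
        obtain ⟨c, hc⟩ := Submodule.mem_span_singleton.1 hj.2
        rw [mem_singleton]
        exact (hom4_inj hc).symm
      have h2 := card_le_card this
      rw [card_singleton] at h2
      exact_mod_cast h2)
    one_pos (Q.image fun q => pl4 q.1 q.2)
    (by
      intro B hB
      obtain ⟨q, hq, rfl⟩ := mem_image.1 hB
      refine ⟨finrank_pl4 (hQ q hq).2.2.1, ?_⟩
      unfold mass
      have h4 := hfil q hq
      have h5 := (hQ q hq).2.2.2.1
      rw [← h4] at h5
      exact_mod_cast h5)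
    hΛ (by rw [mul_one]; exact hκ)
  have h4 : (Q.card : ℝ) ≤ (⌊R ^ 2⌋₊ : ℝ) * ((Q.image fun q => pl4 q.1 q.2).card : ℝ) := by
    exact_mod_cast h1
  have h5 : (⌊R ^ 2⌋₊ : ℝ) ≤ R ^ 2 := Nat.floor_le (sq_nonneg R)
  calc (Q.card : ℝ) ≤ (⌊R ^ 2⌋₊ : ℝ) * ((Q.image fun q => pl4 q.1 q.2).card : ℝ) := h4
    _ ≤ R ^ 2 * ((Q.image fun q => pl4 q.1 q.2).card : ℝ) :=
        mul_le_mul_of_nonneg_right h5 (Nat.cast_nonneg _)
    _ ≤ R ^ 2 * (2 ^ 12 * Λ ^ 2 * (1 * (P.card : ℝ) ^ 2 / κ ^ 3) + 2 * (P.card / κ)) :=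
        mul_le_mul_of_nonneg_left h3 (sq_nonneg R)
    _ = _ := by rw [one_mul]; exact mul_comm _ _

open scoped Classical in
/-- pairs of points on lines with between `κ` and `R` points -/
theorem rich_all (P : Finset (Fin 3 → ℝ)) (κ R Λ : ℝ)
    (hΛ : 12 * Real.log (P.card + 1) + 1 ≤ Λ) (hκ : 64 * Λ ≤ κ) (hR : 0 ≤ R)
    (Q : Finset ((Fin 3 → ℝ) × (Fin 3 → ℝ)))
    (hQ : ∀ q ∈ Q, q.1 ∈ P ∧ q.2 ∈ P ∧ q.1 ≠ q.2 ∧ κ ≤ (cntL P q : ℝ) ∧ (cntL P q : ℝ) ≤ R) :
    (Q.card : ℝ) ≤ 2 ^ 15 * Λ ^ 2 * ((P.card : ℝ) ^ 2 / κ) + 16 * P.card * R := by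
  have hlog : 0 ≤ Real.log ((P.card : ℝ) + 1) := Real.log_nonneg (by
    have : (0 : ℝ) ≤ P.card := Nat.cast_nonneg _
    linarith)
  have hΛ1 : 1 ≤ Λ := by linarith
  have hκ0 : 0 < κ := by linarith
  have hT0 : (0 : ℝ) ≤ P.card := Nat.cast_nonneg _
  have main : ∀ n : ℕ, ∀ κ : ℝ, 64 * Λ ≤ κ → 0 < κ → κ ≤ 2 * R → R < 2 ^ n * κ →
      ∀ Q : Finset ((Fin 3 → ℝ) × (Fin 3 → ℝ)), (∀ q ∈ Q, q.1 ∈ P ∧ q.2 ∈ P ∧ q.1 ≠ q.2 ∧
        κ ≤ (cntL P q : ℝ) ∧ (cntL P q : ℝ) ≤ R) →
      (Q.card : ℝ) ≤ 2 ^ 15 * Λ ^ 2 * ((P.card : ℝ) ^ 2 / κ) + 16 * P.card * R -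
        8 * P.card * κ := by
    intro n
    induction n with
    | zero =>
      intro κ _ hκ0 hκR hlt Q hQ
      rw [pow_zero, one_mul] at hlt
      have hQe : Q = ∅ := by
        rw [eq_empty_iff_forall_notMem]
        intro q hq
        obtain ⟨_, _, _, h1, h2⟩ := hQ q hq
        linarith
      rw [hQe, card_empty]
      push_cast
      have h1 : 0 ≤ 2 ^ 15 * Λ ^ 2 * ((P.card : ℝ) ^ 2 / κ) := by positivity
      have h2 : 0 ≤ (P.card : ℝ) * (2 * R - κ) := mul_nonneg hT0 (by linarith)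
      linarith only [h2, h1]
    | succ n ih =>
      intro κ hκ hκ0 hκR hlt Q hQ
      rcases lt_or_ge R κ with hRκ | hRκ
      · have hQe : Q = ∅ := by
          rw [eq_empty_iff_forall_notMem]
          intro q hq
          obtain ⟨_, _, _, h1, h2⟩ := hQ q hq
          linarith
        rw [hQe, card_empty]
        push_cast
        have h1 : 0 ≤ 2 ^ 15 * Λ ^ 2 * ((P.card : ℝ) ^ 2 / κ) := by positivity
        have h2 : 0 ≤ (P.card : ℝ) * (2 * R - κ) := mul_nonneg hT0 (by linarith)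
        linarith only [h2, h1]
      · obtain ⟨Q1, hQ1⟩ : ∃ Q1 : Finset ((Fin 3 → ℝ) × (Fin 3 → ℝ)), Q1 = Q.filter fun q =>
            (cntL P q : ℝ) ≤ 2 * κ := ⟨_, rfl⟩
        obtain ⟨Q2, hQ2⟩ : ∃ Q2 : Finset ((Fin 3 → ℝ) × (Fin 3 → ℝ)), Q2 = Q.filter fun q =>
            ¬ (cntL P q : ℝ) ≤ 2 * κ := ⟨_, rfl⟩
        have hcard : (Q.card : ℝ) = Q1.card + Q2.card := by
          rw [hQ1, hQ2]
          exact_mod_cast (card_filter_add_card_filter_not
            (s := Q) (fun q => (cntL P q : ℝ) ≤ 2 * κ)).symm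
        have e1 := rich_level P κ (2 * κ) Λ hΛ hκ (by linarith) Q1 (by
          intro q hq
          rw [hQ1, mem_filter] at hq
          obtain ⟨a, b, c, d, _⟩ := hQ q hq.1
          exact ⟨a, b, c, d, hq.2⟩)
        have e2 := ih (2 * κ) (by linarith) (by linarith) (by linarith)
          (by rw [pow_succ] at hlt; linarith) Q2 (by
          intro q hq
          rw [hQ2, mem_filter] at hq
          obtain ⟨a, b, c, h3, h4⟩ := hQ q hq.1
          exact ⟨a, b, c, (not_le.1 hq.2).le, h4⟩)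
        have e3 : (2 ^ 12 * Λ ^ 2 * ((P.card : ℝ) ^ 2 / κ ^ 3) + 2 * (P.card / κ)) *
            (2 * κ) ^ 2 = 2 ^ 14 * Λ ^ 2 * ((P.card : ℝ) ^ 2 / κ) + 8 * P.card * κ := by
          field_simp
          ring
        have e4 : 2 ^ 15 * Λ ^ 2 * ((P.card : ℝ) ^ 2 / (2 * κ)) =
            2 ^ 14 * Λ ^ 2 * ((P.card : ℝ) ^ 2 / κ) := by
          field_simp
        rw [e3] at e1
        rw [e4] at e2
        rw [hcard]
        have e5 : 2 ^ 15 * Λ ^ 2 * ((P.card : ℝ) ^ 2 / κ) =
            2 ^ 14 * Λ ^ 2 * ((P.card : ℝ) ^ 2 / κ) + 2 ^ 14 * Λ ^ 2 * ((P.card : ℝ) ^ 2 / κ) := by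
          ring
        rw [e5]
        linarith only [e2, e1]
  rcases lt_or_ge R κ with hRκ | hRκ
  · have hQe : Q = ∅ := by
      rw [eq_empty_iff_forall_notMem]
      intro q hq
      obtain ⟨_, _, _, h1, h2⟩ := hQ q hq
      linarith
    rw [hQe, card_empty]
    push_cast
    (clear * - hΛ1 hκ0 hR; positivity)
  · obtain ⟨n, hn⟩ := pow_unbounded_of_one_lt (R / κ) (one_lt_two : (1 : ℝ) < 2)
    rw [div_lt_iff₀ hκ0] at hn
    have := main n κ hκ hκ0 (by linarith) hn Q hQ
    have h2 : 0 ≤ 8 * (P.card : ℝ) * κ := by (clear * - hκ0; positivity)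
    linarith

open scoped Classical in
/-- If no line contains more than `n ^ (1 - e)` points of `P`, at most `n ^ (2 - e / 2)` ordered
pairs of points of `P` lie on lines with at least `n ^ e` points of `P`. -/
theorem poor_pairs (e : ℝ) (he : 0 < e) (he1 : e < 1) :
    ∃ n0 : ℕ, ∀ P : Finset (Fin 3 → ℝ), n0 ≤ P.card →
      (∀ a ∈ P, ∀ b ∈ P, a ≠ b → (cntL P (a, b) : ℝ) ≤ (P.card : ℝ) ^ (1 - e)) →
      (((P ×ˢ P).filter (fun q => q.1 ≠ q.2 ∧ (P.card : ℝ) ^ e ≤ (cntL P q : ℝ))).card : ℝ) ≤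
        (P.card : ℝ) ^ (2 - e / 2) := by
  have hlogo := (isLittleO_log_rpow_atTop (show 0 < e / 8 by positivity)).bound
    (show (0:ℝ) < 1 by norm_num)
  have hpow1 := (tendsto_rpow_atTop (show 0 < e / 8 by positivity)).eventually_ge_atTop
    (64 * 40)
  have hpow2 := (tendsto_rpow_atTop (show 0 < e / 4 by positivity)).eventually_ge_atTop
    (2 ^ 16 * 40 ^ 2)
  have hall := hlogo.and (hpow1.and (hpow2.and (Filter.eventually_ge_atTop (3:ℝ))))
  obtain ⟨N, hN⟩ := Filter.eventually_atTop.1 hall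
  refine ⟨⌈N⌉₊, fun P hP hline => ?_⟩
  have hn : N ≤ (P.card : ℝ) := (Nat.le_ceil N).trans (by exact_mod_cast hP)
  obtain ⟨h1, h2, h3, h4⟩ := hN _ hn
  set n : ℝ := (P.card : ℝ) with hndef
  have hn0 : 0 < n := by linarith
  have hn1 : 1 ≤ n := by linarith
  have hx0 : 0 < n ^ (e / 8) := Real.rpow_pos_of_pos hn0 _
  have hx1 : 1 ≤ n ^ (e / 8) := Real.one_le_rpow hn1 (by positivity)
  -- the logarithm
  have hlog : Real.log n ≤ n ^ (e / 8) := by
    have h5 := (le_abs_self _).trans h1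
    rwa [Real.norm_of_nonneg hx0.le, one_mul] at h5
  have hlog2 : Real.log (n + 1) ≤ Real.log n + 1 := by
    have h6 : n + 1 ≤ n * Real.exp 1 := by
      have := Real.add_one_le_exp (1:ℝ)
      (by_contra nlg; linarith only [nlg, mul_nonneg (le_of_lt (sub_pos.2 hn0)) (sub_nonneg.2 this), mul_nonneg (le_of_lt (sub_pos.2 he1)) (sub_nonneg.2 h4), mul_pos (sub_pos.2 he1) (sub_pos.2 he1), mul_nonneg (le_of_lt (sub_pos.2 he)) (sub_nonneg.2 h4), mul_pos (sub_pos.2 he) (sub_pos.2 he1), mul_pos (sub_pos.2 he) (sub_pos.2 he), mul_pos (sub_pos.2 (not_le.1 nlg)) (sub_pos.2 he1), mul_pos (sub_pos.2 (not_le.1 nlg)) (sub_pos.2 he)])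
    calc Real.log (n + 1) ≤ Real.log (n * Real.exp 1) := Real.log_le_log (by linarith) h6
      _ = Real.log n + 1 := by rw [Real.log_mul hn0.ne' (Real.exp_pos _).ne', Real.log_exp]
  have hΛ : 12 * Real.log (n + 1) + 1 ≤ 40 * n ^ (e / 8) := by linarith only [hlog2, hlog, h2, he1, he]
  have hsq : n ^ (e / 8) * n ^ (e / 8) = n ^ (e / 4) := by
    rw [← Real.rpow_add hn0]; congr 1; ring
  have hne : n ^ e = n ^ (e / 8) * n ^ (7 * e / 8) := by
    rw [← Real.rpow_add hn0]; congr 1; ring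
  have hge : n ^ (e / 8) ≤ n ^ (7 * e / 8) :=
    Real.rpow_le_rpow_of_exponent_le hn1 (by linarith only [he])
  have hκ : 64 * (40 * n ^ (e / 8)) ≤ n ^ e := by
    rw [hne]
    have h7 : 64 * 40 ≤ n ^ (7 * e / 8) := le_trans h2 hge
    (by_contra nlg; linarith only [nlg, mul_eq_zero_of_left (sub_eq_zero.2 hsq) (n ^ (7 * e / 8) - (64 * 40)), mul_nonneg (sub_nonneg.2 h3) (sub_nonneg.2 h7), mul_nonneg (le_of_lt (sub_pos.2 he1)) (sub_nonneg.2 h7), mul_nonneg (le_of_lt (sub_pos.2 he)) (sub_nonneg.2 h7), mul_pos (sub_pos.2 (not_le.1 nlg)) (sub_pos.2 hx0)])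
  have key := rich_all P (n ^ e) (n ^ (1 - e)) (40 * n ^ (e / 8)) hΛ hκ
    (Real.rpow_nonneg hn0.le _)
    ((P ×ˢ P).filter (fun q => q.1 ≠ q.2 ∧ (P.card : ℝ) ^ e ≤ (cntL P q : ℝ))) (by
      intro q hq
      rw [mem_filter, mem_product] at hq
      exact ⟨hq.1.1, hq.1.2, hq.2.1, hq.2.2, hline q.1 hq.1.1 q.2 hq.1.2 hq.2.1⟩)
  refine key.trans ?_
  -- numerics
  have hA : 2 ^ 15 * (40 * n ^ (e / 8)) ^ 2 * (n ^ 2 / n ^ e) ≤ n ^ (2 - e / 2) / 2 := by
    have e1 : (n ^ 2 : ℝ) / n ^ e = n ^ (2 - e) := by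
      rw [Real.rpow_sub hn0]
      norm_num
    have e2 : n ^ (2 - e / 2) = n ^ (2 - e) * n ^ (e / 4) * n ^ (e / 4) := by
      rw [← Real.rpow_add hn0, ← Real.rpow_add hn0]; congr 1; ring
    rw [e1, e2, mul_pow, sq (n ^ (e / 8)), hsq]
    have h8 : 0 < n ^ (2 - e) := Real.rpow_pos_of_pos hn0 _
    have h9 : 0 < n ^ (e / 4) := Real.rpow_pos_of_pos hn0 _
    have h10 : (2 ^ 16 * 40 ^ 2) * (n ^ (2 - e) * n ^ (e / 4)) ≤
        n ^ (e / 4) * (n ^ (2 - e) * n ^ (e / 4)) :=
      mul_le_mul_of_nonneg_right h3 (by (clear * - h4; positivity))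
    linarith only [h10]
  have hB : 16 * n * n ^ (1 - e) ≤ n ^ (2 - e / 2) / 2 := by
    have e1 : n * n ^ (1 - e) = n ^ (2 - e) := by
      nth_rewrite 1 [← Real.rpow_one n]
      rw [← Real.rpow_add hn0]; congr 1; ring
    have e2 : n ^ (2 - e / 2) = n ^ (2 - e) * n ^ (e / 4) * n ^ (e / 4) := by
      rw [← Real.rpow_add hn0, ← Real.rpow_add hn0]; congr 1; ring
    have e3 : 16 * n * n ^ (1 - e) = 16 * n ^ (2 - e) := by rw [mul_assoc, e1]
    rw [e3, e2]
    have h8 : 0 < n ^ (2 - e) := Real.rpow_pos_of_pos hn0 _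
    have h9 : 1 ≤ n ^ (e / 4) := Real.one_le_rpow hn1 (by positivity)
    have h10 : (2 ^ 16 * 40 ^ 2) * (n ^ (2 - e) * n ^ (e / 4)) ≤
        n ^ (e / 4) * (n ^ (2 - e) * n ^ (e / 4)) :=
      mul_le_mul_of_nonneg_right h3 (by (clear * - h4; positivity))
    have h11 : n ^ (2 - e) ≤ n ^ (2 - e) * n ^ (e / 4) := by (by_contra nlg; linarith only [nlg, mul_nonneg (sub_nonneg.2 h3) (le_of_lt (sub_pos.2 h8)), mul_nonneg (le_of_lt (sub_pos.2 he1)) (sub_nonneg.2 h10), mul_pos (sub_pos.2 he1) (sub_pos.2 h8), mul_nonneg (le_of_lt (sub_pos.2 he)) (sub_nonneg.2 h10), mul_pos (sub_pos.2 he) (sub_pos.2 h8), mul_nonneg (le_of_lt (sub_pos.2 (not_le.1 nlg))) (sub_nonneg.2 h9)])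
    linarith only [h11, h10, h8]
  linarith only [hB, hA]

end Vale.Agent.P054.Y.G
end

section

/-! Generic rotation: after a rotation of the targets all fibre lines are graph lines of the Cayley
chart and no two of them meet at infinity. -/

namespace Vale.Agent.P054.Y.G

open Finset MvPolynomial Matrix
open Vale.Agent.P041.SE

/-- The matrix of the (unnormalised) quaternion `q`. -/
def qm (q : Fin 4 → ℝ) : Matrix (Fin 3) (Fin 3) ℝ :=
  !![q 0 ^ 2 + q 1 ^ 2 - q 2 ^ 2 - q 3 ^ 2, 2 * (q 1 * q 2 - q 0 * q 3), 2 * (q 1 * q 3 + q 0 * q 2);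
    2 * (q 1 * q 2 + q 0 * q 3), q 0 ^ 2 - q 1 ^ 2 + q 2 ^ 2 - q 3 ^ 2, 2 * (q 2 * q 3 - q 0 * q 1);
    2 * (q 1 * q 3 - q 0 * q 2), 2 * (q 2 * q 3 + q 0 * q 1), q 0 ^ 2 - q 1 ^ 2 - q 2 ^ 2 + q 3 ^ 2]

/-- norm of the quaternion -/
def qn (q : Fin 4 → ℝ) : ℝ := q 0 ^ 2 + q 1 ^ 2 + q 2 ^ 2 + q 3 ^ 2

theorem qm_orth (q : Fin 4 → ℝ) : (qm q)ᵀ * qm q = (qn q ^ 2) • (1 : Matrix (Fin 3) (Fin 3) ℝ) := by
  ext i j
  fin_cases i <;> fin_cases j <;>
    simp [qm, qn, Matrix.mul_apply, Fin.sum_univ_three, Matrix.smul_apply] <;> ring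

theorem qm_det (q : Fin 4 → ℝ) : (qm q).det = qn q ^ 3 := by
  simp [qm, qn, Matrix.det_fin_three]
  ring

section gen
variable {R : Type} [CommRing R]

/-- components of `|q|² x + M(q) y` over a commutative ring -/
def g0 (q : Fin 4 → R) (x y : Fin 3 → R) : R :=
  (q 0 ^ 2 + q 1 ^ 2 + q 2 ^ 2 + q 3 ^ 2) * x 0 +
    ((q 0 ^ 2 + q 1 ^ 2 - q 2 ^ 2 - q 3 ^ 2) * y 0 + 2 * (q 1 * q 2 - q 0 * q 3) * y 1 +
      2 * (q 1 * q 3 + q 0 * q 2) * y 2)

def g1 (q : Fin 4 → R) (x y : Fin 3 → R) : R :=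
  (q 0 ^ 2 + q 1 ^ 2 + q 2 ^ 2 + q 3 ^ 2) * x 1 +
    (2 * (q 1 * q 2 + q 0 * q 3) * y 0 + (q 0 ^ 2 - q 1 ^ 2 + q 2 ^ 2 - q 3 ^ 2) * y 1 +
      2 * (q 2 * q 3 - q 0 * q 1) * y 2)

def g2 (q : Fin 4 → R) (x y : Fin 3 → R) : R :=
  (q 0 ^ 2 + q 1 ^ 2 + q 2 ^ 2 + q 3 ^ 2) * x 2 +
    (2 * (q 1 * q 3 - q 0 * q 2) * y 0 + 2 * (q 2 * q 3 + q 0 * q 1) * y 1 +
      (q 0 ^ 2 - q 1 ^ 2 - q 2 ^ 2 + q 3 ^ 2) * y 2)

/-- squared length of the cross product -/
def cc (q : Fin 4 → R) (x y x' y' : Fin 3 → R) : R :=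
  (g1 q x y * g2 q x' y' - g2 q x y * g1 q x' y') ^ 2 +
    (g2 q x y * g0 q x' y' - g0 q x y * g2 q x' y') ^ 2 +
    (g0 q x y * g1 q x' y' - g1 q x y * g0 q x' y') ^ 2

end gen

theorem eval_g2 (q : Fin 4 → ℝ) (x y : Fin 3 → ℝ) :
    eval q (g2 (fun i => (X i : MvPolynomial (Fin 4) ℝ)) (fun i => C (x i)) (fun i => C (y i))) =
      g2 q x y := by
  unfold g2
  simp only [map_add, map_mul, map_sub, map_pow, eval_X, eval_C, map_ofNat]

theorem eval_cc (q : Fin 4 → ℝ) (x y x' y' : Fin 3 → ℝ) :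
    eval q (cc (fun i => (X i : MvPolynomial (Fin 4) ℝ)) (fun i => C (x i)) (fun i => C (y i))
      (fun i => C (x' i)) (fun i => C (y' i))) = cc q x y x' y' := by
  unfold cc g0 g1 g2
  simp only [map_add, map_mul, map_sub, map_pow, eval_X, eval_C, map_ofNat]

theorem exists_g2 {x y : Fin 3 → ℝ} (hy : y ≠ 0) : ∃ q, g2 q x y ≠ 0 := by
  by_contra hcon
  push Not at hcon
  have h1 := hcon ![1, 0, 0, 0]
  have h2 := hcon ![0, 1, 0, 0]
  have h3 := hcon ![1, 1, 0, 0]
  have h4 := hcon ![1, -1, 0, 0]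
  have h5 := hcon ![1, 0, 1, 0]
  have h6 := hcon ![1, 0, -1, 0]
  simp only [g2, Matrix.cons_val_zero, Matrix.cons_val_one, Matrix.cons_val] at h1 h2 h3 h4 h5 h6
  apply hy
  funext i
  fin_cases i
  · show y 0 = 0
    linarith
  · show y 1 = 0
    linarith
  · show y 2 = 0
    linarith

theorem exists_cc {x x' : Fin 3 → ℝ} (y y' : Fin 3 → ℝ) (hx : crs x x' ≠ 0) :
    ∃ q, cc q x y x' y' ≠ 0 := by
  by_contra hcon
  push Not at hcon
  have aux : ∀ a b c : ℝ, a ^ 2 + b ^ 2 + c ^ 2 = 0 → a = 0 ∧ b = 0 ∧ c = 0 := by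
    intro a b c h
    refine ⟨?_, ?_, ?_⟩ <;> apply pow_eq_zero_iff (two_ne_zero) |>.1 <;>
      nlinarith [sq_nonneg a, sq_nonneg b, sq_nonneg c]
  obtain ⟨a0, a1, a2⟩ := aux _ _ _ (hcon ![1, 0, 0, 0])
  obtain ⟨b0, b1, b2⟩ := aux _ _ _ (hcon ![0, 1, 0, 0])
  obtain ⟨c0, c1, c2⟩ := aux _ _ _ (hcon ![0, 0, 1, 0])
  obtain ⟨d0, d1, d2⟩ := aux _ _ _ (hcon ![0, 0, 0, 1])
  simp only [g0, g1, g2, Matrix.cons_val_zero, Matrix.cons_val_one, Matrix.cons_val]
    at a0 a1 a2 b0 b1 b2 c0 c1 c2 d0 d1 d2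
  apply hx
  funext i
  fin_cases i
  · show x 1 * x' 2 - x 2 * x' 1 = 0
    linear_combination (1/4) * (a0 + b0 + c0 + d0)
  · show x 2 * x' 0 - x 0 * x' 2 = 0
    linear_combination (1/4) * (a1 + b1 + c1 + d1)
  · show x 0 * x' 1 - x 1 * x' 0 = 0
    linear_combination (1/4) * (a2 + b2 + c2 + d2)

theorem orth_norm {Q : Matrix (Fin 3) (Fin 3) ℝ} (hQ : Qᵀ * Q = 1) (x y : Fin 3 → ℝ) :
    dt (Q.mulVec x) (Q.mulVec y) = dt x y := by
  have e : ∀ a b : Fin 3 → ℝ, dt a b = a ⬝ᵥ b := by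
    intro a b
    simp [dt, dotProduct, Fin.sum_univ_three]
  rw [e, e, Matrix.dotProduct_mulVec, Matrix.vecMul_mulVec, hQ, Matrix.vecMul_one]

/-- **Generic rotation.** -/
theorem exists_rot (T : Finset ((Fin 3 → ℝ) × (Fin 3 → ℝ)))
    (hT : ∀ p ∈ T, p.1 0 ^ 2 + p.1 1 ^ 2 + p.1 2 ^ 2 = p.2 0 ^ 2 + p.2 1 ^ 2 + p.2 2 ^ 2 ∧
      p.1 ≠ 0) :
    ∃ Q : Matrix (Fin 3) (Fin 3) ℝ, Qᵀ * Q = 1 ∧ Q.det = 1 ∧
      (∀ p ∈ T, Adm p.1 (Q.mulVec p.2)) ∧
      ∀ p ∈ T, ∀ p' ∈ T, crs p.1 p'.1 ≠ 0 →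
        crs (p.1 + Q.mulVec p.2) (p'.1 + Q.mulVec p'.2) ≠ 0 := by
  classical
  set f1 : ((Fin 3 → ℝ) × (Fin 3 → ℝ)) → MvPolynomial (Fin 4) ℝ := fun p =>
    g2 (fun i => (X i : MvPolynomial (Fin 4) ℝ)) (fun i => C (p.1 i)) (fun i => C (p.2 i)) with hf1
  set f2 : ((Fin 3 → ℝ) × (Fin 3 → ℝ)) × ((Fin 3 → ℝ) × (Fin 3 → ℝ)) → MvPolynomial (Fin 4) ℝ :=
    fun r => cc (fun i => (X i : MvPolynomial (Fin 4) ℝ)) (fun i => C (r.1.1 i))
      (fun i => C (r.1.2 i)) (fun i => C (r.2.1 i)) (fun i => C (r.2.2 i)) with hf2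
  set T2 := (T ×ˢ T).filter (fun r => crs r.1.1 r.2.1 ≠ 0) with hT2
  have hne : (∏ p ∈ T, f1 p) * (∏ r ∈ T2, f2 r) *
      (X 0 ^ 2 + X 1 ^ 2 + X 2 ^ 2 + X 3 ^ 2 : MvPolynomial (Fin 4) ℝ) ≠ 0 := by
    refine mul_ne_zero (mul_ne_zero (Finset.prod_ne_zero_iff.2 ?_)
      (Finset.prod_ne_zero_iff.2 ?_)) ?_
    · intro p hp h0
      have hy : p.2 ≠ 0 := by
        intro h
        apply (hT p hp).2
        have h1 := (hT p hp).1
        rw [h] at h1
        simp only [Pi.zero_apply] at h1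
        funext i
        fin_cases i
        · show p.1 0 = 0
          nlinarith [sq_nonneg (p.1 0), sq_nonneg (p.1 1), sq_nonneg (p.1 2)]
        · show p.1 1 = 0
          nlinarith [sq_nonneg (p.1 0), sq_nonneg (p.1 1), sq_nonneg (p.1 2)]
        · show p.1 2 = 0
          nlinarith [sq_nonneg (p.1 0), sq_nonneg (p.1 1), sq_nonneg (p.1 2)]
      obtain ⟨q, hq⟩ := exists_g2 (x := p.1) hy
      apply hq
      rw [← eval_g2]
      have := congrArg (eval q) h0
      rw [map_zero] at this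
      exact this
    · intro r hr h0
      obtain ⟨q, hq⟩ := exists_cc r.1.2 r.2.2 (Finset.mem_filter.1 hr).2
      apply hq
      rw [← eval_cc]
      have := congrArg (eval q) h0
      rw [map_zero] at this
      exact this
    · intro h0
      have := congrArg (eval ![(1:ℝ), 0, 0, 0]) h0
      simp at this
  obtain ⟨q, hq⟩ : ∃ q : Fin 4 → ℝ, eval q ((∏ p ∈ T, f1 p) * (∏ r ∈ T2, f2 r) *
      (X 0 ^ 2 + X 1 ^ 2 + X 2 ^ 2 + X 3 ^ 2 : MvPolynomial (Fin 4) ℝ)) ≠ 0 := by
    by_contra hcon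
    push Not at hcon
    exact hne (MvPolynomial.funext (fun q => by rw [hcon q, map_zero]))
  rw [map_mul, map_mul, map_prod, map_prod] at hq
  have hq1 := left_ne_zero_of_mul (left_ne_zero_of_mul hq)
  have hq2 := right_ne_zero_of_mul (left_ne_zero_of_mul hq)
  have hq3 := right_ne_zero_of_mul hq
  rw [Finset.prod_ne_zero_iff] at hq1 hq2
  have hn : qn q ≠ 0 := by
    intro h
    apply hq3
    simp only [map_add, map_pow, eval_X]
    exact h
  set Q : Matrix (Fin 3) (Fin 3) ℝ := (qn q)⁻¹ • qm q with hQ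
  have hQQ : Qᵀ * Q = 1 := by
    rw [hQ, Matrix.transpose_smul, Matrix.smul_mul, Matrix.mul_smul, qm_orth, smul_smul, smul_smul]
    have : (qn q)⁻¹ * (qn q)⁻¹ * qn q ^ 2 = 1 := by field_simp
    rw [this, one_smul]
  have hdet : Q.det = 1 := by
    rw [hQ, Matrix.det_smul, qm_det, Fintype.card_fin]
    field_simp
  have k0 : ∀ x y : Fin 3 → ℝ, (x + Q.mulVec y) 0 = (qn q)⁻¹ * g0 q x y := by
    intro x y
    rw [hQ, Matrix.smul_mulVec]
    simp only [Pi.add_apply, Pi.smul_apply, smul_eq_mul, Matrix.mulVec, dotProduct,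
      Fin.sum_univ_three, qm, g0]
    have : (q 0 ^ 2 + q 1 ^ 2 + q 2 ^ 2 + q 3 ^ 2) = qn q := rfl
    rw [this]
    simp
    field_simp
  have k1 : ∀ x y : Fin 3 → ℝ, (x + Q.mulVec y) 1 = (qn q)⁻¹ * g1 q x y := by
    intro x y
    rw [hQ, Matrix.smul_mulVec]
    simp only [Pi.add_apply, Pi.smul_apply, smul_eq_mul, Matrix.mulVec, dotProduct,
      Fin.sum_univ_three, qm, g1]
    have : (q 0 ^ 2 + q 1 ^ 2 + q 2 ^ 2 + q 3 ^ 2) = qn q := rfl
    rw [this]
    simp
    field_simp
  have k2 : ∀ x y : Fin 3 → ℝ, (x + Q.mulVec y) 2 = (qn q)⁻¹ * g2 q x y := by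
    intro x y
    rw [hQ, Matrix.smul_mulVec]
    simp only [Pi.add_apply, Pi.smul_apply, smul_eq_mul, Matrix.mulVec, dotProduct,
      Fin.sum_univ_three, qm, g2]
    have : (q 0 ^ 2 + q 1 ^ 2 + q 2 ^ 2 + q 3 ^ 2) = qn q := rfl
    rw [this]
    simp
    field_simp
  refine ⟨Q, hQQ, hdet, fun p hp => ⟨?_, ?_⟩, fun p hp p' hp' hc h0 => ?_⟩
  · have h1 := orth_norm hQQ p.2 p.2
    unfold dt at h1
    rw [(hT p hp).1]
    linear_combination -h1
  · have h1 : p.1 2 + (Q.mulVec p.2) 2 = (qn q)⁻¹ * g2 q p.1 p.2 := k2 _ _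
    rw [h1]
    refine mul_ne_zero (inv_ne_zero hn) ?_
    have := hq1 p hp
    rw [hf1] at this
    rw [← eval_g2]
    exact this
  · have hm : (p, p') ∈ T2 := Finset.mem_filter.2 ⟨Finset.mem_product.2 ⟨hp, hp'⟩, hc⟩
    apply hq2 _ hm
    rw [hf2]
    have e0 := congrFun h0 0
    have e1 := congrFun h0 1
    have e2 := congrFun h0 2
    simp only [crs, Matrix.cons_val_zero, Matrix.cons_val_one, Matrix.cons_val, Pi.zero_apply,
      k0, k1, k2] at e0 e1 e2
    show eval q (cc _ _ _ _ _) = 0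
    rw [eval_cc]
    unfold cc
    have f0 : g1 q p.1 p.2 * g2 q p'.1 p'.2 - g2 q p.1 p.2 * g1 q p'.1 p'.2 = 0 := by
      have : (qn q)⁻¹ ≠ 0 := inv_ne_zero hn
      apply mul_left_cancel₀ (mul_ne_zero this this)
      linear_combination e0
    have f1 : g2 q p.1 p.2 * g0 q p'.1 p'.2 - g0 q p.1 p.2 * g2 q p'.1 p'.2 = 0 := by
      have : (qn q)⁻¹ ≠ 0 := inv_ne_zero hn
      apply mul_left_cancel₀ (mul_ne_zero this this)
      linear_combination e1
    have f2 : g0 q p.1 p.2 * g1 q p'.1 p'.2 - g1 q p.1 p.2 * g0 q p'.1 p'.2 = 0 := by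
      have : (qn q)⁻¹ ≠ 0 := inv_ne_zero hn
      apply mul_left_cancel₀ (mul_ne_zero this this)
      linear_combination e2
    rw [f0, f1, f2]
    ring

end Vale.Agent.P054.Y.G
end

section

set_option autoImplicit false

open Finset

namespace Vale.Agent.P041.SE

theorem onL_unique {l l' : ℂ × ℂ} (h : l ≠ l') {p p' : ℂ × ℝ} (h1 : OnL l p) (h2 : OnL l' p)
    (h3 : OnL l p') (h4 : OnL l' p') : p = p' := by
  unfold OnL at h1 h2 h3 h4
  by_cases hw : p.2 = p'.2
  · refine Prod.ext ?_ hw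
    rw [h1, h3, hw]
  · exfalso
    have hw' : ((p.2 : ℂ) - (p'.2 : ℂ)) ≠ 0 := by
      intro h0
      apply hw
      have : (p.2 : ℂ) = (p'.2 : ℂ) := sub_eq_zero.1 h0
      exact_mod_cast this
    have e : (l.2 - l'.2) * ((p.2 : ℂ) - (p'.2 : ℂ)) = 0 := by
      linear_combination (h2 - h1) + (h3 - h4)
    have e2 : l.2 = l'.2 := by
      rcases mul_eq_zero.1 e with h0 | h0
      · exact sub_eq_zero.1 h0
      · exact absurd h0 hw'
    have e1 : l.1 = l'.1 := by
      have := h1.symm.trans h2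
      rw [e2] at this
      exact add_right_cancel this
    exact h (Prod.ext e1 e2)

theorem es_injective {a b c d : ℂ} (h : es a c = es b d) : a = b ∧ c = d := by
  unfold es at h
  have h1 : (a + c) / 2 = (b + d) / 2 := congrArg Prod.fst h
  have h2 : Complex.I / 2 * (c - a) = Complex.I / 2 * (d - b) := congrArg Prod.snd h
  have hI : (Complex.I / 2) ≠ 0 := by simp
  have h3 : c - a = d - b := mul_left_cancel₀ hI h2
  constructor
  · linear_combination h1 - h3 / 2
  · linear_combination h1 + h3 / 2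

theorem es_meet {a b c d : ℂ} (h : dist a b = dist c d) (hne : a - b ≠ c - d) :
    ∃ p, OnL (es a c) p ∧ OnL (es b d) p := by
  set u := a - b with hu
  set v := c - d with hv
  have hn : Complex.normSq u = Complex.normSq v := by
    rw [Complex.dist_eq, Complex.dist_eq] at h
    rw [Complex.normSq_eq_norm_sq, Complex.normSq_eq_norm_sq, h]
  have hne' : Complex.normSq (u - v) ≠ 0 := by
    intro h0
    exact hne (sub_eq_zero.1 (Complex.normSq_eq_zero.1 h0))
  -- the height of the meeting point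
  set w : ℝ := 2 * (v.im * u.re - v.re * u.im) / Complex.normSq (u - v) with hw
  have key : (u + v) + Complex.I * (w : ℂ) * (v - u) = 0 := by
    have hN : Complex.normSq (u - v) = (u.re - v.re) ^ 2 + (u.im - v.im) ^ 2 := by
      rw [Complex.normSq_apply]; simp; ring
    have hn' : u.re ^ 2 + u.im ^ 2 = v.re ^ 2 + v.im ^ 2 := by
      rw [Complex.normSq_apply, Complex.normSq_apply] at hn
      nlinarith [hn]
    have hwN : w * ((u.re - v.re) ^ 2 + (u.im - v.im) ^ 2) =
        2 * (v.im * u.re - v.re * u.im) := by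
      rw [← hN, hw]
      field_simp
    have hN' : ((u.re - v.re) ^ 2 + (u.im - v.im) ^ 2) ≠ 0 := by rw [← hN]; exact hne'
    apply Complex.ext
    · simp only [Complex.add_re, Complex.mul_re, Complex.I_re, Complex.I_im, Complex.ofReal_re,
        Complex.ofReal_im, Complex.sub_re, Complex.sub_im, Complex.mul_im, Complex.zero_re]
      apply mul_left_cancel₀ hN'
      linear_combination (-(v.im - u.im)) * hwN + (u.re - v.re) * hn'
    · simp only [Complex.add_im, Complex.mul_re, Complex.I_re, Complex.I_im, Complex.ofReal_re,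
        Complex.ofReal_im, Complex.sub_re, Complex.sub_im, Complex.mul_im, Complex.zero_im]
      apply mul_left_cancel₀ hN'
      linear_combination (v.re - u.re) * hwN + (u.im - v.im) * hn'
  refine ⟨((a + c) / 2 + Complex.I / 2 * (c - a) * (w : ℂ), w), ?_, ?_⟩
  · simp [OnL, es]
  · simp only [OnL, es]
    have hu' : u = a - b := hu
    have hv' : v = c - d := hv
    rw [hu', hv'] at key
    linear_combination key / 2

open scoped Classical in
theorem es_rich (K : Finset ℂ) (p : ℂ × ℝ) :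
    rich ((K ×ˢ K).image (fun q => es q.1 q.2)) p ≤ K.card := by
  unfold rich
  have h1 : (((K ×ˢ K).image (fun q => es q.1 q.2)).filter (fun l => OnL l p)) =
      ((K ×ˢ K).filter (fun q => OnL (es q.1 q.2) p)).image (fun q => es q.1 q.2) := by
    rw [filter_image]
  rw [h1]
  refine (card_image_le).trans ?_
  apply card_le_card_of_injOn (fun q => q.1)
  · intro q hq
    have hq' := mem_filter.1 (mem_coe.1 hq)
    exact mem_coe.2 (mem_product.1 hq'.1).1
  · intro q hq q' hq' hqq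
    have hq1 := (mem_filter.1 (mem_coe.1 hq)).2
    have hq2 := (mem_filter.1 (mem_coe.1 hq')).2
    have hqq' : q.1 = q'.1 := hqq
    refine Prod.ext hqq' ?_
    simp only [OnL, es] at hq1 hq2
    have hne : (1 + Complex.I * (p.2 : ℂ)) ≠ 0 := by
      intro h0
      have hre := congrArg Complex.re h0
      simp at hre
    have e : (1 + Complex.I * (p.2 : ℂ)) * (q.2 - q'.2) = 0 := by
      rw [hqq'] at hq1
      linear_combination 2 * hq2 - 2 * hq1
    rcases mul_eq_zero.1 e with h0 | h0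
    · exact absurd h0 hne
    · exact sub_eq_zero.1 h0

end Vale.Agent.P041.SE
end
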