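import Mathlib
import Vale.Agent.P135.BorsukUlam
import Vale.Agent.P054.BdN.N4
import Vale.Agent.P054.BdN.N5
import Vale.Agent.P054.BdN.N1
import Vale.Agent.P054.BdN.N6

set_option linter.all false

section

/-! Discrete ham sandwich theorem and polynomial partitioning in `ℝ³`. -/

namespace Vale.Agent.P041.SE

open Filter Topology Finset

/-- Truncation to `[-1, 1]`. -/
noncomputable def clamp (x : ℝ) : ℝ := max (-1) (min 1 x)

theorem clamp_neg (x : ℝ) : clamp (-x) = - clamp x := by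
  unfold clamp
  rcases le_total x (-1) with h | h
  · rw [min_eq_left (by linarith : (1:ℝ) ≤ -x), min_eq_right (by linarith : x ≤ 1),
      max_eq_left h, max_eq_right (by norm_num)]
    norm_num
  rcases le_total x 1 with h' | h'
  · rw [min_eq_right (by linarith : -x ≤ 1), min_eq_right h', max_eq_right h,
      max_eq_right (by linarith)]
  · rw [min_eq_right (by linarith : -x ≤ 1), min_eq_left h', max_eq_left (by linarith),
      max_eq_right (by norm_num)]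

theorem neg_one_le_clamp (x : ℝ) : -1 ≤ clamp x := le_max_left _ _

theorem clamp_of_one_le {x : ℝ} (h : 1 ≤ x) : clamp x = 1 := by
  unfold clamp
  rw [min_eq_left h, max_eq_right (by norm_num)]

theorem continuous_clamp : Continuous clamp :=
  continuous_const.max (continuous_const.min continuous_id)

/-- The limit step of the discrete ham sandwich theorem. -/
theorem half_of_tendsto {V α : Type*} [NormedAddCommGroup V] [NormedSpace ℝ V]
    [FiniteDimensional ℝ V] (ev : α → V →ₗ[ℝ] ℝ) (S : Finset α) (u : ℕ → V) (v : V)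
    (c : ℕ → ℝ) (hc : Tendsto c atTop atTop) (hu : Tendsto u atTop (𝓝 v))
    (h0 : ∀ k, ∑ s ∈ S, clamp (c k * ev s (u k)) = 0) :
    2 * #{s ∈ S | 0 < ev s v} ≤ #S := by
  classical
  by_contra hcon
  rw [not_le] at hcon
  have hev : ∀ s ∈ S.filter (fun s => 0 < ev s v), ∀ᶠ k in atTop, 1 ≤ c k * ev s (u k) := by
    intro s hs
    have hpos : 0 < ev s v := (mem_filter.1 hs).2
    have h1 : Tendsto (fun k => ev s (u k)) atTop (𝓝 (ev s v)) :=
      ((LinearMap.continuous_of_finiteDimensional (ev s)).tendsto v).comp hu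
    exact (hc.atTop_mul_pos hpos h1).eventually_ge_atTop 1
  obtain ⟨k, hk⟩ := ((eventually_all_finset _).2 hev).exists
  have hsplit := sum_filter_add_sum_filter_not S (fun s => 0 < ev s v)
    (fun s => clamp (c k * ev s (u k)))
  have h1 : ∑ s ∈ S.filter (fun s => 0 < ev s v), clamp (c k * ev s (u k))
      = #(S.filter (fun s => 0 < ev s v)) := by
    rw [sum_congr rfl (fun s hs => clamp_of_one_le (hk s hs))]
    simp
  have h2 : -(#(S.filter (fun s => ¬ 0 < ev s v)) : ℝ) ≤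
      ∑ s ∈ S.filter (fun s => ¬ 0 < ev s v), clamp (c k * ev s (u k)) := by
    have := card_nsmul_le_sum (S.filter (fun s => ¬ 0 < ev s v))
      (fun s => clamp (c k * ev s (u k))) (-1) (fun s _ => neg_one_le_clamp _)
    simpa using this
  have h3 := card_filter_add_card_filter_not (s := S) (p := fun s => 0 < ev s v)
  have h4 : (#(S.filter (fun s => 0 < ev s v)) : ℝ) + #(S.filter (fun s => ¬ 0 < ev s v)) = #S := by
    exact_mod_cast h3
  have h5 : (#S : ℝ) < 2 * #(S.filter (fun s => 0 < ev s v)) := by exact_mod_cast hcon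
  rw [h0 k, h1] at hsplit
  linarith

/-- **Discrete ham sandwich theorem**, normed version. -/
theorem ham_sandwich_normed {V α ι : Type*} [NormedAddCommGroup V] [NormedSpace ℝ V]
    [FiniteDimensional ℝ V] [Fintype ι] (ev : α → V →ₗ[ℝ] ℝ) (S : ι → Finset α)
    (h : Fintype.card ι < Module.finrank ℝ V) :
    ∃ f : V, f ≠ 0 ∧ ∀ i, 2 * #{s ∈ S i | 0 < ev s f} ≤ #(S i) ∧
      2 * #{s ∈ S i | ev s f < 0} ≤ #(S i) := by
  classical
  have hevc : ∀ s, Continuous (ev s) := fun s => LinearMap.continuous_of_finiteDimensional (ev s)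
  have key : ∀ k : ℕ, ∃ f : V, ‖f‖ = 1 ∧ ∀ i, ∑ s ∈ S i, clamp (((k:ℝ) + 1) * ev s f) = 0 := by
    intro k
    obtain ⟨x, hx, hG⟩ := Vale.Agent.P135.borsuk_ulam (E := V) (F := ι → ℝ)
      (by rw [Module.finrank_fintype_fun_eq_card]; exact h)
      (fun f i => ∑ s ∈ S i, clamp (((k:ℝ) + 1) * ev s (‖f‖⁻¹ • f)))
      (by
        apply continuousOn_pi.2
        intro i
        apply continuousOn_finsetSum
        intro s _
        apply continuous_clamp.comp_continuousOn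
        apply continuousOn_const.mul
        apply (hevc s).comp_continuousOn
        exact ((continuous_norm.continuousOn).inv₀ (fun y hy => norm_ne_zero_iff.2 hy)).smul
          continuousOn_id)
      (by
        intro x _
        funext i
        simp only [Pi.neg_apply, norm_neg, smul_neg, map_neg, mul_neg, clamp_neg,
          sum_neg_distrib])
    refine ⟨‖x‖⁻¹ • x, ?_, fun i => congrFun hG i⟩
    rw [norm_smul, norm_inv, norm_norm, inv_mul_cancel₀ (norm_ne_zero_iff.2 hx)]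
  choose u hu1 hu2 using key
  have : ProperSpace V := FiniteDimensional.proper ℝ V
  obtain ⟨v, hv, φ, hφ, hlim⟩ := (isCompact_sphere (0:V) 1).tendsto_subseq
    (x := u) (fun k => by simp [hu1 k])
  have hv1 : ‖v‖ = 1 := by simpa using hv
  have hc : Tendsto (fun k => ((φ k : ℕ) : ℝ) + 1) atTop atTop :=
    tendsto_atTop_add_const_right _ _ (tendsto_natCast_atTop_atTop.comp hφ.tendsto_atTop)
  refine ⟨v, by rw [← norm_ne_zero_iff, hv1]; exact one_ne_zero, fun i => ⟨?_, ?_⟩⟩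
  · exact half_of_tendsto ev (S i) (u ∘ φ) v _ hc hlim (fun k => hu2 (φ k) i)
  · have := half_of_tendsto (fun s => - ev s) (S i) (u ∘ φ) v _ hc hlim (fun k => by
      have h2 := hu2 (φ k) i
      simp only [LinearMap.neg_apply, mul_neg, clamp_neg, sum_neg_distrib, Function.comp_apply]
      rw [h2, neg_zero])
    simpa using this

/-- **Discrete ham sandwich theorem.** -/
theorem discrete_ham_sandwich {V α ι : Type*} [AddCommGroup V] [Module ℝ V]
    [FiniteDimensional ℝ V] [Fintype ι] (ev : α → V →ₗ[ℝ] ℝ) (S : ι → Finset α)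
    (h : Fintype.card ι < Module.finrank ℝ V) :
    ∃ f : V, f ≠ 0 ∧ ∀ i, 2 * #{s ∈ S i | 0 < ev s f} ≤ #(S i) ∧
      2 * #{s ∈ S i | ev s f < 0} ≤ #(S i) := by
  classical
  set b := (Module.finBasis ℝ V).equivFun with hb
  obtain ⟨g, hg, hS⟩ := ham_sandwich_normed (V := Fin (Module.finrank ℝ V) → ℝ)
    (fun s => (ev s).comp b.symm.toLinearMap) S (by simpa using h)
  refine ⟨b.symm g, by simpa using hg, fun i => ?_⟩
  simpa using hS i

/-- The sign condition of a cell. -/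
def Sg (b : Bool) (x : ℝ) : Prop := if b then 0 < x else x < 0

open scoped Classical in
theorem partition_general {α : Type*} {V : ℕ → Type*} [∀ j, AddCommGroup (V j)]
    [∀ j, Module ℝ (V j)] [∀ j, FiniteDimensional ℝ (V j)]
    (ev : ∀ j, α → V j →ₗ[ℝ] ℝ) (F : Finset α)
    (hV : ∀ j, 2 ^ j < Module.finrank ℝ (V j)) :
    ∃ f : ∀ j, V j, (∀ j, f j ≠ 0) ∧ ∀ J : ℕ, ∀ s : ℕ → Bool,
      2 ^ J * #{a ∈ F | ∀ j < J, Sg (s j) (ev j a (f j))} ≤ #F := by
  -- the next polynomial, given the previous ones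
  have step : ∀ (J : ℕ) (C : (Fin J → Bool) → Finset α), ∃ f : V J, f ≠ 0 ∧ ∀ s : Fin J → Bool,
      2 * #{a ∈ C s | 0 < ev J a f} ≤ #(C s) ∧ 2 * #{a ∈ C s | ev J a f < 0} ≤ #(C s) := by
    intro J C
    refine discrete_ham_sandwich (ev J) C ?_
    have := hV J
    simpa using this
  choose nx hnx0 hnx using step
  -- the cells, as functions of the sign vector
  obtain ⟨cell, hcell0, hcell⟩ : ∃ cell : ∀ J : ℕ, (Fin J → Bool) → Finset α,
      (∀ s, cell 0 s = F) ∧ ∀ J (s : Fin (J+1) → Bool), cell (J+1) s =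
      {a ∈ cell J (fun j => s j.castSucc) | Sg (s (Fin.last J)) (ev J a (nx J (cell J)))} :=
    ⟨fun J => Nat.rec (motive := fun J => (Fin J → Bool) → Finset α) (fun _ => F)
      (fun J C s => {a ∈ C (fun j => s j.castSucc) | Sg (s (Fin.last J)) (ev J a (nx J C))}) J,
      fun s => rfl, fun J s => rfl⟩
  refine ⟨fun j => nx j (cell j), fun j => hnx0 j _, ?_⟩
  have main : ∀ J : ℕ, ∀ s : ℕ → Bool, 
      cell J (fun j => s j) = {a ∈ F | ∀ j < J, Sg (s j) (ev j a (nx j (cell j)))} ∧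
      2 ^ J * #(cell J (fun j => s j)) ≤ #F := by
    intro J
    induction J with
    | zero => intro s; simp [hcell0]
    | succ J ih =>
      intro s
      obtain ⟨h1, h2⟩ := ih s
      have e1 : cell (J+1) (fun j => s j) =
          {a ∈ cell J (fun j => s j) | Sg (s J) (ev J a (nx J (cell J)))} := by
        rw [hcell]; simp
      constructor
      · rw [e1, h1, filter_filter]
        apply filter_congr
        intro a _
        constructor
        · rintro ⟨h, h'⟩ j hj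
          rcases Nat.lt_succ_iff_lt_or_eq.1 hj with h'' | rfl
          · exact h j h''
          · exact h'
        · intro h
          exact ⟨fun j hj => h j (by omega), h J (by omega)⟩
      · rw [e1]
        have h3 := hnx J (cell J) (fun j => s j)
        have h4 : 2 * #{a ∈ cell J (fun j => s j) | Sg (s J) (ev J a (nx J (cell J)))}
            ≤ #(cell J (fun j => s j)) := by
          unfold Sg
          cases s J
          · simpa using h3.2
          · simpa using h3.1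
        calc 2 ^ (J+1) * #{a ∈ cell J (fun j => s j) | Sg (s J) (ev J a (nx J (cell J)))}
            = 2 ^ J * (2 * #{a ∈ cell J (fun j => s j) | Sg (s J) (ev J a (nx J (cell J)))}) := by
              ring
          _ ≤ 2 ^ J * #(cell J (fun j => s j)) := Nat.mul_le_mul_left _ h4
          _ ≤ #F := h2
  intro J s
  rw [← (main J s).1]
  exact (main J s).2

end Vale.Agent.P041.SE
end

section

/-! Graph lines and polynomials: restriction to a line, sign cells met by a line. -/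

namespace Vale.Agent.P041.SE.GC

open Finset MvPolynomial

open Classical in
/-- number of lines through a point -/
noncomputable def mult (S : Finset Ln) (p : Fin 3 → ℝ) : ℕ := #{l ∈ S | ∃ w, gpt l w = p}

theorem gpt_two (l : Ln) (w : ℝ) : gpt l w 2 = w := rfl

theorem gpt_eq_param {l l' : Ln} {w w' : ℝ} (h : gpt l w = gpt l' w') : w = w' := by
  have := congrFun h 2
  simpa [gpt_two] using this

/-- restriction of a polynomial to a line -/
noncomputable def res (l : Ln) : MvPolynomial (Fin 3) ℝ →ₐ[ℝ] Polynomial ℝ :=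
  aeval ![Polynomial.C (l.1 0) + Polynomial.C (l.2 0) * Polynomial.X,
    Polynomial.C (l.1 1) + Polynomial.C (l.2 1) * Polynomial.X, Polynomial.X]

theorem eval_res (l : Ln) (φ : MvPolynomial (Fin 3) ℝ) (w : ℝ) :
    (res l φ).eval w = eval (gpt l w) φ := by
  have h : (Polynomial.evalRingHom w).comp (res l : MvPolynomial (Fin 3) ℝ →+* Polynomial ℝ) =
      eval (gpt l w) := by
    apply MvPolynomial.ringHom_ext
    · intro r
      simp [res]
    · intro i
      fin_cases i <;> simp [res, gpt]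
  exact congrArg (fun f : MvPolynomial (Fin 3) ℝ →+* ℝ => f φ) h

theorem on_iff (l : Ln) (φ : MvPolynomial (Fin 3) ℝ) : On φ l ↔ res l φ = 0 := by
  constructor
  · intro h
    apply Polynomial.funext
    intro w
    rw [eval_res, h w, Polynomial.eval_zero]
  · intro h w
    rw [← eval_res, h, Polynomial.eval_zero]

theorem natDegree_res_le (l : Ln) (φ : MvPolynomial (Fin 3) ℝ) :
    (res l φ).natDegree ≤ φ.totalDegree := by
  have h := MvPolynomial.aeval_natDegree_le φ (m := φ.totalDegree) le_rfl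
    ![Polynomial.C (l.1 0) + Polynomial.C (l.2 0) * Polynomial.X,
    Polynomial.C (l.1 1) + Polynomial.C (l.2 1) * Polynomial.X, Polynomial.X] (n := 1) (by
      intro i
      fin_cases i
      · simp only [Fin.zero_eta, Matrix.cons_val_zero]
        compute_degree
      · simp only [Fin.mk_one, Matrix.cons_val_one, Matrix.cons_val_zero]
        compute_degree
      · simp)
  simpa [res] using h

theorem sign_const {p : Polynomial ℝ} {w w' : ℝ} (hw : w ≤ w')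
    (h : ∀ x ∈ Set.Icc w w', p.eval x ≠ 0) : (0 < p.eval w ↔ 0 < p.eval w') := by
  have hc : ContinuousOn (fun x => p.eval x) (Set.Icc w w') := p.continuous.continuousOn
  constructor
  · intro h1
    by_contra h2
    have h3 : p.eval w' < 0 := lt_of_le_of_ne (not_lt.1 h2) (h w' ⟨hw, le_rfl⟩)
    obtain ⟨x, hx, hx0⟩ := intermediate_value_Icc' hw hc ⟨h3.le, h1.le⟩
    exact h x hx hx0
  · intro h1
    by_contra h2
    have h3 : p.eval w < 0 := lt_of_le_of_ne (not_lt.1 h2) (h w ⟨le_rfl, hw⟩)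
    obtain ⟨x, hx, hx0⟩ := intermediate_value_Icc hw hc ⟨h3.le, h1.le⟩
    exact h x hx hx0

theorem Sg_ne_zero {b : Bool} {x : ℝ} (h : Sg b x) : x ≠ 0 := by
  unfold Sg at h
  split_ifs at h
  · exact h.ne'
  · exact h.ne

theorem Sg_unique {b b' : Bool} {x x' : ℝ} (h : Sg b x) (h' : Sg b' x') (hx : 0 < x ↔ 0 < x') :
    b = b' := by
  unfold Sg at h h'
  cases b <;> cases b' <;> simp_all
  · linarith
  · linarith

theorem natDegree_prod_res_le (l : Ln) (f : ℕ → MvPolynomial (Fin 3) ℝ) (J : ℕ) :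
    (∏ j ∈ range J, res l (f j)).natDegree ≤ ∑ j ∈ range J, (f j).totalDegree := by
  refine (Polynomial.natDegree_prod_le _ _).trans (Finset.sum_le_sum fun j _ => ?_)
  exact natDegree_res_le l (f j)

open Classical in
/-- a line meets at most `D + 1` open sign cells -/
theorem cells_card (l : Ln) (f : ℕ → MvPolynomial (Fin 3) ℝ) (J D : ℕ)
    (hD : ∑ j ∈ range J, (f j).totalDegree ≤ D) :
    #{s : Fin J → Bool | ∃ w : ℝ, ∀ j : Fin J, Sg (s j) (eval (gpt l w) (f j))} ≤ D + 1 := by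
  set A : Finset (Fin J → Bool) :=
    {s : Fin J → Bool | ∃ w : ℝ, ∀ j : Fin J, Sg (s j) (eval (gpt l w) (f j))} with hA
  set g : Polynomial ℝ := ∏ j ∈ range J, res l (f j) with hg
  have hmem : ∀ s ∈ A, ∃ w : ℝ, ∀ j : Fin J, Sg (s j) (eval (gpt l w) (f j)) := by
    intro s hs
    exact (Finset.mem_filter.1 hs).2
  choose! W hW using hmem
  have hgne : ∀ s ∈ A, g.eval (W s) ≠ 0 := by
    intro s hs
    rw [hg, Polynomial.eval_prod]
    apply Finset.prod_ne_zero_iff.2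
    intro j hj
    rw [eval_res]
    exact Sg_ne_zero (hW s hs ⟨j, Finset.mem_range.1 hj⟩)
  rcases A.eq_empty_or_nonempty with h0 | ⟨s0, hs0⟩
  · rw [h0]
    simp
  have hg0 : g ≠ 0 := by
    intro h
    apply hgne s0 hs0
    rw [h, Polynomial.eval_zero]
  have hR : #(g.roots.toFinset) ≤ D := by
    calc #(g.roots.toFinset) ≤ Multiset.card g.roots := Multiset.toFinset_card_le _
      _ ≤ g.natDegree := Polynomial.card_roots' g
      _ ≤ ∑ j ∈ range J, (f j).totalDegree := natDegree_prod_res_le l f J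
      _ ≤ D := hD
  have key : ∀ s ∈ A, ∀ s' ∈ A, W s ≤ W s' →
      #(g.roots.toFinset.filter (fun r => r < W s)) =
        #(g.roots.toFinset.filter (fun r => r < W s')) → s = s' := by
    intro s hs s' hs' hle hcard
    have hsub : g.roots.toFinset.filter (fun r => r < W s) ⊆
        g.roots.toFinset.filter (fun r => r < W s') := by
      intro r hr
      rw [Finset.mem_filter] at hr ⊢
      exact ⟨hr.1, lt_of_lt_of_le hr.2 hle⟩
    have heq := Finset.eq_of_subset_of_card_le hsub hcard.ge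
    have hno : ∀ x ∈ Set.Icc (W s) (W s'), g.eval x ≠ 0 := by
      intro x hx h0
      rcases eq_or_lt_of_le hx.2 with h1 | h1
      · exact hgne s' hs' (by rw [← h1]; exact h0)
      · have h2 : x ∈ g.roots.toFinset.filter (fun r => r < W s') := by
          rw [Finset.mem_filter, Multiset.mem_toFinset, Polynomial.mem_roots hg0]
          exact ⟨h0, h1⟩
        rw [← heq, Finset.mem_filter] at h2
        exact absurd h2.2 (not_lt.2 hx.1)
    funext j
    have hj : (j : ℕ) ∈ range J := Finset.mem_range.2 j.2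
    have hno' : ∀ x ∈ Set.Icc (W s) (W s'), (res l (f j)).eval x ≠ 0 := by
      intro x hx h0
      apply hno x hx
      rw [hg, Polynomial.eval_prod]
      exact Finset.prod_eq_zero hj h0
    have h3 := sign_const hle hno'
    rw [eval_res, eval_res] at h3
    exact Sg_unique (hW s hs j) (hW s' hs' j) h3
  have hinj : Set.InjOn (fun s => #(g.roots.toFinset.filter (fun r => r < W s))) A := by
    intro s hs s' hs' h
    rcases le_total (W s) (W s') with h1 | h1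
    · exact key s hs s' hs' h1 h
    · exact (key s' hs' s hs h1 h.symm).symm
  have hmaps : ∀ s ∈ A, #(g.roots.toFinset.filter (fun r => r < W s)) ∈ range (D + 1) := by
    intro s _
    rw [Finset.mem_range]
    have := Finset.card_filter_le g.roots.toFinset (fun r => r < W s)
    omega
  have h4 := Finset.card_le_card_of_injOn _ hmaps hinj
  rwa [Finset.card_range] at h4

/-- zeros of a polynomial on a line -/
theorem zeros_on_line (l : Ln) {φ : MvPolynomial (Fin 3) ℝ} (h : ¬ On φ l) :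
    ∃ R : Finset ℝ, #R ≤ φ.totalDegree ∧ ∀ w : ℝ, eval (gpt l w) φ = 0 → w ∈ R := by
  have h0 : res l φ ≠ 0 := fun h' => h ((on_iff l φ).2 h')
  refine ⟨(res l φ).roots.toFinset, ?_, ?_⟩
  · calc #((res l φ).roots.toFinset) ≤ Multiset.card (res l φ).roots :=
        Multiset.toFinset_card_le _
      _ ≤ (res l φ).natDegree := Polynomial.card_roots' _
      _ ≤ φ.totalDegree := natDegree_res_le l φ
  · intro w hw
    rw [Multiset.mem_toFinset, Polynomial.mem_roots h0, Polynomial.IsRoot, eval_res]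
    exact hw

end Vale.Agent.P041.SE.GC
end

section

/-! Szemeredi-Trotter for graph lines in `ℝ³`: points on many lines. -/

namespace Vale.Agent.P041.SE.GC

open Finset

theorem eq_of_generic {x y x' y' t : ℝ} (ht : t ≠ (x' - x) / (y - y'))
    (h : x + t * y = x' + t * y') : x = x' ∧ y = y' := by
  by_cases hy : y = y'
  · subst hy
    exact ⟨by linarith, rfl⟩
  · exfalso
    apply ht
    have : y - y' ≠ 0 := sub_ne_zero.2 hy
    field_simp
    linarith

/-- the linear form of a point -/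
noncomputable def pform (t : ℝ) (p : Fin 3 → ℝ) : (Fin 3 → ℝ) →ₗ[ℝ] ℝ :=
  LinearMap.proj 0 + (p 2) • LinearMap.proj 1 - (p 0 + t * p 1) • LinearMap.proj 2

theorem pform_apply (t : ℝ) (p x : Fin 3 → ℝ) :
    pform t p x = x 0 + p 2 * x 1 - (p 0 + t * p 1) * x 2 := by
  simp [pform]

theorem finrank_ker_pform (t : ℝ) (p : Fin 3 → ℝ) :
    Module.finrank ℝ (LinearMap.ker (pform t p)) = 2 := by
  have h1 := LinearMap.finrank_range_add_finrank_ker (pform t p)
  have h2 : LinearMap.range (pform t p) = ⊤ := by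
    rw [LinearMap.range_eq_top]
    intro y
    refine ⟨![y, 0, 0], ?_⟩
    rw [pform_apply]
    simp
  rw [h2, finrank_top] at h1
  simp at h1
  omega

open scoped Classical in
theorem pts_rich (S : Finset Ln) (Z : Finset (Fin 3 → ℝ)) {k Λ : ℝ}
    (hZ : ∀ p ∈ Z, k ≤ mult S p) (hΛ : 12 * Real.log (#S + 1) + 1 ≤ Λ) (hk : 64 * Λ ≤ k) :
    (#Z : ℝ) ≤ 2 ^ 12 * Λ ^ 2 * ((#S : ℝ) ^ 2 / k ^ 3) + 2 * (#S / k) := by
  -- generic t
  set B1 : Finset ℝ := (S ×ˢ S).image (fun q => (q.2.1 0 - q.1.1 0) / (q.1.1 1 - q.2.1 1)) with hB1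
  set B2 : Finset ℝ := (S ×ˢ S).image (fun q => (q.2.2 0 - q.1.2 0) / (q.1.2 1 - q.2.2 1)) with hB2
  set B3 : Finset ℝ := (Z ×ˢ Z).image (fun q => (q.2 0 - q.1 0) / (q.1 1 - q.2 1)) with hB3
  obtain ⟨t, ht⟩ := Infinite.exists_notMem_finset (B1 ∪ B2 ∪ B3)
  rw [Finset.mem_union, Finset.mem_union, not_or, not_or] at ht
  obtain ⟨⟨ht1, ht2⟩, ht3⟩ := ht
  set v : Ln → (Fin 3 → ℝ) := fun l => ![l.1 0 + t * l.1 1, l.2 0 + t * l.2 1, 1] with hv
  have hvinj : ∀ l ∈ S, ∀ l' ∈ S, v l = v l' → l = l' := by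
    intro l hl l' hl' h
    have h0 : l.1 0 + t * l.1 1 = l'.1 0 + t * l'.1 1 := by
      have := congrFun h 0
      simpa [hv] using this
    have h1 : l.2 0 + t * l.2 1 = l'.2 0 + t * l'.2 1 := by
      have := congrFun h 1
      simpa [hv] using this
    have g1 : t ≠ (l'.1 0 - l.1 0) / (l.1 1 - l'.1 1) := fun h2 =>
      ht1 (Finset.mem_image.2 ⟨(l, l'), Finset.mem_product.2 ⟨hl, hl'⟩, h2.symm⟩)
    have g2 : t ≠ (l'.2 0 - l.2 0) / (l.2 1 - l'.2 1) := fun h2 =>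
      ht2 (Finset.mem_image.2 ⟨(l, l'), Finset.mem_product.2 ⟨hl, hl'⟩, h2.symm⟩)
    obtain ⟨e1, e2⟩ := eq_of_generic g1 h0
    obtain ⟨e3, e4⟩ := eq_of_generic g2 h1
    apply Prod.ext
    · funext i
      fin_cases i
      · exact e1
      · exact e2
    · funext i
      fin_cases i
      · exact e3
      · exact e4
  have hmass1 : ∀ l ∈ S, P054.mass S v (Submodule.span ℝ {v l}) ≤ 1 := by
    intro l hl
    unfold P054.mass
    have : S.filter (fun i => v i ∈ Submodule.span ℝ {v l}) ⊆ {l} := by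
      intro l' hl'
      rw [Finset.mem_filter] at hl'
      obtain ⟨c, hc⟩ := Submodule.mem_span_singleton.1 hl'.2
      have hc1 : c = 1 := by
        have := congrFun hc 2
        simpa [hv] using this
      rw [hc1, one_smul] at hc
      rw [Finset.mem_singleton]
      exact (hvinj l hl l' hl'.1 hc).symm
    have h2 := Finset.card_le_card this
    rw [Finset.card_singleton] at h2
    exact_mod_cast h2
  set ZZ : Finset (Submodule ℝ (Fin 3 → ℝ)) := Z.image (fun p => LinearMap.ker (pform t p)) with hZZ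
  have hcard : #ZZ = #Z := by
    rw [hZZ]
    apply Finset.card_image_of_injOn
    intro p hp p' hp' h
    have hp : p ∈ Z := hp
    have hp' : p' ∈ Z := hp'
    simp only at h
    have h1 : (![-p 2, 1, 0] : Fin 3 → ℝ) ∈ LinearMap.ker (pform t p) := by
      rw [LinearMap.mem_ker, pform_apply]
      simp
    have h2 : (![p 0 + t * p 1, 0, 1] : Fin 3 → ℝ) ∈ LinearMap.ker (pform t p) := by
      rw [LinearMap.mem_ker, pform_apply]
      simp
    rw [h, LinearMap.mem_ker, pform_apply] at h1 h2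
    simp at h1 h2
    have g3 : t ≠ (p' 0 - p 0) / (p 1 - p' 1) := fun h2 =>
      ht3 (Finset.mem_image.2 ⟨(p, p'), Finset.mem_product.2 ⟨hp, hp'⟩, h2.symm⟩)
    obtain ⟨e1, e2⟩ := eq_of_generic g3 (show p 0 + t * p 1 = p' 0 + t * p' 1 by linarith)
    funext i
    fin_cases i
    · exact e1
    · exact e2
    · simp only [Fin.reduceFinMk]
      linarith
  have hmassZ : ∀ A ∈ ZZ, Module.finrank ℝ A = 2 ∧ k ≤ P054.mass S v A := by
    intro A hA
    rw [hZZ, Finset.mem_image] at hA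
    obtain ⟨p, hp, rfl⟩ := hA
    refine ⟨finrank_ker_pform t p, (hZ p hp).trans ?_⟩
    unfold P054.mass mult
    have : S.filter (fun l => ∃ w, gpt l w = p) ⊆
        S.filter (fun i => v i ∈ LinearMap.ker (pform t p)) := by
      intro l hl
      rw [Finset.mem_filter] at hl ⊢
      refine ⟨hl.1, ?_⟩
      obtain ⟨w, hw⟩ := hl.2
      rw [LinearMap.mem_ker, pform_apply, ← hw]
      simp [hv, gpt]
      ring
    exact_mod_cast Finset.card_le_card this
  have hmain := P054.linearST S v 1 k Λ (by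
      intro l _ h
      have := congrFun h 2
      simp [hv] at this) hmass1 one_pos ZZ hmassZ hΛ (by linarith)
  rw [hcard] at hmain
  simpa using hmain

end Vale.Agent.P041.SE.GC
end

section

/-! Pairs of graph lines meeting at rich points. -/

namespace Vale.Agent.P041.SE.GC

open Finset

theorem sq_le_layer {a n : ℕ} (h : a ≤ n) :
    (n : ℝ) ^ 2 ≤ (a : ℝ) ^ 2 + ∑ k ∈ Ioc a n, 2 * (k : ℝ) := by
  induction n, h using Nat.le_induction with
  | base => simp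
  | succ n hn ih =>
    rw [← Finset.insert_Ioc_right_eq_Ioc_add_one hn, Finset.sum_insert (by simp)]
    push_cast
    linarith only [ih]

/-- abstract layer-cake estimate -/
theorem layer_sum {α : Type} (Z : Finset α) (n : α → ℕ) {a : ℕ} (ha : 0 < a) {L A U : ℝ}
    (hL : 0 ≤ L) (hA : 0 ≤ A) (hU : 0 ≤ U) (hn : ∀ p ∈ Z, a ≤ n p ∧ (n p : ℝ) ≤ U)
    (hN : ∀ k : ℕ, a ≤ k → (#{p ∈ Z | k ≤ n p} : ℝ) ≤ A / (k : ℝ) ^ 3 + 2 * (L / k)) :
    ∑ p ∈ Z, (n p : ℝ) ^ 2 ≤ 3 * A / a + 6 * L * U := by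
  have ha' : (0 : ℝ) < a := by exact_mod_cast ha
  rcases Z.eq_empty_or_nonempty with h0 | ⟨p0, hp0⟩
  · subst h0
    simp only [Finset.sum_empty]
    positivity
  have haU : (a : ℝ) ≤ U := by
    have h1 := hn p0 hp0
    exact (by exact_mod_cast h1.1 : (a : ℝ) ≤ n p0).trans h1.2
  set U' : ℕ := ⌊U⌋₊ with hU'
  have haU' : a ≤ U' := Nat.le_floor haU
  have hU'U : (U' : ℝ) ≤ U := Nat.floor_le hU
  have hnU : ∀ p ∈ Z, n p ≤ U' := fun p hp => Nat.le_floor (hn p hp).2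
  have h1 : ∑ p ∈ Z, (n p : ℝ) ^ 2 ≤ (a : ℝ) ^ 2 * #Z +
      ∑ k ∈ Ioc a U', 2 * (k : ℝ) * #{p ∈ Z | k ≤ n p} := by
    have h2 : ∀ p ∈ Z, (n p : ℝ) ^ 2 ≤ (a : ℝ) ^ 2 +
        ∑ k ∈ Ioc a U', if k ≤ n p then 2 * (k : ℝ) else 0 := by
      intro p hp
      refine (sq_le_layer (hn p hp).1).trans (add_le_add le_rfl ?_)
      rw [← Finset.sum_filter]
      apply Finset.sum_le_sum_of_subset_of_nonneg
      · intro k hk
        rw [Finset.mem_Ioc] at hk
        rw [Finset.mem_filter, Finset.mem_Ioc]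
        exact ⟨⟨hk.1, hk.2.trans (hnU p hp)⟩, hk.2⟩
      · intro k _ _
        positivity
    refine (Finset.sum_le_sum h2).trans (le_of_eq ?_)
    rw [Finset.sum_add_distrib, Finset.sum_const, nsmul_eq_mul, mul_comm ((a : ℝ) ^ 2)]
    congr 1
    rw [Finset.sum_comm]
    apply Finset.sum_congr rfl
    intro k _
    rw [← Finset.sum_filter, Finset.sum_const, nsmul_eq_mul]
    ring
  have hNa : (#Z : ℝ) ≤ A / (a : ℝ) ^ 3 + 2 * (L / a) := by
    have h2 := hN a le_rfl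
    have h3 : Z.filter (fun p => a ≤ n p) = Z := Finset.filter_true_of_mem fun p hp => (hn p hp).1
    rwa [h3] at h2
  have h4 : (a : ℝ) ^ 2 * #Z ≤ A / a + 2 * L * U := by
    calc (a : ℝ) ^ 2 * #Z ≤ (a : ℝ) ^ 2 * (A / (a : ℝ) ^ 3 + 2 * (L / a)) :=
          mul_le_mul_of_nonneg_left hNa (by positivity)
      _ = A / a + 2 * L * a := by
          field_simp
      _ ≤ A / a + 2 * L * U := by
          have := mul_le_mul_of_nonneg_left haU (show 0 ≤ 2 * L by positivity)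
          linarith
  have h5 : ∑ k ∈ Ioc a U', 2 * (k : ℝ) * #{p ∈ Z | k ≤ n p} ≤ 2 * A / a + 4 * L * U := by
    have h6 : ∀ k ∈ Ioc a U', 2 * (k : ℝ) * #{p ∈ Z | k ≤ n p} ≤
        2 * A * ((k : ℝ) ^ 2)⁻¹ + 4 * L := by
      intro k hk
      rw [Finset.mem_Ioc] at hk
      have hk0 : (0 : ℝ) < k := by exact_mod_cast (ha.trans hk.1)
      calc 2 * (k : ℝ) * #{p ∈ Z | k ≤ n p} ≤ 2 * (k : ℝ) * (A / (k : ℝ) ^ 3 + 2 * (L / k)) :=
            mul_le_mul_of_nonneg_left (hN k hk.1.le) (by positivity)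
        _ = 2 * A * ((k : ℝ) ^ 2)⁻¹ + 4 * L := by
            field_simp
            ring
    refine (Finset.sum_le_sum h6).trans ?_
    rw [Finset.sum_add_distrib, ← Finset.mul_sum, Finset.sum_const, nsmul_eq_mul, Nat.card_Ioc]
    have h7 : ∑ k ∈ Ioc a U', ((k : ℝ) ^ 2)⁻¹ ≤ (a : ℝ)⁻¹ := by
      have h8 := sum_Ioc_inv_sq_le_sub (α := ℝ) ha.ne' haU'
      have h9 : (0 : ℝ) ≤ (U' : ℝ)⁻¹ := by positivity
      linarith only [h9, h8]
    have h10 : ((U' - a : ℕ) : ℝ) ≤ U := by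
      have : ((U' - a : ℕ) : ℝ) ≤ (U' : ℝ) := by exact_mod_cast Nat.sub_le _ _
      linarith
    calc 2 * A * ∑ k ∈ Ioc a U', ((k : ℝ) ^ 2)⁻¹ + ((U' - a : ℕ) : ℝ) * (4 * L)
        ≤ 2 * A * (a : ℝ)⁻¹ + U * (4 * L) := by
          apply add_le_add
          · exact mul_le_mul_of_nonneg_left h7 (by positivity)
          · exact mul_le_mul_of_nonneg_right h10 (by positivity)
      _ = _ := by
          rw [div_eq_mul_inv]
          ring
  calc ∑ p ∈ Z, (n p : ℝ) ^ 2 ≤ _ := h1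
    _ ≤ (A / a + 2 * L * U) + (2 * A / a + 4 * L * U) := add_le_add h4 h5
    _ = _ := by ring

open scoped Classical in
/-- pairs of lines through points of multiplicity between `a` and `U` -/
theorem rich_pairs (S : Finset Ln) {a : ℕ} {U Λ : ℝ}
    (hΛ : 12 * Real.log (#S + 1) + 1 ≤ Λ) (ha : 64 * Λ ≤ a) (hU : 0 ≤ U)
    (P : Finset (Ln × Ln)) (hP : ∀ q ∈ P, q.1 ∈ S ∧ q.2 ∈ S ∧ ∃ p : Fin 3 → ℝ,
      (∃ w, gpt q.1 w = p) ∧ (∃ w, gpt q.2 w = p) ∧ a ≤ mult S p ∧ (mult S p : ℝ) ≤ U) :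
    (#P : ℝ) ≤ 3 * 2 ^ 12 * Λ ^ 2 * (#S : ℝ) ^ 2 / a + 6 * #S * U := by
  have hlog : 0 ≤ Real.log ((#S : ℝ) + 1) := Real.log_nonneg (by
    have : (0:ℝ) ≤ #S := by positivity
    linarith)
  have hΛ1 : 1 ≤ Λ := by linarith
  have ha0 : 0 < a := by
    have : (0 : ℝ) < a := by linarith
    exact_mod_cast this
  have hP' : ∀ q ∈ P, ∃ p : Fin 3 → ℝ, (∃ w, gpt q.1 w = p) ∧ (∃ w, gpt q.2 w = p) ∧
      a ≤ mult S p ∧ (mult S p : ℝ) ≤ U := fun q hq => (hP q hq).2.2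
  choose! pt hpt using hP'
  set Z : Finset (Fin 3 → ℝ) := P.image pt with hZ
  have hZmem : ∀ p ∈ Z, a ≤ mult S p ∧ (mult S p : ℝ) ≤ U := by
    intro p hp
    rw [hZ, Finset.mem_image] at hp
    obtain ⟨q, hq, rfl⟩ := hp
    exact (hpt q hq).2.2
  have h1 : (#P : ℝ) ≤ ∑ p ∈ Z, (mult S p : ℝ) ^ 2 := by
    have h2 : #P = ∑ p ∈ Z, #{q ∈ P | pt q = p} :=
      Finset.card_eq_sum_card_fiberwise (fun q hq => Finset.mem_image_of_mem pt hq)
    rw [h2]
    push_cast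
    apply Finset.sum_le_sum
    intro p _
    have h3 : #{q ∈ P | pt q = p} ≤ mult S p * mult S p := by
      unfold mult
      rw [← Finset.card_product]
      apply Finset.card_le_card
      intro q hq
      rw [Finset.mem_filter] at hq
      have h4 := hpt q hq.1
      have h5 := hP q hq.1
      rw [hq.2] at h4
      rw [Finset.mem_product, Finset.mem_filter, Finset.mem_filter]
      exact ⟨⟨h5.1, h4.1⟩, ⟨h5.2.1, h4.2.1⟩⟩
    have h4 : ((#{q ∈ P | pt q = p} : ℕ) : ℝ) ≤ ((mult S p * mult S p : ℕ) : ℝ) := by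
      exact_mod_cast h3
    rw [sq]
    exact_mod_cast h4
  have h2 := layer_sum Z (fun p => mult S p) ha0 (L := #S)
    (A := 2 ^ 12 * Λ ^ 2 * (#S : ℝ) ^ 2) (by positivity) (by positivity) hU hZmem (by
      intro k hk
      have h3 := pts_rich S (Z.filter (fun p => k ≤ mult S p)) (k := k) (Λ := Λ) (by
        intro p hp
        exact_mod_cast (Finset.mem_filter.1 hp).2) hΛ (by
          have : (a : ℝ) ≤ k := by exact_mod_cast hk
          linarith)
      calc (#{p ∈ Z | k ≤ mult S p} : ℝ) ≤ _ := h3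
        _ = _ := by ring)
  calc (#P : ℝ) ≤ _ := h1
    _ ≤ _ := h2
    _ = _ := by ring

end Vale.Agent.P041.SE.GC
end

section

/-! Pairs of lines in common rich surfaces. -/

namespace Vale.Agent.P041.SE.GC

open Finset MvPolynomial

/-- large sets with small pairwise intersections -/
theorem sum_card_le_of_inter {α : Type} [DecidableEq α] (X : Finset α) (F : Finset (Finset α))
    {L T B : ℝ} (hX : (#X : ℝ) ≤ L) (hF : ∀ S ∈ F, S ⊆ X ∧ T ≤ #S) (hT : 0 < T) (hB : 0 ≤ B)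
    (hI : ∀ S ∈ F, ∀ S' ∈ F, S ≠ S' → (#(S ∩ S') : ℝ) ≤ B) (hTB : 2 * L * B ≤ T ^ 2) :
    ∑ S ∈ F, (#S : ℝ) ≤ 2 * L := by
  have hL : 0 ≤ L := (Nat.cast_nonneg _).trans hX
  set A : ℝ := ∑ S ∈ F, (#S : ℝ) with hA
  have hA0 : 0 ≤ A := Finset.sum_nonneg fun _ _ => Nat.cast_nonneg _
  -- degrees
  have hdeg : A = ∑ x ∈ X, ((#{S ∈ F | x ∈ S} : ℕ) : ℝ) := by
    rw [hA]
    have h1 : ∀ S ∈ F, (#S : ℝ) = ∑ x ∈ X, if x ∈ S then (1 : ℝ) else 0 := by
      intro S hS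
      rw [← Finset.sum_filter, Finset.sum_const, nsmul_eq_mul, mul_one]
      congr 2
      ext x
      rw [Finset.mem_filter]
      exact ⟨fun h => ⟨(hF S hS).1 h, h⟩, fun h => h.2⟩
    rw [Finset.sum_congr rfl h1, Finset.sum_comm]
    apply Finset.sum_congr rfl
    intro x _
    rw [← Finset.sum_filter, Finset.sum_const, nsmul_eq_mul, mul_one]
  have hsq : ∑ x ∈ X, ((#{S ∈ F | x ∈ S} : ℕ) : ℝ) ^ 2 = ∑ S ∈ F, ∑ S' ∈ F, (#(S ∩ S') : ℝ) := by
    have h1 : ∀ x ∈ X, ((#{S ∈ F | x ∈ S} : ℕ) : ℝ) ^ 2 =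
        ∑ S ∈ F, ∑ S' ∈ F, if x ∈ S ∧ x ∈ S' then (1 : ℝ) else 0 := by
      intro x _
      have h2 : ((#{S ∈ F | x ∈ S} : ℕ) : ℝ) = ∑ S ∈ F, if x ∈ S then (1 : ℝ) else 0 := by
        rw [← Finset.sum_filter, Finset.sum_const, nsmul_eq_mul, mul_one]
      rw [h2, sq, Finset.sum_mul_sum]
      apply Finset.sum_congr rfl
      intro S _
      apply Finset.sum_congr rfl
      intro S' _
      by_cases c1 : x ∈ S <;> by_cases c2 : x ∈ S' <;> simp [c1, c2]
    rw [Finset.sum_congr rfl h1, Finset.sum_comm]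
    apply Finset.sum_congr rfl
    intro S hS
    rw [Finset.sum_comm]
    apply Finset.sum_congr rfl
    intro S' _
    rw [← Finset.sum_filter, Finset.sum_const, nsmul_eq_mul, mul_one]
    congr 2
    ext x
    rw [Finset.mem_filter, Finset.mem_inter]
    exact ⟨fun h => h.2, fun h => ⟨(hF S hS).1 h.1, h⟩⟩
  have hCS : A ^ 2 ≤ L * ∑ S ∈ F, ∑ S' ∈ F, (#(S ∩ S') : ℝ) := by
    rw [← hsq, hdeg]
    refine sq_sum_le_card_mul_sum_sq.trans ?_
    exact mul_le_mul_of_nonneg_right hX (Finset.sum_nonneg fun _ _ => sq_nonneg _)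
  have hII : ∑ S ∈ F, ∑ S' ∈ F, (#(S ∩ S') : ℝ) ≤ A + (#F : ℝ) ^ 2 * B := by
    have h1 : ∀ S ∈ F, ∑ S' ∈ F, (#(S ∩ S') : ℝ) ≤ (#S : ℝ) + #F * B := by
      intro S hS
      rw [← Finset.add_sum_erase F _ hS]
      apply add_le_add
      · rw [Finset.inter_self]
      · calc ∑ S' ∈ F.erase S, (#(S ∩ S') : ℝ) ≤ ∑ _S' ∈ F.erase S, B :=
              Finset.sum_le_sum fun S' hS' => hI S hS S' (Finset.mem_of_mem_erase hS')
                (Finset.ne_of_mem_erase hS').symm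
          _ = (#(F.erase S) : ℝ) * B := by rw [Finset.sum_const, nsmul_eq_mul]
          _ ≤ #F * B := by
              apply mul_le_mul_of_nonneg_right _ hB
              exact_mod_cast Finset.card_erase_le
    refine (Finset.sum_le_sum h1).trans (le_of_eq ?_)
    rw [Finset.sum_add_distrib, Finset.sum_const, nsmul_eq_mul]
    ring
  have hk : (#F : ℝ) * T ≤ A := by
    rw [hA]
    calc (#F : ℝ) * T = ∑ _S ∈ F, T := by rw [Finset.sum_const, nsmul_eq_mul]
      _ ≤ _ := Finset.sum_le_sum fun S hS => (hF S hS).2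
  rcases eq_or_lt_of_le hA0 with h0 | hApos
  · rw [← h0]
    positivity
  have h1 : A ^ 2 ≤ L * (A + (#F : ℝ) ^ 2 * B) :=
    hCS.trans (mul_le_mul_of_nonneg_left hII hL)
  have h2 : 2 * (L * ((#F : ℝ) ^ 2 * B)) ≤ A ^ 2 := by
    calc 2 * (L * ((#F : ℝ) ^ 2 * B)) = (#F : ℝ) ^ 2 * (2 * L * B) := by ring
      _ ≤ (#F : ℝ) ^ 2 * T ^ 2 := mul_le_mul_of_nonneg_left hTB (by (clear * -; positivity))
      _ = ((#F : ℝ) * T) ^ 2 := by ring
      _ ≤ A ^ 2 := pow_le_pow_left₀ (by (clear * - hT; positivity)) hk 2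
  have h3 : A * A ≤ A * (2 * L) := by linarith only [h2, h1]
  exact le_of_mul_le_mul_left h3 hApos

theorem on_of_dvd {φ ψ : MvPolynomial (Fin 3) ℝ} (h : φ ∣ ψ) {l : Ln} (hl : On φ l) : On ψ l := by
  obtain ⟨c, rfl⟩ := h
  intro w
  rw [map_mul, hl w, zero_mul]

open scoped Classical in
/-- lines in a surface -/
noncomputable def inSurf (S : Finset Ln) (φ : MvPolynomial (Fin 3) ℝ) : Finset Ln :=
  {l ∈ S | On φ l}

open scoped Classical in
/-- pairs of lines in a common surface with at least `T` and less than `U` lines -/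
theorem rich_surf (S : Finset Ln) {D : ℕ} {L T U : ℝ} (hS : (#S : ℝ) ≤ L) (hT : 0 < T)
    (hTL : 2 * L * (D : ℝ) ^ 2 ≤ T ^ 2) (hU : 0 ≤ U)
    (P : Finset (Ln × Ln)) (hP : ∀ q ∈ P, q.1 ∈ S ∧ q.2 ∈ S ∧ ∃ φ : MvPolynomial (Fin 3) ℝ,
      Irreducible φ ∧ φ.totalDegree ≤ D ∧ On φ q.1 ∧ On φ q.2 ∧ T ≤ #(inSurf S φ) ∧
        (#(inSurf S φ) : ℝ) ≤ U) :
    (#P : ℝ) ≤ 2 * L * U := by
  set F : Finset (Finset Ln) := S.powerset.filter (fun X => ∃ φ : MvPolynomial (Fin 3) ℝ,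
    Irreducible φ ∧ φ.totalDegree ≤ D ∧ X = inSurf S φ ∧ T ≤ #X ∧ (#X : ℝ) ≤ U) with hF
  have hFmem : ∀ X ∈ F, X ⊆ S ∧ ∃ φ : MvPolynomial (Fin 3) ℝ,
    Irreducible φ ∧ φ.totalDegree ≤ D ∧ X = inSurf S φ ∧ T ≤ #X ∧ (#X : ℝ) ≤ U := by
    intro X hX
    rw [hF, Finset.mem_filter, Finset.mem_powerset] at hX
    exact hX
  have h1 : ∑ X ∈ F, (#X : ℝ) ≤ 2 * L := by
    refine sum_card_le_of_inter (B := (D : ℝ) ^ 2) S F hS ?_ hT (by positivity) ?_ hTL
    · intro X hX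
      obtain ⟨h2, φ, -, -, -, h3, -⟩ := hFmem X hX
      exact ⟨h2, h3⟩
    · intro X hX X' hX' hne
      obtain ⟨-, φ, hφ, hφD, hXφ, -, -⟩ := hFmem X hX
      obtain ⟨-, φ', hφ', hφD', hXφ', -, -⟩ := hFmem X' hX'
      have hnd : ¬ φ ∣ φ' := by
        intro hd
        apply hne
        have hass : Associated φ φ' := hφ.associated_of_dvd hφ' hd
        rw [hXφ, hXφ']
        unfold inSurf
        apply Finset.filter_congr
        intro l _
        exact ⟨fun h => on_of_dvd hass.dvd h, fun h => on_of_dvd hass.symm.dvd h⟩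
      have h2 := graph_bezout hφ hnd (X ∩ X') (by
        intro l hl w
        have := (Finset.mem_inter.1 hl).1
        rw [hXφ, inSurf, Finset.mem_filter] at this
        exact this.2 w) (by
        intro l hl w
        have := (Finset.mem_inter.1 hl).2
        rw [hXφ', inSurf, Finset.mem_filter] at this
        exact this.2 w)
      have h3 : #(X ∩ X') ≤ D ^ 2 := by
        rw [sq]
        exact h2.trans (Nat.mul_le_mul hφD hφD')
      exact_mod_cast h3
  have h2 : P ⊆ F.biUnion (fun X => X ×ˢ X) := by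
    intro q hq
    obtain ⟨h3, h4, φ, hφ, hφD, h5, h6, h7, h8⟩ := hP q hq
    rw [Finset.mem_biUnion]
    refine ⟨inSurf S φ, ?_, ?_⟩
    · rw [hF, Finset.mem_filter, Finset.mem_powerset]
      exact ⟨Finset.filter_subset _ _, φ, hφ, hφD, rfl, h7, h8⟩
    · rw [Finset.mem_product, inSurf, Finset.mem_filter, Finset.mem_filter]
      exact ⟨⟨h3, h5⟩, ⟨h4, h6⟩⟩
  have h3 : #P ≤ ∑ X ∈ F, #X * #X := by
    refine (Finset.card_le_card h2).trans (Finset.card_biUnion_le.trans (le_of_eq ?_))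
    apply Finset.sum_congr rfl
    intro X _
    rw [Finset.card_product]
  calc (#P : ℝ) ≤ ((∑ X ∈ F, #X * #X : ℕ) : ℝ) := by exact_mod_cast h3
    _ = ∑ X ∈ F, (#X : ℝ) * #X := by push_cast; rfl
    _ ≤ ∑ X ∈ F, U * (#X : ℝ) := by
        apply Finset.sum_le_sum
        intro X hX
        obtain ⟨-, φ, -, -, -, -, h4⟩ := hFmem X hX
        exact mul_le_mul_of_nonneg_right h4 (Nat.cast_nonneg _)
    _ = U * ∑ X ∈ F, (#X : ℝ) := by rw [Finset.mul_sum]
    _ ≤ U * (2 * L) := mul_le_mul_of_nonneg_left h1 hU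
    _ = _ := by ring

end Vale.Agent.P041.SE.GC
end

section

/-! Pairs of lines meeting on the walls of a polynomial partition. -/

namespace Vale.Agent.P041.SE.GC

open Finset MvPolynomial

theorem totalDegree_pos_of_irreducible {φ : MvPolynomial (Fin 3) ℝ} (h : Irreducible φ) :
    1 ≤ φ.totalDegree := by
  by_contra hcon
  have h0 : φ.totalDegree = 0 := by omega
  rw [totalDegree_eq_zero_iff_eq_C] at h0
  apply h.not_isUnit
  rw [h0]
  apply IsUnit.map
  rw [isUnit_iff_ne_zero]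
  intro h1
  rw [h1, map_zero] at h0
  exact h.ne_zero h0

theorem sum_totalDegree_le (s : Multiset (MvPolynomial (Fin 3) ℝ)) (hs : ∀ b ∈ s, Irreducible b) :
    (s.map totalDegree).sum = s.prod.totalDegree := by
  induction s using Multiset.induction with
  | empty => simp
  | cons a s ih =>
    rw [Multiset.map_cons, Multiset.sum_cons, Multiset.prod_cons]
    rw [ih fun b hb => hs b (Multiset.mem_cons_of_mem hb)]
    rw [totalDegree_mul_of_isDomain (hs a (Multiset.mem_cons_self a s)).ne_zero]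
    apply Multiset.prod_ne_zero
    intro h0
    exact (hs 0 (Multiset.mem_cons_of_mem h0)).ne_zero rfl

open Classical in
/-- the distinct irreducible factors of a nonzero polynomial -/
theorem exists_fac {F : MvPolynomial (Fin 3) ℝ} (hF : F ≠ 0) {D : ℕ} (hD : F.totalDegree ≤ D) :
    ∃ fac : Finset (MvPolynomial (Fin 3) ℝ), (∀ φ ∈ fac, Irreducible φ ∧ φ.totalDegree ≤ D) ∧
      (∀ p : Fin 3 → ℝ, eval p F = 0 → ∃ φ ∈ fac, eval p φ = 0) ∧
      ∑ φ ∈ fac, φ.totalDegree ≤ D ∧ fac.card ≤ D := by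
  obtain ⟨s, hs, hass⟩ := WfDvdMonoid.exists_factors F hF
  have hdeg : (s.map totalDegree).sum ≤ D := by
    rw [sum_totalDegree_le s hs]
    exact (totalDegree_le_of_dvd_of_isDomain hass.dvd hF).trans hD
  have hle : ∀ φ ∈ s, φ.totalDegree ≤ D := by
    intro φ hφ
    exact (Multiset.single_le_sum (fun _ _ => Nat.zero_le _) _
      (Multiset.mem_map_of_mem totalDegree hφ)).trans hdeg
  have hsum : ∑ φ ∈ s.toFinset, φ.totalDegree ≤ D := by
    refine le_trans ?_ hdeg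
    rw [Finset.sum_multiset_map_count]
    apply Finset.sum_le_sum
    intro φ hφ
    rw [smul_eq_mul]
    have : 1 ≤ s.count φ := Multiset.one_le_count_iff_mem.2 (Multiset.mem_toFinset.1 hφ)
    exact Nat.le_mul_of_pos_left _ this
  refine ⟨s.toFinset, ?_, ?_, hsum, ?_⟩
  · intro φ hφ
    rw [Multiset.mem_toFinset] at hφ
    exact ⟨hs φ hφ, hle φ hφ⟩
  · intro p hp
    obtain ⟨u, hu⟩ := hass.symm
    have h1 : eval p s.prod = 0 := by
      rw [← hu, map_mul, hp, zero_mul]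
    rw [map_multiset_prod, Multiset.prod_eq_zero_iff, Multiset.mem_map] at h1
    obtain ⟨φ, hφ, h2⟩ := h1
    exact ⟨φ, Multiset.mem_toFinset.2 hφ, h2⟩
  · calc s.toFinset.card = ∑ _φ ∈ s.toFinset, 1 := by simp
      _ ≤ ∑ φ ∈ s.toFinset, φ.totalDegree := Finset.sum_le_sum fun φ hφ =>
          totalDegree_pos_of_irreducible (hs φ (Multiset.mem_toFinset.1 hφ))
      _ ≤ D := hsum

open scoped Classical in
/-- pairs whose meeting point is among few points of the first line -/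
theorem few_points (S : Finset Ln) (R : Ln → Finset ℝ) {D V : ℝ} (hV : 0 ≤ V) (hD : 0 ≤ D)
    (hR : ∀ l ∈ S, (#(R l) : ℝ) ≤ D) (P : Finset (Ln × Ln))
    (hP : ∀ q ∈ P, q.1 ∈ S ∧ q.2 ∈ S ∧ ∃ w ∈ R q.1, gpt q.1 w = gpt q.2 w ∧
      (mult S (gpt q.1 w) : ℝ) ≤ V) :
    (#P : ℝ) ≤ #S * (D * V) := by
  have h1 : P ⊆ S.biUnion (fun l => ((R l).filter (fun w => (mult S (gpt l w) : ℝ) ≤ V)).biUnion
      (fun w => {l} ×ˢ (S.filter (fun l' => ∃ w', gpt l' w' = gpt l w)))) := by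
    intro q hq
    obtain ⟨h2, h3, w, hw, h4, h5⟩ := hP q hq
    rw [Finset.mem_biUnion]
    refine ⟨q.1, h2, ?_⟩
    rw [Finset.mem_biUnion]
    refine ⟨w, Finset.mem_filter.2 ⟨hw, h5⟩, ?_⟩
    rw [Finset.mem_product, Finset.mem_singleton, Finset.mem_filter]
    exact ⟨rfl, h3, w, h4.symm⟩
  have h2 : (#P : ℝ) ≤ ∑ l ∈ S, ∑ w ∈ (R l).filter (fun w => (mult S (gpt l w) : ℝ) ≤ V),
      ((#(({l} : Finset Ln) ×ˢ (S.filter (fun l' => ∃ w', gpt l' w' = gpt l w))) : ℕ) : ℝ) := by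
    have h3 := (Finset.card_le_card h1).trans Finset.card_biUnion_le
    have h4 : ∀ l ∈ S, #(((R l).filter (fun w => (mult S (gpt l w) : ℝ) ≤ V)).biUnion
      (fun w => ({l} : Finset Ln) ×ˢ (S.filter (fun l' => ∃ w', gpt l' w' = gpt l w)))) ≤
      ∑ w ∈ (R l).filter (fun w => (mult S (gpt l w) : ℝ) ≤ V),
        #(({l} : Finset Ln) ×ˢ (S.filter (fun l' => ∃ w', gpt l' w' = gpt l w))) := fun l _ =>
      Finset.card_biUnion_le
    have h5 := h3.trans (Finset.sum_le_sum h4)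
    exact_mod_cast h5
  refine h2.trans ?_
  calc ∑ l ∈ S, ∑ w ∈ (R l).filter (fun w => (mult S (gpt l w) : ℝ) ≤ V),
      ((#(({l} : Finset Ln) ×ˢ (S.filter (fun l' => ∃ w', gpt l' w' = gpt l w))) : ℕ) : ℝ)
      ≤ ∑ l ∈ S, ∑ _w ∈ (R l).filter (fun w => (mult S (gpt l w) : ℝ) ≤ V), V := by
        apply Finset.sum_le_sum
        intro l _
        apply Finset.sum_le_sum
        intro w hw
        rw [Finset.card_product, Finset.card_singleton, one_mul]
        exact (Finset.mem_filter.1 hw).2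
    _ ≤ ∑ _l ∈ S, D * V := by
        apply Finset.sum_le_sum
        intro l hl
        rw [Finset.sum_const, nsmul_eq_mul]
        apply mul_le_mul_of_nonneg_right _ hV
        have : #((R l).filter (fun w => (mult S (gpt l w) : ℝ) ≤ V)) ≤ #(R l) :=
          Finset.card_filter_le _ _
        exact (by exact_mod_cast this : ((#((R l).filter (fun w => (mult S (gpt l w) : ℝ) ≤ V)) : ℕ) : ℝ) ≤ #(R l)).trans (hR l hl)
    _ = #S * (D * V) := by rw [Finset.sum_const, nsmul_eq_mul]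

open scoped Classical in
/-- pairs meeting on the walls -/
theorem walls (S : Finset Ln) (f : ℕ → MvPolynomial (Fin 3) ℝ) (hf : ∀ j, f j ≠ 0) (J D : ℕ)
    (hD : ∑ j ∈ range J, (f j).totalDegree ≤ D) {U V : ℝ} (hV : 0 ≤ V) (hU : 0 ≤ U)
    (P : Finset (Ln × Ln)) (hP : ∀ q ∈ P, q.1 ∈ S ∧ q.2 ∈ S ∧ (∃ w, gpt q.1 w = gpt q.2 w ∧
      (mult S (gpt q.1 w) : ℝ) ≤ V ∧ ∃ j < J, eval (gpt q.1 w) (f j) = 0) ∧
      ∀ φ : MvPolynomial (Fin 3) ℝ, Irreducible φ → φ.totalDegree ≤ D → On φ q.1 → On φ q.2 →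
        (#(inSurf S φ) : ℝ) ≤ U) :
    (#P : ℝ) ≤ 2 * (#S * (D * V)) + D * U ^ 2 := by
  set F : MvPolynomial (Fin 3) ℝ := ∏ j ∈ range J, f j with hF
  have hF0 : F ≠ 0 := Finset.prod_ne_zero_iff.2 fun j _ => hf j
  have hFD : F.totalDegree ≤ D := (totalDegree_finsetProd _ _).trans hD
  obtain ⟨fac, hfac, hzero, hsum, hcard⟩ := exists_fac hF0 hFD
  have hroot : ∀ (φ : MvPolynomial (Fin 3) ℝ) (l : Ln), ∃ R : Finset ℝ,
      #R ≤ φ.totalDegree ∧ (¬ On φ l → ∀ w : ℝ, eval (gpt l w) φ = 0 → w ∈ R) := by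
    intro φ l
    by_cases h : On φ l
    · exact ⟨∅, by simp, fun h' => absurd h h'⟩
    · obtain ⟨R, h1, h2⟩ := zeros_on_line l h
      exact ⟨R, h1, fun _ => h2⟩
  choose Rt hRt1 hRt2 using hroot
  set R : Ln → Finset ℝ := fun l => fac.biUnion (fun φ => Rt φ l) with hR
  have hRcard : ∀ l ∈ S, (#(R l) : ℝ) ≤ D := by
    intro l _
    have : #(R l) ≤ D := by
      refine Finset.card_biUnion_le.trans (le_trans ?_ hsum)
      exact Finset.sum_le_sum fun φ _ => hRt1 φ l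
    exact_mod_cast this
  set P1 : Finset (Ln × Ln) := P.filter (fun q => ∃ w ∈ R q.1, gpt q.1 w = gpt q.2 w ∧
      (mult S (gpt q.1 w) : ℝ) ≤ V) with hP1
  set P2 : Finset (Ln × Ln) := P.filter (fun q => ∃ w ∈ R q.2, gpt q.2 w = gpt q.1 w ∧
      (mult S (gpt q.2 w) : ℝ) ≤ V) with hP2
  set P3 : Finset (Ln × Ln) := P.filter (fun q => ∃ φ ∈ fac, On φ q.1 ∧ On φ q.2) with hP3
  have hcover : P ⊆ P1 ∪ (P2 ∪ P3) := by
    intro q hq
    obtain ⟨hq1, hq2, ⟨w, hw, hm, j, hj, hj0⟩, -⟩ := hP q hq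
    have hF1 : eval (gpt q.1 w) F = 0 := by
      rw [hF, map_prod]
      exact Finset.prod_eq_zero (Finset.mem_range.2 hj) hj0
    obtain ⟨φ, hφ, hφ0⟩ := hzero _ hF1
    rw [Finset.mem_union, Finset.mem_union]
    by_cases c1 : On φ q.1
    · by_cases c2 : On φ q.2
      · right; right
        rw [hP3, Finset.mem_filter]
        exact ⟨hq, φ, hφ, c1, c2⟩
      · right; left
        rw [hP2, Finset.mem_filter]
        refine ⟨hq, w, ?_, hw.symm, by rw [← hw]; exact hm⟩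
        rw [hR, Finset.mem_biUnion]
        exact ⟨φ, hφ, hRt2 φ q.2 c2 w (by rw [← hw]; exact hφ0)⟩
    · left
      rw [hP1, Finset.mem_filter]
      refine ⟨hq, w, ?_, hw, hm⟩
      rw [hR, Finset.mem_biUnion]
      exact ⟨φ, hφ, hRt2 φ q.1 c1 w hφ0⟩
  have hc1 : (#P1 : ℝ) ≤ #S * (D * V) := by
    apply few_points S R hV (Nat.cast_nonneg _) hRcard
    intro q hq
    rw [hP1, Finset.mem_filter] at hq
    exact ⟨(hP q hq.1).1, (hP q hq.1).2.1, hq.2⟩
  have hc2 : (#P2 : ℝ) ≤ #S * (D * V) := by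
    have h1 : #P2 = #(P2.image Prod.swap) :=
      (Finset.card_image_of_injective _ Prod.swap_injective).symm
    rw [h1]
    apply few_points S R hV (Nat.cast_nonneg _) hRcard
    intro q hq
    rw [Finset.mem_image] at hq
    obtain ⟨q', hq', rfl⟩ := hq
    rw [hP2, Finset.mem_filter] at hq'
    exact ⟨(hP q' hq'.1).2.1, (hP q' hq'.1).1, hq'.2⟩
  have hc3 : (#P3 : ℝ) ≤ D * U ^ 2 := by
    have h1 : P3 ⊆ (fac.filter (fun φ => (#(inSurf S φ) : ℝ) ≤ U)).biUnion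
        (fun φ => inSurf S φ ×ˢ inSurf S φ) := by
      intro q hq
      rw [hP3, Finset.mem_filter] at hq
      obtain ⟨hqP, φ, hφ, h2, h3⟩ := hq
      obtain ⟨hq1, hq2, -, h4⟩ := hP q hqP
      rw [Finset.mem_biUnion]
      refine ⟨φ, Finset.mem_filter.2 ⟨hφ, h4 φ (hfac φ hφ).1 (hfac φ hφ).2 h2 h3⟩, ?_⟩
      rw [Finset.mem_product, inSurf, Finset.mem_filter, Finset.mem_filter]
      exact ⟨⟨hq1, h2⟩, ⟨hq2, h3⟩⟩
    have h2 := (Finset.card_le_card h1).trans Finset.card_biUnion_le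
    calc (#P3 : ℝ) ≤ ((∑ φ ∈ fac.filter (fun φ => (#(inSurf S φ) : ℝ) ≤ U),
          #(inSurf S φ ×ˢ inSurf S φ) : ℕ) : ℝ) := by exact_mod_cast h2
      _ ≤ ∑ φ ∈ fac.filter (fun φ => (#(inSurf S φ) : ℝ) ≤ U), U ^ 2 := by
          push_cast
          apply Finset.sum_le_sum
          intro φ hφ
          rw [Finset.card_product]
          push_cast
          have := (Finset.mem_filter.1 hφ).2
          rw [← sq]
          exact pow_le_pow_left₀ (Nat.cast_nonneg _) this 2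
      _ = #(fac.filter (fun φ => (#(inSurf S φ) : ℝ) ≤ U)) * U ^ 2 := by
          rw [Finset.sum_const, nsmul_eq_mul]
      _ ≤ D * U ^ 2 := by
          apply mul_le_mul_of_nonneg_right _ (sq_nonneg _)
          exact_mod_cast (Finset.card_filter_le _ _).trans hcard
  have h1 : #P ≤ #P1 + (#P2 + #P3) :=
    (Finset.card_le_card hcover).trans ((Finset.card_union_le _ _).trans
      (Nat.add_le_add_left (Finset.card_union_le _ _) _))
  have h2 : (#P : ℝ) ≤ #P1 + (#P2 + #P3) := by exact_mod_cast h1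
  linarith

end Vale.Agent.P041.SE.GC
end

section

/-! Polynomial partitioning in `ℝ³`, for a finite family of (repeated) points. -/

namespace Vale.Agent.P041.SE

open Finset MvPolynomial

theorem finrank_restrictTotalDegree_ge (e : ℕ) :
    (e + 1) ^ 3 ≤ Module.finrank ℝ (restrictTotalDegree (Fin 3) ℝ (3 * e)) := by
  classical
  let m : (Fin 3 → Fin (e+1)) → (Fin 3 →₀ ℕ) := fun g =>
    Finsupp.equivFunOnFinite.symm (fun i => (g i : ℕ))
  have hm : Function.Injective m := by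
    intro g g' h
    have h2 := Finsupp.equivFunOnFinite.symm.injective h
    funext i
    exact Fin.ext (congrFun h2 i)
  have hdeg : ∀ g, (monomial (m g) (1:ℝ)) ∈ restrictTotalDegree (Fin 3) ℝ (3 * e) := by
    intro g
    rw [mem_restrictTotalDegree]
    refine le_trans (totalDegree_monomial_le _ _) ?_
    rw [Finsupp.sum_fintype _ _ (fun _ => rfl)]
    have : ∀ i, m g i ≤ e := fun i => Nat.lt_succ_iff.1 (g i).2
    calc ∑ i, m g i ≤ ∑ i : Fin 3, e := Finset.sum_le_sum (fun i _ => this i)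
      _ = 3 * e := by simp
  have hli : LinearIndependent ℝ (fun g : Fin 3 → Fin (e+1) =>
      (⟨monomial (m g) 1, hdeg g⟩ : restrictTotalDegree (Fin 3) ℝ (3 * e))) := by
    apply LinearIndependent.of_comp (restrictTotalDegree (Fin 3) ℝ (3*e)).subtype
    have := (basisMonomials (Fin 3) ℝ).linearIndependent.comp m hm
    simpa [Function.comp_def] using this
  have h := hli.fintype_card_le_finrank
  simpa using h

/-- Evaluation at a point as a linear functional on the polynomials of degree `≤ d`. -/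
noncomputable def evl (d : ℕ) (p : Fin 3 → ℝ) : restrictTotalDegree (Fin 3) ℝ d →ₗ[ℝ] ℝ :=
  (MvPolynomial.aeval p : MvPolynomial (Fin 3) ℝ →ₐ[ℝ] ℝ).toLinearMap.comp
    (restrictTotalDegree (Fin 3) ℝ d).subtype

theorem evl_apply (d : ℕ) (p : Fin 3 → ℝ) (f : restrictTotalDegree (Fin 3) ℝ d) :
    evl d p f = eval p (f : MvPolynomial (Fin 3) ℝ) := by
  simp [evl, MvPolynomial.aeval_eq_eval]

theorem two_pow_lt (j : ℕ) : 2 ^ j < (2 * 2 ^ (j / 3) + 1) ^ 3 := by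
  have h1 : j ≤ 3 * (j / 3) + 2 := by omega
  calc 2 ^ j ≤ 2 ^ (3 * (j/3) + 2) := Nat.pow_le_pow_right (by norm_num) h1
    _ = (2 ^ (j/3)) ^ 3 * 4 := by rw [pow_add, mul_comm 3, pow_mul]; norm_num
    _ < (2 * 2 ^ (j/3)) ^ 3 := by
        have : 0 < (2 ^ (j/3)) ^ 3 := by positivity
        nlinarith [this]
    _ ≤ (2 * 2 ^ (j/3) + 1) ^ 3 := Nat.pow_le_pow_left (by omega) 3

theorem sum_deg_le (m : ℕ) : ∑ j ∈ range (3 * m), 6 * 2 ^ (j / 3) ≤ 18 * 2 ^ m := by
  have h : ∀ m : ℕ, ∑ j ∈ range (3 * m), 6 * 2 ^ (j / 3) + 18 = 18 * 2 ^ m := by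
    intro m
    induction m with
    | zero => simp
    | succ m ih =>
      rw [show 3 * (m+1) = 3 * m + 1 + 1 + 1 by ring, sum_range_succ, sum_range_succ,
        sum_range_succ, show (3 * m) / 3 = m by omega, show (3 * m + 1) / 3 = m by omega,
        show (3 * m + 1 + 1) / 3 = m by omega, pow_succ]
      omega
  have := h m
  omega

open scoped Classical in
/-- **Polynomial partitioning.** For every finite family of points of `ℝ³` (with repetitions)
and every `m` there are `3 m` nonzero polynomials of total degree sum at most `18 · 2 ^ m`, such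
that every one of their `8 ^ m` open sign cells contains at most the fraction `8 ^ (-m)` of the
family. -/
theorem poly_partition {α : Type*} (pts : α → Fin 3 → ℝ) (F : Finset α) (m : ℕ) :
    ∃ f : ℕ → MvPolynomial (Fin 3) ℝ, (∀ j, f j ≠ 0) ∧
      (∑ j ∈ range (3 * m), (f j).totalDegree ≤ 18 * 2 ^ m) ∧
      ∀ s : ℕ → Bool,
        8 ^ m * #{a ∈ F | ∀ j < 3 * m, Sg (s j) (eval (pts a) (f j))} ≤ #F := by
  obtain ⟨f, hf0, hf⟩ := partition_general
    (V := fun j => restrictTotalDegree (Fin 3) ℝ (3 * (2 * 2 ^ (j/3))))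
    (fun j a => evl _ (pts a)) F
    (fun j => lt_of_lt_of_le (two_pow_lt j) (finrank_restrictTotalDegree_ge _))
  refine ⟨fun j => (f j : MvPolynomial (Fin 3) ℝ), fun j h => hf0 j (Subtype.ext h), ?_, ?_⟩
  · refine le_trans (sum_le_sum (fun j _ => ?_)) (sum_deg_le m)
    have h := (mem_restrictTotalDegree (Fin 3) _ _).1 (f j).2
    linarith
  · intro s
    have h := hf (3 * m) s
    simp only [evl_apply] at h
    rwa [show (2:ℕ) ^ (3 * m) = 8 ^ m by rw [pow_mul]; norm_num] at h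

end Vale.Agent.P041.SE
end

section

/-! The cells of a polynomial partition. -/

namespace Vale.Agent.P041.SE.GC

open Finset MvPolynomial

/-- extension of a finite sign vector -/
def extB {J : ℕ} (s : Fin J → Bool) : ℕ → Bool := fun j => if h : j < J then s ⟨j, h⟩ else false

theorem extB_apply {J : ℕ} (s : Fin J → Bool) (j : Fin J) : extB s j = s j := by
  unfold extB
  rw [dif_pos j.2]

open scoped Classical in
/-- the lines meeting a cell -/
noncomputable def cellS (S : Finset Ln) (f : ℕ → MvPolynomial (Fin 3) ℝ) {J : ℕ}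
    (s : Fin J → Bool) : Finset Ln :=
  {l ∈ S | ∃ w : ℝ, ∀ j : Fin J, Sg (s j) (eval (gpt l w) (f j))}

open scoped Classical in
theorem sum_cellS_le (S : Finset Ln) (f : ℕ → MvPolynomial (Fin 3) ℝ) (J D : ℕ)
    (hD : ∑ j ∈ range J, (f j).totalDegree ≤ D) :
    ∑ s : Fin J → Bool, #(cellS S f s) ≤ (D + 1) * #S := by
  have h1 : ∀ s : Fin J → Bool, #(cellS S f s) = ∑ l ∈ S,
      if ∃ w : ℝ, ∀ j : Fin J, Sg (s j) (eval (gpt l w) (f j)) then 1 else 0 := by
    intro s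
    unfold cellS
    rw [Finset.card_filter]
  simp only [h1]
  rw [Finset.sum_comm]
  calc ∑ l ∈ S, ∑ s : Fin J → Bool,
        (if ∃ w : ℝ, ∀ j : Fin J, Sg (s j) (eval (gpt l w) (f j)) then 1 else 0)
      ≤ ∑ _l ∈ S, (D + 1) := by
        apply Finset.sum_le_sum
        intro l _
        rw [← Finset.card_filter]
        exact cells_card l f J D hD
    _ = (D + 1) * #S := by
        rw [Finset.sum_const, smul_eq_mul, mul_comm]

open scoped Classical in
theorem cell_step (S : Finset Ln) (F0 : Finset (Ln × Ln)) (pt : Ln × Ln → Fin 3 → ℝ)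
    (f : ℕ → MvPolynomial (Fin 3) ℝ) (m D : ℕ)
    (hD : ∑ j ∈ range (3 * m), (f j).totalDegree ≤ D)
    (hpart : ∀ s : ℕ → Bool,
        8 ^ m * #{q ∈ F0 | ∀ j < 3 * m, Sg (s j) (eval (pt q) (f j))} ≤ #F0)
    {L' M : ℝ} (hL' : 0 < L') (hS : 8 * (((D : ℝ) + 1) * #S) ≤ 8 ^ m * L') (hM : 0 ≤ M)
    (hcell : ∀ s : Fin (3 * m) → Bool, (#(cellS S f s) : ℝ) ≤ L' →
      (#{q ∈ F0 | ∀ j : Fin (3 * m), Sg (s j) (eval (pt q) (f j))} : ℝ) ≤ M) :
    (#F0 : ℝ) ≤ 2 * #{q ∈ F0 | ∃ j < 3 * m, eval (pt q) (f j) = 0} + 2 * (8 ^ m * M) := by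
  set cell : (Fin (3 * m) → Bool) → Finset (Ln × Ln) := fun s =>
    {q ∈ F0 | ∀ j : Fin (3 * m), Sg (s j) (eval (pt q) (f j))} with hcelldef
  set W : Finset (Ln × Ln) := {q ∈ F0 | ∃ j < 3 * m, eval (pt q) (f j) = 0} with hW
  have hcover : F0 ⊆ W ∪ Finset.univ.biUnion cell := by
    intro q hq
    rw [Finset.mem_union]
    by_cases h : ∃ j < 3 * m, eval (pt q) (f j) = 0
    · left
      rw [hW, Finset.mem_filter]
      exact ⟨hq, h⟩
    · right
      push Not at h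
      rw [Finset.mem_biUnion]
      refine ⟨fun j => decide (0 < eval (pt q) (f j)), Finset.mem_univ _, ?_⟩
      rw [hcelldef, Finset.mem_filter]
      refine ⟨hq, fun j => ?_⟩
      unfold Sg
      have h1 := h j j.2
      by_cases h2 : 0 < eval (pt q) (f j)
      · simp [h2]
      · have : eval (pt q) (f j) < 0 := lt_of_le_of_ne (not_lt.1 h2) h1
        simp [h2, this]
  have hc8 : ∀ s : Fin (3 * m) → Bool, (8 : ℝ) ^ m * #(cell s) ≤ #F0 := by
    intro s
    have h1 := hpart (extB s)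
    have h2 : #{q ∈ F0 | ∀ j < 3 * m, Sg (extB s j) (eval (pt q) (f j))} = #(cell s) := by
      rw [hcelldef]
      congr 1
      apply Finset.filter_congr
      intro q _
      constructor
      · intro h j
        have := h j j.2
        rwa [extB_apply] at this
      · intro h j hj
        have := h ⟨j, hj⟩
        rw [← extB_apply s ⟨j, hj⟩] at this
        exact this
    rw [h2] at h1
    exact_mod_cast h1
  -- heavy cells
  set Hv : Finset (Fin (3 * m) → Bool) := Finset.univ.filter (fun s => L' < #(cellS S f s)) with hHv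
  have hHvcard : (#Hv : ℝ) * 8 ≤ 8 ^ m := by
    have h1 : (#Hv : ℝ) * L' ≤ ((D : ℝ) + 1) * #S := by
      calc (#Hv : ℝ) * L' = ∑ _s ∈ Hv, L' := by rw [Finset.sum_const, nsmul_eq_mul]
        _ ≤ ∑ s ∈ Hv, (#(cellS S f s) : ℝ) := Finset.sum_le_sum fun s hs =>
            (Finset.mem_filter.1 hs).2.le
        _ ≤ ∑ s, (#(cellS S f s) : ℝ) := Finset.sum_le_sum_of_subset_of_nonneg
            (Finset.subset_univ _) fun _ _ _ => Nat.cast_nonneg _
        _ ≤ ((D : ℝ) + 1) * #S := by exact_mod_cast sum_cellS_le S f (3 * m) D hD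
    have h2 : ((#Hv : ℝ) * 8) * L' ≤ 8 ^ m * L' := by linarith only [h1, hS]
    exact le_of_mul_le_mul_right h2 hL'
  have hcardB : ((#(Finset.univ : Finset (Fin (3 * m) → Bool)) : ℕ) : ℝ) = 8 ^ m := by
    rw [Finset.card_univ, Fintype.card_pi]
    simp only [Fintype.card_bool, Finset.prod_const, Finset.card_univ, Fintype.card_fin]
    rw [pow_mul]
    norm_num
  have hsum : ∑ s : Fin (3 * m) → Bool, (#(cell s) : ℝ) ≤ (#F0 : ℝ) / 8 + 8 ^ m * M := by
    rw [← Finset.sum_filter_add_sum_filter_not Finset.univ (fun s => L' < #(cellS S f s))]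
    apply add_le_add
    · calc ∑ s ∈ Hv, (#(cell s) : ℝ) ≤ ∑ _s ∈ Hv, (#F0 : ℝ) / 8 ^ m := by
            apply Finset.sum_le_sum
            intro s _
            rw [le_div_iff₀ (by positivity), mul_comm]
            exact hc8 s
        _ = #Hv * ((#F0 : ℝ) / 8 ^ m) := by rw [Finset.sum_const, nsmul_eq_mul]
        _ = (#Hv * 8) * ((#F0 : ℝ) / 8 ^ m / 8) := by ring
        _ ≤ 8 ^ m * ((#F0 : ℝ) / 8 ^ m / 8) :=
            mul_le_mul_of_nonneg_right hHvcard (by (clear * -; positivity))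
        _ = (#F0 : ℝ) / 8 := by
            field_simp
    · calc ∑ s ∈ Finset.univ.filter (fun s => ¬ L' < (#(cellS S f s) : ℝ)), (#(cell s) : ℝ)
          ≤ ∑ _s ∈ Finset.univ.filter (fun s => ¬ L' < (#(cellS S f s) : ℝ)), M := by
            apply Finset.sum_le_sum
            intro s hs
            exact hcell s (not_lt.1 (Finset.mem_filter.1 hs).2)
        _ = #(Finset.univ.filter (fun s : Fin (3 * m) → Bool =>
              ¬ L' < (#(cellS S f s) : ℝ))) * M := by rw [Finset.sum_const, nsmul_eq_mul]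
        _ ≤ 8 ^ m * M := by
            apply mul_le_mul_of_nonneg_right _ hM
            rw [← hcardB]
            exact_mod_cast Finset.card_filter_le _ _
  have h1 : (#F0 : ℝ) ≤ #W + ∑ s : Fin (3 * m) → Bool, (#(cell s) : ℝ) := by
    have h2 := (Finset.card_le_card hcover).trans ((Finset.card_union_le _ _).trans
      (Nat.add_le_add_left Finset.card_biUnion_le _))
    exact_mod_cast h2
  have hW0 : (0 : ℝ) ≤ #W := Nat.cast_nonneg _
  have hM0 : (0 : ℝ) ≤ 8 ^ m * M := by positivity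
  linarith

end Vale.Agent.P041.SE.GC
end

section

/-! Good pairs: removal of the rich pairs, and the cell decomposition. -/

namespace Vale.Agent.P041.SE.GC

open Finset MvPolynomial

open scoped Classical in
/-- the good pairs -/
noncomputable def G (D : ℕ) (V U : ℝ) (S : Finset Ln) : Finset (Ln × Ln) :=
  {q ∈ S ×ˢ S | q.1 ≠ q.2 ∧ (∃ w, gpt q.1 w = gpt q.2 w ∧ (mult S (gpt q.1 w) : ℝ) ≤ V) ∧
    ∀ φ : MvPolynomial (Fin 3) ℝ, Irreducible φ → φ.totalDegree ≤ D → On φ q.1 → On φ q.2 →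
      (#(inSurf S φ) : ℝ) < U}

open scoped Classical in
theorem mem_G {D : ℕ} {V U : ℝ} {S : Finset Ln} {q : Ln × Ln} :
    q ∈ G D V U S ↔ (q.1 ∈ S ∧ q.2 ∈ S) ∧ q.1 ≠ q.2 ∧
      (∃ w, gpt q.1 w = gpt q.2 w ∧ (mult S (gpt q.1 w) : ℝ) ≤ V) ∧
      ∀ φ : MvPolynomial (Fin 3) ℝ, Irreducible φ → φ.totalDegree ≤ D → On φ q.1 → On φ q.2 →
      (#(inSurf S φ) : ℝ) < U := by
  unfold G
  rw [Finset.mem_filter, Finset.mem_product]

theorem card_G_le (D : ℕ) (V U : ℝ) (S : Finset Ln) : (#(G D V U S) : ℝ) ≤ (#S : ℝ) ^ 2 := by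
  classical
  have h : #(G D V U S) ≤ #S * #S := by
    rw [← Finset.card_product]
    exact Finset.card_filter_le _ _
  rw [sq]
  exact_mod_cast h

theorem G_split (S : Finset Ln) {D a : ℕ} {L V V' U U' Λ : ℝ} (hL : (#S : ℝ) ≤ L)
    (hΛ : 12 * Real.log (#S + 1) + 1 ≤ Λ) (ha : 64 * Λ ≤ a) (haV : (a : ℝ) ≤ V') (hV : 0 ≤ V)
    (hU' : 0 < U') (hU : 0 ≤ U) (hUL : 2 * L * (D : ℝ) ^ 2 ≤ U' ^ 2) :
    (#(G D V U S) : ℝ) ≤ #(G D V' U' S) +
      (3 * 2 ^ 12 * Λ ^ 2 * (#S : ℝ) ^ 2 / a + 6 * #S * V) + 2 * L * U := by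
  classical
  set Q1 : Finset (Ln × Ln) := (G D V U S).filter (fun q => ∃ w, gpt q.1 w = gpt q.2 w ∧
    a ≤ mult S (gpt q.1 w) ∧ (mult S (gpt q.1 w) : ℝ) ≤ V) with hQ1
  set Q2 : Finset (Ln × Ln) := (G D V U S).filter (fun q => ∃ φ : MvPolynomial (Fin 3) ℝ,
      Irreducible φ ∧ φ.totalDegree ≤ D ∧ On φ q.1 ∧ On φ q.2 ∧ U' ≤ #(inSurf S φ) ∧
        (#(inSurf S φ) : ℝ) ≤ U) with hQ2
  have hcov : G D V U S ⊆ G D V' U' S ∪ (Q1 ∪ Q2) := by
    intro q hq
    have hq' := mem_G.1 hq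
    obtain ⟨hm, hne, ⟨w, hw, hwV⟩, hsurf⟩ := hq'
    rw [Finset.mem_union, Finset.mem_union]
    by_cases h1 : (mult S (gpt q.1 w) : ℝ) ≤ V'
    · by_cases h2 : ∃ φ : MvPolynomial (Fin 3) ℝ,
        Irreducible φ ∧ φ.totalDegree ≤ D ∧ On φ q.1 ∧ On φ q.2 ∧ U' ≤ #(inSurf S φ)
      · right; right
        obtain ⟨φ, c1, c2, c3, c4, c5⟩ := h2
        rw [hQ2, Finset.mem_filter]
        exact ⟨hq, φ, c1, c2, c3, c4, c5, (hsurf φ c1 c2 c3 c4).le⟩
      · left
        push Not at h2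
        exact mem_G.2 ⟨hm, hne, ⟨w, hw, h1⟩, fun φ c1 c2 c3 c4 => h2 φ c1 c2 c3 c4⟩
    · right; left
      push Not at h1
      rw [hQ1, Finset.mem_filter]
      refine ⟨hq, w, hw, ?_, hwV⟩
      have : (a : ℝ) ≤ mult S (gpt q.1 w) := by linarith
      exact_mod_cast this
  have hc1 : (#Q1 : ℝ) ≤ 3 * 2 ^ 12 * Λ ^ 2 * (#S : ℝ) ^ 2 / a + 6 * #S * V := by
    apply rich_pairs S hΛ ha hV
    intro q hq
    rw [hQ1, Finset.mem_filter] at hq
    obtain ⟨hqG, w, hw, h1, h2⟩ := hq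
    have hq' := mem_G.1 hqG
    exact ⟨hq'.1.1, hq'.1.2, gpt q.1 w, ⟨w, rfl⟩, ⟨w, hw.symm⟩, h1, h2⟩
  have hc2 : (#Q2 : ℝ) ≤ 2 * L * U := by
    apply rich_surf S hL hU' hUL hU
    intro q hq
    rw [hQ2, Finset.mem_filter] at hq
    have hq' := mem_G.1 hq.1
    exact ⟨hq'.1.1, hq'.1.2, hq.2⟩
  have h1 : #(G D V U S) ≤ #(G D V' U' S) + (#Q1 + #Q2) :=
    (Finset.card_le_card hcov).trans ((Finset.card_union_le _ _).trans
      (Nat.add_le_add_left (Finset.card_union_le _ _) _))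
  have h2 : (#(G D V U S) : ℝ) ≤ #(G D V' U' S) + (#Q1 + #Q2) := by exact_mod_cast h1
  linarith

theorem G_cells (S : Finset Ln) {m D : ℕ} (hD18 : D = 18 * 2 ^ m) {L' M V' U' : ℝ} (hL' : 0 < L')
    (hM : 0 ≤ M) (hV' : 0 ≤ V') (hU' : 0 ≤ U')
    (hS : 8 * (((D : ℝ) + 1) * #S) ≤ 8 ^ m * L')
    (hIH : ∀ S' : Finset Ln, (#S' : ℝ) ≤ L' → (#(G D V' U' S') : ℝ) ≤ M) :
    (#(G D V' U' S) : ℝ) ≤ 2 * (2 * (#S * (D * V')) + D * U' ^ 2) + 2 * (8 ^ m * M) := by
  classical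
  have hex : ∀ q ∈ G D V' U' S, ∃ w, gpt q.1 w = gpt q.2 w ∧
      (mult S (gpt q.1 w) : ℝ) ≤ V' := fun q hq => (mem_G.1 hq).2.2.1
  choose! w hw hwV using hex
  obtain ⟨f, hf0, hD, hpart⟩ := poly_partition (fun q : Ln × Ln => gpt q.1 (w q)) (G D V' U' S) m
  rw [← hD18] at hD
  have h1 := cell_step S (G D V' U' S) (fun q : Ln × Ln => gpt q.1 (w q)) f m D hD
    (fun s => by convert hpart s) hL' hS hM (by
      intro s hs
      refine le_trans ?_ (hIH (cellS S f s) hs)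
      have hsub : (G D V' U' S).filter (fun q => ∀ j : Fin (3 * m),
          Sg (s j) (eval (gpt q.1 (w q)) (f j))) ⊆ G D V' U' (cellS S f s) := by
        intro q hq
        rw [Finset.mem_filter] at hq
        obtain ⟨hqG, hcell⟩ := hq
        have hq' := mem_G.1 hqG
        have hss : cellS S f s ⊆ S := Finset.filter_subset _ _
        refine mem_G.2 ⟨⟨?_, ?_⟩, hq'.2.1, ⟨w q, hw q hqG, ?_⟩, ?_⟩
        · unfold cellS
          rw [Finset.mem_filter]
          exact ⟨hq'.1.1, w q, hcell⟩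
        · unfold cellS
          rw [Finset.mem_filter]
          refine ⟨hq'.1.2, w q, fun j => ?_⟩
          rw [← hw q hqG]
          exact hcell j
        · refine le_trans ?_ (hwV q hqG)
          unfold mult
          exact_mod_cast Finset.card_le_card (Finset.filter_subset_filter _ hss)
        · intro φ c1 c2 c3 c4
          refine lt_of_le_of_lt ?_ (hq'.2.2.2 φ c1 c2 c3 c4)
          unfold inSurf
          exact_mod_cast Finset.card_le_card (Finset.filter_subset_filter _ hss)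
      have h2 := Finset.card_le_card hsub
      have h3 : ((#((G D V' U' S).filter (fun q => ∀ j : Fin (3 * m),
          Sg (s j) (eval (gpt q.1 (w q)) (f j)))) : ℕ) : ℝ) ≤ #(G D V' U' (cellS S f s)) := by
        exact_mod_cast h2
      convert h3)
  have h2 := walls S f hf0 (3 * m) D hD hV' hU'
    ((G D V' U' S).filter (fun q => ∃ j < 3 * m, eval (gpt q.1 (w q)) (f j) = 0)) (by
      intro q hq
      rw [Finset.mem_filter] at hq
      obtain ⟨hqG, j, hj, hj0⟩ := hq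
      have hq' := mem_G.1 hqG
      exact ⟨hq'.1.1, hq'.1.2, ⟨w q, hw q hqG, hwV q hqG, j, hj, hj0⟩,
        fun φ c1 c2 c3 c4 => (hq'.2.2.2 φ c1 c2 c3 c4).le⟩)
  have h3 : (#((G D V' U' S).filter (fun q => ∃ j < 3 * m,
      eval (gpt q.1 (w q)) (f j) = 0)) : ℝ) =
      #{q ∈ G D V' U' S | ∃ j < 3 * m, eval (gpt q.1 (w q)) (f j) = 0} := by
    congr
  linarith [h1, h2]

end Vale.Agent.P041.SE.GC
end

section

/-! The induction on the number of lines. -/

namespace Vale.Agent.P041.SE.GC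

open Finset

theorem exists_m {e : ℝ} (he : 0 < e) : ∃ m : ℕ, (4 * 152 ^ 2 : ℝ) ≤ ((4 : ℝ) ^ m) ^ e := by
  have h1 : (1 : ℝ) < (4 : ℝ) ^ e := Real.one_lt_rpow (by norm_num) he
  obtain ⟨m, hm⟩ := pow_unbounded_of_one_lt (4 * 152 ^ 2 : ℝ) h1
  refine ⟨m, ?_⟩
  rw [← Real.rpow_pow_comm (by norm_num)]
  exact hm.le

theorem theta_bound {e : ℝ} (he : 0 < e) (he1 : e ≤ 1 / 2) {m : ℕ}
    (hm : (4 * 152 ^ 2 : ℝ) ≤ ((4 : ℝ) ^ m) ^ e) {θ : ℝ}
    (hθ : θ = 8 * (18 * 2 ^ m + 1) / 8 ^ m) :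
    0 < θ ∧ θ ≤ 1 / 2 ∧ 8 ^ m * θ ^ (3 / 2 + e) ≤ 1 / 4 := by
  set X : ℝ := (4 : ℝ) ^ m with hX
  have hX1 : 1 ≤ X := one_le_pow₀ (by norm_num)
  have hX0 : 0 < X := by linarith
  have hXe : X ^ e ≤ X := by
    calc X ^ e ≤ X ^ (1 : ℝ) := Real.rpow_le_rpow_of_exponent_le hX1 (by linarith)
      _ = X := Real.rpow_one X
  have h2m : (1 : ℝ) ≤ 2 ^ m := one_le_pow₀ (by norm_num)
  have h8 : (8 : ℝ) ^ m = 2 ^ m * X := by
    rw [hX, ← mul_pow]
    norm_num
  have hθ0 : 0 < θ := by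
    rw [hθ]
    positivity
  have hθX : θ ≤ 152 / X := by
    rw [hθ, h8, div_le_div_iff₀ (by positivity) hX0]
    linarith only [mul_nonneg (sub_nonneg.2 h2m) hX0.le]
  refine ⟨hθ0, ?_, ?_⟩
  · refine hθX.trans ?_
    rw [div_le_iff₀ hX0]
    linarith only [hXe, hm, he1, he]
  · have h83 : (8 : ℝ) ^ m = X ^ (3 / 2 : ℝ) := by
      have h1 : X = ((2 : ℝ) ^ m) ^ (2 : ℝ) := by
        rw [hX, Real.rpow_two, ← pow_mul, mul_comm m 2, pow_mul]
        norm_num
      rw [h1, ← Real.rpow_mul (by positivity)]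
      norm_num
      rw [← pow_mul, mul_comm m 3, pow_mul]
      norm_num
    have h1 : θ ^ (3 / 2 + e) ≤ (152 / X) ^ (3 / 2 + e) :=
      Real.rpow_le_rpow hθ0.le hθX (by linarith)
    have h2 : (152 / X) ^ (3 / 2 + e) = (152 : ℝ) ^ (3 / 2 + e) / (X ^ (3 / 2 : ℝ) * X ^ e) := by
      rw [Real.div_rpow (by norm_num) hX0.le, Real.rpow_add hX0]
    have h3 : (152 : ℝ) ^ (3 / 2 + e) ≤ 152 ^ 2 := by
      calc (152 : ℝ) ^ (3 / 2 + e) ≤ 152 ^ (2 : ℝ) :=
            Real.rpow_le_rpow_of_exponent_le (by norm_num) (by linarith)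
        _ = _ := by norm_num
    have hX32 : 0 < X ^ (3 / 2 : ℝ) := Real.rpow_pos_of_pos hX0 _
    have hXe0 : 0 < X ^ e := Real.rpow_pos_of_pos hX0 _
    calc (8 : ℝ) ^ m * θ ^ (3 / 2 + e)
        ≤ X ^ (3 / 2 : ℝ) * ((152 : ℝ) ^ (3 / 2 + e) / (X ^ (3 / 2 : ℝ) * X ^ e)) := by
          rw [h83, ← h2]
          exact mul_le_mul_of_nonneg_left h1 hX32.le
      _ = (152 : ℝ) ^ (3 / 2 + e) / X ^ e := by
          field_simp
      _ ≤ 1 / 4 := by
          rw [div_le_div_iff₀ hXe0 (by norm_num)]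
          linarith only [h3, hm]

theorem ev_log {c δ : ℝ} (hc : 0 < c) (hδ : 0 < δ) :
    ∀ᶠ L : ℝ in Filter.atTop, 12 * Real.log (L + 1) + 1 ≤ c * L ^ δ := by
  have h1 := (isLittleO_log_rpow_atTop hδ).bound (show 0 < c / 24 by positivity)
  have h2 := (tendsto_rpow_atTop hδ).eventually_ge_atTop ((12 * Real.log 2 + 1) * 2 / c)
  filter_upwards [h1, h2, Filter.eventually_ge_atTop 1] with x hx1 hx2 hx3
  have hx0 : 0 < x := by linarith
  have hp : 0 < x ^ δ := Real.rpow_pos_of_pos hx0 _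
  have h3 : Real.log (x + 1) ≤ Real.log 2 + Real.log x := by
    rw [← Real.log_mul (by norm_num) hx0.ne']
    exact Real.log_le_log (by linarith) (by linarith)
  have h4 : Real.log x ≤ c / 24 * x ^ δ := by
    have h5 := (le_abs_self _).trans hx1
    rwa [Real.norm_of_nonneg hp.le] at h5
  have h5 : (12 * Real.log 2 + 1) ≤ c / 2 * x ^ δ := by
    rw [div_le_iff₀ hc] at hx2
    linarith
  linarith

theorem step {e : ℝ} (he : 0 < e) (he1 : e ≤ 1 / 2) {m D : ℕ} (hD : D = 18 * 2 ^ m) {θ : ℝ}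
    (hθ : θ = 8 * (18 * 2 ^ m + 1) / 8 ^ m) (hθ0 : 0 < θ) (hθ1 : θ ≤ 1 / 2)
    (hθ2 : 8 ^ m * θ ^ (3 / 2 + e) ≤ 1 / 4) {K L : ℝ} (hK : 0 ≤ K) (hL1 : 1 ≤ θ * L)
    (hlog1 : 12 * Real.log (L + 1) + 1 ≤ (θ ^ (1 / 2 : ℝ) / 128) * L ^ (1 / 2 : ℝ))
    (hlog2 : 12 * Real.log (L + 1) + 1 ≤ 1 * L ^ (e / 2))
    (hsurf : 2 * L * (D : ℝ) ^ 2 ≤ (θ * L) ^ (1 + 2 * e))
    (hIH : ∀ S' : Finset Ln, (#S' : ℝ) ≤ θ * L →
      (#(G D ((θ * L) ^ (1 / 2 : ℝ)) ((θ * L) ^ (1 / 2 + e)) S') : ℝ)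
        ≤ K * (θ * L) ^ (3 / 2 + e))
    (S : Finset Ln) (hS : (#S : ℝ) ≤ L) :
    (#(G D (L ^ (1 / 2 : ℝ)) (L ^ (1 / 2 + e)) S) : ℝ) ≤
      (K / 2 + (6 * D + 3 * 2 ^ 13 / θ ^ (1 / 2 : ℝ) + 8)) * L ^ (3 / 2 + e) := by
  have hL2 : 1 ≤ L := by (by_contra nlg; linarith only [nlg, mul_nonneg (sub_nonneg.2 hθ1) (sub_nonneg.2 hL1), mul_nonneg (sub_nonneg.2 hθ1) (sub_nonneg.2 hθ1), mul_nonneg (le_of_lt (sub_pos.2 hθ0)) (sub_nonneg.2 hL1), mul_nonneg (le_of_lt (sub_pos.2 hθ0)) (sub_nonneg.2 hθ1), mul_pos (sub_pos.2 hθ0) (sub_pos.2 hθ0), mul_pos (sub_pos.2 (not_le.1 nlg)) (sub_pos.2 hθ0)])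
  have hL0 : 0 < L := by linarith only [hL2, hθ1, hθ0]
  have hθL : θ * L ≤ L := by (by_contra nlg; linarith only [nlg, mul_nonneg (sub_nonneg.2 hθ1) (sub_nonneg.2 hL1), mul_nonneg (sub_nonneg.2 hθ1) (sub_nonneg.2 hθ1), mul_nonneg (le_of_lt (sub_pos.2 hθ0)) (sub_nonneg.2 hL2), mul_nonneg (le_of_lt (sub_pos.2 hθ0)) (sub_nonneg.2 hθ1), mul_pos (sub_pos.2 (not_le.1 nlg)) (sub_pos.2 hθ0)])
  have hθL0 : 0 < θ * L := by linarith
  set V : ℝ := L ^ (1 / 2 : ℝ) with hV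
  set U : ℝ := L ^ (1 / 2 + e) with hU
  set V' : ℝ := (θ * L) ^ (1 / 2 : ℝ) with hV'
  set U' : ℝ := (θ * L) ^ (1 / 2 + e) with hU'
  set N : ℝ := L ^ (3 / 2 + e) with hN
  set Λ : ℝ := 12 * Real.log (L + 1) + 1 with hΛ
  have hV0 : 0 < V := Real.rpow_pos_of_pos hL0 _
  have hU0 : 0 < U := Real.rpow_pos_of_pos hL0 _
  have hV'0 : 0 < V' := Real.rpow_pos_of_pos hθL0 _
  have hU'0 : 0 < U' := Real.rpow_pos_of_pos hθL0 _
  have hN0 : 0 < N := Real.rpow_pos_of_pos hL0 _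
  have hS0 : (0 : ℝ) ≤ #S := Nat.cast_nonneg _
  have hV'e : V' = θ ^ (1 / 2 : ℝ) * V := by rw [hV', hV, Real.mul_rpow hθ0.le hL0.le]
  have hV'1 : 1 ≤ V' := Real.one_le_rpow hL1 (by norm_num)
  set a : ℕ := ⌊V'⌋₊ with ha
  have ha1 : 1 ≤ a := Nat.one_le_floor_iff _ |>.2 hV'1
  have haV : (a : ℝ) ≤ V' := Nat.floor_le hV'0.le
  have haV2 : V' ≤ 2 * a := by
    have h1 : V' < a + 1 := Nat.lt_floor_add_one V'
    have h2 : (1 : ℝ) ≤ a := by exact_mod_cast ha1
    linarith only [h2, h1]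
  have ha0 : (0 : ℝ) < a := by exact_mod_cast ha1
  have hΛ0 : 0 ≤ Λ := by
    have : 0 ≤ Real.log (L + 1) := Real.log_nonneg (by linarith only [hL2, hθ1, hθ0])
    linarith only [this, hθ1, hθ0]
  have hΛS : 12 * Real.log (#S + 1) + 1 ≤ Λ := by
    have : Real.log ((#S : ℝ) + 1) ≤ Real.log (L + 1) :=
      Real.log_le_log (by linarith only [hS0, hθ1, hθ0]) (by linarith only [hS])
    linarith
  have h64 : 64 * Λ ≤ a := by
    have h1 : 128 * Λ ≤ V' := by rw [hV'e]; linarith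
    linarith
  have hUL : 2 * L * (D : ℝ) ^ 2 ≤ U' ^ 2 := by
    have h1 : U' ^ 2 = (θ * L) ^ (1 + 2 * e) := by
      rw [hU', ← Real.rpow_natCast, ← Real.rpow_mul hθL0.le]
      congr 1
      push_cast
      ring
    rw [h1]
    exact hsurf
  have hsplit := G_split S (V := V) (V' := V') (U := U) (U' := U') (D := D) hS hΛS h64 haV hV0.le
    hU'0 hU0.le hUL
  have hcells := G_cells S hD (L' := θ * L) (M := K * (θ * L) ^ (3 / 2 + e)) (V' := V')
    (U' := U') hθL0 (by positivity) hV'0.le hU'0.le (by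
      have h1 : (8 : ℝ) ^ m * (θ * L) = 8 * ((18 * 2 ^ m + 1) * L) := by
        rw [hθ]
        field_simp
      rw [h1, hD]
      push_cast
      have h2 : (0 : ℝ) ≤ 18 * 2 ^ m + 1 := by positivity
      linarith only [mul_le_mul_of_nonneg_left hS h2]) hIH
  -- the bounds
  have hL32 : L * V ≤ N := by
    have h1 : L * V = L ^ (3 / 2 : ℝ) := by
      rw [hV]
      nth_rewrite 1 [← Real.rpow_one L]
      rw [← Real.rpow_add hL0]
      norm_num
    rw [h1]
    exact Real.rpow_le_rpow_of_exponent_le hL2 (by linarith only [he])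
  have hLU : L * U = N := by
    rw [hU, hN]
    nth_rewrite 1 [← Real.rpow_one L]
    rw [← Real.rpow_add hL0]
    congr 1
    ring
  have hVV : V' ≤ V := Real.rpow_le_rpow hθL0.le hθL (by norm_num)
  have b1 : #S * (D * V') ≤ D * N := by
    have h1 : #S * V' ≤ N := by
      calc #S * V' ≤ L * V := mul_le_mul hS hVV hV'0.le hL0.le
        _ ≤ N := hL32
    calc (#S : ℝ) * (D * V') = D * (#S * V') := by ring
      _ ≤ D * N := mul_le_mul_of_nonneg_left h1 (Nat.cast_nonneg _)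
  have b2 : U' ^ 2 ≤ N := by
    have h1 : U' ^ 2 = (θ * L) ^ (1 + 2 * e) := by
      rw [hU', ← Real.rpow_natCast, ← Real.rpow_mul hθL0.le]
      congr 1
      push_cast
      ring
    rw [h1]
    calc (θ * L) ^ (1 + 2 * e) ≤ L ^ (1 + 2 * e) :=
          Real.rpow_le_rpow hθL0.le hθL (by linarith only [hθ1, hθ0, he])
      _ ≤ N := Real.rpow_le_rpow_of_exponent_le hL2 (by linarith only [he1])
  have b3 : 8 ^ m * (K * (θ * L) ^ (3 / 2 + e)) ≤ K / 4 * N := by
    rw [Real.mul_rpow hθ0.le hL0.le]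
    calc (8 : ℝ) ^ m * (K * (θ ^ (3 / 2 + e) * L ^ (3 / 2 + e)))
        = (8 ^ m * θ ^ (3 / 2 + e)) * (K * N) := by ring
      _ ≤ 1 / 4 * (K * N) := mul_le_mul_of_nonneg_right hθ2 (by positivity)
      _ = _ := by ring
  have hθh : 0 < θ ^ (1 / 2 : ℝ) := Real.rpow_pos_of_pos hθ0 _
  have b4 : 3 * 2 ^ 12 * Λ ^ 2 * (#S : ℝ) ^ 2 / a ≤ 3 * 2 ^ 13 / θ ^ (1 / 2 : ℝ) * N := by
    have h1 : Λ ^ 2 ≤ L ^ e := by
      have h2 : Λ ^ 2 ≤ (1 * L ^ (e / 2)) ^ 2 := pow_le_pow_left₀ hΛ0 hlog2 2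
      refine h2.trans (le_of_eq ?_)
      rw [one_mul, ← Real.rpow_natCast, ← Real.rpow_mul hL0.le]
      congr 1
      push_cast
      ring
    have h2 : (#S : ℝ) ^ 2 ≤ L ^ 2 := pow_le_pow_left₀ hS0 hS 2
    have h3 : L ^ e * L ^ 2 = N * V := by
      rw [hN, hV, ← Real.rpow_natCast L 2, ← Real.rpow_add hL0, ← Real.rpow_add hL0]
      congr 1
      push_cast
      ring
    rw [div_le_iff₀ ha0]
    have h4 : 3 * 2 ^ 13 / θ ^ (1 / 2 : ℝ) * N * (V' / 2) = 3 * 2 ^ 12 * (N * V) := by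
      rw [hV'e]
      field_simp
    calc 3 * 2 ^ 12 * Λ ^ 2 * (#S : ℝ) ^ 2 = 3 * 2 ^ 12 * (Λ ^ 2 * (#S : ℝ) ^ 2) := by ring
      _ ≤ 3 * 2 ^ 12 * (L ^ e * L ^ 2) := by
          apply mul_le_mul_of_nonneg_left _ (by norm_num)
          exact mul_le_mul h1 h2 (by (clear * -; positivity)) (by positivity)
      _ = 3 * 2 ^ 13 / θ ^ (1 / 2 : ℝ) * N * (V' / 2) := by rw [h3, h4]
      _ ≤ 3 * 2 ^ 13 / θ ^ (1 / 2 : ℝ) * N * a := by
          apply mul_le_mul_of_nonneg_left _ (by positivity)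
          linarith only [haV2]
  have b5 : 6 * #S * V ≤ 6 * N := by
    have : #S * V ≤ L * V := mul_le_mul_of_nonneg_right hS hV0.le
    linarith only [this, hL32]
  have b6 : 2 * L * U = 2 * N := by rw [mul_assoc, hLU]
  have b2' : (D : ℝ) * U' ^ 2 ≤ D * N := mul_le_mul_of_nonneg_left b2 (Nat.cast_nonneg _)
  rw [b6] at hsplit
  calc (#(G D V U S) : ℝ) ≤ (2 * (2 * (D * N) + D * N) + 2 * (K / 4 * N)) +
        (3 * 2 ^ 13 / θ ^ (1 / 2 : ℝ) * N + 6 * N) + 2 * N := by linarith only [b2', b5, b4, b3, b1, hcells, hsplit]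
    _ = _ := by ring

/-- **Guth's theorem** (pair form, with `ε`-loss): few good pairs -/
theorem claim (e : ℝ) (he : 0 < e) (he1 : e ≤ 1 / 2) : ∃ (D : ℕ) (K : ℝ), 0 ≤ K ∧
    ∀ (L : ℝ) (S : Finset Ln), 1 ≤ L → (#S : ℝ) ≤ L →
      (#(G D (L ^ (1 / 2 : ℝ)) (L ^ (1 / 2 + e)) S) : ℝ) ≤ K * L ^ (3 / 2 + e) := by
  obtain ⟨m, hm⟩ := exists_m he
  set D : ℕ := 18 * 2 ^ m with hD
  set θ : ℝ := 8 * (18 * 2 ^ m + 1) / 8 ^ m with hθ
  obtain ⟨hθ0, hθ1, hθ2⟩ := theta_bound he he1 hm hθ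
  have hθh : 0 < θ ^ (1 / 2 : ℝ) := Real.rpow_pos_of_pos hθ0 _
  have e1 := ev_log (c := θ ^ (1 / 2 : ℝ) / 128) (δ := 1 / 2) (by positivity) (by norm_num)
  have e2 := ev_log (c := 1) (δ := e / 2) one_pos (by positivity)
  have e3 := Filter.eventually_ge_atTop (1 / θ)
  have e4 := (tendsto_rpow_atTop (show 0 < 2 * e by positivity)).eventually_ge_atTop
    (2 * (D : ℝ) ^ 2 / θ ^ (1 + 2 * e))
  obtain ⟨L0, hL0⟩ := Filter.eventually_atTop.1 (((e1.and e2).and e3).and e4)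
  set L1 : ℝ := max L0 1 with hL1
  have hL11 : 1 ≤ L1 := le_max_right _ _
  set C : ℝ := 6 * D + 3 * 2 ^ 13 / θ ^ (1 / 2 : ℝ) + 8 with hC
  have hC0 : 0 ≤ C := by positivity
  set K : ℝ := max (L1 ^ (1 / 2 : ℝ)) (2 * C) with hK
  have hK0 : 0 ≤ K := le_trans (by positivity) (le_max_right _ _)
  refine ⟨D, K, hK0, ?_⟩
  have hbase : ∀ (L : ℝ) (S : Finset Ln), 1 ≤ L → L ≤ L1 → (#S : ℝ) ≤ L →
      (#(G D (L ^ (1 / 2 : ℝ)) (L ^ (1 / 2 + e)) S) : ℝ) ≤ K * L ^ (3 / 2 + e) := by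
    intro L S h1 h2 h3
    have hL : 0 < L := by linarith only [h1, hθ1, hθ0]
    calc (#(G D (L ^ (1 / 2 : ℝ)) (L ^ (1 / 2 + e)) S) : ℝ) ≤ (#S : ℝ) ^ 2 := card_G_le _ _ _ _
      _ ≤ L ^ 2 := pow_le_pow_left₀ (Nat.cast_nonneg _) h3 2
      _ = L ^ (1 / 2 : ℝ) * L ^ (3 / 2 : ℝ) := by
          rw [← Real.rpow_add hL, ← Real.rpow_natCast]
          norm_num
      _ ≤ K * L ^ (3 / 2 + e) := by
          apply mul_le_mul
          · exact (Real.rpow_le_rpow hL.le h2 (by norm_num)).trans (le_max_left _ _)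
          · exact Real.rpow_le_rpow_of_exponent_le h1 (by linarith only [he])
          · positivity
          · exact hK0
  have hind : ∀ n : ℕ, ∀ (L : ℝ) (S : Finset Ln), 1 ≤ L → L ≤ L1 * 2 ^ n → (#S : ℝ) ≤ L →
      (#(G D (L ^ (1 / 2 : ℝ)) (L ^ (1 / 2 + e)) S) : ℝ) ≤ K * L ^ (3 / 2 + e) := by
    intro n
    induction n with
    | zero =>
      intro L S h1 h2 h3
      exact hbase L S h1 (by simpa using h2) h3
    | succ n ih =>
      intro L S h1 h2 h3
      by_cases h4 : L ≤ L1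
      · exact hbase L S h1 h4 h3
      push Not at h4
      have hL : 0 < L := by linarith only [h4, hL11, hθ1, hθ0]
      obtain ⟨⟨⟨c1, c2⟩, c3⟩, c4⟩ := hL0 L ((le_max_left _ _).trans h4.le)
      have c5 : 1 ≤ θ * L := by
        rw [div_le_iff₀ hθ0] at c3
        linarith only [c3]
      have c6 : 2 * L * (D : ℝ) ^ 2 ≤ (θ * L) ^ (1 + 2 * e) := by
        have hp : 0 < θ ^ (1 + 2 * e) := Real.rpow_pos_of_pos hθ0 _
        rw [div_le_iff₀ hp] at c4
        rw [Real.mul_rpow hθ0.le hL.le, Real.rpow_add hL, Real.rpow_one]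
        calc 2 * L * (D : ℝ) ^ 2 = L * (2 * (D : ℝ) ^ 2) := by ring
          _ ≤ L * (L ^ (2 * e) * θ ^ (1 + 2 * e)) := mul_le_mul_of_nonneg_left c4 hL.le
          _ = _ := by ring
      have h5 := step he he1 hD hθ hθ0 hθ1 hθ2 hK0 c5 c1 c2 c6 (by
        intro S' hS'
        refine ih (θ * L) S' c5 ?_ hS'
        have h6 : θ * L ≤ 1 / 2 * L := mul_le_mul_of_nonneg_right hθ1 hL.le
        rw [pow_succ] at h2
        linarith only [h6, h2]) S h3
      refine h5.trans (mul_le_mul_of_nonneg_right ?_ (by positivity))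
      have h7 : 2 * C ≤ K := le_max_right _ _
      linarith only [h7, hC]
  intro L S h1 h3
  obtain ⟨n, hn⟩ := pow_unbounded_of_one_lt L (one_lt_two)
  refine hind n L S h1 ?_ h3
  have h2 : (0 : ℝ) < 2 ^ n := by positivity
  (by_contra nlg; linarith only [nlg, mul_nonneg (sub_nonneg.2 hL11) (le_of_lt (sub_pos.2 h2)), mul_nonneg (sub_nonneg.2 hθ1) (le_of_lt (sub_pos.2 hn)), mul_pos (sub_pos.2 hθ0) (sub_pos.2 hn), mul_nonneg (le_of_lt (sub_pos.2 (not_le.1 nlg))) (sub_nonneg.2 hθ1), mul_pos (sub_pos.2 (not_le.1 nlg)) (sub_pos.2 hθ0)])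

end Vale.Agent.P041.SE.GC
end

section

/-!
Block G of the n^(2/3-eps) project (architect helper499): definitions.

A pair `p = (x, y)` of vectors of `R^3` with `|x| = |y|`, `x ≠ 0` stands for the line of rotations
`{g : g x = y}`.  In the Cayley chart (rotation of `ω`: `y - x = ω × (x + y)`) it is the line
`{ω : cr ω (x + y) = y - x}`, a graph line if `(x + y)_2 ≠ 0`.
-/

set_option linter.all false

namespace Vale.Agent.P054.Y.GF

open Finset Matrix MvPolynomial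
open Vale.Agent.P041.SE

abbrev V := Fin 3 → ℝ
abbrev M3 := Matrix (Fin 3) (Fin 3) ℝ

/-- cross product (explicit) -/
def cr (x y : V) : V :=
  ![x 1 * y 2 - x 2 * y 1, x 2 * y 0 - x 0 * y 2, x 0 * y 1 - x 1 * y 0]

/-- a pair of nonzero vectors of the same length -/
def IsPair (p : V × V) : Prop := p.1 ⬝ᵥ p.1 = p.2 ⬝ᵥ p.2 ∧ p.1 ≠ 0

/-- the lines of `p` and `q` meet, and are different -/
def Meet (p q : V × V) : Prop := p.1 ⬝ᵥ q.1 = p.2 ⬝ᵥ q.2 ∧ cr p.1 q.1 ≠ 0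

/-- the line of `p` in the chart, as a graph line -/
noncomputable def ln (p : V × V) : Ln :=
  (![-(p.2 1 - p.1 1) / (p.1 2 + p.2 2), (p.2 0 - p.1 0) / (p.1 2 + p.2 2)],
   ![(p.1 0 + p.2 0) / (p.1 2 + p.2 2), (p.1 1 + p.2 1) / (p.1 2 + p.2 2)])

/-- `Λ` is in general position with respect to the chart -/
def InChart (Λ : Finset (V × V)) : Prop :=
  (∀ p ∈ Λ, p.1 2 + p.2 2 ≠ 0) ∧ ∀ p ∈ Λ, ∀ q ∈ Λ, Meet p q → cr (p.1 + p.2) (q.1 + q.2) ≠ 0

/-- `A` preserves the length of `x` -/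
def Iso0 (A : M3) (x : V) : Prop := (A *ᵥ x) ⬝ᵥ (A *ᵥ x) = x ⬝ᵥ x

/-- the pairs `p`, `q` are matched by an orthogonal matrix which matches at least `h` pairs of `Λ` -/
def RichPair (Λ : Finset (V × V)) (h : ℝ) (p q : V × V) : Prop := by
  classical exact
  ∃ Q : M3, Qᵀ * Q = 1 ∧ Q *ᵥ p.1 = p.2 ∧ Q *ᵥ q.1 = q.2 ∧
    h ≤ ((Λ.filter (fun r => Q *ᵥ r.1 = r.2)).card : ℝ)

/-- matrix of `v ↦ cr w v` -/
def skew (w : V) : M3 := !![0, -(w 2), w 1; w 2, 0, -(w 0); -(w 1), w 0, 0]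

/-- the polynomial `det ((1 - A) + [ω] (1 + A))` -/
noncomputable def qA (A : M3) : MvPolynomial (Fin 3) ℝ :=
  (((1 - A).map (C : ℝ → MvPolynomial (Fin 3) ℝ)) +
    (!![0, -(X 2), X 1; X 2, 0, -(X 0); -(X 1), X 0, 0] : Matrix (Fin 3) (Fin 3) (MvPolynomial (Fin 3) ℝ)) *
      ((1 + A).map (C : ℝ → MvPolynomial (Fin 3) ℝ))).det

theorem eval_qA (A : M3) (w : V) : eval w (qA A) = ((1 - A) + skew w * (1 + A)).det := by
  unfold qA
  rw [RingHom.map_det]
  congr 1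
  ext i j
  fin_cases i <;> fin_cases j <;>
    simp [skew, Matrix.mul_apply, Fin.sum_univ_three, Matrix.map_apply, Matrix.one_apply,
      Matrix.vecMul, dotProduct]

/-- the vector field tangent to the lines `{g : g z = *}` (`s = 1`) or `{g : g * = z}` (`s = -1`) -/
def fld (s : ℝ) (z w : V) : V := z + s • cr w z + (w ⬝ᵥ z) • w

/-- hypotheses on the set `Λ` of pairs: `X`, `Y` the sets of first and second components -/
structure Hyp (Λ : Finset (V × V)) (X Y : Finset V) (n B K : ℝ) : Prop where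
  pair : ∀ p ∈ Λ, IsPair p
  memX : ∀ p ∈ Λ, p.1 ∈ X
  memY : ∀ p ∈ Λ, p.2 ∈ Y
  cardX : (X.card : ℝ) ≤ n
  cardY : (Y.card : ℝ) ≤ n
  planeX : ∀ (u : V) (b : ℝ), u ≠ 0 → ∀ F ⊆ X, (∀ x ∈ F, u ⬝ᵥ x = b) → (F.card : ℝ) ≤ B
  planeY : ∀ (u : V) (b : ℝ), u ≠ 0 → ∀ F ⊆ Y, (∀ x ∈ F, u ⬝ᵥ x = b) → (F.card : ℝ) ≤ B
  lineX : ∀ u : V, u ≠ 0 → ∀ F ⊆ X, (∀ x ∈ F, cr u x = 0) → (F.card : ℝ) ≤ K
  lineY : ∀ u : V, u ≠ 0 → ∀ F ⊆ Y, (∀ x ∈ F, cr u x = 0) → (F.card : ℝ) ≤ K

/-- the labels `κ` (on `X`), `κ'` (on `Y`) exclude all rich reguli -/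
def Lab (X Y : Finset V) (κ κ' : V → ℝ) (h : ℝ) : Prop :=
  ∀ A B : M3, Aᵀ * B = 1 → (1 - Aᵀ * A).det ≠ 0 →
    (∃ F ⊆ X, (∀ x ∈ F, Iso0 A x) ∧ h ≤ (F.card : ℝ)) →
    (∃ F ⊆ X, (∀ x ∈ F, Iso0 B x) ∧ h ≤ (F.card : ℝ)) →
    (∃ F ⊆ Y, (∀ x ∈ F, Iso0 Bᵀ x) ∧ h ≤ (F.card : ℝ)) →
    (∃ F ⊆ Y, (∀ x ∈ F, Iso0 Aᵀ x) ∧ h ≤ (F.card : ℝ)) →
    ∀ x ∈ X, Iso0 A x → ∀ x' ∈ X, Iso0 B x' → ∀ y ∈ Y, Iso0 Bᵀ y → ∀ y' ∈ Y, Iso0 Aᵀ y' →
      ¬ (κ x ≤ κ x' ∧ κ' y ≤ κ' y')

/-- the ordered pairs to be counted -/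
def Bad (Λ : Finset (V × V)) (κ κ' : V → ℝ) (h : ℝ) (p q : V × V) : Prop :=
  Meet p q ∧ κ p.1 ≤ κ q.1 ∧ κ' p.2 ≤ κ' q.2 ∧ ¬ RichPair Λ h p q

end Vale.Agent.P054.Y.GF
end

section

/-! P054, block G: construction of the labels (ordering trick). -/

set_option linter.all false
set_option autoImplicit false

namespace Vale.Agent.P054.Y.GF

open Finset Matrix

open scoped Classical in
/-- `Q` is a form of determinant `1` with at least `h` zeros in `X` -/
def RichF (X : Finset V) (h : ℝ) (Q : M3) : Prop :=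
  Qᵀ = Q ∧ Q.det = 1 ∧ h ≤ ((X.filter (fun x => x ⬝ᵥ (Q *ᵥ x) = 0)).card : ℝ)

/-- at most one rich form vanishes at `x` -/
def Uni (X : Finset V) (h : ℝ) (x : V) : Prop :=
  ∀ Q Q' : M3, RichF X h Q → RichF X h Q' → x ⬝ᵥ (Q *ᵥ x) = 0 → x ⬝ᵥ (Q' *ᵥ x) = 0 → Q = Q'

open scoped Classical in
/-- the label -/
noncomputable def kap (X : Finset V) (h : ℝ) (x : V) : ℝ :=
  if H : ∃ Q : M3, RichF X h Q ∧ x ⬝ᵥ (Q *ᵥ x) = 0 then (Classical.choose H).trace else 0

theorem kap_eq {X : Finset V} {h : ℝ} {x : V} (hu : Uni X h x) {Q : M3} (hQ : RichF X h Q)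
    (hx : x ⬝ᵥ (Q *ᵥ x) = 0) : kap X h x = Q.trace := by
  have H : ∃ Q : M3, RichF X h Q ∧ x ⬝ᵥ (Q *ᵥ x) = 0 := ⟨Q, hQ, hx⟩
  rw [kap, dif_pos H]
  have hs := Classical.choose_spec H
  rw [hu _ _ hs.1 hQ hs.2 hx]

/-- real cube roots -/
theorem exists_cube {d : ℝ} (hd : d ≠ 0) : ∃ l : ℝ, l ^ 3 * d = 1 := by
  rcases lt_or_gt_of_ne hd with h | h
  · have h' : 0 < -d := by linarith
    refine ⟨-((-d) ^ (-(1 / 3) : ℝ)), ?_⟩
    have : ((-d) ^ (-(1 / 3) : ℝ)) ^ 3 = (-d)⁻¹ := by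
      rw [← Real.rpow_natCast, ← Real.rpow_mul h'.le]
      norm_num [Real.rpow_neg_one]
    rw [neg_pow, this]
    have hd' : (-d)⁻¹ * (-d) = 1 := inv_mul_cancel₀ h'.ne'
    linear_combination hd'
  · refine ⟨d ^ (-(1 / 3) : ℝ), ?_⟩
    have : (d ^ (-(1 / 3) : ℝ)) ^ 3 = d⁻¹ := by
      rw [← Real.rpow_natCast, ← Real.rpow_mul h.le]
      norm_num [Real.rpow_neg_one]
    rw [this]
    exact inv_mul_cancel₀ hd

theorem form_zero (A : M3) (l : ℝ) {x : V} (hx : Iso0 A x) :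
    x ⬝ᵥ ((l • (1 - Aᵀ * A)) *ᵥ x) = 0 := by
  have h1 : x ⬝ᵥ ((Aᵀ * A) *ᵥ x) = (A *ᵥ x) ⬝ᵥ (A *ᵥ x) := by
    rw [← Matrix.mulVec_mulVec, Matrix.dotProduct_mulVec, Matrix.vecMul_transpose]
  rw [Matrix.smul_mulVec, Matrix.sub_mulVec, Matrix.one_mulVec, dotProduct_smul, dotProduct_sub, h1,
    hx, sub_self, smul_zero]

theorem richF_of (A : M3) (l : ℝ) (hl : l ^ 3 * (1 - Aᵀ * A).det = 1) (X : Finset V) (h : ℝ)
    {F : Finset V} (hF : F ⊆ X) (hFA : ∀ x ∈ F, Iso0 A x) (hFh : h ≤ (F.card : ℝ)) :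
    RichF X h (l • (1 - Aᵀ * A)) := by
  classical
  refine ⟨?_, ?_, ?_⟩
  · rw [Matrix.transpose_smul, Matrix.transpose_sub, Matrix.transpose_one, Matrix.transpose_mul,
      Matrix.transpose_transpose]
  · rw [Matrix.det_smul, Fintype.card_fin]
    exact hl
  · refine le_trans hFh ?_
    have : F ⊆ X.filter (fun x => x ⬝ᵥ ((l • (1 - Aᵀ * A)) *ᵥ x) = 0) := by
      intro x hx
      exact Finset.mem_filter.2 ⟨hF hx, form_zero A l (hFA x hx)⟩
    exact_mod_cast Finset.card_le_card this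

theorem det_comm (A : M3) : (1 - A * Aᵀ).det = (1 - Aᵀ * A).det :=
  Matrix.det_one_sub_mul_comm A Aᵀ

theorem trace_comm' (A : M3) : (1 - A * Aᵀ).trace = (1 - Aᵀ * A).trace := by
  rw [Matrix.trace_sub, Matrix.trace_sub, Matrix.trace_mul_comm]

theorem det_B_ne {A B : M3} (hAB : Aᵀ * B = 1) (hdet : (1 - Aᵀ * A).det ≠ 0) :
    (1 - Bᵀ * B).det ≠ 0 := by
  have hBA : B * Aᵀ = 1 := mul_eq_one_comm.1 hAB
  have hABt : Bᵀ * A = 1 := by
    have := congrArg Matrix.transpose hAB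
    rw [Matrix.transpose_mul, Matrix.transpose_transpose, Matrix.transpose_one] at this
    exact this
  -- Bᵀ (A Aᵀ - 1) B = 1 - Bᵀ B
  have h1 : Bᵀ * (A * Aᵀ - 1) * B = 1 - Bᵀ * B := by
    calc Bᵀ * (A * Aᵀ - 1) * B = (Bᵀ * A) * (Aᵀ * B) - Bᵀ * B := by
          rw [Matrix.mul_sub, Matrix.sub_mul, Matrix.mul_one]
          simp only [Matrix.mul_assoc]
      _ = 1 - Bᵀ * B := by rw [hABt, hAB, Matrix.mul_one]
  have h2 : (A * Aᵀ - 1).det ≠ 0 := by
    have : A * Aᵀ - 1 = (-1 : ℝ) • (1 - A * Aᵀ) := by rw [neg_smul, one_smul, neg_sub]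
    rw [this, Matrix.det_smul, det_comm]
    exact mul_ne_zero (by norm_num) hdet
  have hB : B.det ≠ 0 := by
    intro h0
    have := congrArg Matrix.det hAB
    rw [Matrix.det_mul, h0, mul_zero, Matrix.det_one] at this
    exact zero_ne_one this
  rw [← h1, Matrix.det_mul, Matrix.det_mul, Matrix.det_transpose]
  exact mul_ne_zero (mul_ne_zero hB h2) hB

/-- **the labels exclude rich reguli** -/
theorem lab_of (X Y X' Y' : Finset V) (h : ℝ) (hX : X' ⊆ X) (hY : Y' ⊆ Y)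
    (uX : ∀ x ∈ X', Uni X h x) (uY : ∀ y ∈ Y', Uni Y h y) (hX0 : ∀ x ∈ X', x ≠ 0) :
    Lab X' Y' (kap X h) (kap Y h) h := by
  intro A B hAB hdet ⟨F1, h1, h1', h1''⟩ ⟨F2, h2, h2', h2''⟩ ⟨F3, h3, h3', h3''⟩
    ⟨F4, h4, h4', h4''⟩ x hx hxA x' hx' hxB y hy hyB y' hy' hyA ⟨hle1, hle2⟩
  obtain ⟨l, hl⟩ := exists_cube hdet
  obtain ⟨m, hm⟩ := exists_cube (det_B_ne hAB hdet)
  have hlT : l ^ 3 * (1 - Aᵀᵀ * Aᵀ).det = 1 := by
    rw [Matrix.transpose_transpose, det_comm]; exact hl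
  have hmT : m ^ 3 * (1 - Bᵀᵀ * Bᵀ).det = 1 := by
    rw [Matrix.transpose_transpose, det_comm]; exact hm
  have r1 := richF_of A l hl X h (h1.trans hX) h1' h1''
  have r2 := richF_of B m hm X h (h2.trans hX) h2' h2''
  have r3 := richF_of Bᵀ m hmT Y h (h3.trans hY) h3' h3''
  have r4 := richF_of Aᵀ l hlT Y h (h4.trans hY) h4' h4''
  have k1 := kap_eq (uX x hx) r1 (form_zero A l hxA)
  have k2 := kap_eq (uX x' hx') r2 (form_zero B m hxB)
  have k3 := kap_eq (uY y hy) r3 (form_zero Bᵀ m hyB)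
  have k4 := kap_eq (uY y' hy') r4 (form_zero Aᵀ l hyA)
  rw [Matrix.trace_smul, smul_eq_mul] at k1 k2 k3 k4
  rw [Matrix.transpose_transpose, trace_comm'] at k3 k4
  rw [k1, k2] at hle1
  rw [k3, k4] at hle2
  exact Vale.Agent.P054.Y.G.class_ne A B hAB hdet x (hX0 x hx) hxA l m hl hm
    (le_antisymm hle1 hle2)

end Vale.Agent.P054.Y.GF
end

section

/-! P054, block G: the sets `Λ_ac` satisfy `Hyp` and `Lab`. -/

set_option linter.all false
set_option autoImplicit false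

namespace Vale.Agent.P054.Y.GF

open Finset Matrix

open scoped Classical in
/-- the neighbours of `a`, seen from `a` -/
noncomputable def sh (E : V → Finset V) (a : V) : Finset V := (E a).image (fun b => b - a)

open scoped Classical in
/-- the pairs over `(a, c)` -/
noncomputable def lamS (E : V → Finset V) (a c : V) : Finset (V × V) :=
  (sh E a ×ˢ sh E c).filter (fun q => q.1 ⬝ᵥ q.1 = q.2 ⬝ᵥ q.2)

theorem mem_sh {E : V → Finset V} {a x : V} : x ∈ sh E a ↔ a + x ∈ E a := by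
  classical
  rw [sh, Finset.mem_image]
  constructor
  · rintro ⟨b, hb, rfl⟩
    have : a + (b - a) = b := by abel
    rwa [this]
  · intro h
    exact ⟨a + x, h, by abel⟩

theorem card_sh (E : V → Finset V) (a : V) : (sh E a).card = (E a).card := by
  classical
  rw [sh, Finset.card_image_of_injective]
  intro x y h
  exact sub_left_injective h

theorem card_le_of_shift {S T : Finset V} (a : V) (h : ∀ x ∈ S, a + x ∈ T) : S.card ≤ T.card := by
  classical
  have : (S.image (fun x => a + x)).card = S.card :=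
    Finset.card_image_of_injective _ (fun x y h => add_left_cancel h)
  rw [← this]
  apply Finset.card_le_card
  intro y hy
  obtain ⟨x, hx, rfl⟩ := Finset.mem_image.1 hy
  exact h x hx

/-- hypotheses on the neighbourhoods -/
structure EHyp (P : Finset V) (E : V → Finset V) (B K : ℝ) : Prop where
  sub : ∀ a ∈ P, E a ⊆ P
  ne : ∀ a ∈ P, ∀ b ∈ E a, b ≠ a
  line : ∀ a ∈ P, ∀ b ∈ E a, ∀ F ⊆ P, (∀ p ∈ F, cr (b - a) (p - a) = 0) → (F.card : ℝ) ≤ K
  plane : ∀ (u : V) (t : ℝ), u ≠ 0 → ∀ F ⊆ P, (∀ p ∈ F, u ⬝ᵥ p = t) → (F.card : ℝ) ≤ B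

theorem cr_comm_zero {x y : V} (h : cr x y = 0) : cr y x = 0 := by
  have h0 := congrFun h 0
  have h1 := congrFun h 1
  have h2 := congrFun h 2
  simp [cr] at h0 h1 h2
  funext i
  fin_cases i
  · simp [cr]; linarith
  · simp [cr]; linarith
  · simp [cr]; linarith

/-- two vectors parallel to `u ≠ 0` are parallel -/
theorem cr_trans {u x y : V} (hu : u ≠ 0) (hx : cr u x = 0) (hy : cr u y = 0) : cr x y = 0 := by
  have x0 := congrFun hx 0
  have x1 := congrFun hx 1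
  have x2 := congrFun hx 2
  have y0 := congrFun hy 0
  have y1 := congrFun hy 1
  have y2 := congrFun hy 2
  simp only [cr, Matrix.cons_val_zero, Matrix.cons_val_one, Matrix.cons_val_two, Matrix.head_cons,
    Matrix.tail_cons, Pi.zero_apply, Matrix.cons_val] at x0 x1 x2 y0 y1 y2
  have hk : ∃ k, u k ≠ 0 := by
    by_contra hcon
    push Not at hcon
    exact hu (funext hcon)
  have main : ∀ k, u k * (x 1 * y 2 - x 2 * y 1) = 0 ∧ u k * (x 2 * y 0 - x 0 * y 2) = 0 ∧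
      u k * (x 0 * y 1 - x 1 * y 0) = 0 := by
    intro k
    fin_cases k
    · refine ⟨?_, ?_, ?_⟩
      · simp only [Fin.zero_eta, Fin.isValue]
        linear_combination (y 2) * x2 + (y 1) * x1 + (x 0) * y0
      · simp only [Fin.zero_eta, Fin.isValue]
        linear_combination (x 0) * y1 - y 0 * x1
      · simp only [Fin.zero_eta, Fin.isValue]
        linear_combination (x 0) * y2 - y 0 * x2
    · refine ⟨?_, ?_, ?_⟩
      · simp only [Fin.mk_one, Fin.isValue]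
        linear_combination (x 1) * y0 - y 1 * x0
      · simp only [Fin.mk_one, Fin.isValue]
        linear_combination (y 0) * x0 + (y 2) * x2 + (x 1) * y1
      · simp only [Fin.mk_one, Fin.isValue]
        linear_combination (x 1) * y2 - y 1 * x2
    · refine ⟨?_, ?_, ?_⟩
      · simp only [Fin.reduceFinMk, Fin.isValue]
        linear_combination (x 2) * y0 - y 2 * x0
      · simp only [Fin.reduceFinMk, Fin.isValue]
        linear_combination (x 2) * y1 - y 2 * x1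
      · simp only [Fin.reduceFinMk, Fin.isValue]
        linear_combination (y 1) * x1 + (y 0) * x0 + (x 2) * y2
  obtain ⟨k, hk⟩ := hk
  obtain ⟨m0, m1, m2⟩ := main k
  have z0 := (mul_eq_zero.1 m0).resolve_left hk
  have z1 := (mul_eq_zero.1 m1).resolve_left hk
  have z2 := (mul_eq_zero.1 m2).resolve_left hk
  funext i
  fin_cases i
  · exact z0
  · exact z1
  · exact z2

theorem plane_sh {P : Finset V} {E : V → Finset V} {B K : ℝ} (h : EHyp P E B K) {a : V}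
    (ha : a ∈ P) (u : V) (b : ℝ) (hu : u ≠ 0) (F : Finset V) (hF : F ⊆ sh E a)
    (hFb : ∀ x ∈ F, u ⬝ᵥ x = b) : (F.card : ℝ) ≤ B := by
  classical
  have h1 : F.card = (F.image (fun x => a + x)).card :=
    (Finset.card_image_of_injective _ (fun x y h => add_left_cancel h)).symm
  rw [h1]
  refine h.plane u (u ⬝ᵥ a + b) hu _ ?_ ?_
  · intro y hy
    obtain ⟨x, hx, rfl⟩ := Finset.mem_image.1 hy
    exact h.sub a ha (mem_sh.1 (hF hx))
  · intro y hy
    obtain ⟨x, hx, rfl⟩ := Finset.mem_image.1 hy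
    rw [dotProduct_add, hFb x hx]

theorem line_sh {P : Finset V} {E : V → Finset V} {B K : ℝ} (h : EHyp P E B K) (hK : 0 ≤ K) {a : V}
    (ha : a ∈ P) (u : V) (hu : u ≠ 0) (F : Finset V) (hF : F ⊆ sh E a)
    (hFb : ∀ x ∈ F, cr u x = 0) : (F.card : ℝ) ≤ K := by
  classical
  rcases F.eq_empty_or_nonempty with h0 | ⟨x0, hx0⟩
  · rw [h0]; simpa using hK
  have h1 : F.card = (F.image (fun x => a + x)).card :=
    (Finset.card_image_of_injective _ (fun x y h => add_left_cancel h)).symm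
  rw [h1]
  refine h.line a ha (a + x0) (mem_sh.1 (hF hx0)) _ ?_ ?_
  · intro y hy
    obtain ⟨x, hx, rfl⟩ := Finset.mem_image.1 hy
    exact h.sub a ha (mem_sh.1 (hF hx))
  · intro y hy
    obtain ⟨x, hx, rfl⟩ := Finset.mem_image.1 hy
    have e1 : a + x0 - a = x0 := by abel
    have e2 : a + x - a = x := by abel
    rw [e1, e2]
    exact cr_trans hu (hFb x0 hx0) (hFb x hx)

theorem hyp_lamS {P : Finset V} {E : V → Finset V} {B K : ℝ} (h : EHyp P E B K) (hK : 0 ≤ K)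
    {a c : V} (ha : a ∈ P) (hc : c ∈ P) :
    Hyp (lamS E a c) (sh E a) (sh E c) (P.card : ℝ) B K := by
  classical
  refine ⟨?_, ?_, ?_, ?_, ?_, ?_, ?_, ?_, ?_⟩
  · intro p hp
    rw [lamS, Finset.mem_filter, Finset.mem_product] at hp
    refine ⟨hp.2, ?_⟩
    intro h0
    have h1 := mem_sh.1 hp.1.1
    rw [h0, add_zero] at h1
    exact h.ne a ha a h1 rfl
  · intro p hp
    rw [lamS, Finset.mem_filter, Finset.mem_product] at hp
    exact hp.1.1
  · intro p hp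
    rw [lamS, Finset.mem_filter, Finset.mem_product] at hp
    exact hp.1.2
  · rw [card_sh]
    exact_mod_cast Finset.card_le_card (h.sub a ha)
  · rw [card_sh]
    exact_mod_cast Finset.card_le_card (h.sub c hc)
  · exact plane_sh h ha
  · exact plane_sh h hc
  · exact line_sh h hK ha
  · exact line_sh h hK hc

/-- the neighbourhoods after deletion of the points with two rich forms -/
noncomputable def uniE (E0 : V → Finset V) (h : ℝ) (a : V) : Finset V := by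
  classical exact (E0 a).filter (fun b => Uni (sh E0 a) h (b - a))

theorem uniE_sub (E0 : V → Finset V) (h : ℝ) (a : V) : uniE E0 h a ⊆ E0 a := by
  classical
  exact Finset.filter_subset _ _

theorem sh_uniE_sub (E0 : V → Finset V) (h : ℝ) (a : V) : sh (uniE E0 h) a ⊆ sh E0 a := by
  intro x hx
  exact mem_sh.2 (uniE_sub E0 h a (mem_sh.1 hx))

theorem uni_of_mem {E0 : V → Finset V} {h : ℝ} {a x : V} (hx : x ∈ sh (uniE E0 h) a) :
    Uni (sh E0 a) h x := by
  classical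
  have h1 := mem_sh.1 hx
  rw [uniE, Finset.mem_filter] at h1
  have e1 : a + x - a = x := by abel
  rw [e1] at h1
  exact h1.2

theorem EHyp.uniE {P : Finset V} {E : V → Finset V} {B K : ℝ} (h : EHyp P E B K) (r : ℝ) :
    EHyp P (uniE E r) B K :=
  ⟨fun a ha => (uniE_sub E r a).trans (h.sub a ha),
   fun a ha b hb => h.ne a ha b (uniE_sub E r a hb),
   fun a ha b hb => h.line a ha b (uniE_sub E r a hb), h.plane⟩

/-- the labels -/
theorem lab_lam {P : Finset V} {E : V → Finset V} {B K : ℝ} (h : EHyp P E B K) (r : ℝ)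
    {a c : V} (ha : a ∈ P) (hc : c ∈ P) :
    Lab (sh (uniE E r) a) (sh (uniE E r) c) (kap (sh E a) r) (kap (sh E c) r) r := by
  refine lab_of (sh E a) (sh E c) _ _ r (sh_uniE_sub E r a) (sh_uniE_sub E r c)
    (fun x hx => uni_of_mem hx) (fun y hy => uni_of_mem hy) ?_
  intro x hx h0
  have h1 := mem_sh.1 (sh_uniE_sub E r a hx)
  rw [h0, add_zero] at h1
  exact h.ne a ha a h1 rfl

open scoped Classical in
/-- the number of deleted neighbours -/
theorem card_uniE (E : V → Finset V) (r : ℝ) (a : V) :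
    (E a).card = (uniE E r a).card + ((sh E a).filter (fun x => ¬ Uni (sh E a) r x)).card := by
  classical
  have h1 := Finset.card_filter_add_card_filter_not (s := E a) (p := fun b => Uni (sh E a) r (b - a))
  rw [← h1, uniE]
  congr 1
  have : (sh E a).filter (fun x => ¬ Uni (sh E a) r x) =
      ((E a).filter (fun b => ¬ Uni (sh E a) r (b - a))).image (fun b => b - a) := by
    ext x
    simp only [Finset.mem_filter, Finset.mem_image, mem_sh]
    constructor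
    · rintro ⟨h2, h3⟩
      refine ⟨a + x, ⟨h2, ?_⟩, by abel⟩
      have e1 : a + x - a = x := by abel
      rwa [e1]
    · rintro ⟨b, ⟨h2, h3⟩, rfl⟩
      have e1 : a + (b - a) = b := by abel
      rw [e1]
      exact ⟨h2, h3⟩
  rw [this, Finset.card_image_of_injective _ (fun x y h => sub_left_injective h)]

end Vale.Agent.P054.Y.GF
end

section

/-! Leaf GF-Cones (helper686).  Two different rich forms share at most 4 directions (`G.conic_five`: five
pairwise non parallel common zeros give `Q' = c Q`, `det` gives `c = 1`), so at most `4 K` elements of `X`.  Any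
finite family of rich forms has at most `2 n / h` members (`G.packing`), so the rich forms are a
finite set with at most `2 n / h` elements and the `x` with two of them are at most
`(2 n / h)^2 * 4 K`. -/

set_option linter.all false

namespace Vale.Agent.P054.Y.GF

open Finset Matrix

theorem co_cr_ne {x y : V} (h : cr x y ≠ 0) : crossProduct x y ≠ 0 := by
  rw [cross_apply]
  exact h

open scoped Classical in
theorem co_step {X : Finset V} {K : ℝ} (hX0 : ∀ x ∈ X, x ≠ 0)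
    (hline : ∀ u : V, u ≠ 0 → ∀ F ⊆ X, (∀ x ∈ F, cr u x = 0) → (F.card : ℝ) ≤ K)
    {F : Finset V} (hF : F ⊆ X) {c : ℝ} (hc : 0 ≤ c) (h : c < (F.card : ℝ)) :
    ∃ x ∈ F, ∃ F' ⊆ F, (∀ y ∈ F', cr x y ≠ 0) ∧ c - K < (F'.card : ℝ) := by
  have h0 : 0 < F.card := by
    have : (0 : ℝ) < F.card := lt_of_le_of_lt hc h
    exact_mod_cast this
  obtain ⟨x, hx⟩ := Finset.card_pos.1 h0
  refine ⟨x, hx, F.filter (fun y => ¬ cr x y = 0), Finset.filter_subset _ _,
    fun y hy => (Finset.mem_filter.1 hy).2, ?_⟩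
  have h1 := hline x (hX0 x (hF hx)) (F.filter (fun y => cr x y = 0))
    ((Finset.filter_subset _ _).trans hF) (fun y hy => (Finset.mem_filter.1 hy).2)
  have h2 : (F.filter (fun y => cr x y = 0)).card + (F.filter (fun y => ¬ cr x y = 0)).card =
      F.card := Finset.card_filter_add_card_filter_not _
  have h3 : ((F.filter (fun y => cr x y = 0)).card : ℝ) +
      ((F.filter (fun y => ¬ cr x y = 0)).card : ℝ) = F.card := by exact_mod_cast h2
  linarith

open scoped Classical in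
/-- two different rich forms share at most `4 K` elements -/
theorem co_inter {X : Finset V} {K h : ℝ} (hX0 : ∀ x ∈ X, x ≠ 0) (hK : 1 ≤ K)
    (hline : ∀ u : V, u ≠ 0 → ∀ F ⊆ X, (∀ x ∈ F, cr u x = 0) → (F.card : ℝ) ≤ K)
    {Q Q' : M3} (hQ : RichF X h Q) (hQ' : RichF X h Q') (hne : Q ≠ Q') :
    (((X.filter (fun x => x ⬝ᵥ (Q *ᵥ x) = 0)) ∩
      (X.filter (fun x => x ⬝ᵥ (Q' *ᵥ x) = 0))).card : ℝ) ≤ 4 * K := by
  by_contra hcon
  have hcon := not_le.1 hcon
  have hs0 : (X.filter (fun x => x ⬝ᵥ (Q *ᵥ x) = 0)) ∩ (X.filter (fun x => x ⬝ᵥ (Q' *ᵥ x) = 0)) ⊆ X :=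
    Finset.inter_subset_left.trans (Finset.filter_subset _ _)
  obtain ⟨x1, m1, F1, s1, c1, k1⟩ := co_step hX0 hline hs0 (by linarith) hcon
  obtain ⟨x2, m2, F2, s2, c2, k2⟩ := co_step hX0 hline (s1.trans hs0) (by linarith) k1
  obtain ⟨x3, m3, F3, s3, c3, k3⟩ :=
    co_step hX0 hline (s2.trans (s1.trans hs0)) (by linarith) k2
  obtain ⟨x4, m4, F4, s4, c4, k4⟩ :=
    co_step hX0 hline (s3.trans (s2.trans (s1.trans hs0))) (by linarith) k3
  have h5 : 0 < F4.card := by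
    have : (0 : ℝ) < F4.card := by linarith
    exact_mod_cast this
  obtain ⟨x5, m5⟩ := Finset.card_pos.1 h5
  have z : ∀ x ∈ (X.filter (fun x => x ⬝ᵥ (Q *ᵥ x) = 0)) ∩ (X.filter (fun x => x ⬝ᵥ (Q' *ᵥ x) = 0)),
      x ⬝ᵥ (Q *ᵥ x) = 0 ∧ x ⬝ᵥ (Q' *ᵥ x) = 0 := fun x hx =>
    ⟨(Finset.mem_filter.1 (Finset.mem_inter.1 hx).1).2,
      (Finset.mem_filter.1 (Finset.mem_inter.1 hx).2).2⟩
  have t2 := s1 m2
  have t3 := s1 (s2 m3)
  have t4 := s1 (s2 (s3 m4))
  have t5 := s1 (s2 (s3 (s4 m5)))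
  obtain ⟨c, hc⟩ := G.conic_five hQ.1 hQ'.1 (by rw [hQ.2.1]; exact one_ne_zero)
    (co_cr_ne (c1 x2 m2)) (co_cr_ne (c1 x3 (s2 m3))) (co_cr_ne (c1 x4 (s2 (s3 m4))))
    (co_cr_ne (c1 x5 (s2 (s3 (s4 m5)))))
    (co_cr_ne (c2 x3 m3)) (co_cr_ne (c2 x4 (s3 m4))) (co_cr_ne (c2 x5 (s3 (s4 m5))))
    (co_cr_ne (c3 x4 m4)) (co_cr_ne (c3 x5 (s4 m5))) (co_cr_ne (c4 x5 m5))
    (z x1 m1).1 (z x2 t2).1 (z x3 t3).1 (z x4 t4).1 (z x5 t5).1
    (z x1 m1).2 (z x2 t2).2 (z x3 t3).2 (z x4 t4).2 (z x5 t5).2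
  have hc3 : c ^ 3 = 1 := by
    have := hQ'.2.1
    rw [hc, det_smul, hQ.2.1, mul_one, Fintype.card_fin] at this
    exact this
  have hc1 : c = 1 := by
    have h1 : (c - 1) * (c ^ 2 + c + 1) = 0 := by linear_combination hc3
    rcases mul_eq_zero.1 h1 with h2 | h2
    · linarith
    · nlinarith [sq_nonneg (c + 1 / 2)]
  apply hne
  rw [hc, hc1, one_smul]

open scoped Classical in
theorem not_uni_le {X : Finset V} {n K h : ℝ} (hX0 : ∀ x ∈ X, x ≠ 0) (hn : (X.card : ℝ) ≤ n)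
    (hK : 1 ≤ K) (hh0 : 0 < h) (hline : ∀ u : V, u ≠ 0 → ∀ F ⊆ X, (∀ x ∈ F, cr u x = 0) → (F.card : ℝ) ≤ K)
    (hh : 32 * K * n ≤ h ^ 2) :
    ((X.filter (fun x => ¬ Uni X h x)).card : ℝ) ≤ 64 * K * n ^ 2 / h ^ 2 := by
  have hX : (0 : ℝ) ≤ (X.card : ℝ) := Nat.cast_nonneg _
  have hn0 : 0 ≤ n := hX.trans hn
  have hpack : ∀ I : Finset M3, (∀ Q ∈ I, RichF X h Q) → (I.card : ℝ) * h ≤ 2 * X.card := by
    intro I hI
    refine G.packing X I (fun Q => X.filter (fun x => x ⬝ᵥ (Q *ᵥ x) = 0))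
      (fun Q _ => Finset.filter_subset _ _) (r := 4 * K) (by linarith) hh0
      (fun Q hQ => (hI Q hQ).2.2)
      (fun Q hQ Q' hQ' hne => co_inter hX0 hK hline (hI Q hQ) (hI Q' hQ') hne) ?_
    have h1 : K * X.card ≤ K * n := mul_le_mul_of_nonneg_left hn (by linarith)
    have h2 : 0 ≤ K * n := mul_nonneg (by linarith) hn0
    linarith
  have hfin : {Q : M3 | RichF X h Q}.Finite := by
    by_contra hinf
    have hinf' : {Q : M3 | RichF X h Q}.Infinite := hinf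
    obtain ⟨I, hI, hcard⟩ := hinf'.exists_subset_card_eq (⌊2 * (X.card : ℝ) / h⌋₊ + 1)
    have h1 := hpack I (fun Q hQ => hI hQ)
    rw [hcard] at h1
    have h2 := Nat.lt_floor_add_one (2 * (X.card : ℝ) / h)
    rw [div_lt_iff₀ hh0] at h2
    push_cast at h1
    linarith only [h1, h2]
  set I := hfin.toFinset with hI
  have hIr : ∀ Q ∈ I, RichF X h Q := fun Q hQ => hfin.mem_toFinset.1 hQ
  have hsub : X.filter (fun x => ¬ Uni X h x) ⊆ ((I ×ˢ I).filter (fun q => q.1 ≠ q.2)).biUnion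
      (fun q => (X.filter (fun x => x ⬝ᵥ (q.1 *ᵥ x) = 0)) ∩
        (X.filter (fun x => x ⬝ᵥ (q.2 *ᵥ x) = 0))) := by
    intro x hx
    obtain ⟨hxX, hu⟩ := Finset.mem_filter.1 hx
    unfold Uni at hu
    push Not at hu
    obtain ⟨Q, Q', hQ, hQ', e, e', hne⟩ := hu
    exact Finset.mem_biUnion.2 ⟨(Q, Q'), Finset.mem_filter.2
      ⟨Finset.mem_product.2 ⟨hfin.mem_toFinset.2 hQ, hfin.mem_toFinset.2 hQ'⟩, hne⟩,
      Finset.mem_inter.2 ⟨Finset.mem_filter.2 ⟨hxX, e⟩, Finset.mem_filter.2 ⟨hxX, e'⟩⟩⟩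
  have hcard : ((X.filter (fun x => ¬ Uni X h x)).card : ℝ) ≤
      ∑ q ∈ (I ×ˢ I).filter (fun q => q.1 ≠ q.2),
        (((X.filter (fun x => x ⬝ᵥ (q.1 *ᵥ x) = 0)) ∩
        (X.filter (fun x => x ⬝ᵥ (q.2 *ᵥ x) = 0))).card : ℝ) := by
    have := (Finset.card_le_card hsub).trans Finset.card_biUnion_le
    exact_mod_cast this
  have hsum : ∑ q ∈ (I ×ˢ I).filter (fun q => q.1 ≠ q.2),
        (((X.filter (fun x => x ⬝ᵥ (q.1 *ᵥ x) = 0)) ∩
        (X.filter (fun x => x ⬝ᵥ (q.2 *ᵥ x) = 0))).card : ℝ) ≤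
      ∑ q ∈ (I ×ˢ I).filter (fun q => q.1 ≠ q.2), 4 * K := by
    refine Finset.sum_le_sum (fun q hq => ?_)
    obtain ⟨hq1, hq2⟩ := Finset.mem_filter.1 hq
    obtain ⟨hq3, hq4⟩ := Finset.mem_product.1 hq1
    exact co_inter hX0 hK hline (hIr _ hq3) (hIr _ hq4) hq2
  rw [Finset.sum_const, nsmul_eq_mul] at hsum
  have h1 : (((I ×ˢ I).filter (fun q => q.1 ≠ q.2)).card : ℝ) ≤ (I.card : ℝ) ^ 2 := by
    have : ((I ×ˢ I).filter (fun q => q.1 ≠ q.2)).card ≤ (I ×ˢ I).card :=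
      Finset.card_filter_le _ _
    rw [Finset.card_product] at this
    calc (((I ×ˢ I).filter (fun q => q.1 ≠ q.2)).card : ℝ) ≤ ((I.card * I.card : ℕ) : ℝ) := by
          exact_mod_cast this
      _ = (I.card : ℝ) ^ 2 := by
          push_cast
          ring
  have h2 := hpack I hIr
  have h3 : (I.card : ℝ) * h ≤ 2 * n := by linarith
  have hI0 : (0 : ℝ) ≤ (I.card : ℝ) := Nat.cast_nonneg _
  have h4 : ((I.card : ℝ) * h) ^ 2 ≤ (2 * n) ^ 2 :=
    pow_le_pow_left₀ (mul_nonneg hI0 hh0.le) h3 2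
  have h5 : (((I ×ˢ I).filter (fun q => q.1 ≠ q.2)).card : ℝ) * (4 * K) ≤
      (I.card : ℝ) ^ 2 * (4 * K) := mul_le_mul_of_nonneg_right h1 (by linarith)
  have h6 : ((X.filter (fun x => ¬ Uni X h x)).card : ℝ) ≤ (I.card : ℝ) ^ 2 * (4 * K) := by
    linarith
  rw [le_div_iff₀ (by positivity)]
  have h7 : ((X.filter (fun x => ¬ Uni X h x)).card : ℝ) * h ^ 2 ≤
      (I.card : ℝ) ^ 2 * (4 * K) * h ^ 2 := mul_le_mul_of_nonneg_right h6 (by positivity)
  have h8 : (I.card : ℝ) ^ 2 * (4 * K) * h ^ 2 ≤ (2 * n) ^ 2 * (4 * K) := by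
    calc (I.card : ℝ) ^ 2 * (4 * K) * h ^ 2 = ((I.card : ℝ) * h) ^ 2 * (4 * K) := by ring
      _ ≤ (2 * n) ^ 2 * (4 * K) := mul_le_mul_of_nonneg_right h4 (by linarith)
  have h9 : 0 ≤ K * n ^ 2 := mul_nonneg (by linarith) (by positivity)
  linarith only [h9, h8, h7]

end Vale.Agent.P054.Y.GF
end

section

/-! Leaf G-Chart.  The lines of the pairs in the Cayley chart.  With `s = x + y`, `h = y - x` the line
of `(x, y)` is `{w : cr w s = h}` (note `h ⬝ᵥ s = 0`). -/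

set_option linter.all false

namespace Vale.Agent.P054.Y.GF

open Finset Matrix MvPolynomial
open Vale.Agent.P041.SE

theorem chart_cr (x y : V) : cr x y = crossProduct x y := by
  rw [cross_apply]
  rfl

theorem chart_coord (p : V × V) (w : V) (t : ℝ) (h : gpt (ln p) t = w) : t = w 2 := by
  rw [← h]
  simp [gpt]

theorem on_ln {p : V × V} (hp : IsPair p) (hc : p.1 2 + p.2 2 ≠ 0) (w : V) :
    (∃ t, gpt (ln p) t = w) ↔ cr w (p.1 + p.2) = p.2 - p.1 := by
  obtain ⟨x, y⟩ := p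
  have hxy := hp.1
  simp only [dotProduct, Fin.sum_univ_three] at hxy hc
  constructor
  · rintro ⟨t, h⟩
    have ht := chart_coord _ _ _ h
    subst ht
    have h0 := congrFun h 0
    have h1 := congrFun h 1
    simp only [gpt, ln, Matrix.cons_val_zero, Matrix.cons_val_one, Matrix.cons_val] at h0 h1
    have e0 : w 0 * (x 2 + y 2) = -(y 1 - x 1) + (x 0 + y 0) * w 2 := by
      rw [← h0]
      field_simp
    have e1 : w 1 * (x 2 + y 2) = (y 0 - x 0) + (x 1 + y 1) * w 2 := by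
      rw [← h1]
      field_simp
    apply Vale.Agent.P054.Y.G.eq3 <;>
    simp only [cr, Pi.sub_apply, Pi.add_apply, Matrix.cons_val_zero,
      Matrix.cons_val_one, Matrix.cons_val]
    · linarith
    · linarith
    · apply mul_left_cancel₀ hc
      linear_combination ((x 1 + y 1)) * e0 - (x 0 + y 0) * e1 + hxy
  · intro h
    refine ⟨w 2, ?_⟩
    have h0 := congrFun h 0
    have h1 := congrFun h 1
    simp only [cr, Pi.sub_apply, Pi.add_apply, Matrix.cons_val_zero,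
      Matrix.cons_val_one, Matrix.cons_val] at h0 h1
    apply Vale.Agent.P054.Y.G.eq3 <;>
      simp only [gpt, ln, Matrix.cons_val_zero, Matrix.cons_val_one, Matrix.cons_val]
    · field_simp
      linarith
    · field_simp
      linarith

theorem chart_gpt {p : V × V} (hp : IsPair p) (hc : p.1 2 + p.2 2 ≠ 0) (t : ℝ) :
    cr (gpt (ln p) t) (p.1 + p.2) = p.2 - p.1 :=
  (on_ln hp hc _).1 ⟨t, rfl⟩

theorem dot_of_meet {p q : V × V} (hp : IsPair p) (hq : IsPair q) (hcp : p.1 2 + p.2 2 ≠ 0)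
    (hcq : q.1 2 + q.2 2 ≠ 0) {t t' : ℝ} (h : gpt (ln p) t = gpt (ln q) t') :
    p.1 ⬝ᵥ q.1 = p.2 ⬝ᵥ q.2 := by
  have e1 := chart_gpt hp hcp t
  have e2 := chart_gpt hq hcq t'
  rw [← h, chart_cr] at e2
  rw [chart_cr] at e1
  exact Vale.Agent.P054.Y.G.cayley_dot _ _ _ _ _ e1.symm e2.symm

theorem chart_lin (w u v : V) (c : ℝ) : cr (w + c • u) v = cr w v + c • cr u v := by
  apply Vale.Agent.P054.Y.G.eq3 <;>
  simp only [cr, Pi.smul_apply, Pi.add_apply, Matrix.cons_val_zero, smul_eq_mul,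
    Matrix.cons_val_one, Matrix.cons_val] <;> ring

theorem chart_self (u : V) : cr u u = 0 := by
  rw [chart_cr, cross_self]

theorem ln_meet {p q : V × V} (hp : IsPair p) (hq : IsPair q) (hcp : p.1 2 + p.2 2 ≠ 0)
    (hcq : q.1 2 + q.2 2 ≠ 0) (m : p.1 ⬝ᵥ q.1 = p.2 ⬝ᵥ q.2) (hx : cr (p.1 + p.2) (q.1 + q.2) ≠ 0) :
    ∃ t, gpt (ln p) t = gpt (ln q) t := by
  set u := p.1 + p.2 with hu
  set u' := q.1 + q.2 with hu'
  set w0 := gpt (ln p) 0 with hw0
  have e0 := chart_gpt hp hcp 0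
  rw [← hw0, ← hu] at e0
  -- `z = h' - w0 × u'` is orthogonal to `u` and `u'`
  set z := (q.2 - q.1) - cr w0 u' with hz
  have hzu : z ⬝ᵥ u = 0 := by
    have a1 : cr w0 u' ⬝ᵥ u = -(cr w0 u ⬝ᵥ u') := by
      simp only [dotProduct, Fin.sum_univ_three, cr, Matrix.cons_val_zero,
        Matrix.cons_val_one, Matrix.cons_val]
      ring
    rw [hz, sub_dotProduct, a1, e0]
    simp only [dotProduct, Fin.sum_univ_three, hu, hu', Pi.add_apply, Pi.sub_apply] at m ⊢
    linear_combination (-2) * m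
  have hzu' : z ⬝ᵥ u' = 0 := by
    have a1 : cr w0 u' ⬝ᵥ u' = 0 := by
      simp only [dotProduct, Fin.sum_univ_three, cr, Matrix.cons_val_zero,
        Matrix.cons_val_one, Matrix.cons_val]
      ring
    have hq1 := hq.1
    rw [hz, sub_dotProduct, a1]
    simp only [dotProduct, Fin.sum_univ_three, hu', Pi.add_apply, Pi.sub_apply] at hq1 ⊢
    linear_combination (-1) * hq1
  rw [chart_cr] at hx
  obtain ⟨c, hc⟩ := Vale.Agent.P054.Y.G.orth_two hx hzu hzu'
  rw [← chart_cr] at hc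
  -- the common point
  have hp1 : cr (w0 + c • u) (p.1 + p.2) = p.2 - p.1 := by
    rw [← hu, chart_lin, chart_self, smul_zero, add_zero]
    exact e0
  have hp2 : cr (w0 + c • u) (q.1 + q.2) = q.2 - q.1 := by
    rw [← hu', chart_lin, ← hc, hz]
    abel
  obtain ⟨t, ht⟩ := (on_ln hp hcp _).2 hp1
  obtain ⟨t', ht'⟩ := (on_ln hq hcq _).2 hp2
  have h1 := chart_coord _ _ _ ht
  have h2 := chart_coord _ _ _ ht'
  refine ⟨t, ?_⟩
  rw [ht, ← ht', h1, h2]

theorem ln_eq {p q : V × V} (hp : IsPair p) (hq : IsPair q) (hcp : p.1 2 + p.2 2 ≠ 0) (hcq : q.1 2 + q.2 2 ≠ 0)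
    (h : ln p = ln q) : ∃ μ : ℝ, μ ≠ 0 ∧ q.1 = μ • p.1 ∧ q.2 = μ • p.2 := by
  have a0 := congrFun (congrArg Prod.fst h) 0
  have a1 := congrFun (congrArg Prod.fst h) 1
  have b0 := congrFun (congrArg Prod.snd h) 0
  have b1 := congrFun (congrArg Prod.snd h) 1
  simp only [ln, Matrix.cons_val_zero, Matrix.cons_val_one] at a0 a1 b0 b1
  rw [div_eq_div_iff hcp hcq] at a0 a1 b0 b1
  obtain ⟨x, y⟩ := p
  obtain ⟨x', y'⟩ := q
  have hxy := hp.1
  have hxy' := hq.1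
  simp only [dotProduct, Fin.sum_univ_three] at hxy hxy' hcp hcq a0 a1 b0 b1 ⊢
  have hμ : (x' 2 + y' 2) / (x 2 + y 2) ≠ 0 := div_ne_zero hcq hcp
  -- `y 2 - x 2` is a combination of the others
  have c0 : (x 2 + y 2) * ((y' 2 - x' 2) * (x 2 + y 2)) =
      (x 2 + y 2) * ((y 2 - x 2) * (x' 2 + y' 2)) := by
    have hk : (x' 2 + y' 2) * ((x 2 + y 2) * ((y' 2 - x' 2) * (x 2 + y 2))) =
      (x' 2 + y' 2) * ((x 2 + y 2) * ((y 2 - x 2) * (x' 2 + y' 2))) := by
      linear_combination (-(x 2 + y 2) ^ 2) * hxy' + ((x' 2 + y' 2) ^ 2) * hxy +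
        ((y 0 - x 0) * (x' 2 + y' 2)) * b0 + (x' 0 + y' 0) * (x 2 + y 2) * a1 +
        (y 1 - x 1) * (x' 2 + y' 2) * b1 - (x' 1 + y' 1) * (x 2 + y 2) * a0
    exact mul_left_cancel₀ hcq hk
  have c1 := mul_left_cancel₀ hcp c0
  refine ⟨(x' 2 + y' 2) / (x 2 + y 2), hμ, ?_, ?_⟩
  · apply Vale.Agent.P054.Y.G.eq3 <;> simp only [Pi.smul_apply, smul_eq_mul] <;> field_simp
    · linarith
    · linarith
    · linarith
  · apply Vale.Agent.P054.Y.G.eq3 <;> simp only [Pi.smul_apply, smul_eq_mul] <;> field_simp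
    · linarith
    · linarith
    · linarith

theorem ln_smul {p : V × V} {μ : ℝ} (hμ : μ ≠ 0) (hcp : p.1 2 + p.2 2 ≠ 0) :
    ln (μ • p.1, μ • p.2) = ln p := by
  have h2 : μ * p.1 2 + μ * p.2 2 ≠ 0 := by
    rw [← mul_add]
    exact mul_ne_zero hμ hcp
  unfold ln
  simp only [Pi.smul_apply, smul_eq_mul]
  congr 1
  · congr 1
    · field_simp
    · congr 1
      field_simp
  · congr 1
    · field_simp
    · congr 1
      field_simp

/-- parallel first components and equal dot products: the same line -/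
theorem ln_eq_of_par {p q : V × V} (hp : IsPair p) (hq : IsPair q) (hcp : p.1 2 + p.2 2 ≠ 0)
    (hcq : q.1 2 + q.2 2 ≠ 0) (m : p.1 ⬝ᵥ q.1 = p.2 ⬝ᵥ q.2) (hx : cr p.1 q.1 = 0) : ln p = ln q := by
  rw [chart_cr] at hx
  obtain ⟨c, hc⟩ := Vale.Agent.P054.Y.G.exists_smul_of_cross hp.2 hx
  have hc0 : c ≠ 0 := by
    rintro rfl
    rw [zero_smul] at hc
    exact hq.2 hc
  have h1 := hp.1
  have h2 := hq.1
  -- `q.2 = c • p.2` by the equality case of Cauchy-Schwarz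
  have hz : (q.2 - c • p.2) ⬝ᵥ (q.2 - c • p.2) = 0 := by
    rw [hc] at m h2
    simp only [dotProduct, Fin.sum_univ_three, Pi.sub_apply, Pi.smul_apply, smul_eq_mul] at m h1 h2 ⊢
    linear_combination (-1) * h2 + 2 * c * m - c ^ 2 * h1
  have hz' : q.2 - c • p.2 = 0 := dotProduct_self_eq_zero.1 hz
  have hq2 : q.2 = c • p.2 := sub_eq_zero.1 hz'
  have : q = (c • p.1, c • p.2) := Prod.ext hc hq2
  rw [this, ln_smul hc0 hcp]

theorem dot_of_coplanar {p q : V × V} (hp : IsPair p) (hq : IsPair q) (hcp : p.1 2 + p.2 2 ≠ 0)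
    (hcq : q.1 2 + q.2 2 ≠ 0) (a : V) (b : ℝ) (ha : a ≠ 0) (h1 : ∀ t, a ⬝ᵥ gpt (ln p) t = b)
    (h2 : ∀ t, a ⬝ᵥ gpt (ln q) t = b) : p.1 ⬝ᵥ q.1 = p.2 ⬝ᵥ q.2 := by
  set u := p.1 + p.2 with hu
  set u' := q.1 + q.2 with hu'
  set w := gpt (ln p) 0 with hw
  set w' := gpt (ln q) 0 with hw'
  have e0 := chart_gpt hp hcp 0
  have e0' := chart_gpt hq hcq 0
  rw [← hw, ← hu] at e0
  rw [← hw', ← hu'] at e0'
  have hk1 : a ⬝ᵥ u = 0 := by
    have k0 := h1 0
    have k1 := h1 1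
    simp only [dotProduct, Fin.sum_univ_three, gpt, ln, Matrix.cons_val_zero, Matrix.cons_val_one,
      Matrix.cons_val] at k0 k1
    have k2 : a 0 * ((p.1 0 + p.2 0) / (p.1 2 + p.2 2)) + a 1 * ((p.1 1 + p.2 1) / (p.1 2 + p.2 2)) +
      a 2 = 0 := by linarith
    field_simp at k2
    simp only [dotProduct, Fin.sum_univ_three, hu, Pi.add_apply]
    linarith
  have hk2 : a ⬝ᵥ u' = 0 := by
    have k0 := h2 0
    have k1 := h2 1
    simp only [dotProduct, Fin.sum_univ_three, gpt, ln, Matrix.cons_val_zero, Matrix.cons_val_one,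
      Matrix.cons_val] at k0 k1
    have k2 : a 0 * ((q.1 0 + q.2 0) / (q.1 2 + q.2 2)) + a 1 * ((q.1 1 + q.2 1) / (q.1 2 + q.2 2)) +
      a 2 = 0 := by linarith
    field_simp at k2
    simp only [dotProduct, Fin.sum_univ_three, hu', Pi.add_apply]
    linarith
  have hk3 : a ⬝ᵥ (w - w') = 0 := by
    rw [dotProduct_sub, hw, hw', h1 0, h2 0, sub_self]
  -- hence the determinant of `w - w'`, `u`, `u'` vanishes
  have hdet : (w - w') ⬝ᵥ cr u u' = 0 := by
    by_cases hc : crossProduct u u' = 0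
    · rw [chart_cr, hc, dotProduct_zero]
    · obtain ⟨c, hc'⟩ := Vale.Agent.P054.Y.G.orth_two hc hk1 hk2
      have hc0 : c ≠ 0 := by
        rintro rfl
        rw [zero_smul] at hc'
        exact ha hc'
      rw [hc', smul_dotProduct, smul_eq_mul] at hk3
      rw [chart_cr, dotProduct_comm]
      exact (mul_eq_zero.1 hk3).resolve_left hc0
  have e00 := congrFun e0 0
  have e01 := congrFun e0 1
  have e02 := congrFun e0 2
  have f00 := congrFun e0' 0
  have f01 := congrFun e0' 1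
  have f02 := congrFun e0' 2
  simp only [cr, dotProduct, Fin.sum_univ_three, hu, hu', Pi.add_apply, Pi.sub_apply, Matrix.cons_val_zero,
    Matrix.cons_val_one, Matrix.cons_val] at e00 e01 e02 f00 f01 f02 hdet ⊢
  linear_combination (-1/2) * hdet + (1/2) * (q.1 0 + q.2 0) * e00 + (1/2) * (q.1 1 + q.2 1) * e01 +
    (1/2) * (q.1 2 + q.2 2) * e02 + (1/2) * (p.1 0 + p.2 0) * f00 + (1/2) * (p.1 1 + p.2 1) * f01 +
    (1/2) * (p.1 2 + p.2 2) * f02

end Vale.Agent.P054.Y.GF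
end

section

/-! representatives of lines, meeting pairs in a surface -/

set_option linter.all false

namespace Vale.Agent.P054.Y.GF

open Finset Matrix MvPolynomial
open Vale.Agent.P041.SE

open scoped Classical in
/-- a representative of a line -/
noncomputable def rep (Λ : Finset (V × V)) (l : Ln) : V × V :=
  if h : ∃ p ∈ Λ, ln p = l then h.choose else 0

open scoped Classical in
theorem rep_mem {Λ : Finset (V × V)} {l : Ln} (h : l ∈ Λ.image ln) :
    rep Λ l ∈ Λ ∧ ln (rep Λ l) = l := by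
  have h' : ∃ p ∈ Λ, ln p = l := Finset.mem_image.1 h
  unfold rep
  rw [dif_pos h']
  exact h'.choose_spec

open scoped Classical in
/-- meeting pairs of different lines in the surface, at points of multiplicity at most `v` -/
noncomputable def MT (S : Finset Ln) (φ : MvPolynomial (Fin 3) ℝ) (v : ℝ) : Finset (Ln × Ln) :=
  ((GC.inSurf S φ) ×ˢ (GC.inSurf S φ)).filter
    (fun q => q.1 ≠ q.2 ∧ ∃ t, gpt q.1 t = gpt q.2 t ∧ (GC.mult S (gpt q.1 t) : ℝ) ≤ v)

end Vale.Agent.P054.Y.GF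
end

section

/-! Leaf G-VB (fields).  `fld 1 x w = x + cr w x + (w·x) w` is the direction at `w` of the line of the
pair `(x, y)` through `w` (it is `(1 + |w|^2)/2 (x + y)`), `fld (-1) y w = y - cr w y + (w·y) w` the same
in terms of `y`.  The case of first components is `G.lines_of_dir` and `G.not_both`; the case of second
components follows by the symmetry `w ↦ -w`, `(x, y) ↦ (y, x)`. -/

set_option linter.all false

namespace Vale.Agent.P054.Y.GF

open Finset Matrix MvPolynomial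
open Vale.Agent.P041.SE

theorem ln_eq_fl (p : V × V) : ln p = G.fl p.1 p.2 := rfl

theorem par_of_cr {x u : V} (hx : x ≠ 0) (h : cr x u = 0) : ∃ μ : ℝ, u = μ • x := by
  have h0 : x 1 * u 2 - x 2 * u 1 = 0 := congrFun h 0
  have h1 : x 2 * u 0 - x 0 * u 2 = 0 := congrFun h 1
  have h2 : x 0 * u 1 - x 1 * u 0 = 0 := congrFun h 2
  set N : ℝ := x 0 ^ 2 + x 1 ^ 2 + x 2 ^ 2 with hN
  have hN0 : N ≠ 0 := by
    intro h
    apply hx
    have e0 : x 0 ^ 2 = 0 := by nlinarith [sq_nonneg (x 0), sq_nonneg (x 1), sq_nonneg (x 2)]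
    have e1 : x 1 ^ 2 = 0 := by nlinarith [sq_nonneg (x 0), sq_nonneg (x 1), sq_nonneg (x 2)]
    have e2 : x 2 ^ 2 = 0 := by nlinarith [sq_nonneg (x 0), sq_nonneg (x 1), sq_nonneg (x 2)]
    funext i
    fin_cases i
    · exact pow_eq_zero_iff (two_ne_zero) |>.1 e0
    · exact pow_eq_zero_iff (two_ne_zero) |>.1 e1
    · exact pow_eq_zero_iff (two_ne_zero) |>.1 e2
  refine ⟨(x 0 * u 0 + x 1 * u 1 + x 2 * u 2) / N, ?_⟩
  funext i
  fin_cases i
  · show u 0 = (x 0 * u 0 + x 1 * u 1 + x 2 * u 2) / N * x 0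
    rw [div_mul_eq_mul_div, eq_div_iff hN0, hN]
    linear_combination x 2 * h1 - x 1 * h2
  · show u 1 = (x 0 * u 0 + x 1 * u 1 + x 2 * u 2) / N * x 1
    rw [div_mul_eq_mul_div, eq_div_iff hN0, hN]
    linear_combination x 0 * h2 - x 2 * h0
  · show u 2 = (x 0 * u 0 + x 1 * u 1 + x 2 * u 2) / N * x 2
    rw [div_mul_eq_mul_div, eq_div_iff hN0, hN]
    linear_combination x 1 * h0 - x 0 * h1

theorem lines_par (φ : MvPolynomial (Fin 3) ℝ) (hφ : Irreducible φ) (D : ℕ) (hD : φ.totalDegree ≤ D)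
    (x : V) (hx : x ≠ 0) (hW : ¬ φ ∣ G.W x φ) (F : Finset Ln)
    (hF : ∀ l ∈ F, On φ l ∧ ∃ p : V × V, IsPair p ∧ p.1 2 + p.2 2 ≠ 0 ∧ cr x p.1 = 0 ∧ ln p = l) :
    F.card ≤ D * (D + 1) := by
  refine (G.lines_of_dir hφ x hW F ?_).trans (Nat.mul_le_mul hD (Nat.add_le_add_right hD 1))
  intro l hl
  obtain ⟨hon, p, hp, hs, hc, hlp⟩ := hF l hl
  obtain ⟨μ, hμ⟩ := par_of_cr hx hc
  have hμ0 : μ ≠ 0 := by
    rintro rfl
    apply hp.2
    rw [hμ, zero_smul]
  have e : ∀ i, p.1 i = μ * x i := fun i => by rw [hμ]; rfl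
  have e2 : ∀ i, p.2 i = μ * (μ⁻¹ • p.2) i := fun i => by
    show p.2 i = μ * (μ⁻¹ * p.2 i)
    field_simp
  have hs' : x 2 + (μ⁻¹ • p.2) 2 ≠ 0 := by
    intro h0
    apply hs
    rw [e 2, e2 2, ← mul_add, h0, mul_zero]
  refine ⟨μ⁻¹ • p.2, ⟨?_, hs'⟩, ?_, hon⟩
  · have h1 := hp.1
    simp only [dotProduct, Fin.sum_univ_three] at h1
    rw [e 0, e 1, e 2, e2 0, e2 1, e2 2] at h1
    apply mul_left_cancel₀ (mul_ne_zero hμ0 hμ0)
    linear_combination h1
  · rw [← hlp, ln_eq_fl]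
    have hm : ∀ a b : ℝ, b ≠ 0 → (μ * a) / (μ * b) = a / b := fun a b hb =>
      mul_div_mul_left a b hμ0
    unfold G.fl
    refine Prod.ext ?_ ?_
    · funext i
      fin_cases i
      · show -(p.2 1 - p.1 1) / (p.1 2 + p.2 2) = _
        rw [e 1, e 2, e2 1, e2 2]
        show _ = -((μ⁻¹ • p.2) 1 - x 1) / (x 2 + (μ⁻¹ • p.2) 2)
        rw [← hm _ _ hs']
        ring
      · show (p.2 0 - p.1 0) / (p.1 2 + p.2 2) = _
        rw [e 0, e 2, e2 0, e2 2]
        show _ = ((μ⁻¹ • p.2) 0 - x 0) / (x 2 + (μ⁻¹ • p.2) 2)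
        rw [← hm _ _ hs']
        ring
    · funext i
      fin_cases i
      · show (p.1 0 + p.2 0) / (p.1 2 + p.2 2) = _
        rw [e 0, e 2, e2 0, e2 2]
        show _ = (x 0 + (μ⁻¹ • p.2) 0) / (x 2 + (μ⁻¹ • p.2) 2)
        rw [← hm _ _ hs']
        ring
      · show (p.1 1 + p.2 1) / (p.1 2 + p.2 2) = _
        rw [e 1, e 2, e2 1, e2 2]
        show _ = (x 1 + (μ⁻¹ • p.2) 1) / (x 2 + (μ⁻¹ • p.2) 2)
        rw [← hm _ _ hs']
        ring

theorem cr_ne_right {z x : V} (h : cr z x ≠ 0) : x ≠ 0 := by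
  rintro rfl
  apply h
  funext i
  fin_cases i <;> simp [cr]

theorem vb_fst (φ : MvPolynomial (Fin 3) ℝ) (hφ : Irreducible φ) (D : ℕ) (hD : φ.totalDegree ≤ D) :
    ∃ z : V, z ≠ 0 ∧ ∀ x : V, cr z x ≠ 0 → ∀ F : Finset Ln,
      (∀ l ∈ F, On φ l ∧ ∃ p : V × V, IsPair p ∧ p.1 2 + p.2 2 ≠ 0 ∧ cr x p.1 = 0 ∧ ln p = l) →
      F.card ≤ D * (D + 1) := by
  by_cases hz : ∃ z : V, z ≠ 0 ∧ φ ∣ G.W z φ
  · obtain ⟨z, hz0, hz⟩ := hz
    refine ⟨z, hz0, fun x hx F hF => ?_⟩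
    rcases F.eq_empty_or_nonempty with h0 | ⟨l, hl⟩
    · rw [h0]; simp
    refine lines_par φ hφ D hD x (cr_ne_right hx) ?_ F hF
    intro hd
    exact G.not_both hφ (hF l hl).1 hx hz hd
  · refine ⟨![1, 0, 0], ?_, fun x hx F hF => ?_⟩
    · intro h
      have := congrFun h 0
      simp at this
    · exact lines_par φ hφ D hD x (cr_ne_right hx) (fun hd => hz ⟨x, cr_ne_right hx, hd⟩) F hF

/-- the substitution `w ↦ -w` -/
noncomputable def ng : MvPolynomial (Fin 3) ℝ →ₐ[ℝ] MvPolynomial (Fin 3) ℝ := aeval (fun i => -X i)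

theorem ng_ng (φ : MvPolynomial (Fin 3) ℝ) : ng (ng φ) = φ := by
  have h : ng.comp ng = AlgHom.id ℝ (MvPolynomial (Fin 3) ℝ) := by
    ext i
    simp [ng]
  exact congrArg (fun f : MvPolynomial (Fin 3) ℝ →ₐ[ℝ] MvPolynomial (Fin 3) ℝ => f φ) h

theorem ng_irred {φ : MvPolynomial (Fin 3) ℝ} (h : Irreducible φ) : Irreducible (ng φ) := by
  have e : MvPolynomial (Fin 3) ℝ ≃ₐ[ℝ] MvPolynomial (Fin 3) ℝ :=
    AlgEquiv.ofAlgHom ng ng (AlgHom.ext ng_ng) (AlgHom.ext ng_ng)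
  exact (MulEquiv.irreducible_iff (AlgEquiv.ofAlgHom ng ng (AlgHom.ext ng_ng) (AlgHom.ext ng_ng))).2 h

theorem ng_degree (φ : MvPolynomial (Fin 3) ℝ) : (ng φ).totalDegree ≤ φ.totalDegree := by
  classical
  conv_lhs => rw [← φ.support_sum_monomial_coeff]
  rw [map_sum]
  refine totalDegree_finsetSum_le (fun s hs => ?_)
  have h1 := le_totalDegree hs
  unfold ng
  rw [aeval_monomial]
  refine (totalDegree_mul _ _).trans ?_
  have h2 : (algebraMap ℝ (MvPolynomial (Fin 3) ℝ) (coeff s φ)).totalDegree = 0 := totalDegree_C _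
  rw [h2, zero_add]
  rw [Finsupp.prod_fintype _ _ (fun _ => pow_zero _)]
  rw [Finsupp.sum_fintype _ _ (fun _ => rfl)] at h1
  refine (totalDegree_finset_prod _ _).trans (le_trans (Finset.sum_le_sum (fun i _ => ?_)) h1)
  refine (totalDegree_pow _ _).trans ?_
  rw [totalDegree_neg, totalDegree_X, mul_one]

theorem eval_ng (φ : MvPolynomial (Fin 3) ℝ) (w : V) : eval w (ng φ) = eval (-w) φ := by
  have h : (aeval w : MvPolynomial (Fin 3) ℝ →ₐ[ℝ] ℝ).comp ng = aeval (-w) := by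
    ext i
    simp [ng]
  have h2 := congrArg (fun f : MvPolynomial (Fin 3) ℝ →ₐ[ℝ] ℝ => f φ) h
  simpa [MvPolynomial.aeval_eq_eval] using h2

theorem vb_snd (φ : MvPolynomial (Fin 3) ℝ) (hφ : Irreducible φ) (D : ℕ) (hD : φ.totalDegree ≤ D) :
    ∃ z : V, z ≠ 0 ∧ ∀ x : V, cr z x ≠ 0 → ∀ F : Finset Ln,
      (∀ l ∈ F, On φ l ∧ ∃ p : V × V, IsPair p ∧ p.1 2 + p.2 2 ≠ 0 ∧ cr x p.2 = 0 ∧ ln p = l) →
      F.card ≤ D * (D + 1) := by
  classical
  obtain ⟨z, hz, H⟩ := vb_fst (ng φ) (ng_irred hφ) D ((ng_degree φ).trans hD)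
  refine ⟨z, hz, fun x hx F hF => ?_⟩
  have hinj : Function.Injective (fun l : Ln => ((-l.1, l.2) : Ln)) := by
    intro l l' h
    have h1 := congrArg Prod.fst h
    have h2 := congrArg Prod.snd h
    exact Prod.ext (neg_injective h1) h2
  rw [← Finset.card_image_of_injective F hinj]
  apply H x hx
  intro l hl
  obtain ⟨l0, hl0, rfl⟩ := Finset.mem_image.1 hl
  obtain ⟨hon, p, hp, hs, hc, hlp⟩ := hF l0 hl0
  refine ⟨?_, (p.2, p.1), ⟨hp.1.symm, ?_⟩, ?_, hc, ?_⟩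
  · intro w
    rw [eval_ng]
    have e : -gpt ((-l0.1, l0.2) : Ln) w = gpt l0 (-w) := by
      funext i
      fin_cases i <;> simp [gpt] <;> ring
    rw [e]
    exact hon (-w)
  · intro h0
    apply hp.2
    have h1 := hp.1
    simp only at h0
    rw [h0] at h1
    simp only [dotProduct, Fin.sum_univ_three, Pi.zero_apply, mul_zero, add_zero] at h1
    funext i
    fin_cases i
    · show p.1 0 = 0
      nlinarith [mul_self_nonneg (p.1 0), mul_self_nonneg (p.1 1), mul_self_nonneg (p.1 2)]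
    · show p.1 1 = 0
      nlinarith [mul_self_nonneg (p.1 0), mul_self_nonneg (p.1 1), mul_self_nonneg (p.1 2)]
    · show p.1 2 = 0
      nlinarith [mul_self_nonneg (p.1 0), mul_self_nonneg (p.1 1), mul_self_nonneg (p.1 2)]
  · show p.2 2 + p.1 2 ≠ 0
    rw [add_comm]
    exact hs
  · rw [← hlp]
    refine Prod.ext ?_ ?_
    · funext i
      fin_cases i
      · show -(p.1 1 - p.2 1) / (p.2 2 + p.1 2) = -(-(p.2 1 - p.1 1) / (p.1 2 + p.2 2))
        rw [add_comm (p.2 2)]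
        ring
      · show (p.1 0 - p.2 0) / (p.2 2 + p.1 2) = -((p.2 0 - p.1 0) / (p.1 2 + p.2 2))
        rw [add_comm (p.2 2)]
        ring
    · funext i
      fin_cases i
      · show (p.2 0 + p.1 0) / (p.2 2 + p.1 2) = (p.1 0 + p.2 0) / (p.1 2 + p.2 2)
        rw [add_comm (p.2 2), add_comm (p.2 0)]
      · show (p.2 1 + p.1 1) / (p.2 2 + p.1 2) = (p.1 1 + p.2 1) / (p.1 2 + p.2 2)
        rw [add_comm (p.2 2), add_comm (p.2 1)]

end Vale.Agent.P054.Y.GF
end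

section

/-! Leaf GF-BT (bad triples).  `S = Λ.image ln`, `φ` irreducible, `2 ≤ deg φ ≤ D`.
`plane_fst`: choose `p l ∈ Λ` for `l ∈ F`.  The `x = (p l).1 ∈ X` satisfy `u ⬝ᵥ x = 0`: at most `B` values
  (`planeX`).  With `z` from `vb_fst`: for `cr z x ≠ 0` at most `D (D+1)` lines of `F` have first
  component `x`; the `x` with `cr z x = 0` are at most `K` (`lineX`), and for each of them
  `y = (p l).2 ∈ Y` satisfies `p'.2 ⬝ᵥ y = x ⬝ᵥ p'.1` (at most `B` values, `planeY`, `p'.2 ≠ 0`), `l = ln (x,y)`. -/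

set_option linter.all false

namespace Vale.Agent.P054.Y.GF

open Finset Matrix MvPolynomial
open Vale.Agent.P041.SE

theorem cr_self_planeFst (x : V) : cr x x = 0 := by
  funext i
  fin_cases i
  · show x 1 * x 2 - x 2 * x 1 = 0
    ring
  · show x 2 * x 0 - x 0 * x 2 = 0
    ring
  · show x 0 * x 1 - x 1 * x 0 = 0
    ring

theorem plane_fst {Λ : Finset (V × V)} {X Y : Finset V} {n B K : ℝ} (hyp : Hyp Λ X Y n B K)
    (hc : InChart Λ) (hK : 0 ≤ K) (hB : 0 ≤ B) {φ : MvPolynomial (Fin 3) ℝ} (hφ : Irreducible φ) {D : ℕ}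
    (hD : φ.totalDegree ≤ D) (p' : V × V) (hp' : p'.2 ≠ 0) (u : V) (hu : u ≠ 0) (F : Finset Ln)
    (hF : ∀ l ∈ F, On φ l ∧ ∃ p ∈ Λ, ln p = l ∧ u ⬝ᵥ p.1 = 0 ∧ p.1 ⬝ᵥ p'.1 = p.2 ⬝ᵥ p'.2) :
    (F.card : ℝ) ≤ (D * (D + 1) + K) * B := by
  classical
  obtain ⟨z, hz, hvb⟩ := vb_fst φ hφ D hD
  have hex : ∀ l, l ∈ F → ∃ p : V × V, p ∈ Λ ∧ ln p = l ∧ u ⬝ᵥ p.1 = 0 ∧
      p.1 ⬝ᵥ p'.1 = p.2 ⬝ᵥ p'.2 := by
    intro l hl
    obtain ⟨p, hp, h⟩ := (hF l hl).2
    exact ⟨p, hp, h⟩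
  choose! P hPm hPl hPu hPe using hex
  set X0 : Finset V := F.image (fun l => (P l).1) with hX0
  have hX0X : X0 ⊆ X := by
    intro x hx
    obtain ⟨l, hl, rfl⟩ := Finset.mem_image.1 hx
    exact hyp.memX _ (hPm l hl)
  have hX0u : ∀ x ∈ X0, u ⬝ᵥ x = 0 := by
    intro x hx
    obtain ⟨l, hl, rfl⟩ := Finset.mem_image.1 hx
    exact hPu l hl
  have hX0B : (X0.card : ℝ) ≤ B := hyp.planeX u 0 hu X0 hX0X hX0u
  set X1 : Finset V := X0.filter (fun x => cr z x = 0) with hX1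
  have hX1K : (X1.card : ℝ) ≤ K :=
    hyp.lineX z hz X1 ((Finset.filter_subset _ _).trans hX0X) (fun x hx => (Finset.mem_filter.1 hx).2)
  have hsum : F.card = ∑ x ∈ X0, (F.filter (fun l => (P l).1 = x)).card :=
    Finset.card_eq_sum_card_image (fun l => (P l).1) F
  have hfib : ∀ x ∈ X0, ((F.filter (fun l => (P l).1 = x)).card : ℝ) ≤
      D * (D + 1) + (if cr z x = 0 then B else 0) := by
    intro x hx
    by_cases hzx : cr z x = 0
    · rw [if_pos hzx]
      have h1 : ((F.filter (fun l => (P l).1 = x)).card : ℝ) ≤ B := by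
        have hinj : Set.InjOn (fun l => (P l).2) (↑(F.filter (fun l => (P l).1 = x)) : Set Ln) := by
          intro l hl l' hl' h
          have hl1 := Finset.mem_filter.1 (Finset.mem_coe.1 hl)
          have hl2 := Finset.mem_filter.1 (Finset.mem_coe.1 hl')
          have e : P l = P l' := Prod.ext (hl1.2.trans hl2.2.symm) h
          rw [← hPl l hl1.1, ← hPl l' hl2.1, e]
        rw [← Finset.card_image_of_injOn hinj]
        refine hyp.planeY p'.2 (x ⬝ᵥ p'.1) hp' _ ?_ ?_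
        · intro y hy
          obtain ⟨l, hl, rfl⟩ := Finset.mem_image.1 hy
          exact hyp.memY _ (hPm l (Finset.mem_filter.1 hl).1)
        · intro y hy
          obtain ⟨l, hl, rfl⟩ := Finset.mem_image.1 hy
          have hl' := Finset.mem_filter.1 hl
          have h2 := hPe l hl'.1
          rw [hl'.2] at h2
          rw [dotProduct_comm]
          exact h2.symm
      have h2 : (0 : ℝ) ≤ D * (D + 1) := by positivity
      linarith
    · rw [if_neg hzx, add_zero]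
      have h := hvb x hzx (F.filter (fun l => (P l).1 = x)) (by
        intro l hl
        have hl' := Finset.mem_filter.1 hl
        refine ⟨(hF l hl'.1).1, P l, hyp.pair _ (hPm l hl'.1), hc.1 _ (hPm l hl'.1), ?_, hPl l hl'.1⟩
        rw [hl'.2]
        exact cr_self_planeFst x)
      exact_mod_cast h
  have hcast : (F.card : ℝ) = ∑ x ∈ X0, ((F.filter (fun l => (P l).1 = x)).card : ℝ) := by
    rw [hsum]
    push_cast
    rfl
  rw [hcast]
  refine (Finset.sum_le_sum hfib).trans ?_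
  rw [Finset.sum_add_distrib, Finset.sum_const, nsmul_eq_mul, ← Finset.sum_filter, Finset.sum_const,
    nsmul_eq_mul]
  have h2 : (0 : ℝ) ≤ D * (D + 1) := by positivity
  have h3 := mul_le_mul_of_nonneg_right hX0B h2
  have h4 := mul_le_mul_of_nonneg_right hX1K hB
  have h5 : ((X0.filter (fun x => cr z x = 0)).card : ℝ) * B ≤ K * B := h4
  linarith only [h5, h3]

end Vale.Agent.P054.Y.GF
end

section

/-! Leaf GF-BT (bad triples).  `S = Λ.image ln`, `φ` irreducible, `2 ≤ deg φ ≤ D`.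
`plane_snd`: the same with `vb_snd`, `planeY`, `lineY`, `planeX`.
(see PlaneFst.lean) -/

set_option linter.all false

namespace Vale.Agent.P054.Y.GF

open Finset Matrix MvPolynomial
open Vale.Agent.P041.SE

theorem plane_snd {Λ : Finset (V × V)} {X Y : Finset V} {n B K : ℝ} (hyp : Hyp Λ X Y n B K)
    (hc : InChart Λ) (hK : 0 ≤ K) (hB : 0 ≤ B) {φ : MvPolynomial (Fin 3) ℝ} (hφ : Irreducible φ) {D : ℕ}
    (hD : φ.totalDegree ≤ D) (p' : V × V) (hp' : p'.1 ≠ 0) (u : V) (hu : u ≠ 0) (F : Finset Ln)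
    (hF : ∀ l ∈ F, On φ l ∧ ∃ p ∈ Λ, ln p = l ∧ u ⬝ᵥ p.2 = 0 ∧ p.1 ⬝ᵥ p'.1 = p.2 ⬝ᵥ p'.2) :
    (F.card : ℝ) ≤ (D * (D + 1) + K) * B := by
  classical
  obtain ⟨z, hz, hvb⟩ := vb_snd φ hφ D hD
  have hP : ∀ l ∈ F, ∃ p ∈ Λ, ln p = l ∧ u ⬝ᵥ p.2 = 0 ∧ p.1 ⬝ᵥ p'.1 = p.2 ⬝ᵥ p'.2 :=
    fun l hl => (hF l hl).2
  choose! P hPΛ hPln hPu hPp using hP
  set T := F.image (fun l => (P l).2) with hT
  have hTmem : ∀ y ∈ T, y ∈ Y ∧ u ⬝ᵥ y = 0 := by
    intro y hy
    obtain ⟨l, hl, rfl⟩ := Finset.mem_image.1 hy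
    exact ⟨hyp.memY _ (hPΛ l hl), hPu l hl⟩
  have hTB : (T.card : ℝ) ≤ B :=
    hyp.planeY u 0 hu T (fun y hy => (hTmem y hy).1) (fun y hy => (hTmem y hy).2)
  have hT0 : ((T.filter (fun y => cr z y = 0)).card : ℝ) ≤ K :=
    hyp.lineY z hz _ (fun y hy => (hTmem y (Finset.mem_filter.1 hy).1).1)
      (fun y hy => (Finset.mem_filter.1 hy).2)
  have hfib : ∀ y ∈ T, ((F.filter (fun l => (P l).2 = y)).card : ℝ) ≤
      (D : ℝ) * (D + 1) + (if cr z y = 0 then B else 0) := by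
    intro y hy
    by_cases hzy : cr z y = 0
    · rw [if_pos hzy]
      have hinj : Set.InjOn (fun l => (P l).1) (F.filter (fun l => (P l).2 = y) : Finset Ln) := by
        intro l hl l' hl' h
        have h1 := Finset.mem_filter.1 (Finset.mem_coe.1 hl)
        have h2 := Finset.mem_filter.1 (Finset.mem_coe.1 hl')
        have h3 : P l = P l' := Prod.ext h (h1.2.trans h2.2.symm)
        rw [← hPln l h1.1, ← hPln l' h2.1, h3]
      have h1 := hyp.planeX p'.1 (y ⬝ᵥ p'.2) hp'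
        ((F.filter (fun l => (P l).2 = y)).image (fun l => (P l).1))
        (by
          intro x hx
          obtain ⟨l, hl, rfl⟩ := Finset.mem_image.1 hx
          exact hyp.memX _ (hPΛ l (Finset.mem_filter.1 hl).1))
        (by
          intro x hx
          obtain ⟨l, hl, rfl⟩ := Finset.mem_image.1 hx
          have h2 := Finset.mem_filter.1 hl
          rw [dotProduct_comm, hPp l h2.1, h2.2])
      rw [Finset.card_image_of_injOn hinj] at h1
      have h3 : (0 : ℝ) ≤ (D : ℝ) * (D + 1) := by positivity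
      linarith
    · rw [if_neg hzy, add_zero]
      have h1 := hvb y hzy (F.filter (fun l => (P l).2 = y)) (by
        intro l hl
        have h2 := Finset.mem_filter.1 hl
        refine ⟨(hF l h2.1).1, P l, hyp.pair _ (hPΛ l h2.1), hc.1 _ (hPΛ l h2.1), ?_, hPln l h2.1⟩
        rw [h2.2]
        ext i
        fin_cases i <;> simp [cr] <;> ring)
      have h2 : ((F.filter (fun l => (P l).2 = y)).card : ℝ) ≤ ((D * (D + 1) : ℕ) : ℝ) := by
        exact_mod_cast h1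
      push_cast at h2
      exact h2
  have hcard : (F.card : ℝ) = ∑ y ∈ T, ((F.filter (fun l => (P l).2 = y)).card : ℝ) := by
    have h1 := Finset.card_eq_sum_card_image (fun l => (P l).2) F
    rw [h1]
    push_cast
    rfl
  rw [hcard]
  have hdd : (0 : ℝ) ≤ (D : ℝ) * (D + 1) := by positivity
  calc ∑ y ∈ T, ((F.filter (fun l => (P l).2 = y)).card : ℝ)
      ≤ ∑ y ∈ T, ((D : ℝ) * (D + 1) + (if cr z y = 0 then B else 0)) := Finset.sum_le_sum hfib
    _ = T.card * ((D : ℝ) * (D + 1)) + (T.filter (fun y => cr z y = 0)).card * B := by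
        rw [Finset.sum_add_distrib, Finset.sum_const, nsmul_eq_mul, ← Finset.sum_filter,
          Finset.sum_const, nsmul_eq_mul]
    _ ≤ B * ((D : ℝ) * (D + 1)) + K * B :=
        add_le_add (mul_le_mul_of_nonneg_right hTB hdd) (mul_le_mul_of_nonneg_right hT0 hB)
    _ = (D * (D + 1) + K) * B := by ring

end Vale.Agent.P054.Y.GF
end

section

/-! Leaf GF-BT (bad triples).  `S = Λ.image ln`, `φ` irreducible, `2 ≤ deg φ ≤ D`.
`skew_count`: let `w0` be the point of `l1 ∩ l'` (multiplicity ≤ v).  A line `l ∈ F` with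
  `x1·x = y1·y` is: equal to `l1` (if `cr x1 x = 0`, `ln_eq_of_par`), or meets `l1` (`ln_meet`, `InChart`).
  If `l` contains `w0`: at most `v` lines.  Otherwise `l` meets `l1` and `l'` in two different points, so it lies
  in the plane spanned by `l1, l'`; this plane is the zero set of a polynomial `ψ` of degree ≤ 1 with
  `¬ φ ∣ ψ` (`ψ ≠ 0`, `deg φ ≥ 2`), and `graph_bezout` gives at most `D` lines. -/

set_option linter.all false

namespace Vale.Agent.P054.Y.GF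

open Finset Matrix MvPolynomial
open Vale.Agent.P041.SE

/-- two different graph lines meet in at most one height -/
theorem sk_unique {l l' : Ln} (hne : l ≠ l') {t s : ℝ} (h1 : gpt l t = gpt l' t)
    (h2 : gpt l s = gpt l' s) : t = s := by
  by_contra hts
  apply hne
  have hts' : t - s ≠ 0 := sub_ne_zero.2 hts
  have a0 := congrFun h1 0
  have a1 := congrFun h1 1
  have b0 := congrFun h2 0
  have b1 := congrFun h2 1
  simp only [gpt, Matrix.cons_val] at a0 a1 b0 b1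
  have c0 : l.2 0 = l'.2 0 := by
    have : (t - s) * (l.2 0 - l'.2 0) = 0 := by linear_combination a0 - b0
    rcases mul_eq_zero.1 this with h | h
    · exact absurd h hts'
    · linarith
  have c1 : l.2 1 = l'.2 1 := by
    have : (t - s) * (l.2 1 - l'.2 1) = 0 := by linear_combination a1 - b1
    rcases mul_eq_zero.1 this with h | h
    · exact absurd h hts'
    · linarith
  rw [c0] at a0
  rw [c1] at a1
  refine Prod.ext ?_ ?_
  · funext i
    fin_cases i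
    · simpa using a0
    · simpa using a1
  · funext i
    fin_cases i
    · simpa using c0
    · simpa using c1

/-- the plane through `l` and the direction of `l'` -/
noncomputable def skψ (l l' : Ln) (w : V) : MvPolynomial (Fin 3) ℝ :=
  C (l.2 1 - l'.2 1) * (X 0 - C (w 0)) + C (l'.2 0 - l.2 0) * (X 1 - C (w 1)) +
    C (l.2 0 * l'.2 1 - l.2 1 * l'.2 0) * (X 2 - C (w 2))

theorem skψ_eval (l l' : Ln) (w z : V) : eval z (skψ l l' w) =
    (l.2 1 - l'.2 1) * (z 0 - w 0) + (l'.2 0 - l.2 0) * (z 1 - w 1) +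
      (l.2 0 * l'.2 1 - l.2 1 * l'.2 0) * (z 2 - w 2) := by
  simp [skψ]

theorem skψ_deg (l l' : Ln) (w : V) : (skψ l l' w).totalDegree ≤ 1 := by
  have h : ∀ (r s : ℝ) (i : Fin 3), (C r * (X i - C s) : MvPolynomial (Fin 3) ℝ).totalDegree ≤ 1 := by
    intro r s i
    refine (totalDegree_mul _ _).trans ?_
    rw [totalDegree_C, zero_add]
    refine (totalDegree_sub _ _).trans ?_
    simp
  unfold skψ
  refine (totalDegree_add _ _).trans (max_le ?_ (h _ _ _))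
  exact (totalDegree_add _ _).trans (max_le (h _ _ _) (h _ _ _))

theorem skψ_ne {l l' : Ln} (hne : l ≠ l') {t : ℝ} (h1 : gpt l t = gpt l' t) :
    skψ l l' (gpt l t) ≠ 0 := by
  intro h0
  have e : ∀ z : V, eval z (skψ l l' (gpt l t)) = 0 := fun z => by rw [h0, map_zero]
  have e1 := e (gpt l t + ![1, 0, 0])
  have e2 := e (gpt l t + ![0, 1, 0])
  rw [skψ_eval] at e1 e2
  simp at e1 e2
  have a0 := congrFun h1 0
  have a1 := congrFun h1 1
  simp only [gpt, Matrix.cons_val] at a0 a1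
  have c1 : l.2 1 = l'.2 1 := by linarith
  have c0 : l.2 0 = l'.2 0 := by linarith
  apply hne
  rw [c0] at a0
  rw [c1] at a1
  refine Prod.ext ?_ ?_
  · funext i
    fin_cases i
    · simpa using a0
    · simpa using a1
  · funext i
    fin_cases i
    · simpa using c0
    · simpa using c1

/-- `ψ` vanishes on `l` and `l'` -/
theorem skψ_l (l l' : Ln) (t s : ℝ) : eval (gpt l s) (skψ l l' (gpt l t)) = 0 := by
  rw [skψ_eval]
  simp only [gpt, Matrix.cons_val]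
  ring

theorem skψ_l' {l l' : Ln} {t : ℝ} (h1 : gpt l t = gpt l' t) (s : ℝ) :
    eval (gpt l' s) (skψ l l' (gpt l t)) = 0 := by
  rw [skψ_eval, h1]
  simp only [gpt, Matrix.cons_val]
  ring

/-- a line with two points in the plane is in the plane -/
theorem skψ_two (l l' m : Ln) (w : V) {r s : ℝ} (hrs : r ≠ s)
    (h1 : eval (gpt m r) (skψ l l' w) = 0) (h2 : eval (gpt m s) (skψ l l' w) = 0) (t : ℝ) :
    eval (gpt m t) (skψ l l' w) = 0 := by
  rw [skψ_eval] at *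
  simp only [gpt, Matrix.cons_val] at *
  set A := (l.2 1 - l'.2 1) * m.2 0 + (l'.2 0 - l.2 0) * m.2 1 +
    (l.2 0 * l'.2 1 - l.2 1 * l'.2 0) with hA
  have h3 : (r - s) * A = 0 := by rw [hA]; linear_combination h1 - h2
  have h4 : A = 0 := (mul_eq_zero.1 h3).resolve_left (sub_ne_zero.2 hrs)
  linear_combination h1 + (t - r) * h4

open scoped Classical in
theorem skew_count {Λ : Finset (V × V)} {X Y : Finset V} {n B K : ℝ} (hyp : Hyp Λ X Y n B K)
    (hc : InChart Λ) {φ : MvPolynomial (Fin 3) ℝ} (hφ : Irreducible φ) {D : ℕ}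
    (hD : φ.totalDegree ≤ D) (hD2 : 2 ≤ φ.totalDegree) {v : ℝ} (hv : 0 ≤ v) {l1 l' : Ln}
    (h1 : (l1, l') ∈ MT (Λ.image ln) φ v) (F : Finset Ln)
    (hF : ∀ l ∈ F, (l, l') ∈ MT (Λ.image ln) φ v ∧
      (rep Λ l1).1 ⬝ᵥ (rep Λ l).1 = (rep Λ l1).2 ⬝ᵥ (rep Λ l).2) :
    (F.card : ℝ) ≤ v + D + 1 := by
  have hMT : ∀ {l : Ln}, (l, l') ∈ MT (Λ.image ln) φ v →
      l ∈ Λ.image ln ∧ On φ l ∧ l' ∈ Λ.image ln ∧ On φ l' ∧ l ≠ l' ∧
        ∃ t, gpt l t = gpt l' t ∧ (GC.mult (Λ.image ln) (gpt l t) : ℝ) ≤ v := by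
    intro l h
    unfold MT at h
    rw [Finset.mem_filter, Finset.mem_product] at h
    obtain ⟨⟨ha, hb⟩, hne, hm⟩ := h
    unfold GC.inSurf at ha hb
    rw [Finset.mem_filter] at ha hb
    exact ⟨ha.1, ha.2, hb.1, hb.2, hne, hm⟩
  obtain ⟨hl1, hon1, hl', hon', hne1, t0, ht0, hm0⟩ := hMT h1
  set w0 := gpt l1 t0 with hw0
  -- the lines through `w0`
  set F1 := F.filter (fun l => ∃ t, gpt l t = w0) with hF1
  set F2 := F.filter (fun l => ¬ (∃ t, gpt l t = w0) ∧ l ≠ l1) with hF2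
  have hcov : F ⊆ (F1 ∪ F2) ∪ {l1} := by
    intro l hl
    rw [Finset.mem_union, Finset.mem_union, Finset.mem_singleton, hF1, hF2, Finset.mem_filter,
      Finset.mem_filter]
    by_cases h : ∃ t, gpt l t = w0
    · exact Or.inl (Or.inl ⟨hl, h⟩)
    · by_cases h' : l = l1
      · exact Or.inr h'
      · exact Or.inl (Or.inr ⟨hl, h, h'⟩)
  have hc1 : (F1.card : ℝ) ≤ v := by
    refine le_trans ?_ hm0
    unfold GC.mult
    have : F1 ⊆ (Λ.image ln).filter (fun l => ∃ w, gpt l w = w0) := by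
      intro l hl
      rw [hF1, Finset.mem_filter] at hl
      exact Finset.mem_filter.2 ⟨(hMT (hF l hl.1).1).1, hl.2⟩
    exact_mod_cast Finset.card_le_card this
  have hc2 : F2.card ≤ D := by
    have hψ : ¬ φ ∣ skψ l1 l' w0 := by
      rintro ⟨c, hcc⟩
      have hne0 : skψ l1 l' w0 ≠ 0 := skψ_ne hne1 ht0
      have hc0 : c ≠ 0 := by
        intro h0
        apply hne0
        rw [hcc, h0, mul_zero]
      have h2 := skψ_deg l1 l' w0
      rw [hcc, totalDegree_mul_of_isDomain hφ.ne_zero hc0] at h2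
      omega
    have h2 : F2.card ≤ φ.totalDegree * (skψ l1 l' w0).totalDegree := by
      refine graph_bezout hφ hψ F2 ?_ ?_
      · intro l hl
        rw [hF2, Finset.mem_filter] at hl
        exact (hMT (hF l hl.1).1).2.1
      · intro l hl
        rw [hF2, Finset.mem_filter] at hl
        obtain ⟨hlF, hnw, hne⟩ := hl
        obtain ⟨hlS, _, _, _, hnel', t1, ht1, _⟩ := hMT (hF l hlF).1
        -- `l` meets `l1`
        have hr1 := rep_mem hl1
        have hr := rep_mem hlS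
        set p1 := rep Λ l1 with hp1
        set p := rep Λ l with hp
        have hm : p1.1 ⬝ᵥ p.1 = p1.2 ⬝ᵥ p.2 := (hF l hlF).2
        have ip1 := hyp.pair p1 hr1.1
        have ip := hyp.pair p hr.1
        have c1 := hc.1 p1 hr1.1
        have c2 := hc.1 p hr.1
        have hcr : cr p1.1 p.1 ≠ 0 := by
          intro h0
          apply hne
          rw [← hr1.2, ← hr.2]
          exact (ln_eq_of_par ip1 ip c1 c2 hm h0).symm
        obtain ⟨t2, ht2⟩ := ln_meet ip1 ip c1 c2 hm (hc.2 p1 hr1.1 p hr.1 ⟨hm, hcr⟩)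
        rw [hr1.2, hr.2] at ht2
        have hts : t1 ≠ t2 := by
          intro h0
          rw [← h0] at ht2
          -- the point is on `l1` and `l'`
          have h3 : gpt l1 t1 = gpt l' t1 := ht2.trans ht1
          have h4 := sk_unique hne1 ht0 h3
          apply hnw
          refine ⟨t1, ?_⟩
          rw [hw0, h4]
          exact ht2.symm
        refine skψ_two l1 l' l w0 hts ?_ ?_
        · rw [ht1]
          exact skψ_l' ht0 t1
        · rw [← ht2]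
          exact skψ_l l1 l' t0 t2
    refine h2.trans ?_
    calc φ.totalDegree * (skψ l1 l' w0).totalDegree ≤ D * 1 :=
          Nat.mul_le_mul hD (skψ_deg _ _ _)
      _ = D := mul_one D
  have h3 : F.card ≤ F1.card + F2.card + 1 := by
    refine (Finset.card_le_card hcov).trans ?_
    refine (Finset.card_union_le _ _).trans ?_
    refine Nat.add_le_add (Finset.card_union_le _ _) ?_
    simp
  have h4 : (F.card : ℝ) ≤ F1.card + F2.card + 1 := by exact_mod_cast h3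
  have h5 : (F2.card : ℝ) ≤ D := by exact_mod_cast hc2
  linarith

end Vale.Agent.P054.Y.GF
end

section

/-! Leaf GF-Good (`exists_A` is an adapter of 797's `G/CL.lean` good_triple, `B = (Aᵀ)⁻¹`).  Triples of lines with independent `x`'s, independent `y`'s, pairwise skew.
* `exists_A`: `A = Y X⁻¹` (columns `y_i`, `x_i`), `B = (Aᵀ)⁻¹`.  In the basis `x_i` the form
  `1 - Aᵀ A` has Gram matrix with zero diagonal (`|x_i| = |y_i|`) and off diagonal entries
  `c_ij = x_i·x_j - y_i·y_j ≠ 0`: determinant `2 c_12 c_13 c_23 = det(X)^2 det(1 - Aᵀ A)`.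
* `on_qA`: let `q = (u, v)`, `u·x_i = v·y_i`, `w` on the line of `q`: `cr w (u+v) = v - u`.  For all `i`
  `(u + v) ⬝ᵥ ((x_i - y_i) + cr w (x_i + y_i)) = 2 (u·x_i - v·y_i) = 0`; since the `x_i` are a basis and
  `y_i = A x_i` the row vector `(u+v)ᵀ ((1-A) + skew w (1+A))` is zero and `u + v ≠ 0`: determinant 0.
* `qA_degree`: determinant of a 3x3 matrix with entries of degree ≤ 1. -/

set_option linter.all false

namespace Vale.Agent.P054.Y.GF

open Finset Matrix MvPolynomial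
open Vale.Agent.P041.SE

/-- good triples -/
def GoodT (p1 p2 p3 : V × V) : Prop :=
  p1.1 ⬝ᵥ cr p2.1 p3.1 ≠ 0 ∧ p1.2 ⬝ᵥ cr p2.2 p3.2 ≠ 0 ∧ p1.1 ⬝ᵥ p2.1 ≠ p1.2 ⬝ᵥ p2.2 ∧
    p1.1 ⬝ᵥ p3.1 ≠ p1.2 ⬝ᵥ p3.2 ∧ p2.1 ⬝ᵥ p3.1 ≠ p2.2 ⬝ᵥ p3.2

theorem good_li {a b c : V} (h : a ⬝ᵥ cr b c ≠ 0) : LinearIndependent ℝ ![a, b, c] := by
  have hdet : (Matrix.of ![a, b, c]).det = a ⬝ᵥ cr b c := by
    rw [Matrix.det_fin_three]
    simp [cr, dotProduct, Fin.sum_univ_three]
    ring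
  have hu : IsUnit (Matrix.of ![a, b, c]) := by
    rw [Matrix.isUnit_iff_isUnit_det, hdet]
    exact h.isUnit
  exact Matrix.linearIndependent_rows_iff_isUnit.2 hu

theorem exists_A {p1 p2 p3 : V × V} (h1 : IsPair p1) (h2 : IsPair p2) (h3 : IsPair p3)
    (h : GoodT p1 p2 p3) : ∃ A B : M3, Aᵀ * B = 1 ∧ (1 - Aᵀ * A).det ≠ 0 ∧
      A *ᵥ p1.1 = p1.2 ∧ A *ᵥ p2.1 = p2.2 ∧ A *ᵥ p3.1 = p3.2 := by
  obtain ⟨g1, g2, g3, g4, g5⟩ := h
  have g3' : p2.1 ⬝ᵥ p1.1 ≠ p2.2 ⬝ᵥ p1.2 := by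
    rw [dotProduct_comm p2.1, dotProduct_comm p2.2]; exact g3
  have g4' : p3.1 ⬝ᵥ p1.1 ≠ p3.2 ⬝ᵥ p1.2 := by
    rw [dotProduct_comm p3.1, dotProduct_comm p3.2]; exact g4
  have g5' : p3.1 ⬝ᵥ p2.1 ≠ p3.2 ⬝ᵥ p2.2 := by
    rw [dotProduct_comm p3.1, dotProduct_comm p3.2]; exact g5
  obtain ⟨A, hA, hA2, hA3, -⟩ := G.good_triple ![p1.1, p2.1, p3.1] ![p1.2, p2.2, p3.2]
    (good_li g1) (good_li g2)
    (by intro i; fin_cases i; exacts [h1.1, h2.1, h3.1])
    (by
      intro i j hij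
      fin_cases i <;> fin_cases j <;>
        first
        | exact absurd rfl hij
        | exact g3
        | exact g4
        | exact g5
        | exact g3'
        | exact g4'
        | exact g5')
  refine ⟨A, (Aᵀ)⁻¹, ?_, hA2, hA 0, hA 1, hA 2⟩
  exact Matrix.mul_nonsing_inv _ (by rw [det_transpose]; exact hA3.isUnit)

theorem on_qA (A : M3) {p1 p2 p3 q : V × V} (hq : IsPair q) (hc : q.1 2 + q.2 2 ≠ 0)
    (hd : p1.1 ⬝ᵥ cr p2.1 p3.1 ≠ 0) (e1 : A *ᵥ p1.1 = p1.2) (e2 : A *ᵥ p2.1 = p2.2)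
    (e3 : A *ᵥ p3.1 = p3.2) (m1 : q.1 ⬝ᵥ p1.1 = q.2 ⬝ᵥ p1.2) (m2 : q.1 ⬝ᵥ p2.1 = q.2 ⬝ᵥ p2.2)
    (m3 : q.1 ⬝ᵥ p3.1 = q.2 ⬝ᵥ p3.2) : On (qA A) (ln q) := by
  intro t
  rw [eval_qA]
  obtain ⟨u, v⟩ := q
  have hq1 : u ⬝ᵥ u = v ⬝ᵥ v := hq.1
  change u 2 + v 2 ≠ 0 at hc
  change u ⬝ᵥ p1.1 = v ⬝ᵥ p1.2 at m1
  change u ⬝ᵥ p2.1 = v ⬝ᵥ p2.2 at m2
  change u ⬝ᵥ p3.1 = v ⬝ᵥ p3.2 at m3
  generalize hW : gpt (ln (u, v)) t = W
  have hW2 : W 2 = t := by rw [← hW]; rfl
  have hW0 : W 0 * (u 2 + v 2) = -(v 1 - u 1) + (u 0 + v 0) * t := by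
    rw [← hW]
    simp only [gpt, ln, Matrix.cons_val_zero, Matrix.cons_val_one]
    field_simp
  have hW1 : W 1 * (u 2 + v 2) = (v 0 - u 0) + (u 1 + v 1) * t := by
    rw [← hW]
    simp only [gpt, ln, Matrix.cons_val_zero, Matrix.cons_val_one]
    field_simp
  have hsq : u 0 * u 0 + u 1 * u 1 + u 2 * u 2 = v 0 * v 0 + v 1 * v 1 + v 2 * v 2 := by
    simpa [dotProduct, Fin.sum_univ_three] using hq1
  -- `cr W (u + v) = v - u`
  have c0 : W 1 * (u 2 + v 2) - W 2 * (u 1 + v 1) = v 0 - u 0 := by rw [hW1, hW2]; ring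
  have c1 : W 2 * (u 0 + v 0) - W 0 * (u 2 + v 2) = v 1 - u 1 := by rw [hW0, hW2]; ring
  have c2 : W 0 * (u 1 + v 1) - W 1 * (u 0 + v 0) = v 2 - u 2 := by
    apply mul_right_cancel₀ hc
    linear_combination (u 1 + v 1) * hW0 - (u 0 + v 0) * hW1 + hsq
  have key : ∀ x y : V, A *ᵥ x = y → u ⬝ᵥ x = v ⬝ᵥ y →
      ((u + v) ᵥ* ((1 - A) + skew W * (1 + A))) ⬝ᵥ x = 0 := by
    intro x y hxy hm
    rw [← dotProduct_mulVec, add_mulVec, sub_mulVec, one_mulVec, ← mulVec_mulVec, add_mulVec,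
      one_mulVec, hxy]
    have hm' : u 0 * x 0 + u 1 * x 1 + u 2 * x 2 = v 0 * y 0 + v 1 * y 1 + v 2 * y 2 := by
      simpa [dotProduct, Fin.sum_univ_three] using hm
    simp [skew, dotProduct, Matrix.mulVec, Fin.sum_univ_three]
    linear_combination (-(x 0 + y 0)) * c0 - (x 1 + y 1) * c1 - (x 2 + y 2) * c2 + 2 * hm'
  have hr : (u + v) ᵥ* ((1 - A) + skew W * (1 + A)) = 0 := by
    have hdet : (Matrix.of ![p1.1, p2.1, p3.1]).det ≠ 0 := by
      have : (Matrix.of ![p1.1, p2.1, p3.1]).det = p1.1 ⬝ᵥ cr p2.1 p3.1 := by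
        rw [Matrix.det_fin_three]
        simp [cr, dotProduct, Fin.sum_univ_three]
        ring
      rw [this]
      exact hd
    apply Matrix.eq_zero_of_mulVec_eq_zero hdet
    ext i
    have k1 := key _ _ e1 m1
    have k2 := key _ _ e2 m2
    have k3 := key _ _ e3 m3
    rw [dotProduct_comm] at k1 k2 k3
    fin_cases i
    · exact k1
    · exact k2
    · exact k3
  apply Matrix.exists_vecMul_eq_zero_iff.1
  refine ⟨u + v, ?_, hr⟩
  intro h0
  exact hc (congrFun h0 2)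

theorem good_det_deg (N : Matrix (Fin 3) (Fin 3) (MvPolynomial (Fin 3) ℝ))
    (h : ∀ i j, (N i j).totalDegree ≤ 1) : N.det.totalDegree ≤ 3 := by
  have h3 : ∀ i j k l m n, (N i j * N k l * N m n).totalDegree ≤ 3 := by
    intro i j k l m n
    refine (totalDegree_mul _ _).trans ?_
    have h1 := totalDegree_mul (N i j) (N k l)
    have := h i j
    have := h k l
    have := h m n
    omega
  rw [Matrix.det_fin_three]
  refine (totalDegree_sub _ _).trans (max_le ?_ (h3 _ _ _ _ _ _))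
  refine (totalDegree_add _ _).trans (max_le ?_ (h3 _ _ _ _ _ _))
  refine (totalDegree_add _ _).trans (max_le ?_ (h3 _ _ _ _ _ _))
  refine (totalDegree_sub _ _).trans (max_le ?_ (h3 _ _ _ _ _ _))
  exact (totalDegree_sub _ _).trans (max_le (h3 _ _ _ _ _ _) (h3 _ _ _ _ _ _))

theorem qA_degree (A : M3) : (qA A).totalDegree ≤ 3 := by
  unfold qA
  apply good_det_deg
  intro i j
  have hS : ∀ i k : Fin 3, ((!![0, -(X 2), X 1; X 2, 0, -(X 0); -(X 1), X 0, 0] :
      Matrix (Fin 3) (Fin 3) (MvPolynomial (Fin 3) ℝ)) i k).totalDegree ≤ 1 := by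
    intro i k
    fin_cases i <;> fin_cases k <;> simp [totalDegree_neg, totalDegree_X]
  have hT : ∀ k, ((!![0, -(X 2), X 1; X 2, 0, -(X 0); -(X 1), X 0, 0] :
      Matrix (Fin 3) (Fin 3) (MvPolynomial (Fin 3) ℝ)) i k *
      ((1 + A).map (C : ℝ → MvPolynomial (Fin 3) ℝ)) k j).totalDegree ≤ 1 := by
    intro k
    refine (totalDegree_mul _ _).trans ?_
    have h1 := hS i k
    have h2 : (((1 + A).map (C : ℝ → MvPolynomial (Fin 3) ℝ)) k j).totalDegree = 0 := by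
      rw [Matrix.map_apply]
      exact totalDegree_C _
    omega
  rw [Matrix.add_apply, Matrix.mul_apply, Fin.sum_univ_three]
  refine (totalDegree_add _ _).trans (max_le ?_ ?_)
  · rw [Matrix.map_apply, totalDegree_C]
    exact Nat.zero_le _
  · refine (totalDegree_add _ _).trans (max_le ?_ (hT 2))
    exact (totalDegree_add _ _).trans (max_le (hT 0) (hT 1))

end Vale.Agent.P054.Y.GF
end

section

/-! counting lemmas for bad triples (leaf GF-BT) -/

set_option linter.all false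

namespace Vale.Agent.P054.Y.GF

open Finset Matrix

open scoped Classical in
theorem bt_card {α : Type*} (N : Finset α) (R : α → α → α → Prop) :
    (((N ×ˢ N ×ˢ N).filter (fun t => R t.1 t.2.1 t.2.2)).card : ℝ) =
      ∑ a ∈ N, ∑ b ∈ N, ((N.filter (fun c => R a b c)).card : ℝ) := by
  rw [Finset.card_filter, Finset.sum_product]
  push_cast
  refine Finset.sum_congr rfl fun a _ => ?_
  rw [Finset.sum_product]
  refine Finset.sum_congr rfl fun b _ => ?_
  rw [Finset.card_filter]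
  push_cast
  rfl

open scoped Classical in
/-- for all `a`, `b` at most `M` third entries -/
theorem bt_count3 {α : Type*} (N : Finset α) (R : α → α → α → Prop) {M : ℝ}
    (h : ∀ a ∈ N, ∀ b ∈ N, ((N.filter (fun c => R a b c)).card : ℝ) ≤ M) :
    (((N ×ˢ N ×ˢ N).filter (fun t => R t.1 t.2.1 t.2.2)).card : ℝ) ≤ (N.card : ℝ) ^ 2 * M := by
  rw [bt_card]
  calc ∑ a ∈ N, ∑ b ∈ N, ((N.filter (fun c => R a b c)).card : ℝ)
      ≤ ∑ a ∈ N, ∑ b ∈ N, M := Finset.sum_le_sum fun a ha => Finset.sum_le_sum fun b hb => h a ha b hb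
    _ = (N.card : ℝ) ^ 2 * M := by
      simp only [Finset.sum_const, nsmul_eq_mul]
      ring

open scoped Classical in
/-- for all `a`, `c` at most `M` middle entries -/
theorem bt_count2 {α : Type*} (N : Finset α) (R : α → α → α → Prop) {M : ℝ}
    (h : ∀ a ∈ N, ∀ c ∈ N, ((N.filter (fun b => R a b c)).card : ℝ) ≤ M) :
    (((N ×ˢ N ×ˢ N).filter (fun t => R t.1 t.2.1 t.2.2)).card : ℝ) ≤ (N.card : ℝ) ^ 2 * M := by
  have h1 : (((N ×ˢ N ×ˢ N).filter (fun t => R t.1 t.2.1 t.2.2)).card : ℝ) =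
      (((N ×ˢ N ×ˢ N).filter (fun t => R t.1 t.2.2 t.2.1)).card : ℝ) := by
    rw [bt_card, bt_card N (fun a b c => R a c b)]
    refine Finset.sum_congr rfl fun a _ => ?_
    have e1 : ∀ b, ((N.filter (fun c => R a b c)).card : ℝ) = ∑ c ∈ N, if R a b c then (1 : ℝ) else 0 := by
      intro b
      rw [Finset.card_filter]
      push_cast
      rfl
    have e2 : ∀ b, ((N.filter (fun c => R a c b)).card : ℝ) = ∑ c ∈ N, if R a c b then (1 : ℝ) else 0 := by
      intro b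
      rw [Finset.card_filter]
      push_cast
      rfl
    simp only [e1, e2]
    rw [Finset.sum_comm]
  rw [h1]
  exact bt_count3 N (fun a b c => R a c b) h

/-- version without decidability instances -/
theorem bt_c3 {α : Type*} (N : Finset α) (R : α → α → α → Prop) {M : ℝ}
    (h : ∀ a ∈ N, ∀ b ∈ N, ∀ F ⊆ N, (∀ c ∈ F, R a b c) → (F.card : ℝ) ≤ M)
    (G : Finset (α × α × α)) (hG : G ⊆ N ×ˢ N ×ˢ N) (hR : ∀ t ∈ G, R t.1 t.2.1 t.2.2) :
    (G.card : ℝ) ≤ (N.card : ℝ) ^ 2 * M := by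
  classical
  refine le_trans ?_ (bt_count3 N R (M := M) fun a ha b hb =>
    h a ha b hb _ (Finset.filter_subset _ _) fun c hc => (Finset.mem_filter.1 hc).2)
  exact_mod_cast Finset.card_le_card fun t ht => Finset.mem_filter.2 ⟨hG ht, hR t ht⟩

/-- version without decidability instances -/
theorem bt_c2 {α : Type*} (N : Finset α) (R : α → α → α → Prop) {M : ℝ}
    (h : ∀ a ∈ N, ∀ c ∈ N, ∀ F ⊆ N, (∀ b ∈ F, R a b c) → (F.card : ℝ) ≤ M)
    (G : Finset (α × α × α)) (hG : G ⊆ N ×ˢ N ×ˢ N) (hR : ∀ t ∈ G, R t.1 t.2.1 t.2.2) :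
    (G.card : ℝ) ≤ (N.card : ℝ) ^ 2 * M := by
  classical
  refine le_trans ?_ (bt_count2 N R (M := M) fun a ha b hb =>
    h a ha b hb _ (Finset.filter_subset _ _) fun c hc => (Finset.mem_filter.1 hc).2)
  exact_mod_cast Finset.card_le_card fun t ht => Finset.mem_filter.2 ⟨hG ht, hR t ht⟩

theorem bt_triple (a b c : V) : a ⬝ᵥ cr b c = cr a b ⬝ᵥ c := by
  simp [cr, dotProduct, Fin.sum_univ_three]
  ring

/-- a nonzero vector orthogonal to `a` -/
theorem bt_perp (a : V) : ∃ u : V, u ≠ 0 ∧ u ⬝ᵥ a = 0 := by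
  by_cases h : a 0 = 0 ∧ a 1 = 0
  · refine ⟨![1, 0, 0], ?_, ?_⟩
    · intro h0
      have := congrFun h0 0
      simp at this
    · simp [dotProduct, Fin.sum_univ_three, h.1]
  · refine ⟨![-(a 1), a 0, 0], ?_, ?_⟩
    · intro h0
      have h1 := congrFun h0 0
      have h2 := congrFun h0 1
      simp at h1 h2
      exact h ⟨h2, h1⟩
    · simp [dotProduct, Fin.sum_univ_three]
      ring

/-- if `cr a b = 0`, `a ≠ 0`, then `b` is orthogonal to everything orthogonal to `a` -/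
theorem bt_par {a b u : V} (ha : a ≠ 0) (h : cr a b = 0) (hu : u ⬝ᵥ a = 0) : u ⬝ᵥ b = 0 := by
  have h0 := congrFun h 0
  have h1 := congrFun h 1
  have h2 := congrFun h 2
  simp only [cr, Matrix.cons_val_zero, Matrix.cons_val_one, Matrix.cons_val, Pi.zero_apply] at h0 h1 h2
  have hu' : u 0 * a 0 + u 1 * a 1 + u 2 * a 2 = 0 := by
    simpa [dotProduct, Fin.sum_univ_three] using hu
  have hb : ∀ i, a i * (u 0 * b 0 + u 1 * b 1 + u 2 * b 2) = 0 := by
    intro i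
    fin_cases i
    · show a 0 * _ = 0
      linear_combination (b 0) * hu' - u 1 * (-h2) - u 2 * h1
    · show a 1 * _ = 0
      linear_combination (b 1) * hu' - u 0 * h2 + u 2 * h0
    · show a 2 * _ = 0
      linear_combination (b 2) * hu' + u 0 * h1 - u 1 * h0
  have : u 0 * b 0 + u 1 * b 1 + u 2 * b 2 = 0 := by
    by_contra hne
    apply ha
    ext i
    rcases mul_eq_zero.1 (hb i) with h | h
    · exact h
    · exact absurd h hne
  simpa [dotProduct, Fin.sum_univ_three] using this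

end Vale.Agent.P054.Y.GF
end

section

/-! Leaf GF-BT (bad triples).  `S = Λ.image ln`, `φ` irreducible, `2 ≤ deg φ ≤ D`.
`bad_triples`: `N = {l ∈ I | (l, l') ∈ T}`.  A triple of `N` that is not good has (i) `x1·(x2×x3) = 0`: if
  `cr x1 x2 ≠ 0`, `l3` is in `plane_fst` with `u = cr x1 x2`, otherwise `l2` is in `plane_fst` with any
  `u ≠ 0`, `u ⬝ᵥ x1 = 0`; (ii) the same for `y`; (iii) `c_ij = 0`: `skew_count`.  Sum:
  `#N^2 (4 (D(D+1)+K) B + 3 (v + D + 1)) ≤ #N^3 / 2`. -/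

set_option linter.all false

namespace Vale.Agent.P054.Y.GF

open Finset Matrix MvPolynomial
open Vale.Agent.P041.SE

open scoped Classical in
theorem bad_triples {Λ : Finset (V × V)} {X Y : Finset V} {n B K : ℝ} (hyp : Hyp Λ X Y n B K)
    (hc : InChart Λ) (hK : 0 ≤ K) (hB : 0 ≤ B) {φ : MvPolynomial (Fin 3) ℝ} (hφ : Irreducible φ) {D : ℕ}
    (hD : φ.totalDegree ≤ D) (hD2 : 2 ≤ φ.totalDegree) {v : ℝ} (hv : 0 ≤ v) (l' : Ln)
    (N : Finset Ln) (hN : ∀ l ∈ N, (l, l') ∈ MT (Λ.image ln) φ v)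
    (hh : 8 * ((D * (D + 1) + K) * B) + 6 * (v + D + 1) ≤ (N.card : ℝ)) :
    (((N ×ˢ N ×ˢ N).filter (fun t => ¬ GoodT (rep Λ t.1) (rep Λ t.2.1) (rep Λ t.2.2))).card : ℝ) ≤
      (N.card : ℝ) ^ 3 / 2 := by
  have hDr : (0 : ℝ) ≤ D := Nat.cast_nonneg D
  set P : ℝ := (D * (D + 1) + K) * B with hP
  set Q : ℝ := v + D + 1 with hQ
  have hP0 : 0 ≤ P := by positivity
  have hQ0 : 0 < Q := by positivity
  have hNpos : (0 : ℝ) < N.card := by
    have : 0 ≤ 8 * P := by positivity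
    linarith
  have hNe : N.Nonempty := by
    rw [← Finset.card_pos]
    exact_mod_cast hNpos
  have hmem : ∀ l ∈ N, (l ∈ Λ.image ln ∧ On φ l) ∧ (l' ∈ Λ.image ln ∧ On φ l') ∧
      ∃ t, gpt l t = gpt l' t := by
    intro l hl
    have h := hN l hl
    simp only [MT, GC.inSurf, Finset.mem_filter, Finset.mem_product] at h
    obtain ⟨⟨h1, h2⟩, h3, t, h4, h5⟩ := h
    exact ⟨h1, h2, t, h4⟩
  obtain ⟨l0, hl0⟩ := hNe
  have hl'S : l' ∈ Λ.image ln := (hmem l0 hl0).2.1.1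
  set p' := rep Λ l' with hp'
  obtain ⟨hp'Λ, hp'ln⟩ := rep_mem hl'S
  have hpair' : IsPair p' := hyp.pair _ hp'Λ
  have hp'1 : p'.1 ≠ 0 := hpair'.2
  have hp'2 : p'.2 ≠ 0 := by
    intro h0
    apply hp'1
    have h1 := hpair'.1
    rw [h0] at h1
    simp only [dotProduct_zero] at h1
    exact dotProduct_self_eq_zero.1 h1
  have hrep : ∀ l ∈ N, rep Λ l ∈ Λ ∧ ln (rep Λ l) = l := fun l hl => rep_mem (hmem l hl).1.1
  have hpair : ∀ l ∈ N, IsPair (rep Λ l) := fun l hl => hyp.pair _ (hrep l hl).1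
  have hdot : ∀ l ∈ N, (rep Λ l).1 ⬝ᵥ p'.1 = (rep Λ l).2 ⬝ᵥ p'.2 := by
    intro l hl
    obtain ⟨t, ht⟩ := (hmem l hl).2.2
    refine dot_of_meet (hpair l hl) hpair' (hc.1 _ (hrep l hl).1) (hc.1 _ hp'Λ) (t := t) (t' := t) ?_
    rw [(hrep l hl).2, hp'ln]
    exact ht
  have hx0 : ∀ l ∈ N, (rep Λ l).1 ≠ 0 := fun l hl => (hpair l hl).2
  have hy0 : ∀ l ∈ N, (rep Λ l).2 ≠ 0 := by
    intro l hl h0
    apply hx0 l hl
    have h1 := (hpair l hl).1
    rw [h0] at h1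
    simp only [dotProduct_zero] at h1
    exact dotProduct_self_eq_zero.1 h1
  have fstc : ∀ u : V, u ≠ 0 → ∀ F ⊆ N, (∀ l ∈ F, u ⬝ᵥ (rep Λ l).1 = 0) → (F.card : ℝ) ≤ P := by
    intro u hu F hF hF2
    refine plane_fst hyp hc hK hB hφ hD p' hp'2 u hu F ?_
    intro l hl
    exact ⟨(hmem l (hF hl)).1.2, rep Λ l, (hrep l (hF hl)).1, (hrep l (hF hl)).2, hF2 l hl,
      hdot l (hF hl)⟩
  have sndc : ∀ u : V, u ≠ 0 → ∀ F ⊆ N, (∀ l ∈ F, u ⬝ᵥ (rep Λ l).2 = 0) → (F.card : ℝ) ≤ P := by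
    intro u hu F hF hF2
    refine plane_snd hyp hc hK hB hφ hD p' hp'1 u hu F ?_
    intro l hl
    exact ⟨(hmem l (hF hl)).1.2, rep Λ l, (hrep l (hF hl)).1, (hrep l (hF hl)).2, hF2 l hl,
      hdot l (hF hl)⟩
  have skc : ∀ a ∈ N, ∀ F ⊆ N, (∀ b ∈ F, (rep Λ a).1 ⬝ᵥ (rep Λ b).1 =
      (rep Λ a).2 ⬝ᵥ (rep Λ b).2) → (F.card : ℝ) ≤ Q := by
    intro a ha F hF hF2
    refine skew_count hyp hc hφ hD hD2 hv (hN a ha) F ?_
    intro l hl
    exact ⟨hN l (hF hl), hF2 l hl⟩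
  -- the seven kinds of bad triples
  set T := N ×ˢ N ×ˢ N with hT
  set F1 := T.filter (fun t : Ln × Ln × Ln => cr (rep Λ t.1).1 (rep Λ t.2.1).1 ≠ 0 ∧
      (rep Λ t.1).1 ⬝ᵥ cr (rep Λ t.2.1).1 (rep Λ t.2.2).1 = 0) with hF1
  set F2 := T.filter (fun t : Ln × Ln × Ln => cr (rep Λ t.1).1 (rep Λ t.2.1).1 = 0) with hF2
  set F3 := T.filter (fun t : Ln × Ln × Ln => cr (rep Λ t.1).2 (rep Λ t.2.1).2 ≠ 0 ∧
      (rep Λ t.1).2 ⬝ᵥ cr (rep Λ t.2.1).2 (rep Λ t.2.2).2 = 0) with hF3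
  set F4 := T.filter (fun t : Ln × Ln × Ln => cr (rep Λ t.1).2 (rep Λ t.2.1).2 = 0) with hF4
  set F5 := T.filter (fun t : Ln × Ln × Ln => (rep Λ t.1).1 ⬝ᵥ (rep Λ t.2.1).1 =
      (rep Λ t.1).2 ⬝ᵥ (rep Λ t.2.1).2) with hF5
  set F6 := T.filter (fun t : Ln × Ln × Ln => (rep Λ t.1).1 ⬝ᵥ (rep Λ t.2.2).1 =
      (rep Λ t.1).2 ⬝ᵥ (rep Λ t.2.2).2) with hF6
  set F7 := T.filter (fun t : Ln × Ln × Ln => (rep Λ t.2.1).1 ⬝ᵥ (rep Λ t.2.2).1 =
      (rep Λ t.2.1).2 ⬝ᵥ (rep Λ t.2.2).2) with hF7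
  have b1 : (F1.card : ℝ) ≤ (N.card : ℝ) ^ 2 * P := by
    refine bt_c3 N (fun a b c => cr (rep Λ a).1 (rep Λ b).1 ≠ 0 ∧
      (rep Λ a).1 ⬝ᵥ cr (rep Λ b).1 (rep Λ c).1 = 0) ?_ F1 (Finset.filter_subset _ _)
      (fun t ht => (Finset.mem_filter.1 ht).2)
    intro a ha b hb F hF hR
    by_cases h : cr (rep Λ a).1 (rep Λ b).1 = 0
    · have : F = ∅ := Finset.eq_empty_of_forall_notMem fun c hcF => (hR c hcF).1 h
      rw [this]
      simpa using hP0
    · refine fstc _ h F hF ?_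
      intro l hl
      rw [← bt_triple]
      exact (hR l hl).2
  have b2 : (F2.card : ℝ) ≤ (N.card : ℝ) ^ 2 * P := by
    refine bt_c2 N (fun a b c => cr (rep Λ a).1 (rep Λ b).1 = 0) ?_ F2 (Finset.filter_subset _ _)
      (fun t ht => (Finset.mem_filter.1 ht).2)
    intro a ha c hcN F hF hR
    obtain ⟨u, hu, hua⟩ := bt_perp (rep Λ a).1
    exact fstc u hu F hF fun l hl => bt_par (hx0 a ha) (hR l hl) hua
  have b3 : (F3.card : ℝ) ≤ (N.card : ℝ) ^ 2 * P := by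
    refine bt_c3 N (fun a b c => cr (rep Λ a).2 (rep Λ b).2 ≠ 0 ∧
      (rep Λ a).2 ⬝ᵥ cr (rep Λ b).2 (rep Λ c).2 = 0) ?_ F3 (Finset.filter_subset _ _)
      (fun t ht => (Finset.mem_filter.1 ht).2)
    intro a ha b hb F hF hR
    by_cases h : cr (rep Λ a).2 (rep Λ b).2 = 0
    · have : F = ∅ := Finset.eq_empty_of_forall_notMem fun c hcF => (hR c hcF).1 h
      rw [this]
      simpa using hP0
    · refine sndc _ h F hF ?_
      intro l hl
      rw [← bt_triple]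
      exact (hR l hl).2
  have b4 : (F4.card : ℝ) ≤ (N.card : ℝ) ^ 2 * P := by
    refine bt_c2 N (fun a b c => cr (rep Λ a).2 (rep Λ b).2 = 0) ?_ F4 (Finset.filter_subset _ _)
      (fun t ht => (Finset.mem_filter.1 ht).2)
    intro a ha c hcN F hF hR
    obtain ⟨u, hu, hua⟩ := bt_perp (rep Λ a).2
    exact sndc u hu F hF fun l hl => bt_par (hy0 a ha) (hR l hl) hua
  have b5 : (F5.card : ℝ) ≤ (N.card : ℝ) ^ 2 * Q :=
    bt_c2 N (fun a b c => (rep Λ a).1 ⬝ᵥ (rep Λ b).1 = (rep Λ a).2 ⬝ᵥ (rep Λ b).2)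
      (fun a ha c _ => skc a ha) F5 (Finset.filter_subset _ _) (fun t ht => (Finset.mem_filter.1 ht).2)
  have b6 : (F6.card : ℝ) ≤ (N.card : ℝ) ^ 2 * Q :=
    bt_c3 N (fun a b c => (rep Λ a).1 ⬝ᵥ (rep Λ c).1 = (rep Λ a).2 ⬝ᵥ (rep Λ c).2)
      (fun a ha c _ => skc a ha) F6 (Finset.filter_subset _ _) (fun t ht => (Finset.mem_filter.1 ht).2)
  have b7 : (F7.card : ℝ) ≤ (N.card : ℝ) ^ 2 * Q :=
    bt_c3 N (fun a b c => (rep Λ b).1 ⬝ᵥ (rep Λ c).1 = (rep Λ b).2 ⬝ᵥ (rep Λ c).2)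
      (fun a _ b hb => skc b hb) F7 (Finset.filter_subset _ _) (fun t ht => (Finset.mem_filter.1 ht).2)
  have hsub : T.filter (fun t => ¬ GoodT (rep Λ t.1) (rep Λ t.2.1) (rep Λ t.2.2)) ⊆
      F1 ∪ (F2 ∪ (F3 ∪ (F4 ∪ (F5 ∪ (F6 ∪ F7))))) := by
    intro t ht
    rw [Finset.mem_filter] at ht
    obtain ⟨htT, hbad⟩ := ht
    simp only [Finset.mem_union, hF1, hF2, hF3, hF4, hF5, hF6, hF7, Finset.mem_filter]
    by_contra hno
    apply hbad
    simp only [not_or, not_and, htT, true_and, forall_true_left] at hno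
    obtain ⟨h1, h2, h3, h4, h5, h6, h7⟩ := hno
    exact ⟨h1 h2, h3 h4, h5, h6, h7⟩
  have hcard := Finset.card_le_card hsub
  have hu : (F1 ∪ (F2 ∪ (F3 ∪ (F4 ∪ (F5 ∪ (F6 ∪ F7)))))).card ≤
      F1.card + (F2.card + (F3.card + (F4.card + (F5.card + (F6.card + F7.card))))) := by
    refine (Finset.card_union_le _ _).trans (Nat.add_le_add_left ?_ _)
    refine (Finset.card_union_le _ _).trans (Nat.add_le_add_left ?_ _)
    refine (Finset.card_union_le _ _).trans (Nat.add_le_add_left ?_ _)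
    refine (Finset.card_union_le _ _).trans (Nat.add_le_add_left ?_ _)
    refine (Finset.card_union_le _ _).trans (Nat.add_le_add_left ?_ _)
    exact Finset.card_union_le _ _
  have hreal : ((T.filter (fun t => ¬ GoodT (rep Λ t.1) (rep Λ t.2.1) (rep Λ t.2.2))).card : ℝ) ≤
      F1.card + (F2.card + (F3.card + (F4.card + (F5.card + (F6.card + F7.card))))) := by
    exact_mod_cast hcard.trans hu
  have hfin : ((T.filter (fun t => ¬ GoodT (rep Λ t.1) (rep Λ t.2.1) (rep Λ t.2.2))).card : ℝ) ≤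
      (N.card : ℝ) ^ 2 * (4 * P + 3 * Q) := by
    refine hreal.trans ?_
    linarith only [b7, b6, b5, b4, b3, b2, b1]
  refine hfin.trans ?_
  have h1 : 4 * P + 3 * Q ≤ (N.card : ℝ) / 2 := by linarith
  calc (N.card : ℝ) ^ 2 * (4 * P + 3 * Q) ≤ (N.card : ℝ) ^ 2 * ((N.card : ℝ) / 2) :=
        mul_le_mul_of_nonneg_left h1 (by (clear * - hNpos; positivity))
    _ = (N.card : ℝ) ^ 3 / 2 := by ring

end Vale.Agent.P054.Y.GF
end

section

/-! Leaf G-KST.  PROOF.  `N b = {a ∈ I | (a,b) ∈ T}`, `|T| = ∑_b |N b| ≤ k h + ∑_{|N b| ≥ h} |N b|`, and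
`∑_{|N b| ≥ h} |N b| ≤ h^{-2} ∑ |N b|^3 ≤ 2 h^{-2} #{(a1,a2,a3,b) : good, all in N b} ≤ 2 h^{-2} k^3 s ≤ k h`. -/

set_option linter.all false

namespace Vale.Agent.P054.Y.GF

open Finset

open scoped Classical in
theorem kst_aux {α : Type} (I : Finset α) (T : Finset (α × α)) (hT : T ⊆ I ×ˢ I)
    (good : α → α → α → Prop) (h s : ℝ) (hh : 0 < h) (hs : 0 ≤ s)
    (h1 : ∀ b ∈ I, h ≤ ((I.filter (fun a => (a, b) ∈ T)).card : ℝ) →
      ((((I.filter (fun a => (a, b) ∈ T)) ×ˢ (I.filter (fun a => (a, b) ∈ T)) ×ˢ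
        (I.filter (fun a => (a, b) ∈ T))).filter (fun t => ¬ good t.1 t.2.1 t.2.2)).card : ℝ) ≤
        ((I.filter (fun a => (a, b) ∈ T)).card : ℝ) ^ 3 / 2)
    (h2 : ∀ a₁ ∈ I, ∀ a₂ ∈ I, ∀ a₃ ∈ I, good a₁ a₂ a₃ →
      ((I.filter (fun b => (a₁, b) ∈ T ∧ (a₂, b) ∈ T ∧ (a₃, b) ∈ T)).card : ℝ) ≤ s)
    (h3 : 2 * (I.card : ℝ) ^ 2 * s ≤ h ^ 3) : (T.card : ℝ) ≤ 2 * I.card * h := by
  set N : α → Finset α := fun b => I.filter (fun a => (a, b) ∈ T) with hN
  -- the cardinality of `T`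
  have hTc : T.card = ∑ b ∈ I, (N b).card := by
    have e1 : T = (I.sigma N).image (fun x => (x.2, x.1)) := by
      ext ⟨a, b⟩
      simp only [hN, mem_image, mem_sigma, mem_filter, Prod.mk.injEq]
      constructor
      · intro hab
        have := mem_product.1 (hT hab)
        exact ⟨⟨b, a⟩, ⟨this.2, this.1, hab⟩, rfl, rfl⟩
      · rintro ⟨⟨b', a'⟩, ⟨_, _, h⟩, rfl, rfl⟩
        exact h
    rw [e1, card_image_of_injOn, card_sigma]
    rintro ⟨b, a⟩ _ ⟨b', a'⟩ _ h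
    simp only [Prod.mk.injEq] at h
    obtain ⟨rfl, rfl⟩ := h
    rfl
  -- good triples
  let Gd : α → Finset (α × α × α) := fun b =>
    (N b ×ˢ N b ×ˢ N b).filter (fun t => good t.1 t.2.1 t.2.2)
  have hlow : ∀ b ∈ I, h ≤ ((N b).card : ℝ) → ((N b).card : ℝ) ^ 3 ≤ 2 * (Gd b).card := by
    intro b hb hh1
    have e := h1 b hb hh1
    have e2 : ((N b ×ˢ N b ×ˢ N b).filter (fun t => good t.1 t.2.1 t.2.2)).card +
        ((N b ×ˢ N b ×ˢ N b).filter (fun t => ¬ good t.1 t.2.1 t.2.2)).card =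
        (N b).card * ((N b).card * (N b).card) := by
      rw [card_filter_add_card_filter_not, card_product, card_product]
    have e3 : ((Gd b).card : ℝ) + (((N b ×ˢ N b ×ˢ N b).filter
        (fun t => ¬ good t.1 t.2.1 t.2.2)).card : ℝ) = (N b).card * ((N b).card * (N b).card) := by
      exact_mod_cast e2
    have e4 : (((N b ×ˢ N b ×ˢ N b).filter
        (fun t => ¬ good t.1 t.2.1 t.2.2)).card : ℝ) ≤ ((N b).card : ℝ) ^ 3 / 2 := e
    linarith only [e4, e3]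
  -- upper bound
  have hup : (∑ b ∈ I, ((Gd b).card : ℝ)) ≤ (I.card : ℝ) ^ 3 * s := by
    have e1 : ∑ b ∈ I, (Gd b).card = ∑ t ∈ I ×ˢ I ×ˢ I, (I.filter (fun b =>
        ((t.1, b) ∈ T ∧ (t.2.1, b) ∈ T ∧ (t.2.2, b) ∈ T) ∧ good t.1 t.2.1 t.2.2)).card := by
      have e2 : ∀ b ∈ I, (Gd b).card = ((I ×ˢ I ×ˢ I).filter (fun t =>
          ((t.1, b) ∈ T ∧ (t.2.1, b) ∈ T ∧ (t.2.2, b) ∈ T) ∧ good t.1 t.2.1 t.2.2)).card := by
        intro b _
        congr 1
        ext ⟨x, y, z⟩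
        simp only [Gd, hN, mem_filter, mem_product]
        tauto
      rw [sum_congr rfl e2]
      simp_rw [card_filter]
      exact sum_comm
    have e3 : ∀ t ∈ I ×ˢ I ×ˢ I, ((I.filter (fun b =>
        ((t.1, b) ∈ T ∧ (t.2.1, b) ∈ T ∧ (t.2.2, b) ∈ T) ∧ good t.1 t.2.1 t.2.2)).card : ℝ) ≤ s := by
      rintro ⟨a, b, c⟩ ht
      simp only [mem_product] at ht
      by_cases hg : good a b c
      · refine le_trans ?_ (h2 a ht.1 b ht.2.1 c ht.2.2 hg)
        have : (I.filter (fun x => ((a, x) ∈ T ∧ (b, x) ∈ T ∧ (c, x) ∈ T) ∧ good a b c)) ⊆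
            I.filter (fun x => (a, x) ∈ T ∧ (b, x) ∈ T ∧ (c, x) ∈ T) := by
          intro x; simp only [mem_filter]; tauto
        exact_mod_cast card_le_card this
      · have : (I.filter (fun x => ((a, x) ∈ T ∧ (b, x) ∈ T ∧ (c, x) ∈ T) ∧ good a b c)) = ∅ := by
          rw [filter_eq_empty_iff]; intro x _ h; exact hg h.2
        simp only [this, card_empty, Nat.cast_zero]
        exact hs
    have e4 : (∑ b ∈ I, ((Gd b).card : ℝ)) = ∑ t ∈ I ×ˢ I ×ˢ I, ((I.filter (fun b =>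
        ((t.1, b) ∈ T ∧ (t.2.1, b) ∈ T ∧ (t.2.2, b) ∈ T) ∧ good t.1 t.2.1 t.2.2)).card : ℝ) := by
      exact_mod_cast e1
    rw [e4]
    calc _ ≤ ∑ t ∈ I ×ˢ I ×ˢ I, s := sum_le_sum e3
      _ = (I.card : ℝ) ^ 3 * s := by
        rw [sum_const, nsmul_eq_mul, card_product, card_product]; push_cast; ring
  -- pointwise
  have hpt : ∀ b ∈ I, ((N b).card : ℝ) ≤ h + 2 * (Gd b).card / h ^ 2 := by
    intro b hb
    rcases le_or_gt h ((N b).card : ℝ) with h4 | h4
    · have h5 := hlow b hb h4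
      have h6 : ((N b).card : ℝ) ≤ 2 * (Gd b).card / h ^ 2 := by
        rw [le_div_iff₀ (by positivity)]
        have h7 : h ^ 2 ≤ ((N b).card : ℝ) ^ 2 := by gcongr
        have h8 : (0 : ℝ) ≤ (N b).card := Nat.cast_nonneg _
        (by_contra nlg; linarith only [nlg, mul_nonneg (sub_nonneg.2 h5) (sub_nonneg.2 h8), mul_nonneg (le_of_lt (sub_pos.2 (not_le.1 nlg))) (sub_nonneg.2 h4), mul_pos (sub_pos.2 (not_le.1 nlg)) (sub_pos.2 hh), mul_nonneg (sq_nonneg (↑(#(N b)) : ℝ)) (sub_nonneg.2 h7)])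
      linarith
    · have : (0 : ℝ) ≤ 2 * (Gd b).card / h ^ 2 := by (clear * - hh; positivity)
      linarith
  have hk : (0 : ℝ) ≤ I.card := Nat.cast_nonneg _
  calc (T.card : ℝ) = ∑ b ∈ I, ((N b).card : ℝ) := by rw [hTc]; push_cast; rfl
    _ ≤ ∑ b ∈ I, (h + 2 * (Gd b).card / h ^ 2) := sum_le_sum hpt
    _ = I.card * h + 2 * (∑ b ∈ I, ((Gd b).card : ℝ)) / h ^ 2 := by
        rw [sum_add_distrib, sum_const, nsmul_eq_mul, mul_sum, sum_div]
    _ ≤ I.card * h + 2 * ((I.card : ℝ) ^ 3 * s) / h ^ 2 := by gcongr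
    _ ≤ I.card * h + I.card * h := by
        have : 2 * ((I.card : ℝ) ^ 3 * s) / h ^ 2 ≤ I.card * h := by
          rw [div_le_iff₀ (by positivity)]
          calc 2 * ((I.card : ℝ) ^ 3 * s) = I.card * (2 * (I.card : ℝ) ^ 2 * s) := by ring
            _ ≤ I.card * h ^ 3 := mul_le_mul_of_nonneg_left h3 hk
            _ = I.card * h * h ^ 2 := by ring
        linarith
    _ = 2 * I.card * h := by ring

open scoped Classical in
theorem kst {α : Type} (I : Finset α) (T : Finset (α × α)) (hT : T ⊆ I ×ˢ I)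
    (good : α → α → α → Prop) (h s : ℝ) (hh : 0 < h)
    (h1 : ∀ b ∈ I, h ≤ ((I.filter (fun a => (a, b) ∈ T)).card : ℝ) →
      ((((I.filter (fun a => (a, b) ∈ T)) ×ˢ (I.filter (fun a => (a, b) ∈ T)) ×ˢ
        (I.filter (fun a => (a, b) ∈ T))).filter (fun t => ¬ good t.1 t.2.1 t.2.2)).card : ℝ) ≤
        ((I.filter (fun a => (a, b) ∈ T)).card : ℝ) ^ 3 / 2)
    (h2 : ∀ a₁ ∈ I, ∀ a₂ ∈ I, ∀ a₃ ∈ I, good a₁ a₂ a₃ →
      ((I.filter (fun b => (a₁, b) ∈ T ∧ (a₂, b) ∈ T ∧ (a₃, b) ∈ T)).card : ℝ) ≤ s)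
    (h3 : 2 * (I.card : ℝ) ^ 2 * s ≤ h ^ 3) : (T.card : ℝ) ≤ 2 * I.card * h := by
  refine kst_aux I T hT good h (max s 0) hh (le_max_right _ _) h1
    (fun a ha b hb c hc hg => (h2 a ha b hb c hc hg).trans (le_max_left _ _)) ?_
  rcases le_total s 0 with hs | hs
  · rw [max_eq_right hs, mul_zero]; positivity
  · rw [max_eq_left hs]; exact h3

end Vale.Agent.P054.Y.GF
end

section

/-! Leaf GF-Surf.  Pairs inside one irreducible surface.
with `z` from `vb_fst`: every `x ∈ X` with `cr z x ≠ 0` is (parallel to) the first component of (the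
  representative of) at most `D (D+1)` lines, the others: at most `K` values of `x`, at most `n` of `y`. -/

set_option linter.all false

namespace Vale.Agent.P054.Y.GF

open Finset Matrix MvPolynomial
open Vale.Agent.P041.SE

open scoped Classical in
theorem card_inSurf {Λ : Finset (V × V)} {X Y : Finset V} {n B K : ℝ} (hyp : Hyp Λ X Y n B K)
    (hc : InChart Λ) (hK : 0 ≤ K) {φ : MvPolynomial (Fin 3) ℝ} (hφ : Irreducible φ) {D : ℕ}
    (hD : φ.totalDegree ≤ D) : ((GC.inSurf (Λ.image ln) φ).card : ℝ) ≤ (D * (D + 1) + K) * n := by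
  obtain ⟨z, hz0, hz⟩ := vb_fst φ hφ D hD
  have hn : (0 : ℝ) ≤ n := le_trans (Nat.cast_nonneg _) hyp.cardX
  set S : Finset Ln := GC.inSurf (Λ.image ln) φ with hS
  have hmem : ∀ l ∈ S, l ∈ Λ.image ln ∧ On φ l := by
    intro l hl
    rw [hS, GC.inSurf, Finset.mem_filter] at hl
    exact hl
  have hrep : ∀ l ∈ S, rep Λ l ∈ Λ ∧ ln (rep Λ l) = l := fun l hl => rep_mem (hmem l hl).1
  have hmaps : ∀ l ∈ S, (rep Λ l).1 ∈ X := fun l hl => hyp.memX _ (hrep l hl).1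
  have hcard : S.card = ∑ x ∈ X, (S.filter (fun l => (rep Λ l).1 = x)).card :=
    Finset.card_eq_sum_card_fiberwise hmaps
  have hfib1 : ∀ x ∈ X, cr z x ≠ 0 → (S.filter (fun l => (rep Λ l).1 = x)).card ≤ D * (D + 1) := by
    intro x hx hzx
    refine hz x hzx _ fun l hl => ?_
    rw [Finset.mem_filter] at hl
    obtain ⟨hlS, hlx⟩ := hl
    refine ⟨(hmem l hlS).2, rep Λ l, hyp.pair _ (hrep l hlS).1, hc.1 _ (hrep l hlS).1, ?_,
      (hrep l hlS).2⟩
    rw [hlx]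
    ext i
    fin_cases i <;> simp [cr] <;> ring
  have hfib2 : ∀ x ∈ X, ((S.filter (fun l => (rep Λ l).1 = x)).card : ℝ) ≤ n := by
    intro x hx
    refine le_trans ?_ hyp.cardY
    have : (S.filter (fun l => (rep Λ l).1 = x)).card ≤ Y.card := by
      refine Finset.card_le_card_of_injOn (fun l => (rep Λ l).2) ?_ ?_
      · intro l hl
        rw [Finset.mem_coe, Finset.mem_filter] at hl
        exact hyp.memY _ (hrep l hl.1).1
      · intro l hl l' hl' he
        rw [Finset.mem_coe, Finset.mem_filter] at hl hl'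
        simp only at he
        rw [← (hrep l hl.1).2, ← (hrep l' hl'.1).2]
        congr 1
        exact Prod.ext (hl.2.trans hl'.2.symm) he
    exact_mod_cast this
  have hA : ((X.filter (fun x => cr z x = 0)).card : ℝ) ≤ K :=
    hyp.lineX z hz0 _ (Finset.filter_subset _ _) fun x hx => (Finset.mem_filter.1 hx).2
  have hB : ((X.filter (fun x => ¬ cr z x = 0)).card : ℝ) ≤ n := by
    refine le_trans ?_ hyp.cardX
    exact_mod_cast Finset.card_le_card (Finset.filter_subset _ _)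
  rw [hcard]
  push_cast
  rw [← Finset.sum_filter_add_sum_filter_not X (fun x => cr z x = 0)]
  have h1 : ∑ x ∈ X.filter (fun x => cr z x = 0),
      ((S.filter (fun l => (rep Λ l).1 = x)).card : ℝ) ≤ K * n := by
    calc _ ≤ ∑ x ∈ X.filter (fun x => cr z x = 0), n :=
          Finset.sum_le_sum fun x hx => hfib2 x (Finset.mem_filter.1 hx).1
      _ = (X.filter (fun x => cr z x = 0)).card * n := by rw [Finset.sum_const, nsmul_eq_mul]
      _ ≤ K * n := mul_le_mul_of_nonneg_right hA hn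
  have h2 : ∑ x ∈ X.filter (fun x => ¬ cr z x = 0),
      ((S.filter (fun l => (rep Λ l).1 = x)).card : ℝ) ≤ (D * (D + 1)) * n := by
    calc _ ≤ ∑ x ∈ X.filter (fun x => ¬ cr z x = 0), ((D : ℝ) * (D + 1)) :=
          Finset.sum_le_sum fun x hx => by
            have := hfib1 x (Finset.mem_filter.1 hx).1 (Finset.mem_filter.1 hx).2
            exact_mod_cast this
      _ = (X.filter (fun x => ¬ cr z x = 0)).card * ((D : ℝ) * (D + 1)) := by
          rw [Finset.sum_const, nsmul_eq_mul]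
      _ ≤ n * ((D : ℝ) * (D + 1)) := mul_le_mul_of_nonneg_right hB (by positivity)
      _ = (D * (D + 1)) * n := by ring
  linarith [h1, h2]

end Vale.Agent.P054.Y.GF
end

section

/-! Leaf GF-CL (adapter of `G/CL.lean` class_line, iso_pair).  A line inside the surface
`qA A = 0` belongs to one of the two rulings. -/

set_option linter.all false

namespace Vale.Agent.P054.Y.GF

open Finset Matrix MvPolynomial
open Vale.Agent.P041.SE

theorem cl (A : M3) (hA : (1 - Aᵀ * A).det ≠ 0) {p : V × V} (hp : IsPair p)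
    (hc : p.1 2 + p.2 2 ≠ 0) (h : On (qA A) (ln p)) : A *ᵥ p.1 = p.2 ∨ Aᵀ *ᵥ p.2 = p.1 := by
  apply Vale.Agent.P054.Y.G.class_line A hA p.1 p.2 hp.1
  · intro h0
    exact hc (congrFun h0 2)
  · intro w hw
    obtain ⟨t, ht⟩ := (on_ln hp hc w).2 (by rw [chart_cr]; exact hw.symm)
    have h1 := h t
    rw [ht, eval_qA] at h1
    exact h1

theorem cl_form (A : M3) (u v : V) :
    ((1 - Aᵀ * A) *ᵥ u) ⬝ᵥ v = u ⬝ᵥ v - (A *ᵥ u) ⬝ᵥ (A *ᵥ v) := by
  rw [sub_mulVec, one_mulVec, sub_dotProduct, ← mulVec_mulVec, dotProduct_mulVec,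
    mulVec_transpose]

/-- two meeting lines of the same ruling are equal -/
theorem same_ruling (A : M3) (hA : (1 - Aᵀ * A).det ≠ 0) {x x' : V} (h1 : Iso0 A x) (h2 : Iso0 A x')
    (h3 : x ⬝ᵥ x' = (A *ᵥ x) ⬝ᵥ (A *ᵥ x')) : cr x x' = 0 := by
  by_contra hne
  rw [chart_cr] at hne
  refine Vale.Agent.P054.Y.G.iso_pair hA ?_ hne ?_ ?_ ?_
  · rw [transpose_sub, transpose_one, transpose_mul, transpose_transpose]
  · rw [cl_form, h1, sub_self]
  · rw [cl_form, h2, sub_self]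
  · rw [cl_form, h3, sub_self]

end Vale.Agent.P054.Y.GF
end

section

/-! Leaf GF-Surf.  Pairs inside one irreducible surface.
`quad_case`: every line of the surface is on `qA A` (`GC.on_of_dvd`), so by `cl` its representatives
  satisfy `A x = y` (class 1) or `Aᵀ y = x` (class 2).  Two meeting different lines are never in the same
  class (`same_ruling` for `A`, resp. for `Aᵀ`, `det (1 - A Aᵀ) = det (1 - Aᵀ A)`).  If class 1 or class 2
  has less than `h` lines: `#T ≤ 2 h k`.  Otherwise use `Lab` with `(A, B)` resp. `(B, A)`: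
  `Aᵀ B = 1`, `Bᵀ A = 1`, `B Aᵀ = 1`; class 1: `|A x| = |x|`, `Bᵀ y = x` so `|Bᵀ y| = |y|`; class 2:
  `|Aᵀ y| = |y|`, `B x = y` so `|B x| = |x|`; different lines of class 1 have different `x` and different `y` (and the
  same for class 2), so the four cones have at least `h` points; so `T` is empty. -/

set_option linter.all false

namespace Vale.Agent.P054.Y.GF

open Finset Matrix MvPolynomial
open Vale.Agent.P041.SE

theorem qc684_dot (u v : V) (A : M3) (h : A *ᵥ u = v) (h2 : u ⬝ᵥ u = v ⬝ᵥ v) : Iso0 A u := by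
  unfold Iso0
  rw [h, h2]

theorem qc684_par {y y' : V} (hy : y ≠ 0) (h : cr y y' = 0) : ∃ μ : ℝ, y' = μ • y := by
  have h0 : y 1 * y' 2 - y 2 * y' 1 = 0 := by simpa [cr] using congrFun h 0
  have h1 : y 2 * y' 0 - y 0 * y' 2 = 0 := by simpa [cr] using congrFun h 1
  have h2 : y 0 * y' 1 - y 1 * y' 0 = 0 := by simpa [cr] using congrFun h 2
  by_cases e0 : y 0 = 0
  · by_cases e1 : y 1 = 0
    · have e2 : y 2 ≠ 0 := by
        intro e2
        apply hy
        funext i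
        fin_cases i
        · exact e0
        · exact e1
        · exact e2
      refine ⟨y' 2 / y 2, ?_⟩
      funext i
      fin_cases i
      · simp only [Fin.zero_eta, Pi.smul_apply, smul_eq_mul, e0, mul_zero]
        rw [e0] at h1
        have : y 2 * y' 0 = 0 := by linarith
        exact (mul_eq_zero.mp this).resolve_left e2
      · simp only [Fin.mk_one, Pi.smul_apply, smul_eq_mul, e1, mul_zero]
        rw [e1] at h0
        have : y 2 * y' 1 = 0 := by linarith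
        exact (mul_eq_zero.mp this).resolve_left e2
      · simp only [Fin.reduceFinMk, Pi.smul_apply, smul_eq_mul]
        field_simp
    · refine ⟨y' 1 / y 1, ?_⟩
      funext i
      fin_cases i
      · simp only [Fin.zero_eta, Pi.smul_apply, smul_eq_mul, e0, mul_zero]
        rw [e0] at h2
        have : y 1 * y' 0 = 0 := by linarith
        exact (mul_eq_zero.mp this).resolve_left e1
      · simp only [Fin.mk_one, Pi.smul_apply, smul_eq_mul]
        field_simp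
      · simp only [Fin.reduceFinMk, Pi.smul_apply, smul_eq_mul]
        field_simp
        linarith
  · refine ⟨y' 0 / y 0, ?_⟩
    funext i
    fin_cases i
    · simp only [Fin.zero_eta, Pi.smul_apply, smul_eq_mul]
      field_simp
    · simp only [Fin.mk_one, Pi.smul_apply, smul_eq_mul]
      field_simp
      linarith
    · simp only [Fin.reduceFinMk, Pi.smul_apply, smul_eq_mul]
      field_simp
      linarith

theorem qc684_cr_smul (x : V) (μ : ℝ) : cr x (μ • x) = 0 := by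
  funext i
  fin_cases i <;> simp [cr] <;> ring

open scoped Classical in
theorem quad_case {Λ : Finset (V × V)} {X Y : Finset V} {n B K : ℝ} (hyp : Hyp Λ X Y n B K)
    (hc : InChart Λ) {φ : MvPolynomial (Fin 3) ℝ} (A B' : M3) (hAB : Aᵀ * B' = 1)
    (hA : (1 - Aᵀ * A).det ≠ 0) (hd : φ ∣ qA A)
    {κ κ' : V → ℝ} {h v : ℝ} (hh : 0 ≤ h) (hl : Lab X Y κ κ' h) (T : Finset (Ln × Ln))
    (hT1 : T ⊆ MT (Λ.image ln) φ v)
    (hT2 : ∀ q ∈ T, ∃ p ∈ Λ, ∃ p' ∈ Λ, ln p = q.1 ∧ ln p' = q.2 ∧ Bad Λ κ κ' h p p') :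
    (T.card : ℝ) ≤ 2 * h * (GC.inSurf (Λ.image ln) φ).card := by
  set I := GC.inSurf (Λ.image ln) φ with hI
  have hBA : B' * Aᵀ = 1 := mul_eq_one_comm.mp hAB
  have hBA' : B'ᵀ * A = 1 := by
    have := congrArg Matrix.transpose hAB
    rwa [Matrix.transpose_mul, Matrix.transpose_transpose, Matrix.transpose_one] at this
  have hAB' : A * B'ᵀ = 1 := mul_eq_one_comm.mp hBA'
  have hA' : (1 - A * Aᵀ).det ≠ 0 := by
    rwa [← Matrix.det_one_sub_mul_comm] at hA
  have hA'' : (1 - Aᵀᵀ * Aᵀ).det ≠ 0 := by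
    rwa [Matrix.transpose_transpose]
  have hB : (1 - B'ᵀ * B').det ≠ 0 := by
    intro h0
    have h1 : A * (1 - B'ᵀ * B') * Aᵀ = -(1 - A * Aᵀ) := by
      have h2 : A * (B'ᵀ * B') * Aᵀ = 1 := by
        rw [← Matrix.mul_assoc, hAB', Matrix.one_mul, hBA]
      rw [Matrix.mul_sub, Matrix.sub_mul, h2, Matrix.mul_one]
      abel
    have h2 := congrArg Matrix.det h1
    rw [Matrix.det_mul, Matrix.det_mul, h0, mul_zero, zero_mul, Matrix.det_neg] at h2
    simp only [Fintype.card_fin] at h2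
    apply hA'
    linarith
  have hrep : ∀ l ∈ I, rep Λ l ∈ Λ ∧ ln (rep Λ l) = l := by
    intro l hl
    exact rep_mem (Finset.mem_filter.mp hl).1
  have hcl : ∀ l ∈ I, A *ᵥ (rep Λ l).1 = (rep Λ l).2 ∨ Aᵀ *ᵥ (rep Λ l).2 = (rep Λ l).1 := by
    intro l hl
    obtain ⟨h1, h2⟩ := hrep l hl
    refine cl A hA (hyp.pair _ h1) (hc.1 _ h1) ?_
    rw [h2]
    exact GC.on_of_dvd hd (Finset.mem_filter.mp hl).2
  set I1 := I.filter (fun l => A *ᵥ (rep Λ l).1 = (rep Λ l).2) with hI1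
  set I2 := I.filter (fun l => Aᵀ *ᵥ (rep Λ l).2 = (rep Λ l).1) with hI2
  -- representatives and other pairs of the same line
  have tr1 : ∀ l ∈ I1, ∀ p ∈ Λ, ln p = l → A *ᵥ p.1 = p.2 := by
    intro l hl p hp hpl
    obtain ⟨hlI, hl1⟩ := Finset.mem_filter.mp hl
    obtain ⟨h1, h2⟩ := hrep l hlI
    obtain ⟨μ, -, e1, e2⟩ := ln_eq (hyp.pair _ h1) (hyp.pair _ hp) (hc.1 _ h1) (hc.1 _ hp)
      (h2.trans hpl.symm)
    rw [e1, e2, Matrix.mulVec_smul, hl1]
  have tr2 : ∀ l ∈ I2, ∀ p ∈ Λ, ln p = l → Aᵀ *ᵥ p.2 = p.1 := by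
    intro l hl p hp hpl
    obtain ⟨hlI, hl1⟩ := Finset.mem_filter.mp hl
    obtain ⟨h1, h2⟩ := hrep l hlI
    obtain ⟨μ, -, e1, e2⟩ := ln_eq (hyp.pair _ h1) (hyp.pair _ hp) (hc.1 _ h1) (hc.1 _ hp)
      (h2.trans hpl.symm)
    rw [e1, e2, Matrix.mulVec_smul, hl1]
  have hTI : ∀ q ∈ T, q.1 ∈ I ∧ q.2 ∈ I ∧ q.1 ≠ q.2 ∧ ∃ t, gpt q.1 t = gpt q.2 t := by
    intro q hq
    obtain ⟨h1, h2, t, h3, -⟩ := Finset.mem_filter.mp (hT1 hq)
    obtain ⟨h4, h5⟩ := Finset.mem_product.mp h1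
    exact ⟨h4, h5, h2, t, h3⟩
  have hdot : ∀ q ∈ T, (rep Λ q.1).1 ⬝ᵥ (rep Λ q.2).1 = (rep Λ q.1).2 ⬝ᵥ (rep Λ q.2).2 := by
    intro q hq
    obtain ⟨h1, h2, h3, t, h4⟩ := hTI q hq
    obtain ⟨a1, a2⟩ := hrep _ h1
    obtain ⟨b1, b2⟩ := hrep _ h2
    refine dot_of_meet (hyp.pair _ a1) (hyp.pair _ b1) (hc.1 _ a1) (hc.1 _ b1) (t := t) (t' := t) ?_
    rw [a2, b2, h4]
  have hpar : ∀ q ∈ T, cr (rep Λ q.1).1 (rep Λ q.2).1 = 0 → False := by
    intro q hq h0
    obtain ⟨h1, h2, h3, t, h4⟩ := hTI q hq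
    obtain ⟨a1, a2⟩ := hrep _ h1
    obtain ⟨b1, b2⟩ := hrep _ h2
    have := ln_eq_of_par (hyp.pair _ a1) (hyp.pair _ b1) (hc.1 _ a1) (hc.1 _ b1) (hdot q hq) h0
    rw [a2, b2] at this
    exact h3 this
  have hno1 : ∀ q ∈ T, ¬ (q.1 ∈ I1 ∧ q.2 ∈ I1) := by
    rintro q hq ⟨h1, h2⟩
    obtain ⟨h1I, h1'⟩ := Finset.mem_filter.mp h1
    obtain ⟨h2I, h2'⟩ := Finset.mem_filter.mp h2
    obtain ⟨a1, a2⟩ := hrep _ h1I
    obtain ⟨b1, b2⟩ := hrep _ h2I
    refine hpar q hq (same_ruling A hA (qc684_dot _ _ A h1' (hyp.pair _ a1).1)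
      (qc684_dot _ _ A h2' (hyp.pair _ b1).1) ?_)
    rw [h1', h2', hdot q hq]
  have hno2 : ∀ q ∈ T, ¬ (q.1 ∈ I2 ∧ q.2 ∈ I2) := by
    rintro q hq ⟨h1, h2⟩
    obtain ⟨h1I, h1'⟩ := Finset.mem_filter.mp h1
    obtain ⟨h2I, h2'⟩ := Finset.mem_filter.mp h2
    obtain ⟨a1, a2⟩ := hrep _ h1I
    obtain ⟨b1, b2⟩ := hrep _ h2I
    have h3 := same_ruling Aᵀ hA'' (qc684_dot _ _ Aᵀ h1' (hyp.pair _ a1).1.symm)
      (qc684_dot _ _ Aᵀ h2' (hyp.pair _ b1).1.symm) (by rw [h1', h2', hdot q hq])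
    have hy : (rep Λ q.1).2 ≠ 0 := by
      intro h0
      have h4 := (hyp.pair _ a1).1
      rw [h0, dotProduct_zero] at h4
      exact (hyp.pair _ a1).2 (dotProduct_self_eq_zero.mp h4)
    obtain ⟨μ, hμ⟩ := qc684_par hy h3
    refine hpar q hq ?_
    rw [← h2', hμ, Matrix.mulVec_smul, h1']
    exact qc684_cr_smul _ _
  have hsub : T ⊆ (I1 ×ˢ I2) ∪ (I2 ×ˢ I1) := by
    intro q hq
    obtain ⟨h1, h2, -⟩ := hTI q hq
    rw [Finset.mem_union, Finset.mem_product, Finset.mem_product]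
    rcases hcl _ h1 with c1 | c1
    · have c1' : q.1 ∈ I1 := Finset.mem_filter.mpr ⟨h1, c1⟩
      rcases hcl _ h2 with c2 | c2
      · exact absurd ⟨c1', Finset.mem_filter.mpr ⟨h2, c2⟩⟩ (hno1 q hq)
      · exact Or.inl ⟨c1', Finset.mem_filter.mpr ⟨h2, c2⟩⟩
    · have c1' : q.1 ∈ I2 := Finset.mem_filter.mpr ⟨h1, c1⟩
      rcases hcl _ h2 with c2 | c2
      · exact Or.inr ⟨c1', Finset.mem_filter.mpr ⟨h2, c2⟩⟩
      · exact absurd ⟨c1', Finset.mem_filter.mpr ⟨h2, c2⟩⟩ (hno2 q hq)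
  have hcard : (T.card : ℝ) ≤ 2 * (I1.card * I2.card) := by
    have h1 : T.card ≤ I1.card * I2.card + I2.card * I1.card := by
      refine (Finset.card_le_card hsub).trans ((Finset.card_union_le _ _).trans ?_)
      rw [Finset.card_product, Finset.card_product]
    have h2 : (T.card : ℝ) ≤ ((I1.card * I2.card + I2.card * I1.card : ℕ) : ℝ) := by
      exact_mod_cast h1
    push_cast at h2
    linarith
  have hI1c : (I1.card : ℝ) ≤ I.card := by
    exact_mod_cast Finset.card_le_card (Finset.filter_subset _ _)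
  have hI2c : (I2.card : ℝ) ≤ I.card := by
    exact_mod_cast Finset.card_le_card (Finset.filter_subset _ _)
  have n1 : (0 : ℝ) ≤ I1.card := Nat.cast_nonneg _
  have n2 : (0 : ℝ) ≤ I2.card := Nat.cast_nonneg _
  by_cases g1 : (I1.card : ℝ) < h
  · have : (I1.card : ℝ) * I2.card ≤ h * I.card := mul_le_mul g1.le hI2c n2 hh
    linarith
  by_cases g2 : (I2.card : ℝ) < h
  · have : (I1.card : ℝ) * I2.card ≤ I.card * h := mul_le_mul hI1c g2.le n2 (n1.trans hI1c)
    linarith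
  push Not at g1 g2
  -- the four rich cones
  have inj1 : Set.InjOn (fun l => (rep Λ l).1) (I1 : Set Ln) := by
    intro l hl l' hl' hll
    obtain ⟨h1I, h1'⟩ := Finset.mem_filter.mp (Finset.mem_coe.mp hl)
    obtain ⟨h2I, h2'⟩ := Finset.mem_filter.mp (Finset.mem_coe.mp hl')
    have e1 : (rep Λ l).1 = (rep Λ l').1 := hll
    have e2 : (rep Λ l).2 = (rep Λ l').2 := by rw [← h1', ← h2', e1]
    rw [← (hrep _ h1I).2, ← (hrep _ h2I).2, Prod.ext e1 e2]
  have inj1' : Set.InjOn (fun l => (rep Λ l).2) (I1 : Set Ln) := by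
    intro l hl l' hl' hll
    obtain ⟨h1I, h1'⟩ := Finset.mem_filter.mp (Finset.mem_coe.mp hl)
    obtain ⟨h2I, h2'⟩ := Finset.mem_filter.mp (Finset.mem_coe.mp hl')
    have e2 : (rep Λ l).2 = (rep Λ l').2 := hll
    have f1 : ∀ u w : V, A *ᵥ u = w → u = B'ᵀ *ᵥ w := by
      intro u w huw
      rw [← huw, Matrix.mulVec_mulVec, hBA', Matrix.one_mulVec]
    have e1 : (rep Λ l).1 = (rep Λ l').1 := by rw [f1 _ _ h1', f1 _ _ h2', e2]
    rw [← (hrep _ h1I).2, ← (hrep _ h2I).2, Prod.ext e1 e2]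
  have inj2 : Set.InjOn (fun l => (rep Λ l).2) (I2 : Set Ln) := by
    intro l hl l' hl' hll
    obtain ⟨h1I, h1'⟩ := Finset.mem_filter.mp (Finset.mem_coe.mp hl)
    obtain ⟨h2I, h2'⟩ := Finset.mem_filter.mp (Finset.mem_coe.mp hl')
    have e2 : (rep Λ l).2 = (rep Λ l').2 := hll
    have e1 : (rep Λ l).1 = (rep Λ l').1 := by rw [← h1', ← h2', e2]
    rw [← (hrep _ h1I).2, ← (hrep _ h2I).2, Prod.ext e1 e2]
  have inj2' : Set.InjOn (fun l => (rep Λ l).1) (I2 : Set Ln) := by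
    intro l hl l' hl' hll
    obtain ⟨h1I, h1'⟩ := Finset.mem_filter.mp (Finset.mem_coe.mp hl)
    obtain ⟨h2I, h2'⟩ := Finset.mem_filter.mp (Finset.mem_coe.mp hl')
    have e1 : (rep Λ l).1 = (rep Λ l').1 := hll
    have f1 : ∀ u w : V, Aᵀ *ᵥ w = u → w = B' *ᵥ u := by
      intro u w huw
      rw [← huw, Matrix.mulVec_mulVec, hBA, Matrix.one_mulVec]
    have e2 : (rep Λ l).2 = (rep Λ l').2 := by rw [f1 _ _ h1', f1 _ _ h2', e1]
    rw [← (hrep _ h1I).2, ← (hrep _ h2I).2, Prod.ext e1 e2]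
  -- isometry facts for pairs
  have iA : ∀ p ∈ Λ, A *ᵥ p.1 = p.2 → Iso0 A p.1 := fun p hp h1 =>
    qc684_dot _ _ A h1 (hyp.pair _ hp).1
  have iBt : ∀ p ∈ Λ, A *ᵥ p.1 = p.2 → Iso0 B'ᵀ p.2 := fun p hp h1 =>
    qc684_dot _ p.1 B'ᵀ (by rw [← h1, Matrix.mulVec_mulVec, hBA', Matrix.one_mulVec])
      (hyp.pair _ hp).1.symm
  have iAt : ∀ p ∈ Λ, Aᵀ *ᵥ p.2 = p.1 → Iso0 Aᵀ p.2 := fun p hp h1 =>
    qc684_dot _ _ Aᵀ h1 (hyp.pair _ hp).1.symm
  have iB : ∀ p ∈ Λ, Aᵀ *ᵥ p.2 = p.1 → Iso0 B' p.1 := fun p hp h1 =>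
    qc684_dot _ p.2 B' (by rw [← h1, Matrix.mulVec_mulVec, hBA, Matrix.one_mulVec])
      (hyp.pair _ hp).1
  have F1 : ∃ F ⊆ X, (∀ x ∈ F, Iso0 A x) ∧ h ≤ (F.card : ℝ) := by
    refine ⟨I1.image (fun l => (rep Λ l).1), ?_, ?_, ?_⟩
    · intro x hx
      obtain ⟨l, hl, rfl⟩ := Finset.mem_image.mp hx
      exact hyp.memX _ (hrep l (Finset.mem_filter.mp hl).1).1
    · intro x hx
      obtain ⟨l, hl, rfl⟩ := Finset.mem_image.mp hx
      exact iA _ (hrep l (Finset.mem_filter.mp hl).1).1 (Finset.mem_filter.mp hl).2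
    · rw [Finset.card_image_of_injOn inj1]
      exact g1
  have F3 : ∃ F ⊆ Y, (∀ x ∈ F, Iso0 B'ᵀ x) ∧ h ≤ (F.card : ℝ) := by
    refine ⟨I1.image (fun l => (rep Λ l).2), ?_, ?_, ?_⟩
    · intro x hx
      obtain ⟨l, hl, rfl⟩ := Finset.mem_image.mp hx
      exact hyp.memY _ (hrep l (Finset.mem_filter.mp hl).1).1
    · intro x hx
      obtain ⟨l, hl, rfl⟩ := Finset.mem_image.mp hx
      exact iBt _ (hrep l (Finset.mem_filter.mp hl).1).1 (Finset.mem_filter.mp hl).2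
    · rw [Finset.card_image_of_injOn inj1']
      exact g1
  have F2 : ∃ F ⊆ X, (∀ x ∈ F, Iso0 B' x) ∧ h ≤ (F.card : ℝ) := by
    refine ⟨I2.image (fun l => (rep Λ l).1), ?_, ?_, ?_⟩
    · intro x hx
      obtain ⟨l, hl, rfl⟩ := Finset.mem_image.mp hx
      exact hyp.memX _ (hrep l (Finset.mem_filter.mp hl).1).1
    · intro x hx
      obtain ⟨l, hl, rfl⟩ := Finset.mem_image.mp hx
      exact iB _ (hrep l (Finset.mem_filter.mp hl).1).1 (Finset.mem_filter.mp hl).2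
    · rw [Finset.card_image_of_injOn inj2']
      exact g2
  have F4 : ∃ F ⊆ Y, (∀ x ∈ F, Iso0 Aᵀ x) ∧ h ≤ (F.card : ℝ) := by
    refine ⟨I2.image (fun l => (rep Λ l).2), ?_, ?_, ?_⟩
    · intro x hx
      obtain ⟨l, hl, rfl⟩ := Finset.mem_image.mp hx
      exact hyp.memY _ (hrep l (Finset.mem_filter.mp hl).1).1
    · intro x hx
      obtain ⟨l, hl, rfl⟩ := Finset.mem_image.mp hx
      exact iAt _ (hrep l (Finset.mem_filter.mp hl).1).1 (Finset.mem_filter.mp hl).2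
    · rw [Finset.card_image_of_injOn inj2]
      exact g2
  have hempty : T = ∅ := by
    rw [Finset.eq_empty_iff_forall_notMem]
    intro q hq
    obtain ⟨p, hp, p', hp', e1, e2, hm, hk, hk', -⟩ := hT2 q hq
    rcases Finset.mem_union.mp (hsub hq) with hc1 | hc1
    · obtain ⟨c1, c2⟩ := Finset.mem_product.mp hc1
      have d1 := tr1 _ c1 p hp e1
      have d2 := tr2 _ c2 p' hp' e2
      exact hl A B' hAB hA F1 F2 F3 F4 p.1 (hyp.memX _ hp) (iA _ hp d1) p'.1 (hyp.memX _ hp')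
        (iB _ hp' d2) p.2 (hyp.memY _ hp) (iBt _ hp d1) p'.2 (hyp.memY _ hp') (iAt _ hp' d2)
        ⟨hk, hk'⟩
    · obtain ⟨c1, c2⟩ := Finset.mem_product.mp hc1
      have d1 := tr2 _ c1 p hp e1
      have d2 := tr1 _ c2 p' hp' e2
      exact hl B' A hBA' hB F2 F1 F4 F3 p.1 (hyp.memX _ hp) (iB _ hp d1) p'.1 (hyp.memX _ hp')
        (iA _ hp' d2) p.2 (hyp.memY _ hp) (iAt _ hp d1) p'.2 (hyp.memY _ hp') (iBt _ hp' d2)
        ⟨hk, hk'⟩
  rw [hempty, Finset.card_empty, Nat.cast_zero]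
  (clear * - hh; positivity)

end Vale.Agent.P054.Y.GF
end

section

/-! every line has at most `K` representatives (`ln_eq`: `q = μ p`; `lineX` bounds the first components, and `q.2 = μ p.2` is determined by `q.1 = μ p.1`, `p.1 ≠ 0`) -/

set_option linter.all false

namespace Vale.Agent.P054.Y.GF

open Finset Matrix MvPolynomial
open Vale.Agent.P041.SE

open scoped Classical in
/-- a line has at most `K` representatives -/
theorem cardPairs_rep {Λ : Finset (V × V)} {X Y : Finset V} {n B K : ℝ} (hyp : Hyp Λ X Y n B K)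
    (hc : InChart Λ) (hK : 0 ≤ K) (l : Ln) :
    ((Λ.filter (fun p => ln p = l)).card : ℝ) ≤ K := by
  rcases (Λ.filter (fun p => ln p = l)).eq_empty_or_nonempty with h | ⟨p0, hp0⟩
  · rw [h]
    simpa using hK
  obtain ⟨hp0Λ, hp0l⟩ := Finset.mem_filter.1 hp0
  have key : ∀ p ∈ Λ.filter (fun p => ln p = l), ∀ q ∈ Λ.filter (fun p => ln p = l),
      ∃ μ : ℝ, μ ≠ 0 ∧ q.1 = μ • p.1 ∧ q.2 = μ • p.2 := by
    intro p hp q hq
    obtain ⟨hpΛ, hpl⟩ := Finset.mem_filter.1 hp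
    obtain ⟨hqΛ, hql⟩ := Finset.mem_filter.1 hq
    exact ln_eq (hyp.pair p hpΛ) (hyp.pair q hqΛ) (hc.1 p hpΛ) (hc.1 q hqΛ) (hpl.trans hql.symm)
  have hinj : Set.InjOn Prod.fst (↑(Λ.filter (fun p => ln p = l)) : Set (V × V)) := by
    intro p hp q hq hpq
    have hp' := Finset.mem_coe.1 hp
    obtain ⟨μ, hμ, h1, h2⟩ := key p hp' q (Finset.mem_coe.1 hq)
    have hp0' : p.1 ≠ 0 := (hyp.pair p (Finset.mem_filter.1 hp').1).2
    have h3 : (μ - 1) • p.1 = 0 := by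
      rw [sub_smul, one_smul, ← h1, sub_eq_zero]
      exact hpq.symm
    have hμ1 : μ = 1 := by
      rcases smul_eq_zero.1 h3 with h | h
      · linarith
      · exact absurd h hp0'
    rw [hμ1, one_smul] at h2
    exact Prod.ext hpq h2.symm
  have h := hyp.lineX p0.1 (hyp.pair p0 hp0Λ).2 ((Λ.filter (fun p => ln p = l)).image Prod.fst)
    (by
      intro x hx
      obtain ⟨p, hp, rfl⟩ := Finset.mem_image.1 hx
      exact hyp.memX p (Finset.mem_filter.1 hp).1)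
    (by
      intro x hx
      obtain ⟨p, hp, rfl⟩ := Finset.mem_image.1 hx
      obtain ⟨μ, -, h1, -⟩ := key p0 hp0 p hp
      rw [h1, chart_cr, map_smul, cross_self, smul_zero])
  rwa [Finset.card_image_of_injOn hinj] at h

open scoped Classical in
/-- the number of pairs is at most `K^2` times the number of pairs of lines -/
theorem card_pairs_le {Λ : Finset (V × V)} {X Y : Finset V} {n B K : ℝ} (hyp : Hyp Λ X Y n B K)
    (hc : InChart Λ) (hK : 0 ≤ K) (Q : Finset ((V × V) × (V × V))) (hQ : Q ⊆ Λ ×ˢ Λ) :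
    (Q.card : ℝ) ≤ K ^ 2 * (Q.image (fun q => (ln q.1, ln q.2))).card := by
  have h1 : Q.card = ∑ b ∈ Q.image (fun q => (ln q.1, ln q.2)),
      (Q.filter (fun q => (ln q.1, ln q.2) = b)).card :=
    Finset.card_eq_sum_card_image _ _
  rw [h1]
  push_cast
  have h2 : ∀ b ∈ Q.image (fun q => (ln q.1, ln q.2)),
      ((Q.filter (fun q => (ln q.1, ln q.2) = b)).card : ℝ) ≤ K ^ 2 := by
    intro b _
    have hsub : Q.filter (fun q => (ln q.1, ln q.2) = b) ⊆
        (Λ.filter (fun p => ln p = b.1)) ×ˢ (Λ.filter (fun p => ln p = b.2)) := by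
      intro q hq
      obtain ⟨hqQ, hqb⟩ := Finset.mem_filter.1 hq
      have hm := Finset.mem_product.1 (hQ hqQ)
      rw [Finset.mem_product, Finset.mem_filter, Finset.mem_filter]
      exact ⟨⟨hm.1, congrArg Prod.fst hqb⟩, ⟨hm.2, congrArg Prod.snd hqb⟩⟩
    have h3 := Finset.card_le_card hsub
    rw [Finset.card_product] at h3
    have h4 : ((Q.filter (fun q => (ln q.1, ln q.2) = b)).card : ℝ) ≤
        ((Λ.filter (fun p => ln p = b.1)).card : ℝ) * ((Λ.filter (fun p => ln p = b.2)).card : ℝ) := by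
      exact_mod_cast h3
    refine h4.trans ?_
    rw [sq]
    exact mul_le_mul (cardPairs_rep hyp hc hK b.1) (cardPairs_rep hyp hc hK b.2)
      (Nat.cast_nonneg _) hK
  have h5 := Finset.sum_le_card_nsmul _ _ _ h2
  rw [nsmul_eq_mul, mul_comm] at h5
  exact h5

end Vale.Agent.P054.Y.GF
end

section

/-! all pairs of `Λ` whose line contains the point have `x·x' = y·y'` (`dot_of_meet`); `Gram.exists_orth`; the number of such pairs is at least the number `mult` of lines -/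

set_option linter.all false

namespace Vale.Agent.P054.Y.GF

open Finset Matrix MvPolynomial
open Vale.Agent.P041.SE

open scoped Classical in
/-- rich points give rich pairs -/
theorem rich_of_mult {Λ : Finset (V × V)} {X Y : Finset V} {n B K : ℝ} (hyp : Hyp Λ X Y n B K)
    (hc : InChart Λ) {h : ℝ} {p p' : V × V} (hp : p ∈ Λ) (hp' : p' ∈ Λ) {t : ℝ}
    (ht : gpt (ln p) t = gpt (ln p') t) (hm : h ≤ (GC.mult (Λ.image ln) (gpt (ln p) t) : ℝ)) :
    RichPair Λ h p p' := by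
  set w := gpt (ln p) t with hw
  set Λw : Finset (V × V) := Λ.filter (fun r => ∃ t', gpt (ln r) t' = w) with hΛw
  have hdot : ∀ r s : Λw, r.1.1 ⬝ᵥ s.1.1 = r.1.2 ⬝ᵥ s.1.2 := by
    rintro ⟨r, hr⟩ ⟨s, hs⟩
    rw [hΛw, Finset.mem_filter] at hr hs
    obtain ⟨hr1, t1, ht1⟩ := hr
    obtain ⟨hs1, t2, ht2⟩ := hs
    exact dot_of_meet (hyp.pair r hr1) (hyp.pair s hs1) (hc.1 r hr1) (hc.1 s hs1)
      (ht1.trans ht2.symm)
  obtain ⟨Q, hQ, hQr⟩ := G.Gram.exists_orth (fun r : Λw => r.1.1) (fun r : Λw => r.1.2) hdot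
  have hpw : p ∈ Λw := Finset.mem_filter.2 ⟨hp, t, rfl⟩
  have hpw' : p' ∈ Λw := Finset.mem_filter.2 ⟨hp', t, ht.symm⟩
  refine ⟨Q, hQ, hQr ⟨p, hpw⟩, hQr ⟨p', hpw'⟩, ?_⟩
  have hsub : Λw ⊆ Λ.filter (fun r => Q *ᵥ r.1 = r.2) := by
    intro r hr
    refine Finset.mem_filter.2 ⟨(Finset.mem_filter.1 hr).1, hQr ⟨r, hr⟩⟩
  have himg : (Λ.image ln).filter (fun l => ∃ w', gpt l w' = w) ⊆ Λw.image ln := by
    intro l hl
    obtain ⟨hl1, t', hl2⟩ := Finset.mem_filter.1 hl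
    obtain ⟨r, hr, rfl⟩ := Finset.mem_image.1 hl1
    exact Finset.mem_image.2 ⟨r, Finset.mem_filter.2 ⟨hr, t', hl2⟩, rfl⟩
  have h1 : GC.mult (Λ.image ln) w ≤ (Λ.filter (fun r => Q *ᵥ r.1 = r.2)).card := by
    calc GC.mult (Λ.image ln) w = ((Λ.image ln).filter (fun l => ∃ w', gpt l w' = w)).card := by
          unfold GC.mult
          congr
      _ ≤ (Λw.image ln).card := Finset.card_le_card himg
      _ ≤ Λw.card := Finset.card_image_le
      _ ≤ _ := Finset.card_le_card hsub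
  have h2 : (GC.mult (Λ.image ln) w : ℝ) ≤ ((Λ.filter (fun r => Q *ᵥ r.1 = r.2)).card : ℝ) := by
    exact_mod_cast h1
  refine le_trans hm (le_trans h2 (le_of_eq ?_))
  congr

end Vale.Agent.P054.Y.GF
end

section

set_option autoImplicit false

open Finset

namespace Vale.Agent.P041.SE

theorem xyz_injective : Function.Injective xyz := by
  intro p p' h
  have h0 := congrFun h 0
  have h1 := congrFun h 1
  have h2 := congrFun h 2
  simp [xyz] at h0 h1 h2
  exact Prod.ext (Complex.ext h0 h1) h2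

theorem onL_iff (l : ℂ × ℂ) (p : ℂ × ℝ) : OnL l p ↔ at3 l p.2 = p := by
  unfold OnL at3
  constructor
  · intro h
    exact Prod.ext h.symm rfl
  · intro h
    exact (congrArg Prod.fst h).symm

open scoped Classical in
theorem mult_image_le (T : Finset (ℂ × ℂ)) (p : ℂ × ℝ) :
    GC.mult (T.image toLn) (xyz p) ≤ rich T p := by
  unfold GC.mult rich
  have h : (T.image toLn).filter (fun l => ∃ w, gpt l w = xyz p) ⊆
      (T.filter (fun l => OnL l p)).image toLn := by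
    intro l' hl'
    rw [mem_filter, mem_image] at hl'
    obtain ⟨⟨l, hl, rfl⟩, w, hw⟩ := hl'
    rw [gpt_toLn] at hw
    have h1 := xyz_injective hw
    have h2 : w = p.2 := by rw [← h1]; rfl
    subst h2
    exact mem_image.2 ⟨l, mem_filter.2 ⟨hl, (onL_iff l p).2 h1⟩, rfl⟩
  exact (card_le_card h).trans card_image_le

open scoped Classical in
theorem inSurf_image_le (T : Finset (ℂ × ℂ)) (φ : MvPolynomial (Fin 3) ℝ) :
    (GC.inSurf (T.image toLn) φ).card ≤ (inside T φ).card := by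
  unfold GC.inSurf inside
  have h : (T.image toLn).filter (fun l => On φ l) ⊆
      (T.filter (fun l => InZ φ l)).image toLn := by
    intro l' hl'
    rw [mem_filter, mem_image] at hl'
    obtain ⟨⟨l, hl, rfl⟩, hw⟩ := hl'
    exact mem_image.2 ⟨l, mem_filter.2 ⟨hl, (inZ_iff_on φ l).2 hw⟩, rfl⟩
  exact (card_le_card h).trans card_image_le

open scoped Classical in
theorem good_le_G (D : ℕ) (T : Finset (ℂ × ℂ)) (s τ : ℝ) :
    (Good D T s τ).card ≤ (GC.G D s τ (T.image toLn)).card := by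
  apply card_le_card_of_injOn (fun q => (toLn q.1, toLn q.2))
  · intro q hq
    have hq' := mem_coe.1 hq
    rw [Good, mem_filter, mem_product] at hq'
    obtain ⟨⟨h1, h2⟩, hne, ⟨p, hp1, hp2, hp3⟩, hsurf⟩ := hq'
    rw [mem_coe, GC.mem_G]
    have e1 : gpt (toLn q.1) p.2 = xyz p := by rw [gpt_toLn, (onL_iff _ _).1 hp1]
    have e2 : gpt (toLn q.2) p.2 = xyz p := by rw [gpt_toLn, (onL_iff _ _).1 hp2]
    refine ⟨⟨mem_image_of_mem _ h1, mem_image_of_mem _ h2⟩, fun h => hne (toLn_injective h),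
      ⟨p.2, by rw [e1, e2], ?_⟩, ?_⟩
    · rw [e1]
      refine le_trans ?_ hp3
      exact_mod_cast mult_image_le T p
    · intro φ c1 c2 c3 c4
      refine lt_of_le_of_lt ?_ (hsurf φ c1 c2 ((inZ_iff_on φ q.1).2 c3) ((inZ_iff_on φ q.2).2 c4))
      exact_mod_cast inSurf_image_le T φ
  · intro q _ q' _ h
    simp only [Prod.mk.injEq] at h
    exact Prod.ext (toLn_injective h.1) (toLn_injective h.2)

/-- Guth form of the Guth–Katz theorem, pair version, with loss `ε` -/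
theorem guth (ε : ℝ) (hε : 0 < ε) (hε2 : ε ≤ 1 / 2) : ∃ (D : ℕ) (C : ℝ),
    ∀ T : Finset (ℂ × ℂ),
      ((Good D T ((T.card : ℝ) ^ (1 / 2 : ℝ)) ((T.card : ℝ) ^ (1 / 2 + ε))).card : ℝ)
        ≤ C * (T.card : ℝ) ^ (3 / 2 + ε) := by
  classical
  obtain ⟨D, K, hK, h⟩ := GC.claim ε hε hε2
  refine ⟨D, K, fun T => ?_⟩
  rcases Nat.eq_zero_or_pos T.card with h0 | hpos
  · rw [card_eq_zero] at h0
    subst h0
    simp [Good]
    positivity
  · have h1 : (1 : ℝ) ≤ T.card := by exact_mod_cast hpos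
    have h2 : ((T.image toLn).card : ℝ) ≤ T.card := by exact_mod_cast card_image_le
    refine le_trans ?_ (h T.card (T.image toLn) h1 h2)
    exact_mod_cast good_le_G D T _ _

end Vale.Agent.P041.SE
end
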