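import Mathlib
import Vale.Agent.P054.BdN.N9
import Vale.Agent.P054.BdN.N8
import Vale.Agent.P054.BdN.N11
import Vale.Agent.P054.BdN.N7
import Vale.Agent.P054.BdN.N1
import Vale.Agent.P054.BdN.N6

set_option linter.all false

section

/-! Block G, Main: the sets attached to a point set `P`. -/

set_option linter.all false

namespace Vale.Agent.P054.Y.GF

open Finset Matrix
open Vale.Agent.P054.Fin (sqd dst)

open scoped Classical in
/-- the points `b ≠ a` of `P` such that the line `ab` has less than `K` points -/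
noncomputable def Pa (P : Finset V) (K : ℝ) (a : V) : Finset V :=
  P.filter (fun b => b ≠ a ∧ (G.cntL P (a, b) : ℝ) < K)

open scoped Classical in
noncomputable def Xa (P : Finset V) (K : ℝ) (a : V) : Finset V := (Pa P K a).image (fun b => b - a)

open scoped Classical in
/-- the admissible neighbours of `a` -/
noncomputable def Ea (P : Finset V) (K h : ℝ) (a : V) : Finset V :=
  (Pa P K a).filter (fun b => Uni (Xa P K a) h (b - a))

open scoped Classical in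
noncomputable def Xe (P : Finset V) (K h : ℝ) (a : V) : Finset V :=
  (Ea P K h a).image (fun b => b - a)

/-- the label of the pair `(a, b)` -/
noncomputable def kp (P : Finset V) (K h : ℝ) (a b : V) : ℝ := kap (Xa P K a) h (b - a)

open scoped Classical in
/-- the pairs of the fibre over `(a, c)` -/
noncomputable def Lam (P : Finset V) (K h : ℝ) (a c : V) : Finset (V × V) :=
  ((Ea P K h a ×ˢ Ea P K h c).filter (fun q => sqd a q.1 = sqd c q.2)).image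
    (fun q => (q.1 - a, q.2 - c))

end Vale.Agent.P054.Y.GF
end

section

/-! Leaf GF-Lam (helper258).  `lineX`: if `F ⊆ Xe a` is nonempty, take `b0 - a ∈ F`; all `b - a ∈ F` are
parallel to `b0 - a`, so `#F ≤ cntL P (a, b0) < K`.  `lam_lab`: `lab_of`, and monotonicity in `h`. -/

set_option linter.all false

namespace Vale.Agent.P054.Y.GF

open Finset Matrix
open Vale.Agent.P054.Fin (sqd dst)

theorem sqd_eq (a b : V) : sqd a b = (b - a) ⬝ᵥ (b - a) := by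
  simp only [sqd, dotProduct, Pi.sub_apply]
  refine Finset.sum_congr rfl (fun k _ => ?_)
  ring

theorem cr_eq (x y : V) : cr x y = crossProduct x y := by
  rw [cross_apply]
  rfl

theorem mem_Xe {P : Finset V} {K h : ℝ} {a x : V} : x ∈ Xe P K h a ↔ a + x ∈ Ea P K h a := by
  classical
  rw [Xe, Finset.mem_image]
  constructor
  · rintro ⟨b, hb, rfl⟩
    have : a + (b - a) = b := by abel
    rwa [this]
  · intro h
    exact ⟨a + x, h, by abel⟩

theorem mem_Ea {P : Finset V} {K h : ℝ} {a b : V} (hb : b ∈ Ea P K h a) :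
    b ∈ P ∧ b ≠ a ∧ (G.cntL P (a, b) : ℝ) < K ∧ Uni (Xa P K a) h (b - a) := by
  classical
  rw [Ea, Finset.mem_filter, Pa, Finset.mem_filter] at hb
  exact ⟨hb.1.1, hb.1.2.1, hb.1.2.2, hb.2⟩

theorem Xe_sub (P : Finset V) (K h : ℝ) (a : V) : Xe P K h a ⊆ Xa P K a := by
  classical
  exact Finset.image_subset_image (Finset.filter_subset _ _)

theorem plane_Xe {P : Finset V} {K h B : ℝ}
    (hB : ∀ (u : V) (b : ℝ) (F : Finset V), u ≠ 0 → F ⊆ P → (∀ x ∈ F, u ⬝ᵥ x = b) →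
      (F.card : ℝ) ≤ B) (a : V)
    (u : V) (b : ℝ) (hu : u ≠ 0) (F : Finset V) (hF : F ⊆ Xe P K h a)
    (hFb : ∀ x ∈ F, u ⬝ᵥ x = b) : (F.card : ℝ) ≤ B := by
  classical
  have h1 : F.card = (F.image (fun x => a + x)).card :=
    (Finset.card_image_of_injective _ (fun x y h => add_left_cancel h)).symm
  rw [h1]
  refine hB u (u ⬝ᵥ a + b) _ hu ?_ ?_
  · intro y hy
    obtain ⟨x, hx, rfl⟩ := Finset.mem_image.1 hy
    exact (mem_Ea (mem_Xe.1 (hF hx))).1
  · intro y hy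
    obtain ⟨x, hx, rfl⟩ := Finset.mem_image.1 hy
    rw [dotProduct_add, hFb x hx]

theorem line_Xe {P : Finset V} {K h : ℝ} (hK : 0 ≤ K) (a : V)
    (u : V) (hu : u ≠ 0) (F : Finset V) (hF : F ⊆ Xe P K h a)
    (hFb : ∀ x ∈ F, cr u x = 0) : (F.card : ℝ) ≤ K := by
  classical
  rcases F.eq_empty_or_nonempty with h0 | ⟨x0, hx0⟩
  · rw [h0]; simpa using hK
  have h1 : F.card = (F.image (fun x => a + x)).card :=
    (Finset.card_image_of_injective _ (fun x y h => add_left_cancel h)).symm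
  have h2 := (mem_Ea (mem_Xe.1 (hF hx0))).2.2.1
  refine le_trans ?_ h2.le
  rw [h1, G.cntL]
  norm_cast
  apply Finset.card_le_card
  intro y hy
  obtain ⟨x, hx, rfl⟩ := Finset.mem_image.1 hy
  rw [Finset.mem_filter]
  refine ⟨(mem_Ea (mem_Xe.1 (hF hx))).1, ?_⟩
  have e1 : a + x0 - a = x0 := by abel
  have e2 : a + x - a = x := by abel
  show crossProduct (a + x0 - a) (a + x - a) = 0
  rw [e1, e2, ← cr_eq]
  exact cr_trans hu (hFb x0 hx0) (hFb x hx)

open scoped Classical in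
theorem lam_hyp {P : Finset V} {K h n B : ℝ} (hK : 0 ≤ K) (hn : (P.card : ℝ) ≤ n)
    (hB : ∀ (u : V) (b : ℝ), u ≠ 0 → ((P.filter (fun x => u ⬝ᵥ x = b)).card : ℝ) ≤ B) (a c : V) :
    Hyp (Lam P K h a c) (Xe P K h a) (Xe P K h c) n B K := by
  have hB' : ∀ (u : V) (b : ℝ) (F : Finset V), u ≠ 0 → F ⊆ P → (∀ x ∈ F, u ⬝ᵥ x = b) →
      (F.card : ℝ) ≤ B := by
    intro u b F hu hF hFb
    refine le_trans ?_ (hB u b hu)
    norm_cast
    apply Finset.card_le_card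
    intro x hx
    exact Finset.mem_filter.2 ⟨hF hx, hFb x hx⟩
  have hcard : ∀ a : V, ((Xe P K h a).card : ℝ) ≤ n := by
    intro a
    refine le_trans ?_ hn
    norm_cast
    refine le_trans Finset.card_image_le (Finset.card_le_card ?_)
    intro b hb
    exact (mem_Ea hb).1
  have hmem : ∀ p ∈ Lam P K h a c, ∃ b d, b ∈ Ea P K h a ∧ d ∈ Ea P K h c ∧
      sqd a b = sqd c d ∧ p = (b - a, d - c) := by
    intro p hp
    rw [Lam, Finset.mem_image] at hp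
    obtain ⟨⟨b, d⟩, hq, rfl⟩ := hp
    rw [Finset.mem_filter, Finset.mem_product] at hq
    exact ⟨b, d, hq.1.1, hq.1.2, hq.2, rfl⟩
  refine ⟨?_, ?_, ?_, hcard a, hcard c, plane_Xe hB' a, plane_Xe hB' c, line_Xe hK a, line_Xe hK c⟩
  · intro p hp
    obtain ⟨b, d, hb, hd, he, rfl⟩ := hmem p hp
    refine ⟨?_, ?_⟩
    · show (b - a) ⬝ᵥ (b - a) = (d - c) ⬝ᵥ (d - c)
      rw [← sqd_eq, ← sqd_eq, he]
    · exact sub_ne_zero.2 (mem_Ea hb).2.1
  · intro p hp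
    obtain ⟨b, d, hb, hd, he, rfl⟩ := hmem p hp
    exact Finset.mem_image_of_mem _ hb
  · intro p hp
    obtain ⟨b, d, hb, hd, he, rfl⟩ := hmem p hp
    exact Finset.mem_image_of_mem _ hd

open scoped Classical in
theorem lam_card (P : Finset V) (K h : ℝ) (a c : V) :
    (Lam P K h a c).card = G.MM sqd (Ea P K h) a c := by
  have hinj : Function.Injective (fun q : V × V => (q.1 - a, q.2 - c)) := by
    rintro ⟨b, d⟩ ⟨b', d'⟩ h
    simp only [Prod.mk.injEq, sub_left_inj] at h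
    rw [h.1, h.2]
  rw [Lam, Finset.card_image_of_injective _ hinj, G.MM]

theorem lam_lab {P : Finset V} {K h h' : ℝ} (hh : h ≤ h') (a c : V) :
    Lab (Xe P K h a) (Xe P K h c) (kap (Xa P K a) h) (kap (Xa P K c) h) h' := by
  have h1 : Lab (Xe P K h a) (Xe P K h c) (kap (Xa P K a) h) (kap (Xa P K c) h) h := by
    refine lab_of (Xa P K a) (Xa P K c) _ _ h (Xe_sub P K h a) (Xe_sub P K h c) ?_ ?_ ?_
    · intro x hx
      have h2 := (mem_Ea (mem_Xe.1 hx)).2.2.2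
      have e1 : a + x - a = x := by abel
      rwa [e1] at h2
    · intro x hx
      have h2 := (mem_Ea (mem_Xe.1 hx)).2.2.2
      have e1 : c + x - c = x := by abel
      rwa [e1] at h2
    · intro x hx h0
      have h2 := (mem_Ea (mem_Xe.1 hx)).2.1
      rw [h0, add_zero] at h2
      exact h2 rfl
  intro A B hAB hdet ⟨F1, a1, b1, c1⟩ ⟨F2, a2, b2, c2⟩ ⟨F3, a3, b3, c3⟩ ⟨F4, a4, b4, c4⟩
  exact h1 A B hAB hdet ⟨F1, a1, b1, hh.trans c1⟩ ⟨F2, a2, b2, hh.trans c2⟩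
    ⟨F3, a3, b3, hh.trans c3⟩ ⟨F4, a4, b4, hh.trans c4⟩

end Vale.Agent.P054.Y.GF
end

section

/-! Leaf GF-SixSplit (helper917).  For `q = ((a,b,b'),(c,d,d')) ∈ six`: `p = (b-a, d-c)`, `p' = (b'-a, d'-c)` are
in `Lam a c`, `p.1 ⬝ᵥ p'.1 = p.2 ⬝ᵥ p'.2` (from the three equal squared distances), the labels are
ordered, and `q` is determined by `(a, c, p, p')`.  Either `cr p.1 p'.1 = 0`: for given `p` at most `K` values of
`p'.1` (the line through `a` and `b` has less than `K` points) and `p'.2` is determined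
(`p'.1 = μ p.1`, equal dot products and lengths give `p'.2 = μ p.2`): `≤ K * #Lam`; or RichPair; or Bad. -/

set_option linter.all false

namespace Vale.Agent.P054.Y.GF

open Finset Matrix
open Vale.Agent.P054.Fin (sqd dst)

open scoped Classical in
/-- the part of `six` matched by rich isometries -/
noncomputable def sixR (P : Finset V) (K h : ℝ) (h' : V → V → ℝ) :
    Finset ((V × V × V) × (V × V × V)) :=
  (G.six P sqd (Ea P K h) (kp P K h)).filter (fun q =>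
    RichPair (Lam P K h q.1.1 q.2.1) (h' q.1.1 q.2.1)
      (q.1.2.1 - q.1.1, q.2.2.1 - q.2.1) (q.1.2.2 - q.1.1, q.2.2.2 - q.2.1))

theorem ss_sqd (a b : V) : sqd a b = (b - a) ⬝ᵥ (b - a) := by
  unfold sqd dotProduct
  exact Finset.sum_congr rfl (fun k _ => by simp only [Pi.sub_apply]; ring)

theorem ss_zero {x : V} (h : x ⬝ᵥ x = 0) : x = 0 := by
  funext i
  unfold dotProduct at h
  have := (Finset.sum_eq_zero_iff_of_nonneg (fun k _ => mul_self_nonneg (x k))).1 h i (mem_univ i)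
  simpa using this

theorem ss_dot {a b b' c d d' : V} (h1 : sqd a b = sqd c d) (h2 : sqd a b' = sqd c d')
    (h3 : sqd b b' = sqd d d') : (b - a) ⬝ᵥ (b' - a) = (d - c) ⬝ᵥ (d' - c) := by
  have e : ∀ x y z : V, sqd y z = sqd x y + sqd x z - 2 * ((y - x) ⬝ᵥ (z - x)) := by
    intro x y z
    unfold sqd dotProduct
    simp only [Pi.sub_apply]
    rw [Finset.mul_sum, ← Finset.sum_add_distrib, ← Finset.sum_sub_distrib]
    exact Finset.sum_congr rfl (fun k _ => by ring)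
  have e1 := e a b b'
  have e2 := e c d d'
  linarith

/-- parallel vectors -/
theorem ss_par {x y : V} (hx : x ≠ 0) (h : cr x y = 0) : ∃ μ : ℝ, y = μ • x := by
  have hxx : x ⬝ᵥ x ≠ 0 := fun hc => hx (ss_zero hc)
  refine ⟨(x ⬝ᵥ y) / (x ⬝ᵥ x), ?_⟩
  have e0 := congrFun h 0
  have e1 := congrFun h 1
  have e2 := congrFun h 2
  simp [cr] at e0 e1 e2
  simp only [dotProduct, Fin.sum_univ_three] at hxx ⊢
  funext i
  rw [Pi.smul_apply, smul_eq_mul, div_mul_eq_mul_div, eq_div_iff hxx]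
  fin_cases i
  · simp
    linear_combination (x 2) * e1 - (x 1) * e2
  · simp
    linear_combination (x 0) * e2 - (x 2) * e0
  · simp
    linear_combination (x 1) * e0 - (x 0) * e1

theorem ss_snd {x y x' y' : V} (hx : x ≠ 0) (h1 : x ⬝ᵥ x = y ⬝ᵥ y) (h2 : x' ⬝ᵥ x' = y' ⬝ᵥ y')
    (h3 : x ⬝ᵥ x' = y ⬝ᵥ y') {μ : ℝ} (h : x' = μ • x) : y' = μ • y := by
  have e : (y' - μ • y) ⬝ᵥ (y' - μ • y) = 0 := by
    rw [h] at h2 h3
    simp only [dotProduct_sub, sub_dotProduct, smul_dotProduct, dotProduct_smul, smul_eq_mul]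
      at h2 h3 ⊢
    rw [dotProduct_comm y' y]
    linear_combination 2 * μ * h3 - h2 - μ ^ 2 * h1
  exact sub_eq_zero.1 (ss_zero e)

theorem ss_lam {P : Finset V} {K h : ℝ} {a c : V} {p : V × V} (hp : p ∈ Lam P K h a c) :
    p.1 + a ∈ Ea P K h a ∧ p.2 + c ∈ Ea P K h c ∧ p.1 ⬝ᵥ p.1 = p.2 ⬝ᵥ p.2 ∧ p.1 ≠ 0 ∧
      p.1 + a ∈ P ∧ (G.cntL P (a, p.1 + a) : ℝ) < K := by
  classical
  unfold Lam at hp
  obtain ⟨q, hq, rfl⟩ := Finset.mem_image.1 hp
  obtain ⟨hq1, hq2⟩ := Finset.mem_filter.1 hq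
  obtain ⟨hb, hd⟩ := Finset.mem_product.1 hq1
  have e1 : q.1 - a + a = q.1 := sub_add_cancel _ _
  have e2 : q.2 - c + c = q.2 := sub_add_cancel _ _
  have hb' := hb
  unfold Ea Pa at hb'
  obtain ⟨hb1, _⟩ := Finset.mem_filter.1 hb'
  obtain ⟨hb2, hb3, hb4⟩ := Finset.mem_filter.1 hb1
  simp only
  rw [e1, e2]
  refine ⟨hb, hd, ?_, sub_ne_zero.2 hb3, hb2, hb4⟩
  rw [← ss_sqd, ← ss_sqd]
  exact hq2

open scoped Classical in
theorem ss_count {P : Finset V} {K h : ℝ} (hK : 0 ≤ K) (a c : V) :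
    ((((Lam P K h a c) ×ˢ (Lam P K h a c)).filter (fun q : (V × V) × (V × V) =>
      cr q.1.1 q.2.1 = 0 ∧ q.1.1 ⬝ᵥ q.2.1 = q.1.2 ⬝ᵥ q.2.2)).card : ℝ) ≤
      K * (Lam P K h a c).card := by
  set Λ := Lam P K h a c with hΛ
  have h1 : ((Λ ×ˢ Λ).filter (fun q : (V × V) × (V × V) =>
      cr q.1.1 q.2.1 = 0 ∧ q.1.1 ⬝ᵥ q.2.1 = q.1.2 ⬝ᵥ q.2.2)).card =
      ∑ p ∈ Λ, (((Λ ×ˢ Λ).filter (fun q : (V × V) × (V × V) =>
      cr q.1.1 q.2.1 = 0 ∧ q.1.1 ⬝ᵥ q.2.1 = q.1.2 ⬝ᵥ q.2.2)).filter (fun q => q.1 = p)).card := by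
    apply Finset.card_eq_sum_card_fiberwise
    intro q hq
    exact (Finset.mem_product.1 (Finset.mem_filter.1 hq).1).1
  rw [h1]
  push_cast
  have h2 : ∀ p ∈ Λ, ((((Λ ×ˢ Λ).filter (fun q : (V × V) × (V × V) =>
      cr q.1.1 q.2.1 = 0 ∧ q.1.1 ⬝ᵥ q.2.1 = q.1.2 ⬝ᵥ q.2.2)).filter
        (fun q => q.1 = p)).card : ℝ) ≤ K := by
    intro p hp
    obtain ⟨_, _, hpp, hp0, hpP, hpK⟩ := ss_lam hp
    refine le_trans ?_ hpK.le
    unfold G.cntL
    rw [Nat.cast_le]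
    refine Finset.card_le_card_of_injOn (fun q => q.2.1 + a) ?_ ?_
    · intro q hq
      obtain ⟨hq1, hq2⟩ := Finset.mem_filter.1 (Finset.mem_coe.1 hq)
      obtain ⟨hq3, hq4, hq5⟩ := Finset.mem_filter.1 hq1
      have hq6 := (Finset.mem_product.1 hq3).2
      obtain ⟨_, _, _, _, hqP, _⟩ := ss_lam hq6
      rw [hq2] at hq4
      refine Finset.mem_coe.2 (Finset.mem_filter.2 ⟨hqP, ?_⟩)
      have e1 : p.1 + a - a = p.1 := add_sub_cancel_right _ _
      have e2 : q.2.1 + a - a = q.2.1 := add_sub_cancel_right _ _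
      simp only
      rw [e1, e2, cross_apply]
      exact hq4
    · intro q hq q' hq' he
      obtain ⟨hq1, hq2⟩ := Finset.mem_filter.1 (Finset.mem_coe.1 hq)
      obtain ⟨hq3, hq4, hq5⟩ := Finset.mem_filter.1 hq1
      obtain ⟨hq1', hq2'⟩ := Finset.mem_filter.1 (Finset.mem_coe.1 hq')
      obtain ⟨hq3', hq4', hq5'⟩ := Finset.mem_filter.1 hq1'
      obtain ⟨_, _, l1, _, _, _⟩ := ss_lam (Finset.mem_product.1 hq3).2
      obtain ⟨_, _, l1', _, _, _⟩ := ss_lam (Finset.mem_product.1 hq3').2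
      have he' : q.2.1 = q'.2.1 := add_right_cancel he
      rw [hq2] at hq4 hq5
      rw [hq2'] at hq4' hq5'
      obtain ⟨μ, hμ⟩ := ss_par hp0 hq4
      have k1 := ss_snd hp0 hpp l1 hq5 hμ
      have k2 := ss_snd hp0 hpp l1' hq5' (he' ▸ hμ)
      exact Prod.ext (hq2.trans hq2'.symm) (Prod.ext he' (k1.trans k2.symm))
  calc ∑ p ∈ Λ, ((((Λ ×ˢ Λ).filter (fun q : (V × V) × (V × V) =>
      cr q.1.1 q.2.1 = 0 ∧ q.1.1 ⬝ᵥ q.2.1 = q.1.2 ⬝ᵥ q.2.2)).filter
        (fun q => q.1 = p)).card : ℝ) ≤ ∑ p ∈ Λ, K := Finset.sum_le_sum h2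
    _ = K * Λ.card := by rw [Finset.sum_const, nsmul_eq_mul, mul_comm]

open scoped Classical in
theorem six_le (P : Finset V) {K : ℝ} (h : ℝ) (h' : V → V → ℝ) (hK : 0 ≤ K) :
    ((G.six P sqd (Ea P K h) (kp P K h)).card : ℝ) ≤
      ∑ a ∈ P, ∑ c ∈ P, (K * (Lam P K h a c).card +
        (((Lam P K h a c) ×ˢ (Lam P K h a c)).filter (fun q =>
          Bad (Lam P K h a c) (kap (Xa P K a) h) (kap (Xa P K c) h) (h' a c) q.1 q.2)).card) +
      (sixR P K h h').card := by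
  set S := G.six P sqd (Ea P K h) (kp P K h) with hS
  let R : (V × V × V) × (V × V × V) → Prop := fun q =>
    RichPair (Lam P K h q.1.1 q.2.1) (h' q.1.1 q.2.1)
      (q.1.2.1 - q.1.1, q.2.2.1 - q.2.1) (q.1.2.2 - q.1.1, q.2.2.2 - q.2.1)
  have h0 : (S.filter R).card + (S.filter (fun q => ¬ R q)).card = S.card :=
    Finset.card_filter_add_card_filter_not _
  have h0' : (S.card : ℝ) = ((S.filter (fun q => ¬ R q)).card : ℝ) + ((S.filter R).card : ℝ) := by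
    rw [← h0]; push_cast; ring
  have hmem : ∀ q ∈ S, q.1.1 ∈ P ∧ q.2.1 ∈ P ∧ q.1.2.1 ∈ Ea P K h q.1.1 ∧
      q.1.2.2 ∈ Ea P K h q.1.1 ∧ q.2.2.1 ∈ Ea P K h q.2.1 ∧ q.2.2.2 ∈ Ea P K h q.2.1 ∧
      sqd q.1.1 q.1.2.1 = sqd q.2.1 q.2.2.1 ∧ sqd q.1.1 q.1.2.2 = sqd q.2.1 q.2.2.2 ∧
      sqd q.1.2.1 q.1.2.2 = sqd q.2.2.1 q.2.2.2 ∧
      kp P K h q.1.1 q.1.2.1 ≤ kp P K h q.1.1 q.1.2.2 ∧
      kp P K h q.2.1 q.2.2.1 ≤ kp P K h q.2.1 q.2.2.2 := by
    intro q hq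
    rw [hS, G.six, Finset.mem_filter, Finset.mem_product] at hq
    obtain ⟨⟨h1, h2⟩, h3, h4, h5, h6, h7⟩ := hq
    obtain ⟨a1, a2, a3⟩ := G.mem_trip.1 h1
    obtain ⟨b1, b2, b3⟩ := G.mem_trip.1 h2
    exact ⟨a1, b1, a2, a3, b2, b3, h3, h4, h5, h6, h7⟩
  rw [h0']
  refine add_le_add ?_ (le_of_eq rfl)
  have h1 : (S.filter (fun q => ¬ R q)).card = ∑ ac ∈ P ×ˢ P,
      ((S.filter (fun q => ¬ R q)).filter (fun q => (q.1.1, q.2.1) = ac)).card := by
    apply Finset.card_eq_sum_card_fiberwise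
    intro q hq
    have := hmem q (Finset.mem_filter.1 hq).1
    exact Finset.mem_coe.2 (Finset.mem_product.2 ⟨this.1, this.2.1⟩)
  rw [h1]
  push_cast
  rw [Finset.sum_product]
  refine Finset.sum_le_sum (fun a ha => Finset.sum_le_sum (fun c hc => ?_))
  set Λ := Lam P K h a c with hΛ
  have h2 : ((S.filter (fun q => ¬ R q)).filter (fun q => (q.1.1, q.2.1) = (a, c))).card ≤
      (((Λ ×ˢ Λ).filter (fun q : (V × V) × (V × V) =>
        cr q.1.1 q.2.1 = 0 ∧ q.1.1 ⬝ᵥ q.2.1 = q.1.2 ⬝ᵥ q.2.2)) ∪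
      ((Λ ×ˢ Λ).filter (fun q =>
          Bad Λ (kap (Xa P K a) h) (kap (Xa P K c) h) (h' a c) q.1 q.2))).card := by
    refine Finset.card_le_card_of_injOn (fun q => ((q.1.2.1 - q.1.1, q.2.2.1 - q.2.1),
      (q.1.2.2 - q.1.1, q.2.2.2 - q.2.1))) ?_ ?_
    · intro q hq
      obtain ⟨hq1, hq2⟩ := Finset.mem_filter.1 (Finset.mem_coe.1 hq)
      obtain ⟨hq3, hq4⟩ := Finset.mem_filter.1 hq1
      obtain ⟨⟨x, b, b'⟩, ⟨y, d, d'⟩⟩ := q
      have e1 : x = a := congrArg Prod.fst hq2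
      have e2 : y = c := congrArg Prod.snd hq2
      subst e1
      subst e2
      obtain ⟨_, _, m1, m2, m3, m4, s1, s2, s3, l1, l2⟩ := hmem _ hq3
      have p1 : (b - x, d - y) ∈ Λ := Finset.mem_image.2
        ⟨(b, d), Finset.mem_filter.2 ⟨Finset.mem_product.2 ⟨m1, m3⟩, s1⟩, rfl⟩
      have p2 : (b' - x, d' - y) ∈ Λ := Finset.mem_image.2
        ⟨(b', d'), Finset.mem_filter.2 ⟨Finset.mem_product.2 ⟨m2, m4⟩, s2⟩, rfl⟩
      have hdot := ss_dot s1 s2 s3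
      rw [Finset.mem_coe, Finset.mem_union]
      by_cases hcr : cr (b - x) (b' - x) = 0
      · left
        exact Finset.mem_filter.2 ⟨Finset.mem_product.2 ⟨p1, p2⟩, hcr, hdot⟩
      · right
        exact Finset.mem_filter.2 ⟨Finset.mem_product.2 ⟨p1, p2⟩, ⟨hdot, hcr⟩, l1, l2, hq4⟩
    · intro q hq q' hq' he
      obtain ⟨_, hq2⟩ := Finset.mem_filter.1 (Finset.mem_coe.1 hq)
      obtain ⟨_, hq2'⟩ := Finset.mem_filter.1 (Finset.mem_coe.1 hq')
      obtain ⟨⟨x, b, b'⟩, ⟨y, d, d'⟩⟩ := q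
      obtain ⟨⟨x2, b2, b2'⟩, ⟨y2, d2, d2'⟩⟩ := q'
      have e1 : x = a := congrArg Prod.fst hq2
      have e2 : y = c := congrArg Prod.snd hq2
      have e3 : x2 = a := congrArg Prod.fst hq2'
      have e4 : y2 = c := congrArg Prod.snd hq2'
      subst e1
      subst e2
      subst e3
      subst e4
      have f1 : b - x2 = b2 - x2 := congrArg (fun t => t.1.1) he
      have f2 : d - y2 = d2 - y2 := congrArg (fun t => t.1.2) he
      have f3 : b' - x2 = b2' - x2 := congrArg (fun t => t.2.1) he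
      have f4 : d' - y2 = d2' - y2 := congrArg (fun t => t.2.2) he
      rw [sub_left_inj] at f1 f2 f3 f4
      rw [f1, f2, f3, f4]
  have h3 := ss_count (P := P) (h := h) hK a c
  have h4 : (((S.filter (fun q => ¬ R q)).filter
      (fun q => (q.1.1, q.2.1) = (a, c))).card : ℝ) ≤
      (((Λ ×ˢ Λ).filter (fun q : (V × V) × (V × V) =>
        cr q.1.1 q.2.1 = 0 ∧ q.1.1 ⬝ᵥ q.2.1 = q.1.2 ⬝ᵥ q.2.2)).card : ℝ) +
      (((Λ ×ˢ Λ).filter (fun q =>
          Bad Λ (kap (Xa P K a) h) (kap (Xa P K c) h) (h' a c) q.1 q.2)).card : ℝ) := by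
    have := h2.trans (Finset.card_union_le _ _)
    exact_mod_cast this
  linarith

end Vale.Agent.P054.Y.GF
end

section

/-! Leaf GF-RichOut (helper987).  `g = (Q, c - Q a)`; `act g b = c + Q (b - a) = d`; every `(b - a, d - c) ∈ Lam` with
`Q (b - a) = d - c` gives `b ∈ M g P P`, and different pairs give different `b`. -/

set_option linter.all false

namespace Vale.Agent.P054.Y.GF

open Finset Matrix
open Vale.Agent.P054.Fin (sqd dst)

open scoped Classical in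
theorem rich_out {P : Finset V} {K h h0 : ℝ} {h' : V → V → ℝ} (hh : ∀ a c, h0 ≤ h' a c)
    {q : (V × V × V) × (V × V × V)} (hq : q ∈ sixR P K h h') :
    q.1.1 ∈ P ∧ q.1.2.1 ∈ P ∧ q.1.2.2 ∈ P ∧ q.2.1 ∈ P ∧ q.2.2.1 ∈ P ∧ q.2.2.2 ∈ P ∧
      ∃ g : R.Iso, R.Orth g ∧ R.act g q.1.1 = q.2.1 ∧ R.act g q.1.2.1 = q.2.2.1 ∧
        R.act g q.1.2.2 = q.2.2.2 ∧ h0 ≤ ((R.M g P P).card : ℝ) := by
  obtain ⟨⟨a, b, b'⟩, ⟨c, d, d'⟩⟩ := q
  obtain ⟨hs, hr⟩ := Finset.mem_filter.1 hq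
  obtain ⟨hprod, -⟩ := Finset.mem_filter.1 hs
  obtain ⟨ht1, ht2⟩ := Finset.mem_product.1 hprod
  obtain ⟨ha, hb, hb'⟩ := G.mem_trip.1 ht1
  obtain ⟨hc, hd, hd'⟩ := G.mem_trip.1 ht2
  have hE : ∀ x y, y ∈ Ea P K h x → y ∈ P := fun x y hy =>
    (Finset.mem_filter.1 (Finset.mem_filter.1 hy).1).1
  obtain ⟨Q, hQ, hQ1, hQ2, hcard⟩ := hr
  refine ⟨ha, hE _ _ hb, hE _ _ hb', hc, hE _ _ hd, hE _ _ hd', (Q, c - Q *ᵥ a), hQ, ?_, ?_, ?_, ?_⟩
  · show Q *ᵥ a + (c - Q *ᵥ a) = c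
    abel
  · show Q *ᵥ b + (c - Q *ᵥ a) = d
    have h1 : Q *ᵥ b - Q *ᵥ a = d - c := by rw [← Matrix.mulVec_sub]; exact hQ1
    have h2 : Q *ᵥ b + (c - Q *ᵥ a) = (Q *ᵥ b - Q *ᵥ a) + c := by abel
    rw [h2, h1]; abel
  · show Q *ᵥ b' + (c - Q *ᵥ a) = d'
    have h1 : Q *ᵥ b' - Q *ᵥ a = d' - c := by rw [← Matrix.mulVec_sub]; exact hQ2
    have h2 : Q *ᵥ b' + (c - Q *ᵥ a) = (Q *ᵥ b' - Q *ᵥ a) + c := by abel
    rw [h2, h1]; abel
  · refine (hh a c).trans (hcard.trans ?_)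
    have hle : ((Lam P K h a c).filter (fun r => Q *ᵥ r.1 = r.2)).card ≤
        (R.M (Q, c - Q *ᵥ a) P P).card := by
      apply Finset.card_le_card_of_injOn (fun r => r.1 + a)
      · intro r hr
        obtain ⟨hr1, hr2⟩ := Finset.mem_filter.1 (Finset.mem_coe.1 hr)
        obtain ⟨⟨x, y⟩, hxy, hxy2⟩ := Finset.mem_image.1 hr1
        obtain ⟨hx, hy⟩ := Finset.mem_product.1 (Finset.mem_filter.1 hxy).1
        subst hxy2
        rw [Finset.mem_coe]
        unfold R.M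
        rw [Finset.mem_filter]
        have e1 : x - a + a = x := sub_add_cancel x a
        have hr3 : Q *ᵥ (x - a) = y - c := hr2
        have e2 : R.act (Q, c - Q *ᵥ a) (x - a + a) = y := by
          rw [e1]
          show Q *ᵥ x + (c - Q *ᵥ a) = y
          have h1 : Q *ᵥ x - Q *ᵥ a = y - c := by rw [← Matrix.mulVec_sub]; exact hr3
          have h2 : Q *ᵥ x + (c - Q *ᵥ a) = (Q *ᵥ x - Q *ᵥ a) + c := by abel
          rw [h2, h1]; abel
        refine ⟨?_, ?_⟩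
        · show x - a + a ∈ P
          rw [e1]
          exact hE _ _ hx
        · show R.act (Q, c - Q *ᵥ a) (x - a + a) ∈ P
          rw [e2]
          exact hE _ _ hy
      · intro r hr r' hr' hrr
        have h1 := (Finset.mem_filter.1 (Finset.mem_coe.1 hr)).2
        have h2 := (Finset.mem_filter.1 (Finset.mem_coe.1 hr')).2
        have h3 : r.1 = r'.1 := add_right_cancel hrr
        exact Prod.ext h3 (by rw [← h1, ← h2, h3])
    exact_mod_cast hle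

end Vale.Agent.P054.Y.GF
end

section

/-! Leaf GF-ECount (helper614).  `K = n^e`.  `n^2 - ∑ #Ea ≤ n` (pairs `b = a`) `+ n^(2 - e/2)` (`G.poor_pairs`; its
hypothesis: a line has at most `τ ≤ n^(2/3) ≤ n^(1-e)` points, `Fin.on_le`) `+ n * 64 K n^2 / h^2`
(`not_uni_le`, `h ≥ n^(2/3)`, `32 K n ≤ h^2`) `≤ n^2 / 2` for `n` large. -/

set_option linter.all false

namespace Vale.Agent.P054.Y.GF

open Finset Matrix
open Vale.Agent.P054.Fin (sqd dst)

theorem ec_cr_trans {u x y : V} (hu : u ≠ 0) (hx : cr u x = 0) (hy : cr u y = 0) : cr x y = 0 := by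
  obtain ⟨s, rfl⟩ := G.exists_smul_of_cross hu
    (show crossProduct u x = 0 by rw [cross_apply]; exact hx)
  obtain ⟨t, rfl⟩ := G.exists_smul_of_cross hu
    (show crossProduct u y = 0 by rw [cross_apply]; exact hy)
  ext i
  fin_cases i <;> simp [cr] <;> ring

open scoped Classical in
theorem ec_line (P : Finset V) (K : ℝ) (hK : 0 ≤ K) (a : V) : ∀ u : V, u ≠ 0 →
    ∀ F ⊆ Xa P K a, (∀ x ∈ F, cr u x = 0) → (F.card : ℝ) ≤ K := by
  intro u hu F hF hcr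
  rcases F.eq_empty_or_nonempty with rfl | ⟨x0, hx0⟩
  · simpa using hK
  obtain ⟨b0, hb0, hb0'⟩ := Finset.mem_image.1 (hF hx0)
  have hb := (Finset.mem_filter.1 hb0).2
  refine le_trans ?_ hb.2.le
  unfold G.cntL
  have : F.card ≤ (P.filter (fun p => crossProduct (b0 - a) (p - a) = 0)).card := by
    refine Finset.card_le_card_of_injOn (fun x => x + a) ?_ ?_
    · intro x hx
      obtain ⟨b, hbm, hb'⟩ := Finset.mem_image.1 (hF (Finset.mem_coe.1 hx))
      have h1 := ec_cr_trans hu (hcr _ hx0) (hcr _ (Finset.mem_coe.1 hx))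
      have h2 : x + a = b := by rw [← hb']; simp
      rw [Finset.mem_coe, Finset.mem_filter]
      refine ⟨?_, ?_⟩
      · simp only [h2]
        exact (Finset.mem_filter.1 hbm).1
      · simp only [h2]
        rw [← hb0', ← hb'] at h1
        rw [cross_apply]
        exact h1
    · intro x _ y _ h
      simpa using h
  exact_mod_cast this

open scoped Classical in
/-- a line has at most as many points as there are distances -/
theorem ec_cntL (P : Finset V) {a b : V} (hab : a ≠ b) : G.cntL P (a, b) ≤ (dst P).card := by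
  have h := Vale.Agent.P054.Fin.on_le P a (b - a) (sub_ne_zero.2 (Ne.symm hab))
  refine le_trans (le_of_eq ?_) h
  unfold G.cntL Vale.Agent.P054.R.on
  congr 1
  apply Finset.filter_congr
  intro p _
  unfold Vale.Agent.P054.R.OnL
  simp only
  rw [← neg_cross, neg_eq_zero]

theorem ec_prod (P : Finset V) (p : V × V → Prop) [DecidablePred p] :
    ((P ×ˢ P).filter p).card = ∑ a ∈ P, (P.filter (fun b => p (a, b))).card := by
  rw [Finset.card_filter, Finset.sum_product]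
  refine Finset.sum_congr rfl (fun a _ => ?_)
  rw [Finset.card_filter]

open scoped Classical in
/-- for every `a`: `n ≤ 1 + (rich) + #Ea + (not Uni)` -/
theorem ec_point (P : Finset V) (K h : ℝ) (hK : 1 ≤ K) (hh0 : 0 < h)
    (hh : 32 * K * P.card ≤ h ^ 2) (a : V) :
    (P.card : ℝ) ≤ 1 + (P.filter (fun b => (a, b).1 ≠ (a, b).2 ∧ K ≤ (G.cntL P (a, b) : ℝ))).card +
      (Ea P K h a).card + 64 * K * (P.card : ℝ) ^ 2 / h ^ 2 := by
  have h0 : P ⊆ {a} ∪ (P.filter (fun b => (a, b).1 ≠ (a, b).2 ∧ K ≤ (G.cntL P (a, b) : ℝ)) ∪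
      Pa P K a) := by
    intro b hb
    by_cases h1 : b = a
    · rw [h1]; simp
    · rw [Finset.mem_union, Finset.mem_union]
      right
      by_cases h2 : (G.cntL P (a, b) : ℝ) < K
      · right
        exact Finset.mem_filter.2 ⟨hb, h1, h2⟩
      · left
        exact Finset.mem_filter.2 ⟨hb, Ne.symm h1, not_lt.1 h2⟩
  have h1 : P.card ≤ 1 + ((P.filter (fun b => (a, b).1 ≠ (a, b).2 ∧
      K ≤ (G.cntL P (a, b) : ℝ))).card + (Pa P K a).card) := by
    refine (Finset.card_le_card h0).trans ((Finset.card_union_le _ _).trans ?_)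
    rw [Finset.card_singleton]
    exact Nat.add_le_add_left (Finset.card_union_le _ _) _
  have h2 : (Ea P K h a).card + ((Pa P K a).filter (fun b => ¬ Uni (Xa P K a) h (b - a))).card =
      (Pa P K a).card := Finset.card_filter_add_card_filter_not _
  have hXa : (Xa P K a).card ≤ P.card :=
    Finset.card_image_le.trans (Finset.card_filter_le _ _)
  have h3 := not_uni_le (X := Xa P K a) (n := P.card) (K := K) (h := h) (by
      intro x hx
      obtain ⟨b, hb, rfl⟩ := Finset.mem_image.1 hx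
      exact sub_ne_zero.2 (Finset.mem_filter.1 hb).2.1) (by exact_mod_cast hXa) hK hh0
      (ec_line P K (by linarith) a) hh
  have h4 : ((Pa P K a).filter (fun b => ¬ Uni (Xa P K a) h (b - a))).card ≤
      ((Xa P K a).filter (fun x => ¬ Uni (Xa P K a) h x)).card := by
    refine Finset.card_le_card_of_injOn (fun b => b - a) ?_ ?_
    · intro b hb
      obtain ⟨hb1, hb2⟩ := Finset.mem_filter.1 (Finset.mem_coe.1 hb)
      exact Finset.mem_coe.2 (Finset.mem_filter.2 ⟨Finset.mem_image_of_mem _ hb1, hb2⟩)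
    · intro x _ y _ h
      simpa using h
  have h1' : (P.card : ℝ) ≤ 1 + ((P.filter (fun b => (a, b).1 ≠ (a, b).2 ∧
      K ≤ (G.cntL P (a, b) : ℝ))).card + (Pa P K a).card) := by exact_mod_cast h1
  have h2' : ((Ea P K h a).card : ℝ) +
      ((Pa P K a).filter (fun b => ¬ Uni (Xa P K a) h (b - a))).card = (Pa P K a).card := by
    exact_mod_cast h2
  have h4' : (((Pa P K a).filter (fun b => ¬ Uni (Xa P K a) h (b - a))).card : ℝ) ≤
      ((Xa P K a).filter (fun x => ¬ Uni (Xa P K a) h x)).card := by exact_mod_cast h4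
  linarith only [h4', h2', h1', h3]

open scoped Classical in
theorem e_count (e : ℝ) (he : 0 < e) (he1 : e ≤ 1 / 10) : ∃ n0 : ℕ, ∀ P : Finset V, n0 ≤ P.card →
    ((dst P).card : ℝ) ≤ (P.card : ℝ) ^ ((2 : ℝ) / 3) →
    ∀ h : ℝ, (P.card : ℝ) ^ ((2 : ℝ) / 3) ≤ h →
    (P.card : ℝ) ^ 2 / 2 ≤ ∑ a ∈ P, ((Ea P ((P.card : ℝ) ^ e) h a).card : ℝ) := by
  obtain ⟨n1, hn1⟩ := G.poor_pairs e he (by linarith)
  have t1 := (tendsto_rpow_atTop (show 0 < e / 2 by positivity)).eventually_ge_atTop (8 : ℝ)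
  have t2 := (tendsto_rpow_atTop (show (0:ℝ) < 7 / 30 by norm_num)).eventually_ge_atTop (512 : ℝ)
  obtain ⟨N, hN⟩ := Filter.eventually_atTop.1 ((t1.and t2).and (Filter.eventually_ge_atTop (16:ℝ)))
  refine ⟨max n1 ⌈N⌉₊, fun P hP hd h hh => ?_⟩
  have hnN : N ≤ (P.card : ℝ) :=
    (Nat.le_ceil N).trans (by exact_mod_cast le_trans (le_max_right _ _) hP)
  obtain ⟨⟨a1, a2⟩, a3⟩ := hN _ hnN
  have hpoor := hn1 P (le_trans (le_max_left _ _) hP)
  set n : ℝ := (P.card : ℝ) with hn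
  have hn0 : 0 < n := by linarith
  have hn1' : 1 ≤ n := by linarith
  set K : ℝ := n ^ e with hKdef
  have hK : 1 ≤ K := Real.one_le_rpow hn1' he.le
  have hpos : 0 < n ^ ((2 : ℝ) / 3) := Real.rpow_pos_of_pos hn0 _
  have hh0 : 0 < h := lt_of_lt_of_le hpos hh
  -- `h^2 ≥ n^(4/3)`
  have hsq : n ^ ((4 : ℝ) / 3) ≤ h ^ 2 := by
    calc n ^ ((4 : ℝ) / 3) = (n ^ ((2 : ℝ) / 3)) ^ 2 := by
          rw [← Real.rpow_natCast, ← Real.rpow_mul hn0.le]
          norm_num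
      _ ≤ h ^ 2 := pow_le_pow_left₀ hpos.le hh 2
  have hKn : 512 * (K * n) ≤ n ^ ((4 : ℝ) / 3) := by
    have e1 : K * n = n ^ (e + 1) := by
      rw [Real.rpow_add hn0, Real.rpow_one]
    have e2 : n ^ (e + 1) ≤ n ^ ((1 : ℝ) / 10 + 1) :=
      Real.rpow_le_rpow_of_exponent_le hn1' (by linarith only [he1])
    calc 512 * (K * n) ≤ n ^ ((7 : ℝ) / 30) * n ^ ((1 : ℝ) / 10 + 1) := by
          rw [e1]
          exact mul_le_mul a2 e2 (Real.rpow_nonneg hn0.le _) (Real.rpow_nonneg hn0.le _)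
      _ = n ^ ((4 : ℝ) / 3) := by
          rw [← Real.rpow_add hn0]
          norm_num
  have hKh : 512 * (K * n) ≤ h ^ 2 := hKn.trans hsq
  have hKn0 : 0 < K * n := by (clear * - a3; positivity)
  have hpt := fun a : V => ec_point P K h hK hh0 (by
    have : 32 * K * n = 32 * (K * n) := by ring
    rw [← hn, this]
    linarith only [hKn0, hKh]) a
  -- the last term
  have hlast : 64 * K * n ^ 2 / h ^ 2 ≤ n / 8 := by
    rw [div_le_iff₀ (by positivity)]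
    nlinarith
  -- rich pairs
  have hrich := hpoor (by
    intro a ha b hb hab
    refine (show (G.cntL P (a, b) : ℝ) ≤ (dst P).card by exact_mod_cast ec_cntL P hab).trans
      (hd.trans (Real.rpow_le_rpow_of_exponent_le hn1' (by linarith))))
  have hrich2 : n ^ (2 - e / 2) ≤ n ^ 2 / 8 := by
    have e1 : n ^ (2 - e / 2) * n ^ (e / 2) = n ^ 2 := by
      rw [← Real.rpow_add hn0, ← Real.rpow_natCast]
      congr 1
      push_cast
      ring
    have e2 : 0 < n ^ (2 - e / 2) := Real.rpow_pos_of_pos hn0 _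
    nlinarith
  have hsum : ∑ a ∈ P, (P.card : ℝ) ≤ ∑ a ∈ P, (1 +
      ((P.filter (fun b => (a, b).1 ≠ (a, b).2 ∧ K ≤ (G.cntL P (a, b) : ℝ))).card : ℝ) +
      ((Ea P K h a).card : ℝ) + 64 * K * (P.card : ℝ) ^ 2 / h ^ 2) :=
    Finset.sum_le_sum (fun a _ => hpt a)
  rw [Finset.sum_add_distrib, Finset.sum_add_distrib, Finset.sum_add_distrib, Finset.sum_const,
    Finset.sum_const, Finset.sum_const, nsmul_eq_mul, nsmul_eq_mul, nsmul_eq_mul, ← hn] at hsum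
  have hR : ∑ a ∈ P, ((P.filter (fun b => (a, b).1 ≠ (a, b).2 ∧
      K ≤ (G.cntL P (a, b) : ℝ))).card : ℝ) ≤ n ^ 2 / 8 := by
    have e4 : ((∑ a ∈ P, (P.filter (fun b => (a, b).1 ≠ (a, b).2 ∧
        K ≤ (G.cntL P (a, b) : ℝ))).card : ℕ) : ℝ) ≤ n ^ (2 - e / 2) := by
      refine le_trans (le_of_eq ?_) hrich
      exact congrArg (Nat.cast : ℕ → ℝ)
        (ec_prod P (fun q => q.1 ≠ q.2 ∧ K ≤ (G.cntL P q : ℝ))).symm
    refine le_trans (le_of_eq ?_) (e4.trans hrich2)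
    push_cast
    rfl
  nlinarith

end Vale.Agent.P054.Y.GF
end

section

/-! Leaf GF-Surf.  Pairs inside one irreducible surface.
`plane_case` (`deg φ ≤ 1`, so `φ = C b + ∑ C (a i) X i`, `a ≠ 0`): all lines of the surface satisfy
  `x·x' = y·y'` (`dot_of_coplanar`; for one and the same line it is `IsPair`), hence also all `p ∈ Λ` with `ln p` in
  the surface; by `Gram.exists_orth` there is an orthogonal `Q` with `Q x = y` for all of them, so if
  `h ≤ k = #inSurf` every pair would be a `RichPair` and `T` is empty; otherwise `#T ≤ k^2 ≤ h k`. -/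
set_option linter.all false

namespace Vale.Agent.P054.Y.GF

open Finset Matrix MvPolynomial
open Vale.Agent.P041.SE

/-- a polynomial of degree at most one is affine -/
theorem pc518_aff {φ : MvPolynomial (Fin 3) ℝ} (hD : φ.totalDegree ≤ 1) :
    φ = C (coeff 0 φ) + ∑ i, C (coeff (Finsupp.single i 1) φ) * X i := by
  ext m
  rw [coeff_add, coeff_sum]
  simp only [coeff_C, coeff_C_mul, coeff_X']
  by_cases h0 : m = 0
  · subst h0
    rw [if_pos rfl, Finset.sum_eq_zero, add_zero]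
    intro i _
    rw [if_neg, mul_zero]
    intro h
    have := DFunLike.congr_fun h i
    simp at this
  · rw [if_neg (fun h => h0 h.symm), zero_add]
    by_cases h1 : ∃ j, Finsupp.single j 1 = m
    · obtain ⟨j, rfl⟩ := h1
      rw [Finset.sum_eq_single j]
      · rw [if_pos rfl, mul_one]
      · intro i _ hij
        rw [if_neg, mul_zero]
        intro h
        have := DFunLike.congr_fun h i
        rw [Finsupp.single_eq_same, Finsupp.single_eq_of_ne hij] at this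
        exact one_ne_zero this
      · intro h
        exact absurd (Finset.mem_univ _) h
    · rw [Finset.sum_eq_zero]
      · apply coeff_eq_zero_of_totalDegree_lt
        refine lt_of_le_of_lt hD ?_
        by_contra hlt
        have h2 : ∑ i ∈ m.support, m i = m 0 + m 1 + m 2 := by
          rw [← Fin.sum_univ_three (fun i => m i)]
          refine Finset.sum_subset (Finset.subset_univ _) fun i _ hi => ?_
          simpa using hi
        rw [h2] at hlt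
        have h3 : m 0 + m 1 + m 2 ≤ 1 := by omega
        by_cases e0 : m 0 = 0
        · by_cases e1 : m 1 = 0
          · by_cases e2 : m 2 = 0
            · apply h0
              ext i
              fin_cases i <;> simp [e0, e1, e2]
            · apply h1
              refine ⟨2, ?_⟩
              have e3 : m 2 = 1 := by omega
              ext i
              fin_cases i <;> simp [e0, e1, e3, Finsupp.single_apply]
          · apply h1
            refine ⟨1, ?_⟩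
            have e3 : m 1 = 1 := by omega
            have e4 : m 2 = 0 := by omega
            ext i
            fin_cases i <;> simp [e0, e4, e3, Finsupp.single_apply]
        · apply h1
          refine ⟨0, ?_⟩
          have e3 : m 0 = 1 := by omega
          have e4 : m 2 = 0 := by omega
          have e5 : m 1 = 0 := by omega
          ext i
          fin_cases i <;> simp [e5, e4, e3, Finsupp.single_apply]
      · intro i _
        rw [if_neg, mul_zero]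
        intro h
        exact h1 ⟨i, h⟩

theorem pc518_plane {φ : MvPolynomial (Fin 3) ℝ} (hφ : Irreducible φ) (hD : φ.totalDegree ≤ 1) :
    ∃ (a : V) (b : ℝ), a ≠ 0 ∧ ∀ w, eval w φ = 0 → a ⬝ᵥ w = b := by
  refine ⟨fun i => coeff (Finsupp.single i 1) φ, -coeff 0 φ, ?_, ?_⟩
  · intro ha
    have h1 := pc518_aff hD
    have h2 : ∀ i, coeff (Finsupp.single i 1) φ = 0 := fun i => congrFun ha i
    simp only [h2, map_zero, zero_mul, Finset.sum_const_zero, add_zero] at h1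
    by_cases hb : coeff 0 φ = 0
    · rw [hb, map_zero] at h1
      exact hφ.ne_zero h1
    · apply hφ.not_isUnit
      rw [h1]
      exact (IsUnit.mk0 _ hb).map C
  · intro w hw
    rw [pc518_aff hD, map_add, map_sum] at hw
    simp only [map_mul, eval_C, eval_X] at hw
    simp only [dotProduct]
    linarith

open scoped Classical in
theorem plane_case {Λ : Finset (V × V)} {X Y : Finset V} {n B K : ℝ} (hyp : Hyp Λ X Y n B K)
    (hc : InChart Λ) {φ : MvPolynomial (Fin 3) ℝ} (hφ : Irreducible φ) (hD : φ.totalDegree ≤ 1)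
    {κ κ' : V → ℝ} {h v : ℝ} (hh : 0 ≤ h) (T : Finset (Ln × Ln)) (hT1 : T ⊆ MT (Λ.image ln) φ v)
    (hT2 : ∀ q ∈ T, ∃ p ∈ Λ, ∃ p' ∈ Λ, ln p = q.1 ∧ ln p' = q.2 ∧ Bad Λ κ κ' h p p') :
    (T.card : ℝ) ≤ 2 * h * (GC.inSurf (Λ.image ln) φ).card := by
  obtain ⟨a, b, ha, hab⟩ := pc518_plane hφ hD
  have hS : ∀ l ∈ GC.inSurf (Λ.image ln) φ, ∀ t, a ⬝ᵥ gpt l t = b := by
    intro l hl t
    rw [GC.inSurf, Finset.mem_filter] at hl
    exact hab _ (hl.2 t)
  have hT3 : ∀ q ∈ T, q.1 ∈ GC.inSurf (Λ.image ln) φ ∧ q.2 ∈ GC.inSurf (Λ.image ln) φ := by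
    intro q hq
    have := hT1 hq
    rw [MT, Finset.mem_filter, Finset.mem_product] at this
    exact this.1
  by_cases hk : h ≤ (GC.inSurf (Λ.image ln) φ).card
  · -- `T` is empty
    have hdot : ∀ p ∈ Λ, ∀ q ∈ Λ, ln p ∈ GC.inSurf (Λ.image ln) φ → ln q ∈ GC.inSurf (Λ.image ln) φ →
        p.1 ⬝ᵥ q.1 = p.2 ⬝ᵥ q.2 := by
      intro p hp q hq h1 h2
      exact dot_of_coplanar (hyp.pair p hp) (hyp.pair q hq) (hc.1 p hp) (hc.1 q hq) a b ha (hS _ h1) (hS _ h2)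
    obtain ⟨Q, hQ, hQ2⟩ := G.Gram.exists_orth
      (ι := {p : V × V // p ∈ Λ ∧ ln p ∈ GC.inSurf (Λ.image ln) φ}) (fun p => p.1.1) (fun p => p.1.2)
      (fun p q => hdot _ p.2.1 _ q.2.1 p.2.2 q.2.2)
    have hT0 : T = ∅ := by
      rw [Finset.eq_empty_iff_forall_notMem]
      intro q hq
      obtain ⟨p, hp, p', hp', e1, e2, hbad⟩ := hT2 q hq
      obtain ⟨s1, s2⟩ := hT3 q hq
      apply hbad.2.2.2
      refine ⟨Q, hQ, hQ2 ⟨p, hp, e1 ▸ s1⟩, hQ2 ⟨p', hp', e2 ▸ s2⟩, hk.trans ?_⟩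
      have hsub : GC.inSurf (Λ.image ln) φ ⊆ (Λ.filter (fun r => Q *ᵥ r.1 = r.2)).image ln := by
        intro l hl
        have hl2 := hl
        rw [GC.inSurf, Finset.mem_filter, Finset.mem_image] at hl2
        obtain ⟨⟨r, hr, rfl⟩, -⟩ := hl2
        rw [Finset.mem_image]
        exact ⟨r, Finset.mem_filter.2 ⟨hr, hQ2 ⟨r, hr, hl⟩⟩, rfl⟩
      have h5 := (Finset.card_le_card hsub).trans Finset.card_image_le
      refine (Nat.cast_le.2 h5).trans (le_of_eq ?_)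
      norm_cast
    rw [hT0, Finset.card_empty, Nat.cast_zero]
    positivity
  · push Not at hk
    have h1 : T ⊆ GC.inSurf (Λ.image ln) φ ×ˢ GC.inSurf (Λ.image ln) φ := by
      intro q hq
      rw [Finset.mem_product]
      exact hT3 q hq
    have h2 := Finset.card_le_card h1
    rw [Finset.card_product] at h2
    have h3 : (T.card : ℝ) ≤ (GC.inSurf (Λ.image ln) φ).card * (GC.inSurf (Λ.image ln) φ).card := by
      exact_mod_cast h2
    have h4 : (0 : ℝ) ≤ (GC.inSurf (Λ.image ln) φ).card := Nat.cast_nonneg _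
    nlinarith

end Vale.Agent.P054.Y.GF
end

section

/-! Leaf GF-Surf.  Pairs inside one irreducible surface.
`surf_bound`: degree ≤ 1: plane_case.  Degree ≥ 2: if there are `l1 l2 l3` in the surface, `GoodT` for the
  representatives, with `φ ∣ qA A` for the `A` of `exists_A`: quad_case.  Otherwise `kst` with
  `good = GoodT` of the representatives, `h1 = bad_triples`, `s = 3 D` (`on_qA`, `qA_degree`, `graph_bezout`;
  `x·x_i = y·y_i` from `dot_of_meet`). -/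

set_option linter.all false

namespace Vale.Agent.P054.Y.GF

open Finset Matrix MvPolynomial
open Vale.Agent.P041.SE

open scoped Classical in
/-- the number of common neighbours of a good triple -/
theorem surf_common {Λ : Finset (V × V)} {X Y : Finset V} {n B K : ℝ} (hyp : Hyp Λ X Y n B K)
    (hc : InChart Λ) {φ : MvPolynomial (Fin 3) ℝ} (hφ : Irreducible φ) {D : ℕ}
    (hD : φ.totalDegree ≤ D) {v : ℝ} {l1 l2 l3 : Ln} (A : M3)
    (g : GoodT (rep Λ l1) (rep Λ l2) (rep Λ l3))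
    (e1 : A *ᵥ (rep Λ l1).1 = (rep Λ l1).2) (e2 : A *ᵥ (rep Λ l2).1 = (rep Λ l2).2)
    (e3 : A *ᵥ (rep Λ l3).1 = (rep Λ l3).2) (hnd : ¬ φ ∣ qA A) (F : Finset Ln)
    (hF : ∀ b ∈ F, (l1, b) ∈ MT (Λ.image ln) φ v ∧ (l2, b) ∈ MT (Λ.image ln) φ v ∧
      (l3, b) ∈ MT (Λ.image ln) φ v) : (F.card : ℝ) ≤ 3 * D := by
  have hS : ∀ {l : Ln}, l ∈ GC.inSurf (Λ.image ln) φ → l ∈ Λ.image ln ∧ On φ l := by
    intro l hl
    rw [GC.inSurf, mem_filter] at hl
    exact hl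
  have hm : ∀ {a b : Ln}, (a, b) ∈ MT (Λ.image ln) φ v →
      (a ∈ Λ.image ln ∧ On φ a) ∧ (b ∈ Λ.image ln ∧ On φ b) ∧
      (rep Λ b).1 ⬝ᵥ (rep Λ a).1 = (rep Λ b).2 ⬝ᵥ (rep Λ a).2 := by
    intro a b hab
    rw [MT, mem_filter, mem_product] at hab
    obtain ⟨⟨ha, hb⟩, -, t, ht, -⟩ := hab
    have ha' := hS ha
    have hb' := hS hb
    refine ⟨ha', hb', ?_⟩
    obtain ⟨ra, ra'⟩ := rep_mem ha'.1
    obtain ⟨rb, rb'⟩ := rep_mem hb'.1
    refine dot_of_meet (hyp.pair _ rb) (hyp.pair _ ra) (hc.1 _ rb) (hc.1 _ ra) (t := t) (t' := t) ?_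
    rw [ra', rb']
    exact ht.symm
  have h := graph_bezout hφ hnd F (fun b hb => (hm (hF b hb).1).2.1.2) (by
    intro b hb
    obtain ⟨f1, f2, f3⟩ := hF b hb
    obtain ⟨-, ⟨hb1, -⟩, m1⟩ := hm f1
    obtain ⟨-, -, m2⟩ := hm f2
    obtain ⟨-, -, m3⟩ := hm f3
    obtain ⟨rb, rb'⟩ := rep_mem hb1
    have := on_qA A (hyp.pair _ rb) (hc.1 _ rb) g.1 e1 e2 e3 m1 m2 m3
    rw [rb'] at this
    exact this)
  have h2 : F.card ≤ 3 * D := by
    refine h.trans ?_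
    rw [mul_comm 3 D]
    exact Nat.mul_le_mul hD (qA_degree A)
  exact_mod_cast h2

open scoped Classical in
theorem surf_bound (D : ℕ) : ∃ C : ℝ, 1 ≤ C ∧ ∀ (Λ : Finset (V × V)) (X Y : Finset V)
    (n B K h v : ℝ) (κ κ' : V → ℝ), 1 ≤ K → 0 ≤ B → 0 ≤ v → 1 ≤ n → Hyp Λ X Y n B K → InChart Λ →
    Lab X Y κ κ' h → C * K * (B + v + 1) ≤ h → C * K ^ 2 * n ^ 2 ≤ h ^ 3 →
    ∀ φ : MvPolynomial (Fin 3) ℝ, Irreducible φ → φ.totalDegree ≤ D →
    ∀ T : Finset (Ln × Ln), T ⊆ MT (Λ.image ln) φ v →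
    (∀ q ∈ T, ∃ p ∈ Λ, ∃ p' ∈ Λ, ln p = q.1 ∧ ln p' = q.2 ∧ Bad Λ κ κ' h p p') →
    (T.card : ℝ) ≤ 2 * h * (GC.inSurf (Λ.image ln) φ).card := by
  set M : ℝ := (D : ℝ) * (D + 1) + 1 with hM
  have hD0 : (0 : ℝ) ≤ D := Nat.cast_nonneg D
  have hM1 : 1 ≤ M := by
    rw [hM]
    have : 0 ≤ (D : ℝ) * (D + 1) := by positivity
    linarith
  have hMD : (D : ℝ) + 1 ≤ M := by
    rw [hM]; nlinarith
  refine ⟨8 * M + 6 * D * M ^ 2, ?_, ?_⟩
  · have : 0 ≤ 6 * D * M ^ 2 := by positivity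
    linarith
  intro Λ X Y n B K h v κ κ' hK hB hv hn hyp hc hl hC1 hC2 φ hφ hD T hT hT2
  have hM0 : 0 < M := by linarith
  have hK0 : 0 < K := by linarith
  have hs0 : 0 ≤ 6 * (D : ℝ) * M ^ 2 := by positivity
  have hbv : 1 ≤ B + v + 1 := by linarith
  have hh1 : 8 * M * K * (B + v + 1) ≤ h := by
    refine le_trans ?_ hC1
    have : 0 ≤ 6 * (D : ℝ) * M ^ 2 * K * (B + v + 1) := by positivity
    nlinarith
  have hh0 : 0 < h := by
    have : 0 < 8 * M * K * (B + v + 1) := by positivity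
    linarith
  rcases Nat.lt_or_ge φ.totalDegree 2 with hdeg | hdeg
  · exact plane_case hyp hc hφ (by omega) hh0.le T hT hT2
  by_cases hex : ∃ l1 ∈ GC.inSurf (Λ.image ln) φ, ∃ l2 ∈ GC.inSurf (Λ.image ln) φ,
      ∃ l3 ∈ GC.inSurf (Λ.image ln) φ, GoodT (rep Λ l1) (rep Λ l2) (rep Λ l3) ∧
      ∃ A B' : M3, Aᵀ * B' = 1 ∧ (1 - Aᵀ * A).det ≠ 0 ∧ φ ∣ qA A
  · obtain ⟨l1, -, l2, -, l3, -, -, A, B', hAB, hA, hd⟩ := hex
    exact quad_case hyp hc A B' hAB hA hd hh0.le hl T hT hT2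
  have hmem : ∀ {l : Ln}, l ∈ GC.inSurf (Λ.image ln) φ → l ∈ Λ.image ln := by
    intro l hl
    rw [GC.inSurf, mem_filter] at hl
    exact hl.1
  have hkst := kst (GC.inSurf (Λ.image ln) φ) T (by
      intro q hq
      have := hT hq
      rw [MT, mem_filter] at this
      exact this.1)
    (fun a b c => GoodT (rep Λ a) (rep Λ b) (rep Λ c)) h (3 * D) hh0 (by
      intro b hb hbN
      refine bad_triples hyp hc hK0.le hB hφ hD hdeg hv b _ ?_ (le_trans ?_ hbN)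
      · intro l hl
        simp only [mem_filter] at hl
        exact hT hl.2
      · refine le_trans ?_ hh1
        have h1 : ((D : ℝ) * (D + 1) + K) ≤ M * K := by
          rw [hM]
          nlinarith [mul_nonneg (mul_nonneg hD0 (by linarith : (0 : ℝ) ≤ D + 1))
            (by linarith : (0 : ℝ) ≤ K - 1)]
        have h2 : ((D : ℝ) * (D + 1) + K) * B ≤ M * K * B := mul_le_mul_of_nonneg_right h1 hB
        have h3 : v + D + 1 ≤ M * K * (v + 1) := by
          have h4 : v + D + 1 ≤ M * (v + 1) := by nlinarith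
          have h5 : M * (v + 1) ≤ M * K * (v + 1) := by
            have : 0 ≤ M * (v + 1) := by (clear * - hv; positivity)
            nlinarith
          linarith
        have h6 : 0 ≤ M * K * (v + 1) := by positivity
        nlinarith)
    (by
      intro a ha b hb c hc' hg
      obtain ⟨ra, ra'⟩ := rep_mem (hmem ha)
      obtain ⟨rb, rb'⟩ := rep_mem (hmem hb)
      obtain ⟨rc, rc'⟩ := rep_mem (hmem hc')
      obtain ⟨A, B', hAB, hA, e1, e2, e3⟩ := exists_A (hyp.pair _ ra) (hyp.pair _ rb)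
        (hyp.pair _ rc) hg
      have hnd : ¬ φ ∣ qA A := fun hd => hex ⟨a, ha, b, hb, c, hc', hg, A, B', hAB, hA, hd⟩
      refine surf_common hyp hc hφ hD (v := v) A hg e1 e2 e3 hnd _ ?_
      intro x hx
      simp only [mem_filter] at hx
      obtain ⟨-, h1, h2, h3⟩ := hx
      exact ⟨hT h1, hT h2, hT h3⟩)
    (by
      have hI := card_inSurf hyp hc hK0.le hφ hD
      refine le_trans ?_ hC2
      have h1 : ((D : ℝ) * (D + 1) + K) ≤ M * K := by
        rw [hM]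
        nlinarith [mul_nonneg (mul_nonneg hD0 (by linarith : (0 : ℝ) ≤ D + 1))
          (by linarith : (0 : ℝ) ≤ K - 1)]
      have h2 : ((GC.inSurf (Λ.image ln) φ).card : ℝ) ≤ M * K * n :=
        hI.trans (mul_le_mul_of_nonneg_right h1 (by linarith))
      have h3 : ((GC.inSurf (Λ.image ln) φ).card : ℝ) ^ 2 ≤ (M * K * n) ^ 2 :=
        pow_le_pow_left₀ (Nat.cast_nonneg _) h2 2
      have h4 : 0 ≤ 8 * M * K ^ 2 * n ^ 2 := by positivity
      calc 2 * ((GC.inSurf (Λ.image ln) φ).card : ℝ) ^ 2 * (3 * D)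
          ≤ 2 * (M * K * n) ^ 2 * (3 * D) := by gcongr
        _ = 6 * D * M ^ 2 * K ^ 2 * n ^ 2 := by ring
        _ ≤ (8 * M + 6 * D * M ^ 2) * K ^ 2 * n ^ 2 := by linarith only [h4])
  calc (T.card : ℝ) ≤ _ := hkst
    _ = 2 * h * (GC.inSurf (Λ.image ln) φ).card := by ring

end Vale.Agent.P054.Y.GF
end

section

/-! Leaf GF-Fibre.
`surf_sum`: as `GC.rich_surf` (GC4.lean), with the bound `W * #inSurf` for the number of pairs of `P` in the
  surface instead of `#inSurf^2`: choose `F` = set of the `inSurf S φ` (with one `φ` each), `∑ #X ≤ 2 L`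
  (`GC.sum_card_le_of_inter`). -/

set_option linter.all false

namespace Vale.Agent.P054.Y.GF

open Finset Matrix MvPolynomial
open Vale.Agent.P041.SE

open scoped Classical in
theorem surf_sum (S : Finset Ln) {D : ℕ} {L T W : ℝ} (hS : (S.card : ℝ) ≤ L) (hT : 0 < T)
    (hTL : 2 * L * (D : ℝ) ^ 2 ≤ T ^ 2) (hW : 0 ≤ W) (P : Finset (Ln × Ln))
    (hP : ∀ q ∈ P, q.1 ∈ S ∧ q.2 ∈ S ∧ ∃ φ : MvPolynomial (Fin 3) ℝ,
      Irreducible φ ∧ φ.totalDegree ≤ D ∧ On φ q.1 ∧ On φ q.2 ∧ T ≤ (GC.inSurf S φ).card)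
    (hb : ∀ φ : MvPolynomial (Fin 3) ℝ, Irreducible φ → φ.totalDegree ≤ D →
      T ≤ (GC.inSurf S φ).card →
      ((P.filter (fun q => On φ q.1 ∧ On φ q.2)).card : ℝ) ≤ W * (GC.inSurf S φ).card) :
    (P.card : ℝ) ≤ 2 * L * W := by
  obtain ⟨F, hF⟩ : ∃ F : Finset (Finset Ln), F = S.powerset.filter
    (fun X => ∃ φ : MvPolynomial (Fin 3) ℝ,
      Irreducible φ ∧ φ.totalDegree ≤ D ∧ X = GC.inSurf S φ ∧ T ≤ (X.card : ℝ)) := ⟨_, rfl⟩
  have hFmem : ∀ X ∈ F, X ⊆ S ∧ ∃ φ : MvPolynomial (Fin 3) ℝ,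
    Irreducible φ ∧ φ.totalDegree ≤ D ∧ X = GC.inSurf S φ ∧ T ≤ (X.card : ℝ) := by
    intro X hX
    rw [hF, Finset.mem_filter, Finset.mem_powerset] at hX
    exact hX
  have h1 : ∑ X ∈ F, (X.card : ℝ) ≤ 2 * L := by
    refine GC.sum_card_le_of_inter (B := (D : ℝ) ^ 2) S F hS ?_ hT (by positivity) ?_ hTL
    · intro X hX
      obtain ⟨h2, φ, -, -, -, h3⟩ := hFmem X hX
      exact ⟨h2, h3⟩
    · intro X hX X' hX' hne
      obtain ⟨-, φ, hφ, hφD, hXφ, -⟩ := hFmem X hX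
      obtain ⟨-, φ', hφ', hφD', hXφ', -⟩ := hFmem X' hX'
      have hnd : ¬ φ ∣ φ' := by
        intro hd
        apply hne
        have hass : Associated φ φ' := hφ.associated_of_dvd hφ' hd
        rw [hXφ, hXφ']
        unfold GC.inSurf
        apply Finset.filter_congr
        intro l _
        exact ⟨fun h => GC.on_of_dvd hass.dvd h, fun h => GC.on_of_dvd hass.symm.dvd h⟩
      have h2 := graph_bezout hφ hnd (X ∩ X') (by
        intro l hl w
        have := (Finset.mem_inter.1 hl).1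
        rw [hXφ, GC.inSurf, Finset.mem_filter] at this
        exact this.2 w) (by
        intro l hl w
        have := (Finset.mem_inter.1 hl).2
        rw [hXφ', GC.inSurf, Finset.mem_filter] at this
        exact this.2 w)
      have h3 : (X ∩ X').card ≤ D ^ 2 := by
        rw [sq]
        exact h2.trans (Nat.mul_le_mul hφD hφD')
      exact_mod_cast h3
  have h2 : P ⊆ F.biUnion (fun X => P.filter (fun q => q.1 ∈ X ∧ q.2 ∈ X)) := by
    intro q hq
    obtain ⟨h3, h4, φ, hφ, hφD, h5, h6, h7⟩ := hP q hq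
    rw [Finset.mem_biUnion]
    refine ⟨GC.inSurf S φ, ?_, ?_⟩
    · rw [hF, Finset.mem_filter, Finset.mem_powerset]
      exact ⟨Finset.filter_subset _ _, φ, hφ, hφD, rfl, h7⟩
    · rw [Finset.mem_filter, GC.inSurf, Finset.mem_filter, Finset.mem_filter]
      exact ⟨hq, ⟨h3, h5⟩, ⟨h4, h6⟩⟩
  have h3 : P.card ≤ ∑ X ∈ F, (P.filter (fun q => q.1 ∈ X ∧ q.2 ∈ X)).card :=
    (Finset.card_le_card h2).trans Finset.card_biUnion_le
  have h4 : ∀ X ∈ F, ((P.filter (fun q => q.1 ∈ X ∧ q.2 ∈ X)).card : ℝ) ≤ W * (X.card : ℝ) := by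
    intro X hX
    obtain ⟨-, φ, hφ, hφD, hXφ, hTX⟩ := hFmem X hX
    have h5 := hb φ hφ hφD (by rw [← hXφ]; exact hTX)
    rw [← hXφ] at h5
    refine le_trans ?_ h5
    have h6 : P.filter (fun q => q.1 ∈ X ∧ q.2 ∈ X) ⊆
        P.filter (fun q => On φ q.1 ∧ On φ q.2) := by
      intro q hq
      rw [Finset.mem_filter] at hq ⊢
      obtain ⟨hq1, hq2, hq3⟩ := hq
      rw [hXφ, GC.inSurf, Finset.mem_filter] at hq2 hq3
      exact ⟨hq1, hq2.2, hq3.2⟩
    exact_mod_cast Finset.card_le_card h6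
  calc (P.card : ℝ) ≤ ((∑ X ∈ F, (P.filter (fun q => q.1 ∈ X ∧ q.2 ∈ X)).card : ℕ) : ℝ) := by
        exact_mod_cast h3
    _ = ∑ X ∈ F, ((P.filter (fun q => q.1 ∈ X ∧ q.2 ∈ X)).card : ℝ) := by push_cast; rfl
    _ ≤ ∑ X ∈ F, W * (X.card : ℝ) := Finset.sum_le_sum h4
    _ = W * ∑ X ∈ F, (X.card : ℝ) := by rw [Finset.mul_sum]
    _ ≤ W * (2 * L) := mul_le_mul_of_nonneg_left h1 hW
    _ = _ := by ring

end Vale.Agent.P054.Y.GF
end

section

/-! Leaf GF-Fibre.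
`fibre_chart`: `S = Λ.image ln`, `L = max (#Λ) 1`, `V0 = L^(1/2)`, `U = L^(1/2+e)`, `D, K1` from `GC.claim e`.
  Every line has at most `K` representatives (`ln_eq`, `lineX`, and `q.2 = μ p.2` is determined by `μ`), so the number of
  pairs is `≤ K^2 #P'`, `P'` = image in `S × S`.  `(l, l') ∈ P'`: `l ≠ l'` (`cr ≠ 0`, `ln_eq`), they meet at a point
  `w` (`ln_meet`, InChart).  (i) `mult S w > V0`: then `mult S w < h` (otherwise the pairs of `Λ` with line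
  through `w` have `x·x' = y·y'` (`dot_of_meet`), `Gram.exists_orth` gives `Q`, RichPair): `GC.rich_pairs` with
  `a = ⌊V0⌋₊`, `U = h`: `≤ 3·2^12 Λ0^2 L^2 / a + 6 L h`, `Λ0 = 12 log (L+1) + 1`, `≤ C (L^(3/2+e) + L h)` (for `L`
  large; for `L` small use `#P' ≤ L^2`).  (ii) otherwise and `(l,l') ∈ GC.G D V0 U S`: `GC.claim`.  (iii) otherwise there is
  an irreducible `φ` of degree `≤ D` with `U ≤ #inSurf S φ` containing both: `surf_bound` with `v = V0`,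
  `surf_sum` with `W = 2 h`: `≤ 4 L h` (for `L` so large that `2 L D^2 ≤ U^2`). -/

set_option linter.all false

namespace Vale.Agent.P054.Y.GF

open Finset Matrix MvPolynomial
open Vale.Agent.P041.SE

/-- bad pairs give different meeting lines -/
theorem bad_lines {Λ : Finset (V × V)} {X Y : Finset V} {n B K h : ℝ} {κ κ' : V → ℝ}
    (hyp : Hyp Λ X Y n B K) (hc : InChart Λ) {p p' : V × V} (hp : p ∈ Λ) (hp' : p' ∈ Λ)
    (hb : Bad Λ κ κ' h p p') : ln p ≠ ln p' ∧ ∃ t, gpt (ln p) t = gpt (ln p') t := by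
  obtain ⟨hm, -, -, -⟩ := hb
  constructor
  · intro he
    obtain ⟨μ, -, h1, -⟩ := ln_eq (hyp.pair p hp) (hyp.pair p' hp') (hc.1 p hp) (hc.1 p' hp') he
    apply hm.2
    rw [h1]
    ext i
    fin_cases i <;> simp [cr] <;> ring
  · exact ln_meet (hyp.pair p hp) (hyp.pair p' hp') (hc.1 p hp) (hc.1 p' hp') hm.1
      (hc.2 p hp p' hp' hm)

open scoped Classical in
/-- the bound for the pairs of lines, `L` large -/
theorem fibre_lines {e : ℝ} (he : 0 < e) (he1 : e ≤ 1 / 2) {D : ℕ} {K1 Cs L : ℝ}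
    (hK1 : ∀ (L : ℝ) (S : Finset Ln), 1 ≤ L → (#S : ℝ) ≤ L →
      (#(GC.G D (L ^ (1 / 2 : ℝ)) (L ^ (1 / 2 + e)) S) : ℝ) ≤ K1 * L ^ (3 / 2 + e))
    (hCs : ∀ (Λ : Finset (V × V)) (X Y : Finset V)
      (n B K h v : ℝ) (κ κ' : V → ℝ), 1 ≤ K → 0 ≤ B → 0 ≤ v → 1 ≤ n → Hyp Λ X Y n B K → InChart Λ →
      Lab X Y κ κ' h → Cs * K * (B + v + 1) ≤ h → Cs * K ^ 2 * n ^ 2 ≤ h ^ 3 →
      ∀ φ : MvPolynomial (Fin 3) ℝ, Irreducible φ → φ.totalDegree ≤ D →
      ∀ T : Finset (Ln × Ln), T ⊆ MT (Λ.image ln) φ v →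
      (∀ q ∈ T, ∃ p ∈ Λ, ∃ p' ∈ Λ, ln p = q.1 ∧ ln p' = q.2 ∧ Bad Λ κ κ' h p p') →
      (T.card : ℝ) ≤ 2 * h * (GC.inSurf (Λ.image ln) φ).card)
    {Λ : Finset (V × V)} {X Y : Finset V} {n B K h : ℝ} {κ κ' : V → ℝ} (hK : 1 ≤ K) (hB : 0 ≤ B)
    (hn : 1 ≤ n) (hyp : Hyp Λ X Y n B K) (hc : InChart Λ) (hl : Lab X Y κ κ' h)
    (hL1 : 1 ≤ L) (hLΛ : (Λ.card : ℝ) = L)
    (h1 : Cs * K * (B + L ^ (1 / 2 : ℝ) + 1) ≤ h) (h2 : Cs * K ^ 2 * n ^ 2 ≤ h ^ 3) (hh : 0 < h)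
    (e1 : 12 * Real.log (L + 1) + 1 ≤ 1 / 128 * L ^ (1 / 2 : ℝ))
    (e2 : 12 * Real.log (L + 1) + 1 ≤ 1 * L ^ (e / 2))
    (e3 : 2 * (D : ℝ) ^ 2 ≤ L ^ (2 * e))
    (P : Finset (Ln × Ln))
    (hP : ∀ q ∈ P, ∃ p ∈ Λ, ∃ p' ∈ Λ, ln p = q.1 ∧ ln p' = q.2 ∧ Bad Λ κ κ' h p p') :
    (P.card : ℝ) ≤ (3 * 2 ^ 13 + K1) * L ^ (3 / 2 + e) + 10 * (L * h) := by
  have hL0 : 0 < L := by linarith
  set S : Finset Ln := Λ.image ln with hS
  have hSc : (S.card : ℝ) ≤ L := by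
    rw [← hLΛ]; exact_mod_cast card_image_le
  set V0 : ℝ := L ^ (1 / 2 : ℝ) with hV0
  set U : ℝ := L ^ (1 / 2 + e) with hU
  have hV00 : 0 < V0 := Real.rpow_pos_of_pos hL0 _
  have hU0 : 0 < U := Real.rpow_pos_of_pos hL0 _
  have hlog : 0 ≤ Real.log (L + 1) := Real.log_nonneg (by linarith)
  have hV128 : 128 ≤ V0 := by
    have : 1 ≤ 1 / 128 * V0 := by linarith
    linarith
  -- the three parts
  set P1 : Finset (Ln × Ln) := P.filter (fun q => ∃ t, gpt q.1 t = gpt q.2 t ∧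
    V0 < (GC.mult S (gpt q.1 t) : ℝ) ∧ (GC.mult S (gpt q.1 t) : ℝ) ≤ h) with hP1
  set P3 : Finset (Ln × Ln) := P.filter (fun q => (q.1 ≠ q.2 ∧ ∃ t, gpt q.1 t = gpt q.2 t ∧
    (GC.mult S (gpt q.1 t) : ℝ) ≤ V0) ∧ ∃ φ : MvPolynomial (Fin 3) ℝ,
      Irreducible φ ∧ φ.totalDegree ≤ D ∧ On φ q.1 ∧ On φ q.2 ∧ U ≤ (GC.inSurf S φ).card) with hP3
  have hmem : ∀ q ∈ P, q.1 ∈ S ∧ q.2 ∈ S := by
    intro q hq
    obtain ⟨p, hp, p', hp', h3, h4, -⟩ := hP q hq
    exact ⟨h3 ▸ mem_image_of_mem ln hp, h4 ▸ mem_image_of_mem ln hp'⟩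
  have hcov : P ⊆ P1 ∪ (GC.G D V0 U S ∪ P3) := by
    intro q hq
    obtain ⟨p, hp, p', hp', h3, h4, hbad⟩ := hP q hq
    obtain ⟨hne, t, ht⟩ := bad_lines hyp hc hp hp' hbad
    rw [h3, h4] at hne ht
    rw [mem_union, mem_union]
    by_cases c1 : (GC.mult S (gpt q.1 t) : ℝ) ≤ V0
    · by_cases c2 : ∃ φ : MvPolynomial (Fin 3) ℝ,
        Irreducible φ ∧ φ.totalDegree ≤ D ∧ On φ q.1 ∧ On φ q.2 ∧ U ≤ (GC.inSurf S φ).card
      · right; right
        rw [hP3, mem_filter]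
        exact ⟨hq, ⟨hne, t, ht, c1⟩, c2⟩
      · right; left
        push Not at c2
        exact GC.mem_G.2 ⟨hmem q hq, hne, ⟨t, ht, c1⟩, fun φ a1 a2 a3 a4 => c2 φ a1 a2 a3 a4⟩
    · left
      rw [hP1, mem_filter]
      refine ⟨hq, t, ht, not_le.1 c1, ?_⟩
      by_contra hcon
      apply hbad.2.2.2
      refine rich_of_mult hyp hc hp hp' (t := t) ?_ ?_
      · rw [h3, h4]; exact ht
      · rw [h3]; exact (not_le.1 hcon).le
  -- part 1
  have hb1 : (P1.card : ℝ) ≤ 3 * 2 ^ 13 * L ^ (3 / 2 + e) + 6 * (L * h) := by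
    set a : ℕ := ⌊V0⌋₊ with ha
    have ha1 : (a : ℝ) ≤ V0 := Nat.floor_le hV00.le
    have ha2 : V0 / 2 ≤ (a : ℝ) := by
      have := Nat.lt_floor_add_one V0
      linarith only [this, hV128, he1, he]
    have ha0 : (0 : ℝ) < a := by linarith only [ha2, hV128, he1, he]
    have hlogS : Real.log ((S.card : ℝ) + 1) ≤ Real.log (L + 1) := by
      apply Real.log_le_log
      · have : (0 : ℝ) ≤ S.card := Nat.cast_nonneg _
        linarith
      · linarith
    have hr := GC.rich_pairs S (a := a) (U := h) (Λ := 12 * Real.log (L + 1) + 1)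
      (by linarith) (by linarith) hh.le P1 (by
        intro q hq
        rw [hP1, mem_filter] at hq
        obtain ⟨hqP, t, ht, h5, h6⟩ := hq
        refine ⟨(hmem q hqP).1, (hmem q hqP).2, gpt q.1 t, ⟨t, rfl⟩, ⟨t, ht.symm⟩, ?_, h6⟩
        have : (a : ℝ) ≤ (GC.mult S (gpt q.1 t) : ℝ) := by linarith only [h5, ha1]
        exact_mod_cast this)
    have hS2 : (S.card : ℝ) ^ 2 ≤ L ^ 2 := pow_le_pow_left₀ (Nat.cast_nonneg _) hSc 2
    have hΛ2 : (12 * Real.log (L + 1) + 1) ^ 2 ≤ L ^ e := by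
      have h7 : (12 * Real.log (L + 1) + 1) ^ 2 ≤ (1 * L ^ (e / 2)) ^ 2 :=
        pow_le_pow_left₀ (by linarith only [hlog, he1, he]) e2 2
      refine h7.trans (le_of_eq ?_)
      rw [one_mul, ← Real.rpow_natCast, ← Real.rpow_mul hL0.le]
      congr 1
      push_cast
      ring
    have hLe : 0 < L ^ e := Real.rpow_pos_of_pos hL0 _
    have h8 : 3 * 2 ^ 12 * (12 * Real.log (L + 1) + 1) ^ 2 * (S.card : ℝ) ^ 2 / a
        ≤ 3 * 2 ^ 13 * L ^ (3 / 2 + e) := by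
      have h9 : L ^ (3 / 2 + e) * V0 = L ^ e * L ^ 2 := by
        rw [hV0, ← Real.rpow_natCast L 2, ← Real.rpow_add hL0, ← Real.rpow_add hL0]
        congr 1
        push_cast
        ring
      rw [div_le_iff₀ ha0]
      have h10 : 0 < L ^ (3 / 2 + e) := Real.rpow_pos_of_pos hL0 _
      calc 3 * 2 ^ 12 * (12 * Real.log (L + 1) + 1) ^ 2 * (S.card : ℝ) ^ 2
          ≤ 3 * 2 ^ 12 * L ^ e * L ^ 2 := by gcongr
        _ = 3 * 2 ^ 12 * (L ^ (3 / 2 + e) * V0) := by rw [h9]; ring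
        _ = 3 * 2 ^ 13 * L ^ (3 / 2 + e) * (V0 / 2) := by ring
        _ ≤ 3 * 2 ^ 13 * L ^ (3 / 2 + e) * a := by gcongr
    have h11 : 6 * (S.card : ℝ) * h ≤ 6 * (L * h) := by
      have := mul_le_mul_of_nonneg_right hSc hh.le
      linarith only [this]
    linarith only [h11, h8, hr]
  -- part 2
  have hb2 : ((GC.G D V0 U S).card : ℝ) ≤ K1 * L ^ (3 / 2 + e) := hK1 L S hL1 hSc
  -- part 3
  have hb3 : (P3.card : ℝ) ≤ 4 * (L * h) := by
    have h12 := surf_sum S (D := D) (L := L) (T := U) (W := 2 * h) hSc hU0 (by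
        have h13 : U ^ 2 = L * L ^ (2 * e) := by
          rw [hU, ← Real.rpow_natCast (L ^ (1 / 2 + e)) 2, ← Real.rpow_mul hL0.le,
            ← Real.rpow_one_add' hL0.le (by positivity)]
          congr 1
          push_cast
          ring
        rw [h13]
        have := mul_le_mul_of_nonneg_left e3 hL0.le
        linarith only [this]) (by linarith only [hh]) P3 (by
        intro q hq
        rw [hP3, mem_filter] at hq
        exact ⟨(hmem q hq.1).1, (hmem q hq.1).2, hq.2.2⟩) (by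
        intro φ hφ hφD hφU
        refine hCs Λ X Y n B K h V0 κ κ' hK hB hV00.le hn hyp hc hl h1 h2 φ hφ hφD _ ?_ ?_
        · intro q hq
          rw [mem_filter, hP3, mem_filter] at hq
          obtain ⟨⟨hqP, h14, -⟩, h15, h16⟩ := hq
          unfold MT
          rw [mem_filter, mem_product]
          unfold GC.inSurf
          rw [mem_filter, mem_filter]
          exact ⟨⟨⟨(hmem q hqP).1, h15⟩, (hmem q hqP).2, h16⟩, h14⟩
        · intro q hq
          rw [mem_filter, hP3, mem_filter] at hq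
          exact hP q hq.1.1)
    linarith only [h12]
  have htot : (P.card : ℝ) ≤ P1.card + ((GC.G D V0 U S).card + P3.card) := by
    have h17 : P.card ≤ P1.card + ((GC.G D V0 U S).card + P3.card) :=
      (card_le_card hcov).trans ((card_union_le _ _).trans
        (Nat.add_le_add_left (card_union_le _ _) _))
    exact_mod_cast h17
  linarith only [htot, hb3, hb2, hb1]

open scoped Classical in
theorem fibre_chart (e : ℝ) (he : 0 < e) (he1 : e ≤ 1 / 2) : ∃ C : ℝ, 1 ≤ C ∧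
    ∀ (Λ : Finset (V × V)) (X Y : Finset V) (n B K h : ℝ) (κ κ' : V → ℝ), 1 ≤ K → 0 ≤ B → 1 ≤ n →
    Hyp Λ X Y n B K → InChart Λ → Lab X Y κ κ' h →
    C * K * (B + (Λ.card : ℝ) ^ (1 / 2 : ℝ) + 1) ≤ h → C * K ^ 2 * n ^ 2 ≤ h ^ 3 →
    (((Λ ×ˢ Λ).filter (fun q => Bad Λ κ κ' h q.1 q.2)).card : ℝ) ≤
      C * K ^ 2 * ((Λ.card : ℝ) ^ (3 / 2 + e) + Λ.card * h) := by
  obtain ⟨D, K1, hK10, hK1⟩ := GC.claim e he he1
  obtain ⟨Cs, hCs1, hCs⟩ := surf_bound D
  have e1 := GC.ev_log (c := 1 / 128) (δ := 1 / 2) (by norm_num) (by norm_num)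
  have e2 := GC.ev_log (c := 1) (δ := e / 2) one_pos (by positivity)
  have e3 := (tendsto_rpow_atTop (show 0 < 2 * e by positivity)).eventually_ge_atTop
    (2 * (D : ℝ) ^ 2)
  obtain ⟨L0, hL0⟩ := Filter.eventually_atTop.1 ((e1.and e2).and e3)
  set L1 : ℝ := max L0 1 with hL1
  have hL11 : 1 ≤ L1 := le_max_right _ _
  have hL1p : 0 ≤ L1 ^ (1 / 2 : ℝ) := Real.rpow_nonneg (by linarith) _
  refine ⟨Cs + (3 * 2 ^ 13 + K1 + 10) + L1 ^ (1 / 2 : ℝ), by linarith, ?_⟩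
  intro Λ X Y n B K h κ κ' hK hB hn hyp hc hl h1 h2
  set C : ℝ := Cs + (3 * 2 ^ 13 + K1 + 10) + L1 ^ (1 / 2 : ℝ) with hC
  have hC1 : 1 ≤ C := by linarith
  have hCCs : Cs ≤ C := by linarith
  have hv0 : 0 ≤ (Λ.card : ℝ) ^ (1 / 2 : ℝ) := Real.rpow_nonneg (Nat.cast_nonneg _) _
  have hh : 0 < h := by
    refine lt_of_lt_of_le ?_ h1
    (clear * - hCs1 hK10 hK hB; positivity)
  set Q := (Λ ×ˢ Λ).filter (fun q => Bad Λ κ κ' h q.1 q.2) with hQ
  rcases Nat.eq_zero_or_pos Λ.card with h0 | h0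
  · have : Q = ∅ := by
      rw [hQ, Finset.card_eq_zero.1 h0]; simp
    rw [this, card_empty, Nat.cast_zero]
    (clear * - hCs1 hK10 hK hh; positivity)
  set L : ℝ := (Λ.card : ℝ) with hL
  have hL1' : 1 ≤ L := by rw [hL]; exact_mod_cast h0
  have hLp : 0 < L := by linarith only [hL1', he1, he]
  have hcp := card_pairs_le hyp hc (by linarith) Q (filter_subset _ _)
  set P : Finset (Ln × Ln) := Q.image (fun q => (ln q.1, ln q.2)) with hP
  have hPP : ∀ q ∈ P, ∃ p ∈ Λ, ∃ p' ∈ Λ, ln p = q.1 ∧ ln p' = q.2 ∧ Bad Λ κ κ' h p p' := by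
    intro q hq
    rw [hP, mem_image] at hq
    obtain ⟨⟨p, p'⟩, hpq, rfl⟩ := hq
    rw [hQ, mem_filter, mem_product] at hpq
    exact ⟨p, hpq.1.1, p', hpq.1.2, rfl, rfl, hpq.2⟩
  have hmain : (P.card : ℝ) ≤ C * (L ^ (3 / 2 + e) + L * h) := by
    have hLe : 0 < L ^ (3 / 2 + e) := Real.rpow_pos_of_pos hLp _
    have hLh : 0 < L * h := by (clear * - h0 hh; positivity)
    by_cases hbig : L1 ≤ L
    · obtain ⟨⟨c1, c2⟩, c3⟩ := hL0 L ((le_max_left _ _).trans hbig)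
      have h3 := fibre_lines he he1 hK1 hCs hK hB hn hyp hc hl hL1' rfl
        (le_trans (by gcongr) h1) (le_trans (by gcongr) h2) hh c1 c2 c3 P hPP
      have h4 : (3 * 2 ^ 13 + K1) * L ^ (3 / 2 + e) ≤ C * L ^ (3 / 2 + e) := by
        apply mul_le_mul_of_nonneg_right _ hLe.le
        linarith only [hL1p, hCs1, he1, he]
      have h5 : 10 * (L * h) ≤ C * (L * h) := by
        apply mul_le_mul_of_nonneg_right _ hLh.le
        linarith only [hL1p, hCs1, hK10, he1, he]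
      linarith only [h5, h4, h3]
    · have hS2 : (P.card : ℝ) ≤ L ^ 2 := by
        have h6 : P ⊆ (Λ.image ln) ×ˢ (Λ.image ln) := by
          intro q hq
          obtain ⟨p, hp, p', hp', h3, h4, -⟩ := hPP q hq
          rw [mem_product]
          exact ⟨h3 ▸ mem_image_of_mem ln hp, h4 ▸ mem_image_of_mem ln hp'⟩
        have h7 : P.card ≤ Λ.card * Λ.card := by
          refine (card_le_card h6).trans ?_
          rw [card_product]
          exact Nat.mul_le_mul card_image_le card_image_le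
        rw [sq, hL]
        exact_mod_cast h7
      have h8 : L ^ 2 ≤ L1 ^ (1 / 2 : ℝ) * L ^ (3 / 2 + e) := by
        calc L ^ 2 = L ^ (1 / 2 : ℝ) * L ^ (3 / 2 : ℝ) := by
              rw [← Real.rpow_add hLp, ← Real.rpow_natCast]
              norm_num
          _ ≤ L1 ^ (1 / 2 : ℝ) * L ^ (3 / 2 + e) := by
              apply mul_le_mul
              · exact Real.rpow_le_rpow hLp.le (not_le.1 hbig).le (by norm_num)
              · exact Real.rpow_le_rpow_of_exponent_le hL1' (by linarith only [he])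
              · (clear * - h0; positivity)
              · exact hL1p
      have h9 : L1 ^ (1 / 2 : ℝ) * L ^ (3 / 2 + e) ≤ C * L ^ (3 / 2 + e) := by
        apply mul_le_mul_of_nonneg_right _ hLe.le
        linarith only [hCs1, hK10, he1, he]
      have h10 : 0 ≤ C * (L * h) := by (clear * - hCs1 hK10 h0 hh; positivity)
      linarith only [h10, h9, h8, hS2]
  calc (Q.card : ℝ) ≤ K ^ 2 * P.card := hcp
    _ ≤ K ^ 2 * (C * (L ^ (3 / 2 + e) + L * h)) := by gcongr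
    _ = C * K ^ 2 * (L ^ (3 / 2 + e) + L * h) := by ring

end Vale.Agent.P054.Y.GF
end

section

/-! Leaf G-GenRot.  A rotation of the second components puts finitely many pairs in general position:
adapter of `G.exists_rot` (quaternions, product of finitely many nonzero polynomials). -/

set_option linter.all false

namespace Vale.Agent.P054.Y.GF

open Finset Matrix MvPolynomial
open Vale.Agent.P041.SE

theorem exists_rot (Λ : Finset (V × V)) (h : ∀ p ∈ Λ, IsPair p) :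
    ∃ R : M3, Rᵀ * R = 1 ∧ InChart (Λ.image (fun p => (p.1, R *ᵥ p.2))) := by
  obtain ⟨Q, h1, -, h3, h4⟩ := G.exists_rot Λ (fun p hp => by
    refine ⟨?_, (h p hp).2⟩
    have h1 := (h p hp).1
    simp only [dotProduct, Fin.sum_univ_three] at h1
    linear_combination h1)
  refine ⟨Q, h1, ?_, ?_⟩
  · intro p hp
    obtain ⟨p0, hp0, rfl⟩ := Finset.mem_image.1 hp
    exact (h3 p0 hp0).2
  · intro p hp q hq hm
    obtain ⟨p0, hp0, rfl⟩ := Finset.mem_image.1 hp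
    obtain ⟨q0, hq0, rfl⟩ := Finset.mem_image.1 hq
    exact h4 p0 hp0 q0 hq0 hm.2

end Vale.Agent.P054.Y.GF
end

section

/-! `RichPair`: `Q ↦ R Q`; `Lab`: use the hypothesis with `A = Rᵀ A'`, `B = Rᵀ B'` (`R Rᵀ = 1`); `Hyp`: planes `u ⬝ᵥ R y = Rᵀ u ⬝ᵥ y`, lines by parallelism. -/

set_option linter.all false

namespace Vale.Agent.P054.Y.GF

open Finset Matrix MvPolynomial
open Vale.Agent.P041.SE

namespace Tr

theorem rt {R : M3} (hR : Rᵀ * R = 1) : R * Rᵀ = 1 := mul_eq_one_comm.mp hR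

theorem rt' {R : M3} (hR : Rᵀ * R = 1) : (Rᵀ)ᵀ * Rᵀ = 1 := by
  rw [Matrix.transpose_transpose]; exact rt hR

theorem dotR {R : M3} (hR : Rᵀ * R = 1) (x y : V) : (R *ᵥ x) ⬝ᵥ (R *ᵥ y) = x ⬝ᵥ y := by
  rw [Matrix.dotProduct_mulVec, ← Matrix.mulVec_transpose, Matrix.mulVec_mulVec, hR,
    Matrix.one_mulVec]

theorem invR {R : M3} (hR : Rᵀ * R = 1) (x : V) : Rᵀ *ᵥ (R *ᵥ x) = x := by
  rw [Matrix.mulVec_mulVec, hR, Matrix.one_mulVec]

theorem invR' {R : M3} (hR : Rᵀ * R = 1) (x : V) : R *ᵥ (Rᵀ *ᵥ x) = x := by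
  rw [Matrix.mulVec_mulVec, rt hR, Matrix.one_mulVec]

theorem injR {R : M3} (hR : Rᵀ * R = 1) : Function.Injective (fun y : V => R *ᵥ y) := by
  intro a b hab
  have := congrArg (fun y => Rᵀ *ᵥ y) hab
  simpa [invR hR] using this

theorem adjR (R : M3) (u y : V) : u ⬝ᵥ (R *ᵥ y) = (Rᵀ *ᵥ u) ⬝ᵥ y := by
  rw [Matrix.dotProduct_mulVec, ← Matrix.mulVec_transpose]

/-- parallel vectors are mapped to parallel vectors -/
theorem cr_map (A : M3) (u y : V) (h : cr u y = 0) : cr (A *ᵥ u) (A *ᵥ y) = 0 := by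
  have h0 : u 1 * y 2 - u 2 * y 1 = 0 := congrFun h 0
  have h1 : u 2 * y 0 - u 0 * y 2 = 0 := congrFun h 1
  have h2 : u 0 * y 1 - u 1 * y 0 = 0 := congrFun h 2
  ext i
  fin_cases i
  · simp only [cr, Matrix.mulVec, dotProduct, Fin.sum_univ_three, Matrix.cons_val_zero,
      Matrix.cons_val_one, Matrix.cons_val, Pi.zero_apply, Fin.zero_eta, Fin.mk_one,
      Fin.reduceFinMk]
    linear_combination (A 1 1 * A 2 2 - A 1 2 * A 2 1) * h0 + (A 1 2 * A 2 0 - A 1 0 * A 2 2) * h1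
      + (A 1 0 * A 2 1 - A 1 1 * A 2 0) * h2
  · simp only [cr, Matrix.mulVec, dotProduct, Fin.sum_univ_three, Matrix.cons_val_zero,
      Matrix.cons_val_one, Matrix.cons_val, Pi.zero_apply, Fin.zero_eta, Fin.mk_one,
      Fin.reduceFinMk]
    linear_combination (A 2 1 * A 0 2 - A 2 2 * A 0 1) * h0 + (A 2 2 * A 0 0 - A 2 0 * A 0 2) * h1
      + (A 2 0 * A 0 1 - A 2 1 * A 0 0) * h2
  · simp only [cr, Matrix.mulVec, dotProduct, Fin.sum_univ_three, Matrix.cons_val_zero,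
      Matrix.cons_val_one, Matrix.cons_val, Pi.zero_apply, Fin.zero_eta, Fin.mk_one,
      Fin.reduceFinMk]
    linear_combination (A 0 1 * A 1 2 - A 0 2 * A 1 1) * h0 + (A 0 2 * A 1 0 - A 0 0 * A 1 2) * h1
      + (A 0 0 * A 1 1 - A 0 1 * A 1 0) * h2

theorem iso_left {R : M3} (hR : Rᵀ * R = 1) (A : M3) (x : V) : Iso0 (Rᵀ * A) x ↔ Iso0 A x := by
  unfold Iso0
  rw [← Matrix.mulVec_mulVec, dotR (rt' hR)]

theorem iso_right {R : M3} (hR : Rᵀ * R = 1) (A : M3) (y : V) :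
    Iso0 (Rᵀ * A)ᵀ (Rᵀ *ᵥ y) ↔ Iso0 Aᵀ y := by
  unfold Iso0
  rw [Matrix.transpose_mul, Matrix.transpose_transpose, ← Matrix.mulVec_mulVec, invR' hR,
    dotR (rt' hR)]

open scoped Classical in
theorem rich_mp {Λ : Finset (V × V)} {h : ℝ} {R : M3} (hR : Rᵀ * R = 1) {p q : V × V}
    (H : RichPair Λ h p q) :
    RichPair (Λ.image (fun p => (p.1, R *ᵥ p.2))) h (p.1, R *ᵥ p.2) (q.1, R *ᵥ q.2) := by
  obtain ⟨Q, hQ, hp, hq, hc⟩ := H
  refine ⟨R * Q, ?_, ?_, ?_, ?_⟩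
  · rw [Matrix.transpose_mul, Matrix.mul_assoc, ← Matrix.mul_assoc Rᵀ R Q, hR, Matrix.one_mul, hQ]
  · show (R * Q) *ᵥ p.1 = R *ᵥ p.2
    rw [← Matrix.mulVec_mulVec, hp]
  · show (R * Q) *ᵥ q.1 = R *ᵥ q.2
    rw [← Matrix.mulVec_mulVec, hq]
  · refine hc.trans ?_
    norm_cast
    refine Finset.card_le_card_of_injOn (fun p => (p.1, R *ᵥ p.2)) ?_ ?_
    · intro r hr
      have hr := Finset.mem_filter.1 (Finset.mem_coe.1 hr)
      refine Finset.mem_coe.2 (Finset.mem_filter.2 ⟨Finset.mem_image_of_mem _ hr.1, ?_⟩)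
      show (R * Q) *ᵥ r.1 = R *ᵥ r.2
      rw [← Matrix.mulVec_mulVec, hr.2]
    · intro a _ b _ hab
      have h1 : a.1 = b.1 := (Prod.mk.inj hab).1
      have h2 : R *ᵥ a.2 = R *ᵥ b.2 := (Prod.mk.inj hab).2
      exact Prod.ext h1 (injR hR h2)

open scoped Classical in
theorem image_back {Λ : Finset (V × V)} {R : M3} (hR : Rᵀ * R = 1) :
    (Λ.image (fun p => (p.1, R *ᵥ p.2))).image (fun p => (p.1, Rᵀ *ᵥ p.2)) = Λ := by
  ext r
  simp only [Finset.mem_image, exists_exists_and_eq_and]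
  constructor
  · rintro ⟨a, ha, rfl⟩
    simpa [invR hR] using ha
  · intro hr
    exact ⟨r, hr, by simp [invR hR]⟩

end Tr

open Tr

open scoped Classical in
/-- transport by an orthogonal matrix acting on the second components -/
theorem transport {Λ : Finset (V × V)} {X Y : Finset V} {n B K h : ℝ} {κ κ' : V → ℝ} (R : M3)
    (hR : Rᵀ * R = 1) (hyp : Hyp Λ X Y n B K) (hl : Lab X Y κ κ' h) :
    Hyp (Λ.image (fun p => (p.1, R *ᵥ p.2))) X (Y.image (fun y => R *ᵥ y)) n B K ∧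
    Lab X (Y.image (fun y => R *ᵥ y)) κ (fun y => κ' (Rᵀ *ᵥ y)) h ∧
    (Λ.image (fun p => (p.1, R *ᵥ p.2))).card = Λ.card ∧
    ∀ p ∈ Λ, ∀ q ∈ Λ, (Bad Λ κ κ' h p q ↔
      Bad (Λ.image (fun p => (p.1, R *ᵥ p.2))) κ (fun y => κ' (Rᵀ *ᵥ y)) h
        (p.1, R *ᵥ p.2) (q.1, R *ᵥ q.2)) := by
  have hinjT : Function.Injective (fun y : V => Rᵀ *ᵥ y) := injR (rt' hR)
  have hmemT : ∀ y ∈ Y.image (fun y => R *ᵥ y), Rᵀ *ᵥ y ∈ Y := by
    intro y hy
    obtain ⟨y0, hy0, rfl⟩ := Finset.mem_image.1 hy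
    simpa [invR hR] using hy0
  have hback : ∀ F ⊆ Y.image (fun y => R *ᵥ y), F.image (fun y => Rᵀ *ᵥ y) ⊆ Y ∧
      (F.image (fun y => Rᵀ *ᵥ y)).card = F.card := by
    intro F hF
    refine ⟨?_, Finset.card_image_of_injective _ hinjT⟩
    intro z hz
    obtain ⟨y, hy, rfl⟩ := Finset.mem_image.1 hz
    exact hmemT y (hF hy)
  refine ⟨?_, ?_, ?_, ?_⟩
  · constructor
    · intro p hp
      obtain ⟨p0, hp0, rfl⟩ := Finset.mem_image.1 hp
      refine ⟨?_, (hyp.pair p0 hp0).2⟩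
      show p0.1 ⬝ᵥ p0.1 = (R *ᵥ p0.2) ⬝ᵥ (R *ᵥ p0.2)
      rw [dotR hR]
      exact (hyp.pair p0 hp0).1
    · intro p hp
      obtain ⟨p0, hp0, rfl⟩ := Finset.mem_image.1 hp
      exact hyp.memX p0 hp0
    · intro p hp
      obtain ⟨p0, hp0, rfl⟩ := Finset.mem_image.1 hp
      exact Finset.mem_image_of_mem _ (hyp.memY p0 hp0)
    · exact hyp.cardX
    · refine le_trans ?_ hyp.cardY
      exact_mod_cast Finset.card_image_le
    · exact hyp.planeX
    · intro u b hu F hF hFb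
      obtain ⟨h1, h2⟩ := hback F hF
      rw [← h2]
      refine hyp.planeY (Rᵀ *ᵥ u) b ?_ _ h1 ?_
      · intro h0
        apply hu
        have := congrArg (fun y => R *ᵥ y) h0
        simpa [invR' hR] using this
      · intro x hx
        obtain ⟨y, hy, rfl⟩ := Finset.mem_image.1 hx
        show (Rᵀ *ᵥ u) ⬝ᵥ (Rᵀ *ᵥ y) = b
        rw [dotR (rt' hR)]
        exact hFb y hy
    · exact hyp.lineX
    · intro u hu F hF hFb
      obtain ⟨h1, h2⟩ := hback F hF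
      rw [← h2]
      refine hyp.lineY (Rᵀ *ᵥ u) ?_ _ h1 ?_
      · intro h0
        apply hu
        have := congrArg (fun y => R *ᵥ y) h0
        simpa [invR' hR] using this
      · intro x hx
        obtain ⟨y, hy, rfl⟩ := Finset.mem_image.1 hx
        exact cr_map _ _ _ (hFb y hy)
  · intro A B hAB hdet h1 h2 h3 h4 x hx hxA x' hx' hxB y hy hyB y' hy' hyA hκ
    have e1 : (Rᵀ * A)ᵀ * (Rᵀ * B) = 1 := by
      rw [Matrix.transpose_mul, Matrix.transpose_transpose, Matrix.mul_assoc,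
        ← Matrix.mul_assoc R Rᵀ B, rt hR, Matrix.one_mul, hAB]
    have e2 : (Rᵀ * A)ᵀ * (Rᵀ * A) = Aᵀ * A := by
      rw [Matrix.transpose_mul, Matrix.transpose_transpose, Matrix.mul_assoc,
        ← Matrix.mul_assoc R Rᵀ A, rt hR, Matrix.one_mul]
    refine hl (Rᵀ * A) (Rᵀ * B) e1 (by rw [e2]; exact hdet) ?_ ?_ ?_ ?_ x hx
      ((iso_left hR A x).2 hxA) x' hx' ((iso_left hR B x').2 hxB) (Rᵀ *ᵥ y) (hmemT y hy)
      ((iso_right hR B y).2 hyB) (Rᵀ *ᵥ y') (hmemT y' hy') ((iso_right hR A y').2 hyA) hκ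
    · obtain ⟨F, hF, hFi, hFc⟩ := h1
      exact ⟨F, hF, fun x hx => (iso_left hR A x).2 (hFi x hx), hFc⟩
    · obtain ⟨F, hF, hFi, hFc⟩ := h2
      exact ⟨F, hF, fun x hx => (iso_left hR B x).2 (hFi x hx), hFc⟩
    · obtain ⟨F, hF, hFi, hFc⟩ := h3
      refine ⟨F.image (fun y => Rᵀ *ᵥ y), (hback F hF).1, ?_, ?_⟩
      · intro z hz
        obtain ⟨y, hy, rfl⟩ := Finset.mem_image.1 hz
        exact (iso_right hR B y).2 (hFi y hy)
      · rw [(hback F hF).2]; exact hFc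
    · obtain ⟨F, hF, hFi, hFc⟩ := h4
      refine ⟨F.image (fun y => Rᵀ *ᵥ y), (hback F hF).1, ?_, ?_⟩
      · intro z hz
        obtain ⟨y, hy, rfl⟩ := Finset.mem_image.1 hz
        exact (iso_right hR A y).2 (hFi y hy)
      · rw [(hback F hF).2]; exact hFc
  · apply Finset.card_image_of_injective
    intro a b hab
    have h1 : a.1 = b.1 := (Prod.mk.inj hab).1
    have h2 : R *ᵥ a.2 = R *ᵥ b.2 := (Prod.mk.inj hab).2
    exact Prod.ext h1 (injR hR h2)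
  · intro p hp q hq
    have hrich : RichPair Λ h p q ↔
        RichPair (Λ.image (fun p => (p.1, R *ᵥ p.2))) h (p.1, R *ᵥ p.2) (q.1, R *ᵥ q.2) := by
      constructor
      · exact rich_mp hR
      · intro H
        have H2 := rich_mp (rt' hR) H
        rw [image_back hR] at H2
        simpa [invR hR] using H2
    unfold Bad Meet
    simp only [dotR hR, invR hR, hrich]

end Vale.Agent.P054.Y.GF
end

section

/-! Leaf GF-Fibre: the bound for the number of bad pairs, without the chart condition: a generic rotation of the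
second components (`exists_rot`) puts `Λ` in general position with respect to the chart, all notions are
transported (`transport`), then `fibre_chart`. -/

set_option linter.all false

namespace Vale.Agent.P054.Y.GF

open Finset Matrix MvPolynomial
open Vale.Agent.P041.SE

open scoped Classical in
theorem fibre (e : ℝ) (he : 0 < e) (he1 : e ≤ 1 / 2) : ∃ C : ℝ, 1 ≤ C ∧
    ∀ (Λ : Finset (V × V)) (X Y : Finset V) (n B K h : ℝ) (κ κ' : V → ℝ), 1 ≤ K → 0 ≤ B → 1 ≤ n →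
    Hyp Λ X Y n B K → Lab X Y κ κ' h →
    C * K * (B + (Λ.card : ℝ) ^ (1 / 2 : ℝ) + 1) ≤ h → C * K ^ 2 * n ^ 2 ≤ h ^ 3 →
    (((Λ ×ˢ Λ).filter (fun q => Bad Λ κ κ' h q.1 q.2)).card : ℝ) ≤
      C * K ^ 2 * ((Λ.card : ℝ) ^ (3 / 2 + e) + Λ.card * h) := by
  obtain ⟨C, hC, H⟩ := fibre_chart e he he1
  refine ⟨C, hC, ?_⟩
  intro Λ X Y n B K h κ κ' hK hB hn hyp hl h1 h2
  obtain ⟨R, hR, hch⟩ := exists_rot Λ hyp.pair
  obtain ⟨hyp', hl', hcard, hbad⟩ := transport R hR hyp hl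
  have key := H (Λ.image (fun p => (p.1, R *ᵥ p.2))) X (Y.image (fun y => R *ᵥ y)) n B K h κ
    (fun y => κ' (Rᵀ *ᵥ y)) hK hB hn hyp' hch hl' (by rw [hcard]; exact h1) h2
  rw [hcard] at key
  refine le_trans ?_ key
  have hinj : Set.InjOn (fun p : V × V => (p.1, R *ᵥ p.2)) (Λ : Set (V × V)) :=
    Finset.card_image_iff.1 hcard
  norm_cast
  refine Finset.card_le_card_of_injOn
    (fun q : (V × V) × (V × V) => ((q.1.1, R *ᵥ q.1.2), (q.2.1, R *ᵥ q.2.2))) ?_ ?_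
  · intro q hq
    have hq' := Finset.mem_filter.1 (Finset.mem_coe.1 hq)
    obtain ⟨hm, hb⟩ := hq'
    obtain ⟨hm1, hm2⟩ := Finset.mem_product.1 hm
    refine Finset.mem_coe.2 (Finset.mem_filter.2 ⟨Finset.mem_product.2 ⟨?_, ?_⟩, ?_⟩)
    · exact Finset.mem_image_of_mem (fun p : V × V => (p.1, R *ᵥ p.2)) hm1
    · exact Finset.mem_image_of_mem (fun p : V × V => (p.1, R *ᵥ p.2)) hm2
    · exact (hbad q.1 hm1 q.2 hm2).1 hb
  · intro q hq q' hq' heq
    have hm := (Finset.mem_product.1 (Finset.mem_filter.1 (Finset.mem_coe.1 hq)).1)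
    have hm' := (Finset.mem_product.1 (Finset.mem_filter.1 (Finset.mem_coe.1 hq')).1)
    have e1 := (Prod.mk.inj heq).1
    have e2 := (Prod.mk.inj heq).2
    exact Prod.ext (hinj (Finset.mem_coe.2 hm.1) (Finset.mem_coe.2 hm'.1) e1)
      (hinj (Finset.mem_coe.2 hm.2) (Finset.mem_coe.2 hm'.2) e2)

end Vale.Agent.P054.Y.GF
end

section

/-! The fibre theorem without a condition between `h` and the number of pairs (helper917):
`Bad` and `Lab` are monotone in `h`. -/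

set_option linter.all false

namespace Vale.Agent.P054.Y.GF

open Finset Matrix MvPolynomial
open Vale.Agent.P041.SE

theorem RichPair.mono {Λ : Finset (V × V)} {h h' : ℝ} (hh : h ≤ h') {p q : V × V}
    (H : RichPair Λ h' p q) : RichPair Λ h p q := by
  obtain ⟨Q, h1, h2, h3, h4⟩ := H
  exact ⟨Q, h1, h2, h3, hh.trans h4⟩

theorem Bad.mono {Λ : Finset (V × V)} {κ κ' : V → ℝ} {h h' : ℝ} (hh : h ≤ h') {p q : V × V}
    (H : Bad Λ κ κ' h p q) : Bad Λ κ κ' h' p q :=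
  ⟨H.1, H.2.1, H.2.2.1, fun H' => H.2.2.2 (RichPair.mono hh H')⟩

theorem Lab.mono {X Y : Finset V} {κ κ' : V → ℝ} {h h' : ℝ} (hh : h ≤ h')
    (H : Lab X Y κ κ' h) : Lab X Y κ κ' h' := by
  intro A B hAB hA h1 h2 h3 h4
  obtain ⟨F1, f1, f1', f1''⟩ := h1
  obtain ⟨F2, f2, f2', f2''⟩ := h2
  obtain ⟨F3, f3, f3', f3''⟩ := h3
  obtain ⟨F4, f4, f4', f4''⟩ := h4
  exact H A B hAB hA ⟨F1, f1, f1', hh.trans f1''⟩ ⟨F2, f2, f2', hh.trans f2''⟩
    ⟨F3, f3, f3', hh.trans f3''⟩ ⟨F4, f4, f4', hh.trans f4''⟩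

/-- the condition `C K² n² ≤ h³` -/
theorem fibre_num1 {C K m n : ℝ} (hC : 1 ≤ C) (hK : 1 ≤ K) (hm3 : m ^ 3 = n ^ 2) :
    C * K ^ 2 * n ^ 2 ≤ (C * K * m) ^ 3 := by
  rw [mul_pow, mul_pow, hm3]
  have e3 : C ≤ C ^ 3 := le_self_pow₀ hC (by norm_num)
  have e4 : K ^ 2 ≤ K ^ 3 := pow_le_pow_right₀ hK (by norm_num)
  have e5 : C * K ^ 2 ≤ C ^ 3 * K ^ 3 := mul_le_mul e3 e4 (by positivity) (by positivity)
  exact mul_le_mul_of_nonneg_right e5 (by positivity)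

theorem fibre_num2 {A E N s h B m : ℝ} (hA : 1 ≤ A) (hE : 0 ≤ E) (hN : 0 ≤ N) (hh : 0 ≤ h)
    (hB : 0 ≤ B) (hm : 1 ≤ m) (hNs : N * s ≤ E) :
    E + N * (h + A * (B + s + 1) + A * m) ≤ A * (5 * (E + N * (h + B + m))) := by
  have hA0 : 0 ≤ A := by linarith
  have a1 : E ≤ A * E := le_mul_of_one_le_left hE hA
  have a2 : N * h ≤ A * (N * h) := le_mul_of_one_le_left (mul_nonneg hN hh) hA
  have a3 : A * (N * s) ≤ A * E := mul_le_mul_of_nonneg_left hNs hA0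
  have a4 : A * (N * 1) ≤ A * (N * m) :=
    mul_le_mul_of_nonneg_left (mul_le_mul_of_nonneg_left hm hN) hA0
  have a5 : 0 ≤ A * (N * m) := by positivity
  have a6 : 0 ≤ A * (N * B) := by positivity
  have a7 : 0 ≤ A * (N * h) := by positivity
  have a8 : 0 ≤ A * E := by positivity
  have e1 : E + N * (h + A * (B + s + 1) + A * m) =
    E + N * h + A * (N * B) + A * (N * s) + A * (N * 1) + A * (N * m) := by ring
  have e2 : A * (5 * (E + N * (h + B + m))) =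
    5 * (A * E) + 5 * (A * (N * h)) + 5 * (A * (N * B)) + 5 * (A * (N * m)) := by ring
  rw [e1, e2]
  linarith

theorem fibre_num3 {N e : ℝ} (he : 0 < e) (hN : N = 0 ∨ 1 ≤ N) :
    N * N ^ (1 / 2 : ℝ) ≤ N ^ (3 / 2 + e) := by
  rcases hN with h0 | h0
  · rw [h0, zero_mul]
    exact Real.rpow_nonneg le_rfl _
  · have h1 : N * N ^ (1 / 2 : ℝ) = N ^ (3 / 2 : ℝ) := by
      have h2 : N * N ^ (1 / 2 : ℝ) = N ^ (1 : ℝ) * N ^ (1 / 2 : ℝ) := by rw [Real.rpow_one]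
      rw [h2, ← Real.rpow_add (by linarith)]
      norm_num
    rw [h1]
    exact Real.rpow_le_rpow_of_exponent_le h0 (by linarith)

open scoped Classical in
/-- **fibre theorem**, without a condition between `h` and the number of pairs -/
theorem fibre_all (e : ℝ) (he : 0 < e) (he1 : e ≤ 1 / 2) : ∃ C : ℝ, 1 ≤ C ∧
    ∀ (Λ : Finset (V × V)) (X Y : Finset V) (n B K h : ℝ) (κ κ' : V → ℝ), 1 ≤ K → 0 ≤ B → 1 ≤ n → 0 ≤ h →
    Hyp Λ X Y n B K → Lab X Y κ κ' h →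
    (((Λ ×ˢ Λ).filter (fun q => Bad Λ κ κ' h q.1 q.2)).card : ℝ) ≤
      C * K ^ 3 * ((Λ.card : ℝ) ^ (3 / 2 + e) + Λ.card * (h + B + n ^ ((2 : ℝ) / 3))) := by
  obtain ⟨C, hC1, hC⟩ := fibre e he he1
  have hCC : (1 : ℝ) ≤ 5 * C ^ 2 := by
    have : (1 : ℝ) ≤ C ^ 2 := one_le_pow₀ hC1
    linarith
  refine ⟨5 * C ^ 2, hCC, ?_⟩
  intro Λ X Y n B K h κ κ' hK hB hn hh hyp hlab
  have hm1 : 1 ≤ n ^ ((2 : ℝ) / 3) := Real.one_le_rpow hn (by norm_num)
  have hm3 : (n ^ ((2 : ℝ) / 3)) ^ 3 = n ^ 2 := by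
    rw [← Real.rpow_natCast, ← Real.rpow_mul (by linarith)]
    norm_num
  have hN0 : (0 : ℝ) ≤ (Λ.card : ℝ) := Nat.cast_nonneg _
  have hN01 : (Λ.card : ℝ) = 0 ∨ (1 : ℝ) ≤ (Λ.card : ℝ) := by
    rcases Nat.eq_zero_or_pos Λ.card with h0 | h0
    · left
      rw [h0]
      exact Nat.cast_zero
    · right
      exact_mod_cast h0
  have hNs := fibre_num3 he hN01
  have hs0 : 0 ≤ (Λ.card : ℝ) ^ (1 / 2 : ℝ) := Real.rpow_nonneg hN0 _
  have hE0 : 0 ≤ (Λ.card : ℝ) ^ (3 / 2 + e) := Real.rpow_nonneg hN0 _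
  generalize n ^ ((2 : ℝ) / 3) = m at hm1 hm3 ⊢
  have hC0 : 0 < C := by linarith
  have hK0 : 0 < K := by linarith
  have hCK : 1 ≤ C * K := one_le_mul_of_one_le_of_one_le hC1 hK
  have p1 : 0 ≤ C * K * (B + (Λ.card : ℝ) ^ (1 / 2 : ℝ) + 1) := by (clear * - hC1 hK hB; positivity)
  have p2 : 0 ≤ C * K * m := by positivity
  have hle : h ≤ h + C * K * (B + (Λ.card : ℝ) ^ (1 / 2 : ℝ) + 1) + C * K * m := by linarith only [p2, p1]
  have hmain := hC Λ X Y n B K (h + C * K * (B + (Λ.card : ℝ) ^ (1 / 2 : ℝ) + 1) + C * K * m)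
    κ κ' hK hB hn hyp (hlab.mono hle) (by linarith only [p2, hh])
    ((fibre_num1 hC1 hK hm3).trans (pow_le_pow_left₀ p2 (by linarith only [p1, hh]) 3))
  have hsub : (((Λ ×ˢ Λ).filter (fun q => Bad Λ κ κ' h q.1 q.2)).card : ℝ) ≤
      (((Λ ×ˢ Λ).filter (fun q => Bad Λ κ κ'
        (h + C * K * (B + (Λ.card : ℝ) ^ (1 / 2 : ℝ) + 1) + C * K * m) q.1 q.2)).card : ℝ) := by
    apply Nat.cast_le.2
    apply Finset.card_le_card
    intro q hq
    rw [Finset.mem_filter] at hq ⊢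
    exact ⟨hq.1, Bad.mono hle hq.2⟩
  refine hsub.trans (hmain.trans ?_)
  have k2 := fibre_num2 hCK hE0 hN0 hh hB hm1 hNs
  calc C * K ^ 2 * ((Λ.card : ℝ) ^ (3 / 2 + e) +
        Λ.card * (h + C * K * (B + (Λ.card : ℝ) ^ (1 / 2 : ℝ) + 1) + C * K * m))
      ≤ C * K ^ 2 * (C * K * (5 * ((Λ.card : ℝ) ^ (3 / 2 + e) + Λ.card * (h + B + m)))) :=
        mul_le_mul_of_nonneg_left k2 (by positivity)
    _ = 5 * C ^ 2 * K ^ 3 * ((Λ.card : ℝ) ^ (3 / 2 + e) + Λ.card * (h + B + m)) := by ring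

end Vale.Agent.P054.Y.GF
end

section

set_option autoImplicit false

open Finset

namespace Vale.Agent.P041.SE

open scoped Classical in
/-- the Elekes–Sharir lines of `K` -/
noncomputable def esL (K : Finset ℂ) : Finset (ℂ × ℂ) := (K ×ˢ K).image (fun q => es q.1 q.2)

theorem es_inj' : Function.Injective (fun q : ℂ × ℂ => es q.1 q.2) := by
  intro q q' h
  obtain ⟨h1, h2⟩ := es_injective h
  exact Prod.ext h1 h2

theorem esL_card (K : Finset ℂ) : (esL K).card = K.card ^ 2 := by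
  unfold esL
  rw [card_image_of_injective _ es_inj', card_product, sq]

open scoped Classical in
/-- quadruples with `a - b = c - d` -/
theorem transl_card (K : Finset ℂ) :
    (((K ×ˢ K) ×ˢ (K ×ˢ K)).filter (fun q => q.1.1 - q.1.2 = q.2.1 - q.2.2)).card
      ≤ K.card ^ 3 := by
  have : ((K ×ˢ K) ×ˢ K).card = K.card ^ 3 := by
    rw [card_product, card_product]; ring
  rw [← this]
  apply card_le_card_of_injOn (fun q => ((q.1.1, q.1.2), q.2.1))
  · intro q hq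
    have hq' := mem_filter.1 (mem_coe.1 hq)
    simp only [mem_product] at hq'
    simp only [mem_coe, mem_product]
    exact ⟨hq'.1.1, hq'.1.2.1⟩
  · rintro ⟨⟨a, b⟩, ⟨c, d⟩⟩ hq ⟨⟨a', b'⟩, ⟨c', d'⟩⟩ hq' h
    have hq1 := (mem_filter.1 (mem_coe.1 hq)).2
    have hq2 := (mem_filter.1 (mem_coe.1 hq')).2
    simp only [Prod.mk.injEq] at h hq1 hq2 ⊢
    obtain ⟨⟨rfl, rfl⟩, rfl⟩ := h
    refine ⟨⟨rfl, rfl⟩, rfl, ?_⟩
    linear_combination hq1 - hq2

open scoped Classical in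
/-- the other quadruples give good pairs of Elekes–Sharir lines -/
theorem quad_le_good (K : Finset ℂ) (D : ℕ) (s τ : ℝ) (hs : (K.card : ℝ) ≤ s)
    (hτ : ((6 * (D + 1) ^ 2 + 1) * K.card : ℕ) < τ) :
    (((K ×ˢ K) ×ˢ (K ×ˢ K)).filter (fun q => dist q.1.1 q.1.2 = dist q.2.1 q.2.2 ∧
      q.1.1 - q.1.2 ≠ q.2.1 - q.2.2)).card ≤ (Good D (esL K) s τ).card := by
  apply card_le_card_of_injOn (fun q => (es q.1.1 q.2.1, es q.1.2 q.2.2))
  · rintro ⟨⟨a, b⟩, ⟨c, d⟩⟩ hq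
    have hq' := mem_filter.1 (mem_coe.1 hq)
    simp only [mem_product] at hq'
    obtain ⟨⟨⟨ha, hb⟩, hc, hd⟩, hdist, hne⟩ := hq'
    have hmem : ∀ x ∈ K, ∀ y ∈ K, es x y ∈ esL K := by
      intro x hx y hy
      exact mem_image.2 ⟨(x, y), mem_product.2 ⟨hx, hy⟩, rfl⟩
    simp only [mem_coe, Good, mem_filter, mem_product]
    refine ⟨⟨hmem a ha c hc, hmem b hb d hd⟩, ?_, ?_, ?_⟩
    · intro h
      obtain ⟨h1, h2⟩ := es_injective h
      exact hne (by rw [h1, h2]; ring)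
    · obtain ⟨p, hp1, hp2⟩ := es_meet hdist hne
      refine ⟨p, hp1, hp2, ?_⟩
      refine le_trans ?_ hs
      exact_mod_cast es_rich K p
    · intro φ hφ hD _ _
      refine lt_of_le_of_lt ?_ hτ
      have h1 : (inside (esL K) φ).card ≤ (6 * (D + 1) ^ 2 + 1) * K.card := by
        have h2 : inside (esL K) φ =
            ((K ×ˢ K).filter (fun q => InZ φ (es q.1 q.2))).image (fun q => es q.1 q.2) := by
          unfold inside esL
          rw [filter_image]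
        rw [h2]
        exact card_image_le.trans (es_surface φ hφ D hD K)
      exact_mod_cast h1
  · rintro ⟨⟨a, b⟩, ⟨c, d⟩⟩ _ ⟨⟨a', b'⟩, ⟨c', d'⟩⟩ _ h
    simp only [Prod.mk.injEq] at h
    obtain ⟨h1, h2⟩ := es_injective h.1
    obtain ⟨h3, h4⟩ := es_injective h.2
    rw [h1, h2, h3, h4]

open scoped Classical in
/-- Guth–Katz: few pairs of congruent segments, with loss `ε` -/
theorem gk_energy (ε : ℝ) (hε : 0 < ε) : ∃ C : ℝ, 0 < C ∧ ∀ K : Finset ℂ,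
    ((((K ×ˢ K) ×ˢ (K ×ˢ K)).filter
      (fun q => dist q.1.1 q.1.2 = dist q.2.1 q.2.2)).card : ℝ) ≤ C * (K.card : ℝ) ^ (3 + ε) := by
  set η : ℝ := min (ε / 2) (1 / 2) with hη
  have hη0 : 0 < η := lt_min (by linarith) (by norm_num)
  have hη1 : η ≤ ε / 2 := min_le_left _ _
  have hη2 : η ≤ 1 / 2 := min_le_right _ _
  obtain ⟨D, C, hC⟩ := guth η hη0 hη2
  obtain ⟨N, hN⟩ : ∃ N : ℕ, ∀ n : ℕ, N ≤ n → ((6 * (D + 1) ^ 2 + 1 : ℕ) : ℝ) < (n : ℝ) ^ (2 * η) := by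
    have ht : Filter.Tendsto (fun n : ℕ => (n : ℝ) ^ (2 * η)) Filter.atTop Filter.atTop :=
      (tendsto_rpow_atTop (by positivity)).comp tendsto_natCast_atTop_atTop
    have := (ht.eventually_gt_atTop ((6 * (D + 1) ^ 2 + 1 : ℕ) : ℝ))
    obtain ⟨N, hN⟩ := Filter.eventually_atTop.1 this
    exact ⟨N, hN⟩
  refine ⟨max C 0 + 1 + N, by positivity, ?_⟩
  intro K
  rcases Nat.eq_zero_or_pos K.card with h0 | hpos
  · rw [card_eq_zero] at h0
    subst h0
    simp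
    positivity
  set n := K.card with hn
  have hn1 : (1 : ℝ) ≤ n := by exact_mod_cast hpos
  have hn0 : (0 : ℝ) < n := by linarith
  have hp3 : (n : ℝ) ^ 3 ≤ (n : ℝ) ^ (3 + ε) := by
    rw [← Real.rpow_natCast]
    exact Real.rpow_le_rpow_of_exponent_le hn1 (by push_cast; linarith)
  have hp0 : (0 : ℝ) ≤ (n : ℝ) ^ (3 + ε) := by positivity
  by_cases hbig : N ≤ n
  · have h1 := hN n hbig
    have hsplit : ((((K ×ˢ K) ×ˢ (K ×ˢ K)).filter
        (fun q => dist q.1.1 q.1.2 = dist q.2.1 q.2.2)).card : ℝ) ≤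
        (((K ×ˢ K) ×ˢ (K ×ˢ K)).filter (fun q => q.1.1 - q.1.2 = q.2.1 - q.2.2)).card +
        (((K ×ˢ K) ×ˢ (K ×ˢ K)).filter (fun q => dist q.1.1 q.1.2 = dist q.2.1 q.2.2 ∧
          q.1.1 - q.1.2 ≠ q.2.1 - q.2.2)).card := by
      have : (((K ×ˢ K) ×ˢ (K ×ˢ K)).filter
        (fun q => dist q.1.1 q.1.2 = dist q.2.1 q.2.2)) ⊆
        (((K ×ˢ K) ×ˢ (K ×ˢ K)).filter (fun q => q.1.1 - q.1.2 = q.2.1 - q.2.2)) ∪
        (((K ×ˢ K) ×ˢ (K ×ˢ K)).filter (fun q => dist q.1.1 q.1.2 = dist q.2.1 q.2.2 ∧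
          q.1.1 - q.1.2 ≠ q.2.1 - q.2.2)) := by
        intro q hq
        rw [mem_filter] at hq
        rw [mem_union, mem_filter, mem_filter]
        by_cases h : q.1.1 - q.1.2 = q.2.1 - q.2.2
        · exact Or.inl ⟨hq.1, h⟩
        · exact Or.inr ⟨hq.1, hq.2, h⟩
      exact_mod_cast (card_le_card this).trans (card_union_le _ _)
    have hL : ((esL K).card : ℝ) = (n : ℝ) ^ 2 := by
      rw [esL_card]; push_cast; rfl
    have hsq : ((n : ℝ) ^ 2) ^ (1 / 2 : ℝ) = n := by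
      rw [← Real.sqrt_eq_rpow, Real.sqrt_sq hn0.le]
    have hτ : ((6 * (D + 1) ^ 2 + 1) * n : ℕ) < ((n : ℝ) ^ 2) ^ (1 / 2 + η : ℝ) := by
      rw [Real.rpow_add (by positivity), hsq, ← Real.rpow_natCast, ← Real.rpow_mul hn0.le]
      push_cast at h1 ⊢
      rw [mul_comm]
      exact mul_lt_mul_of_pos_left h1 hn0
    have h2 := quad_le_good K D (((n : ℝ) ^ 2) ^ (1 / 2 : ℝ)) (((n : ℝ) ^ 2) ^ (1 / 2 + η : ℝ))
      hsq.ge hτ
    have h3 := hC (esL K)
    rw [hL] at h3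
    have h4 : ((n : ℝ) ^ 2) ^ (3 / 2 + η : ℝ) ≤ (n : ℝ) ^ (3 + ε) := by
      rw [← Real.rpow_natCast, ← Real.rpow_mul hn0.le]
      exact Real.rpow_le_rpow_of_exponent_le hn1 (by push_cast; linarith only [hη1])
    have h5 : C * ((n : ℝ) ^ 2) ^ (3 / 2 + η : ℝ) ≤ max C 0 * (n : ℝ) ^ (3 + ε) := by
      calc C * ((n : ℝ) ^ 2) ^ (3 / 2 + η : ℝ) ≤ max C 0 * ((n : ℝ) ^ 2) ^ (3 / 2 + η : ℝ) :=
            mul_le_mul_of_nonneg_right (le_max_left _ _) (by positivity)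
        _ ≤ _ := mul_le_mul_of_nonneg_left h4 (le_max_right _ _)
    have h6 : ((((K ×ˢ K) ×ˢ (K ×ˢ K)).filter
        (fun q => q.1.1 - q.1.2 = q.2.1 - q.2.2)).card : ℝ) ≤ (n : ℝ) ^ (3 + ε) := by
      refine le_trans ?_ hp3
      exact_mod_cast transl_card K
    have h7 : ((((K ×ˢ K) ×ˢ (K ×ˢ K)).filter (fun q => dist q.1.1 q.1.2 = dist q.2.1 q.2.2 ∧
          q.1.1 - q.1.2 ≠ q.2.1 - q.2.2)).card : ℝ) ≤ max C 0 * (n : ℝ) ^ (3 + ε) := by
      refine le_trans ?_ (h3.trans h5)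
      exact_mod_cast h2
    have h8 : 0 ≤ (N : ℝ) * (n : ℝ) ^ (3 + ε) := by (clear * - hpos; positivity)
    calc _ ≤ _ := hsplit
      _ ≤ (n : ℝ) ^ (3 + ε) + max C 0 * (n : ℝ) ^ (3 + ε) := add_le_add h6 h7
      _ ≤ (max C 0 + 1 + N) * (n : ℝ) ^ (3 + ε) := by linarith only [h8]
  · have hlt : (n : ℝ) ≤ N := by exact_mod_cast (not_le.1 hbig).le
    have h1 : ((((K ×ˢ K) ×ˢ (K ×ˢ K)).filter
        (fun q => dist q.1.1 q.1.2 = dist q.2.1 q.2.2)).card : ℝ) ≤ (n : ℝ) * (n : ℝ) ^ 3 := by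
      have h2 : (((K ×ˢ K) ×ˢ (K ×ˢ K)).filter
        (fun q => dist q.1.1 q.1.2 = dist q.2.1 q.2.2)).card ≤ n * n ^ 3 := by
        refine (card_filter_le _ _).trans (le_of_eq ?_)
        rw [card_product, card_product]; ring
      exact_mod_cast h2
    calc _ ≤ _ := h1
      _ ≤ (N : ℝ) * (n : ℝ) ^ (3 + ε) := mul_le_mul hlt hp3 (by positivity) (by positivity)
      _ ≤ (max C 0 + 1 + N) * (n : ℝ) ^ (3 + ε) := by
        apply mul_le_mul_of_nonneg_right _ hp0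
        have := le_max_right C 0
        linarith

end Vale.Agent.P041.SE
end

section

set_option autoImplicit false

open Finset

namespace Vale.Agent.P054.Y.G

theorem pl_exists_perp (n : Fin 3 → ℝ) :
    ∃ u : Fin 3 → ℝ, 0 < u ⬝ᵥ u ∧ u ⬝ᵥ n = 0 := by
  by_cases h : n 0 = 0 ∧ n 1 = 0
  · refine ⟨![1, 0, 0], ?_, ?_⟩
    · simp [dotProduct, Fin.sum_univ_three]
    · simp [dotProduct, Fin.sum_univ_three, h.1]
  · refine ⟨![-(n 1), n 0, 0], ?_, ?_⟩
    · simp only [dotProduct, Fin.sum_univ_three, Matrix.cons_val_zero, Matrix.cons_val_one,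
        Matrix.cons_val]
      have h1 : 0 ≤ n 0 * n 0 := mul_self_nonneg _
      have h2 : 0 ≤ n 1 * n 1 := mul_self_nonneg _
      rcases lt_or_eq_of_le h1 with h3 | h3
      · linarith only [h3, h2]
      · rcases lt_or_eq_of_le h2 with h4 | h4
        · linarith only [h4, h3]
        · exact absurd ⟨mul_self_eq_zero.1 h3.symm, mul_self_eq_zero.1 h4.symm⟩ h
    · simp only [dotProduct, Fin.sum_univ_three, Matrix.cons_val_zero, Matrix.cons_val_one,
        Matrix.cons_val]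
      ring

theorem pl_dot_pos (n : Fin 3 → ℝ) (hn : n ≠ 0) : 0 < n ⬝ᵥ n := by
  have h : 0 ≤ n ⬝ᵥ n := by
    simp only [dotProduct, Fin.sum_univ_three]
    nlinarith [mul_self_nonneg (n 0), mul_self_nonneg (n 1), mul_self_nonneg (n 2)]
  rcases lt_or_eq_of_le h with h1 | h1
  · exact h1
  · exfalso
    apply hn
    simp only [dotProduct, Fin.sum_univ_three] at h1
    have a0 := mul_self_nonneg (n 0)
    have a1 := mul_self_nonneg (n 1)
    have a2 := mul_self_nonneg (n 2)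
    funext i
    fin_cases i
    · exact mul_self_eq_zero.1 (by simp only [Fin.zero_eta]; linarith)
    · exact mul_self_eq_zero.1 (by simp only [Fin.mk_one]; linarith)
    · exact mul_self_eq_zero.1 (by simp only [Fin.reduceFinMk]; linarith)

/-- a plane is isometric to `ℂ` -/
theorem pl_exists_iso (n : Fin 3 → ℝ) (hn : n ≠ 0) :
    ∃ φ : (Fin 3 → ℝ) → ℂ, ∀ a b, n ⬝ᵥ a = n ⬝ᵥ b →
      dist (φ a) (φ b) ^ 2 = (a - b) ⬝ᵥ (a - b) := by
  obtain ⟨u, hu, hun⟩ := pl_exists_perp n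
  have hnn := pl_dot_pos n hn
  set s : ℝ := Real.sqrt (u ⬝ᵥ u) with hs
  set t : ℝ := Real.sqrt (n ⬝ᵥ n) with ht
  have hs2 : s ^ 2 = u ⬝ᵥ u := Real.sq_sqrt hu.le
  have ht2 : t ^ 2 = n ⬝ᵥ n := Real.sq_sqrt hnn.le
  have hs0 : 0 < s := Real.sqrt_pos.2 hu
  have ht0 : 0 < t := Real.sqrt_pos.2 hnn
  refine ⟨fun a => ⟨(a ⬝ᵥ u) / s, (a 0 * (n 1 * u 2 - n 2 * u 1) + a 1 * (n 2 * u 0 - n 0 * u 2)
    + a 2 * (n 0 * u 1 - n 1 * u 0)) / (s * t)⟩, ?_⟩
  intro a b hab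
  rw [Complex.dist_eq, ← Complex.normSq_eq_norm_sq, Complex.normSq_apply]
  simp only [Complex.sub_re, Complex.sub_im]
  rw [← sub_div, ← sub_div, div_mul_div_comm, div_mul_div_comm]
  have e1 : s * s = u ⬝ᵥ u := by rw [← hs2]; ring
  have e2 : s * t * (s * t) = (u ⬝ᵥ u) * (n ⬝ᵥ n) := by rw [← hs2, ← ht2]; ring
  rw [e1, e2, div_add_div _ _ hu.ne' (mul_pos hu hnn).ne', div_eq_iff
    (mul_pos hu (mul_pos hu hnn)).ne']
  have h3 : u 0 * n 0 + u 1 * n 1 + u 2 * n 2 = 0 := by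
    simpa [dotProduct, Fin.sum_univ_three] using hun
  have h4 : n 0 * (a 0 - b 0) + n 1 * (a 1 - b 1) + n 2 * (a 2 - b 2) = 0 := by
    have : n 0 * a 0 + n 1 * a 1 + n 2 * a 2 = n 0 * b 0 + n 1 * b 1 + n 2 * b 2 := by
      simpa [dotProduct, Fin.sum_univ_three] using hab
    linarith
  have key : ∀ x0 x1 x2 : ℝ, n 0 * x0 + n 1 * x1 + n 2 * x2 = 0 →
      (x0 * (n 1 * u 2 - n 2 * u 1) + x1 * (n 2 * u 0 - n 0 * u 2)
        + x2 * (n 0 * u 1 - n 1 * u 0)) ^ 2 =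
      (u ⬝ᵥ u) * (n ⬝ᵥ n) * (x0 * x0 + x1 * x1 + x2 * x2)
        - (n ⬝ᵥ n) * (x0 * u 0 + x1 * u 1 + x2 * u 2) ^ 2 := by
    intro x0 x1 x2 hx
    simp only [dotProduct, Fin.sum_univ_three]
    have : (x0 * (n 1 * u 2 - n 2 * u 1) + x1 * (n 2 * u 0 - n 0 * u 2)
        + x2 * (n 0 * u 1 - n 1 * u 0)) ^ 2 =
      (u 0 * u 0 + u 1 * u 1 + u 2 * u 2) * (n 0 * n 0 + n 1 * n 1 + n 2 * n 2)
        * (x0 * x0 + x1 * x1 + x2 * x2)
        - (n 0 * n 0 + n 1 * n 1 + n 2 * n 2) * (x0 * u 0 + x1 * u 1 + x2 * u 2) ^ 2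
        + 2 * (n 0 * x0 + n 1 * x1 + n 2 * x2) * (u 0 * n 0 + u 1 * n 1 + u 2 * n 2)
          * (x0 * u 0 + x1 * u 1 + x2 * u 2)
        - (x0 * x0 + x1 * x1 + x2 * x2) * (u 0 * n 0 + u 1 * n 1 + u 2 * n 2) ^ 2
        - (u 0 * u 0 + u 1 * u 1 + u 2 * u 2) * (n 0 * x0 + n 1 * x1 + n 2 * x2) ^ 2 := by ring
    rw [this, hx, h3]; ring
  have k := key (a 0 - b 0) (a 1 - b 1) (a 2 - b 2) h4
  have e3 : (a 0 * (n 1 * u 2 - n 2 * u 1) + a 1 * (n 2 * u 0 - n 0 * u 2)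
      + a 2 * (n 0 * u 1 - n 1 * u 0)) - (b 0 * (n 1 * u 2 - n 2 * u 1)
      + b 1 * (n 2 * u 0 - n 0 * u 2) + b 2 * (n 0 * u 1 - n 1 * u 0)) =
      (a 0 - b 0) * (n 1 * u 2 - n 2 * u 1) + (a 1 - b 1) * (n 2 * u 0 - n 0 * u 2)
        + (a 2 - b 2) * (n 0 * u 1 - n 1 * u 0) := by ring
  have e4 : a ⬝ᵥ u - b ⬝ᵥ u = (a 0 - b 0) * u 0 + (a 1 - b 1) * u 1 + (a 2 - b 2) * u 2 := by
    simp only [dotProduct, Fin.sum_univ_three]; ring
  have e5 : (a - b) ⬝ᵥ (a - b) = (a 0 - b 0) * (a 0 - b 0) + (a 1 - b 1) * (a 1 - b 1)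
      + (a 2 - b 2) * (a 2 - b 2) := by
    simp only [dotProduct, Fin.sum_univ_three, Pi.sub_apply]
  rw [e3, e4, e5]
  rw [pow_two] at k
  rw [k]
  ring

/-- Cauchy–Schwarz for a map with values in `T` -/
theorem pl_cs {α : Type*} [DecidableEq α] (S : Finset α) (D : α → α → ℝ) (T : Finset ℝ)
    (hT : ∀ a ∈ S, ∀ b ∈ S, D a b ∈ T) :
    (S.card ^ 2) ^ 2 ≤ T.card *
      ((((S ×ˢ S) ×ˢ (S ×ˢ S)).filter (fun q => D q.1.1 q.1.2 = D q.2.1 q.2.2)).card) := by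
  classical
  have h1 : (S ×ˢ S).card = ∑ t ∈ T, ((S ×ˢ S).filter (fun p => D p.1 p.2 = t)).card :=
    card_eq_sum_card_fiberwise (fun p hp => by
      have hp' := mem_product.1 (mem_coe.1 hp)
      exact hT _ hp'.1 _ hp'.2)
  have h2 : (((S ×ˢ S) ×ˢ (S ×ˢ S)).filter
      (fun q => D q.1.1 q.1.2 = D q.2.1 q.2.2)).card =
      ∑ t ∈ T, ((S ×ˢ S).filter (fun p => D p.1 p.2 = t)).card ^ 2 := by
    rw [card_eq_sum_card_fiberwise (f := fun q : (α × α) × (α × α) => D q.1.1 q.1.2) (t := T)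
      (fun q hq => by
        have hq' := (mem_filter.1 (mem_coe.1 hq)).1
        rw [mem_product, mem_product] at hq'
        exact hT _ hq'.1.1 _ hq'.1.2)]
    refine sum_congr rfl (fun t _ => ?_)
    rw [sq, ← card_product]
    congr 1
    ext q
    simp only [mem_filter, mem_product]
    constructor
    · rintro ⟨⟨⟨h1, h2⟩, h3⟩, h4⟩
      exact ⟨⟨h1, h4⟩, ⟨h2, h3 ▸ h4⟩⟩
    · rintro ⟨⟨h1, h2⟩, ⟨h3, h4⟩⟩
      exact ⟨⟨⟨h1, h3⟩, h2.trans h4.symm⟩, h2⟩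
  have h3 : (S.card ^ 2) = (S ×ˢ S).card := by rw [card_product, sq]
  rw [h3, h1, h2]
  exact sq_sum_le_card_mul_sum_sq

/-- few points on a plane if there are few distances -/
theorem planar_bound (e : ℝ) (he : 0 < e) : ∃ C : ℝ, 0 < C ∧
    ∀ (P : Finset (Fin 3 → ℝ)) (T : Finset ℝ),
      (∀ a ∈ P, ∀ b ∈ P, (a - b) ⬝ᵥ (a - b) ∈ T) →
      ∀ (n : Fin 3 → ℝ) (d : ℝ), n ≠ 0 →
        ((P.filter (fun a => n ⬝ᵥ a = d)).card : ℝ) ≤ C * (T.card : ℝ) ^ (1 + e) := by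
  classical
  obtain ⟨C, hC, hGK⟩ := Vale.Agent.P041.SE.gk_energy (e / (1 + e)) (by positivity)
  refine ⟨C ^ (1 + e), by positivity, ?_⟩
  intro P T hT n d hn
  obtain ⟨φ, hφ⟩ := pl_exists_iso n hn
  set S := P.filter (fun a => n ⬝ᵥ a = d) with hS
  have hmem : ∀ a ∈ S, a ∈ P ∧ n ⬝ᵥ a = d := fun a ha => mem_filter.1 ha
  rcases Nat.eq_zero_or_pos S.card with h0 | hpos
  · rw [h0]
    push_cast
    positivity
  have hinj : Set.InjOn φ (S : Set (Fin 3 → ℝ)) := by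
    intro a ha b hb hab
    have h1 := hφ a b (((hmem a ha).2).trans ((hmem b hb).2).symm)
    rw [hab, dist_self] at h1
    by_contra hne
    have h2 := pl_dot_pos (a - b) (sub_ne_zero.2 hne)
    rw [← h1] at h2
    norm_num at h2
  set K := S.image φ with hK
  have hKc : K.card = S.card := card_image_of_injOn hinj
  have h1 := hGK K
  rw [hKc] at h1
  set k : ℝ := (S.card : ℝ) with hk
  have hk1 : (1 : ℝ) ≤ k := by rw [hk]; exact_mod_cast hpos
  have hk0 : (0 : ℝ) < k := by linarith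
  have hcs := pl_cs S (fun a b => (a - b) ⬝ᵥ (a - b)) T
    (fun a ha b hb => hT a (hmem a ha).1 b (hmem b hb).1)
  have hle : (((S ×ˢ S) ×ˢ (S ×ˢ S)).filter
      (fun q => (q.1.1 - q.1.2) ⬝ᵥ (q.1.1 - q.1.2) =
        (q.2.1 - q.2.2) ⬝ᵥ (q.2.1 - q.2.2))).card ≤
      (((K ×ˢ K) ×ˢ (K ×ˢ K)).filter
      (fun q => dist q.1.1 q.1.2 = dist q.2.1 q.2.2)).card := by
    apply card_le_card_of_injOn (fun q => ((φ q.1.1, φ q.1.2), (φ q.2.1, φ q.2.2)))
    · rintro ⟨⟨a, b⟩, ⟨c, d'⟩⟩ hq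
      have hq' := mem_filter.1 (mem_coe.1 hq)
      simp only [mem_product] at hq'
      obtain ⟨⟨⟨ha, hb⟩, hc, hd⟩, hdist⟩ := hq'
      rw [mem_coe, mem_filter]
      simp only [mem_product]
      refine ⟨⟨⟨mem_image_of_mem _ ha, mem_image_of_mem _ hb⟩,
        mem_image_of_mem _ hc, mem_image_of_mem _ hd⟩, ?_⟩
      have e1 := hφ a b (((hmem a ha).2).trans ((hmem b hb).2).symm)
      have e2 := hφ c d' (((hmem c hc).2).trans ((hmem d' hd).2).symm)
      rw [hdist, ← e2] at e1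
      exact (sq_eq_sq₀ dist_nonneg dist_nonneg).1 e1
    · rintro ⟨⟨a, b⟩, ⟨c, d1⟩⟩ hq ⟨⟨a', b'⟩, ⟨c', d1'⟩⟩ hq' h
      have hq1 := (mem_filter.1 (mem_coe.1 hq)).1
      have hq2 := (mem_filter.1 (mem_coe.1 hq')).1
      simp only [mem_product] at hq1 hq2
      simp only [Prod.mk.injEq] at h ⊢
      exact ⟨⟨hinj hq1.1.1 hq2.1.1 h.1.1, hinj hq1.1.2 hq2.1.2 h.1.2⟩,
        hinj hq1.2.1 hq2.2.1 h.2.1, hinj hq1.2.2 hq2.2.2 h.2.2⟩
  have hcs2 : k ^ 4 ≤ (T.card : ℝ) * (C * k ^ (3 + e / (1 + e))) := by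
    have h2 : ((S.card ^ 2) ^ 2 : ℕ) ≤ T.card * (((K ×ˢ K) ×ˢ (K ×ˢ K)).filter
      (fun q => dist q.1.1 q.1.2 = dist q.2.1 q.2.2)).card :=
      hcs.trans (Nat.mul_le_mul_left _ hle)
    have h3 : (((S.card ^ 2) ^ 2 : ℕ) : ℝ) ≤ (T.card : ℝ) * ((((K ×ˢ K) ×ˢ (K ×ˢ K)).filter
      (fun q => dist q.1.1 q.1.2 = dist q.2.1 q.2.2)).card : ℝ) := by exact_mod_cast h2
    have h4 : (((S.card ^ 2) ^ 2 : ℕ) : ℝ) = k ^ 4 := by push_cast; ring
    rw [← h4]
    exact h3.trans (mul_le_mul_of_nonneg_left h1 (Nat.cast_nonneg _))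
  have e1 : k ^ (1 / (1 + e)) * k ^ (3 + e / (1 + e)) = k ^ 4 := by
    rw [← Real.rpow_add hk0, ← Real.rpow_natCast]
    congr 1
    field_simp
    push_cast
    ring
  have h5 : k ^ (1 / (1 + e)) ≤ C * (T.card : ℝ) := by
    have hp : 0 < k ^ (3 + e / (1 + e)) := Real.rpow_pos_of_pos hk0 _
    rw [← e1] at hcs2
    have : k ^ (1 / (1 + e)) * k ^ (3 + e / (1 + e)) ≤
        (C * (T.card : ℝ)) * k ^ (3 + e / (1 + e)) := by linarith only [hcs2]
    exact le_of_mul_le_mul_right this hp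
  have h6 : (k ^ (1 / (1 + e))) ^ (1 + e) ≤ (C * (T.card : ℝ)) ^ (1 + e) :=
    Real.rpow_le_rpow (by (clear * - hpos; positivity)) h5 (by positivity)
  rw [← Real.rpow_mul hk0.le, one_div, inv_mul_cancel₀ (by positivity), Real.rpow_one,
    Real.mul_rpow hC.le (Nat.cast_nonneg _)] at h6
  exact h6

end Vale.Agent.P054.Y.G
end

section

/-! Block G, Main (helper499). -/

set_option linter.all false

namespace Vale.Agent.P054.Y.GF

open Finset Matrix
open Vale.Agent.P054.Fin (sqd dst)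

theorem ea_sub (P : Finset V) (K h : ℝ) (a : V) : Ea P K h a ⊆ P := by
  classical
  unfold Ea Pa
  exact (Finset.filter_subset _ _).trans (Finset.filter_subset _ _)

theorem sqd_dot (a b : V) : sqd a b = (a - b) ⬝ᵥ (a - b) := by
  simp only [sqd, dotProduct, Pi.sub_apply]
  exact Finset.sum_congr rfl (fun i _ => by ring)

theorem sqd_mem_dst {P : Finset V} {a b : V} (ha : a ∈ P) (hb : b ∈ P) : sqd a b ∈ dst P := by
  classical
  unfold dst
  exact Finset.mem_image.2 ⟨(a, b), Finset.mem_product.2 ⟨ha, hb⟩, rfl⟩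

theorem g_stmt : Vale.Agent.P054.Fin.GStmt2 := by
  classical
  intro δ hδ
  obtain ⟨e, he, he1, hnum⟩ := main_num δ hδ
  obtain ⟨C, hC, hfib⟩ := fibre_all e he (by linarith)
  obtain ⟨Cp, hCp, hpl⟩ := G.planar_bound e he
  obtain ⟨n1, hn1, hnum⟩ := hnum C Cp hC hCp
  obtain ⟨n2, hcount⟩ := e_count e he he1
  refine ⟨max n2 (⌈n1⌉₊), ?_⟩
  intro P hP hτ
  have hPn2 : n2 ≤ P.card := (le_max_left _ _).trans hP
  have hPn1 : n1 ≤ (P.card : ℝ) :=
    (Nat.le_ceil _).trans (by exact_mod_cast (le_max_right _ _).trans hP)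
  have hone : (1 : ℝ) ≤ P.card := hn1.trans hPn1
  have hne : P.Nonempty := by
    rw [← Finset.card_pos]
    have : (0 : ℝ) < P.card := by linarith
    exact_mod_cast this
  have hτ1 : (1 : ℝ) ≤ ((dst P).card : ℝ) := by
    obtain ⟨p, hp⟩ := hne
    have h1 : 0 < (dst P).card := Finset.card_pos.2 ⟨_, sqd_mem_dst hp hp⟩
    exact_mod_cast h1
  obtain ⟨hh0, hmain⟩ := hnum (P.card : ℝ) ((dst P).card : ℝ) hPn1 hτ1 hτ
  set h0 : ℝ := (P.card : ℝ) ^ (-(δ / 2)) * ((P.card : ℝ) ^ 2 / ((dst P).card : ℝ) ^ 2) with hh0def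
  set K : ℝ := (P.card : ℝ) ^ e with hKdef
  have hK1 : 1 ≤ K := Real.one_le_rpow hone he.le
  have hK0 : 0 ≤ K := by linarith
  have hh00 : 0 ≤ h0 := by (clear * - hne hτ1; positivity)
  have hτ' : ((dst P).card : ℝ) ≤ (P.card : ℝ) ^ ((2 : ℝ) / 3) :=
    hτ.trans (Real.rpow_le_rpow_of_exponent_le hone (by linarith only [hδ]))
  have hE := hcount P hPn2 hτ' h0 hh0
  rw [← hKdef] at hE
  refine ⟨sixR P K h0 (fun _ _ => h0), ?_, ?_⟩
  · intro q hq
    exact rich_out (h0 := h0) (fun _ _ => le_rfl) hq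
  · set B : ℝ := Cp * ((dst P).card : ℝ) ^ (1 + e) with hBdef
    have hB0 : 0 ≤ B := by (clear * - hCp hτ1; positivity)
    have hplane : ∀ (u : V) (b : ℝ), u ≠ 0 →
        ((P.filter (fun x => u ⬝ᵥ x = b)).card : ℝ) ≤ B := by
      intro u b hu
      refine hpl P (dst P) ?_ u b hu
      intro a ha b hb
      rw [← sqd_dot]
      exact sqd_mem_dst ha hb
    have hEsub : ∀ a ∈ P, Ea P K h0 a ⊆ P := fun a _ => ea_sub P K h0 a
    refine hmain (V × V) (P ×ˢ P) (fun p => ((Lam P K h0 p.1 p.2).card : ℝ))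
      ((G.six P sqd (Ea P K h0) (kp P K h0)).card : ℝ) _ ?_ ?_ ?_ ?_ ?_ ?_
    · rw [Finset.card_product]
      push_cast
      rw [sq]
    · intro i hi
      refine ⟨Nat.cast_nonneg _, ?_⟩
      have h1 : (Lam P K h0 i.1 i.2).card ≤ P.card * P.card := by
        unfold Lam
        refine Finset.card_image_le.trans ((Finset.card_filter_le _ _).trans ?_)
        rw [Finset.card_product]
        exact Nat.mul_le_mul (Finset.card_le_card (ea_sub P K h0 _))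
          (Finset.card_le_card (ea_sub P K h0 _))
      rw [sq]
      exact_mod_cast h1
    · have h1 := G.cs_labels P sqd (dst P) (Ea P K h0) (kp P K h0)
        (fun a ha b hb c hc => sqd_mem_dst (hEsub a ha hb) (hEsub a ha hc))
      rw [Finset.sum_product]
      simp only [lam_card]
      have h2 : ((∑ a ∈ P, ∑ c ∈ P, G.MM sqd (Ea P K h0) a c ^ 2 : ℕ) : ℝ) ≤
          ((4 * ((dst P).card * (G.six P sqd (Ea P K h0) (kp P K h0)).card) : ℕ) : ℝ) := by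
        exact_mod_cast h1
      push_cast at h2
      linarith only [h2]
    · have h1 := G.sum_MM_lower P sqd (dst P) (Ea P K h0)
        (fun a ha b hb => sqd_mem_dst ha (hEsub a ha hb))
      rw [Finset.sum_product]
      simp only [lam_card]
      have h2 : (((∑ a ∈ P, (Ea P K h0 a).card) ^ 2 : ℕ) : ℝ) ≤
          (((dst P).card * ∑ a ∈ P, ∑ c ∈ P, G.MM sqd (Ea P K h0) a c : ℕ) : ℝ) := by
        exact_mod_cast h1
      push_cast at h2
      have h3 : (P.card : ℝ) ^ 4 / 4 = ((P.card : ℝ) ^ 2 / 2) ^ 2 := by ring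
      rw [h3]
      exact (pow_le_pow_left₀ (by (clear * - hne; positivity)) hE 2).trans h2
    · have h1 := G.sum_MM_le_sq P sqd (Ea P K h0)
      rw [Finset.sum_product, Finset.sum_product]
      simp only [lam_card]
      exact_mod_cast h1
    · have h1 := six_le P h0 (fun _ _ => h0) hK0
      refine h1.trans ?_
      rw [Finset.sum_product]
      gcongr with a ha c hc
      exact hfib _ _ _ _ _ _ _ _ _ hK1 hB0 hone hh00 (lam_hyp hK0 le_rfl hplane a c)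
        (lam_lab le_rfl a c)

end Vale.Agent.P054.Y.GF
end
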