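import Mathlib
import Vale.Agent.P054.BdN.N10
import Vale.Agent.P054.BdN.N9
import Vale.Agent.P054.BdN.N3
import Vale.Agent.P054.BdN.N7
import Vale.Agent.P054.BdN.N11
import Vale.Agent.P054.BdN.N5

set_option linter.all false

section

/-! Theorem PL, leaf (L3): directions. -/

namespace Vale.Agent.P054.PL

open Matrix

/-- maximal set of points seen from `a` in different directions -/
theorem exists_dirs (A : Finset V3) (a : V3) : ∃ A' : Finset V3, A' ⊆ A ∧ a ∉ A' ∧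
    (∀ x ∈ A', ∀ y ∈ A', x ≠ y → crossProduct (x - a) (y - a) ≠ 0) ∧
    ∀ x ∈ A, x ≠ a → ∃ y ∈ A', crossProduct (x - a) (y - a) = 0 := by
  classical
  set P : Finset (Finset V3) := (A.erase a).powerset.filter
    (fun A' => ∀ x ∈ A', ∀ y ∈ A', x ≠ y → crossProduct (x - a) (y - a) ≠ 0) with hP
  have hne : P.Nonempty := ⟨∅, by simp [hP]⟩
  obtain ⟨A', hA', hmax⟩ := Finset.exists_max_image P Finset.card hne
  rw [hP, Finset.mem_filter, Finset.mem_powerset] at hA'
  refine ⟨A', hA'.1.trans (Finset.erase_subset _ _), fun h => by simpa using hA'.1 h, hA'.2, ?_⟩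
  intro x hx hxa
  by_cases hxA : x ∈ A'
  · exact ⟨x, hxA, cross_self _⟩
  by_contra hcon
  push Not at hcon
  have h1 : insert x A' ∈ P := by
    rw [hP, Finset.mem_filter, Finset.mem_powerset]
    refine ⟨?_, ?_⟩
    · intro z hz
      rcases Finset.mem_insert.1 hz with rfl | hz
      · exact Finset.mem_erase.2 ⟨hxa, hx⟩
      · exact hA'.1 hz
    · intro y hy z hz hyz
      rcases Finset.mem_insert.1 hy with hy1 | hy1
      · rcases Finset.mem_insert.1 hz with hz1 | hz1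
        · exact absurd (hy1.trans hz1.symm) hyz
        · rw [hy1]; exact hcon z hz1
      · rcases Finset.mem_insert.1 hz with hz1 | hz1
        · intro hc
          apply hcon y hy1
          rw [hz1] at hc
          rw [← cross_anticomm, hc, neg_zero]
        · exact hA'.2 y hy1 z hz1 hyz
  have h2 := hmax _ h1
  rw [Finset.card_insert_of_notMem hxA] at h2
  omega

theorem dirStmt : DirStmt := by
  classical
  intro D A B hBA hoff hB
  by_contra hcon
  push Not at hcon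
  -- `B` is on a line
  obtain ⟨x0, b0, hb0, hBl⟩ : ∃ x b : V3, b ≠ 0 ∧ ∀ z ∈ B, crossProduct (z - x) b = 0 := by
    by_cases h1 : ∃ x ∈ B, ∃ y ∈ B, x ≠ y
    · obtain ⟨x, hx, y, hy, hxy⟩ := h1
      refine ⟨x, y - x, fun hc => hxy (sub_eq_zero.1 hc).symm, fun z hz => ?_⟩
      rw [← cross_anticomm, hB x hx y hy z hz, neg_zero]
    · push Not at h1
      rcases B.eq_empty_or_nonempty with he | ⟨x, hx⟩
      · exact ⟨0, ![1, 0, 0], fun hc => by simpa using congrFun hc 0, fun z hz => by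
          rw [he] at hz; exact absurd hz (Finset.notMem_empty z)⟩
      · refine ⟨x, ![1, 0, 0], fun hc => by simpa using congrFun hc 0, fun z hz => ?_⟩
        rw [← h1 x hx z hz]
        simp
  have h1 := hoff x0 b0 hb0
  obtain ⟨p, hp, p', hp', hpp⟩ : ∃ p ∈ A.filter (fun a => crossProduct (a - x0) b0 ≠ 0),
      ∃ p' ∈ A.filter (fun a => crossProduct (a - x0) b0 ≠ 0), p ≠ p' := by
    have h2 : 1 < (A.filter (fun a => crossProduct (a - x0) b0 ≠ 0)).card := by
      refine lt_of_lt_of_le ?_ h1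
      omega
    obtain ⟨p, hp, p', hp', h⟩ := Finset.one_lt_card.1 h2
    exact ⟨p, hp, p', hp', h⟩
  rw [Finset.mem_filter] at hp hp'
  have hpB : p ∉ B := fun h => hp.2 (hBl p h)
  have hpB' : p' ∉ B := fun h => hp'.2 (hBl p' h)
  obtain ⟨A1, hA1, hpA1, hd1, hc1⟩ := exists_dirs A p
  obtain ⟨A2, hA2, hpA2, hd2, hc2⟩ := exists_dirs A p'
  have hA1c : A1.card ≤ D := by
    by_contra h
    push Not at h
    obtain ⟨x, hx, y, hy, hxy, hc⟩ := hcon p hp.1 hpB A1 hA1 hpA1 h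
    exact hd1 x hx y hy hxy hc
  have hA2c : A2.card ≤ D := by
    by_contra h
    push Not at h
    obtain ⟨x, hx, y, hy, hxy, hc⟩ := hcon p' hp'.1 hpB' A2 hA2 hpA2 h
    exact hd2 x hx y hy hxy hc
  have hpp' : p' - p ≠ 0 := fun h => hpp (sub_eq_zero.1 h).symm
  have h2 := hoff p (p' - p) hpp'
  set W := A.filter (fun a => crossProduct (a - p) (p' - p) ≠ 0) with hW
  have hWm : ∀ x ∈ W, x ∈ A ∧ x ≠ p ∧ x ≠ p' := by
    intro x hx
    rw [hW, Finset.mem_filter] at hx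
    refine ⟨hx.1, ?_, ?_⟩
    · rintro rfl
      exact hx.2 (by simp)
    · rintro rfl
      exact hx.2 (cross_self _)
  have he1 : ∀ x ∈ W, ∃ y ∈ A1, crossProduct (x - p) (y - p) = 0 := fun x hx =>
    hc1 x (hWm x hx).1 (hWm x hx).2.1
  have he2 : ∀ x ∈ W, ∃ y ∈ A2, crossProduct (x - p') (y - p') = 0 := fun x hx =>
    hc2 x (hWm x hx).1 (hWm x hx).2.2
  choose! y hy hyc using he1
  choose! y' hy' hyc' using he2
  have par : ∀ (o u v w : V3), w ≠ o → crossProduct (u - o) (w - o) = 0 →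
      crossProduct (v - o) (w - o) = 0 → crossProduct (u - o) (v - u) = 0 := by
    intro o u v w hw h1 h2
    have hw' : w - o ≠ 0 := fun h => hw (sub_eq_zero.1 h)
    have e1 := par_of_cross h1 hw'
    have e2 := par_of_cross h2 hw'
    have e3 : v - u = (v - o) - (u - o) := by abel
    rw [e3, e2, e1]
    simp
  have hinj : Set.InjOn (fun x => (y x, y' x)) (W : Set V3) := by
    intro x1 hx1 x2 hx2 he
    by_contra hne
    have e1 : y x1 = y x2 := congrArg Prod.fst he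
    have e2 : y' x1 = y' x2 := congrArg Prod.snd he
    have hx1' : x1 ∈ W := hx1
    have hx2' : x2 ∈ W := hx2
    have n1 : y x1 ≠ p := fun h => hpA1 (h ▸ hy x1 hx1')
    have n2 : y' x1 ≠ p' := fun h => hpA2 (h ▸ hy' x1 hx1')
    have k1 := par p x1 x2 (y x1) n1 (hyc x1 hx1') (by rw [e1]; exact hyc x2 hx2')
    have k2 := par p' x1 x2 (y' x1) n2 (hyc' x1 hx1') (by rw [e2]; exact hyc' x2 hx2')
    have hw : x2 - x1 ≠ 0 := fun h => hne (sub_eq_zero.1 h).symm
    have f1 := par_of_cross k1 hw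
    have f2 := par_of_cross k2 hw
    have h3 : crossProduct (x1 - p) (p' - p) ≠ 0 := by
      rw [hW] at hx1'
      exact (Finset.mem_filter.1 hx1').2
    apply h3
    have f3 : p' - p = (x1 - p) - (x1 - p') := by abel
    rw [f3, f2, f1]
    simp
  have hcard : W.card ≤ D ^ 2 := by
    rw [← Finset.card_image_of_injOn hinj]
    have h3 : W.image (fun x => (y x, y' x)) ⊆ A1 ×ˢ A2 := by
      intro z hz
      obtain ⟨x, hx, rfl⟩ := Finset.mem_image.1 hz
      exact Finset.mem_product.2 ⟨hy x hx, hy' x hx⟩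
    refine (Finset.card_le_card h3).trans ?_
    rw [Finset.card_product, sq]
    exact Nat.mul_le_mul hA1c hA2c
  omega

end Vale.Agent.P054.PL
end

section

/-! P054, block W, part 7: polynomial partitioning of a finite family of points of `R^f`
in every dimension `f ≥ 1`: `f * m` polynomials with degree sum at most `2 f^2 2^m`, every open
sign cell contains at most the fraction `2^(-f m)` of the family. -/

namespace Vale.Agent.P054.W

open Finset MvPolynomial

variable {f : ℕ}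

theorem finrank_restrict_ge (f e : ℕ) :
    (e + 1) ^ f ≤ Module.finrank ℝ (restrictTotalDegree (Fin f) ℝ (f * e)) := by
  classical
  let m : (Fin f → Fin (e+1)) → (Fin f →₀ ℕ) := fun g =>
    Finsupp.equivFunOnFinite.symm (fun i => (g i : ℕ))
  have hm : Function.Injective m := by
    intro g g' h
    have h2 := Finsupp.equivFunOnFinite.symm.injective h
    funext i
    exact Fin.ext (congrFun h2 i)
  have hdeg : ∀ g, (monomial (m g) (1:ℝ)) ∈ restrictTotalDegree (Fin f) ℝ (f * e) := by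
    intro g
    rw [mem_restrictTotalDegree]
    refine le_trans (totalDegree_monomial_le _ _) ?_
    rw [Finsupp.sum_fintype _ _ (fun _ => rfl)]
    have : ∀ i, m g i ≤ e := fun i => Nat.lt_succ_iff.1 (g i).2
    calc ∑ i, m g i ≤ ∑ i : Fin f, e := Finset.sum_le_sum (fun i _ => this i)
      _ = f * e := by simp
  have hli : LinearIndependent ℝ (fun g : Fin f → Fin (e+1) =>
      (⟨monomial (m g) 1, hdeg g⟩ : restrictTotalDegree (Fin f) ℝ (f * e))) := by
    apply LinearIndependent.of_comp (restrictTotalDegree (Fin f) ℝ (f*e)).subtype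
    have := (basisMonomials (Fin f) ℝ).linearIndependent.comp m hm
    simpa [Function.comp_def] using this
  have h := hli.fintype_card_le_finrank
  simpa using h

/-- Evaluation at a point as a linear functional on the polynomials of degree `≤ d`. -/
noncomputable def evlF (f d : ℕ) (p : Fin f → ℝ) : restrictTotalDegree (Fin f) ℝ d →ₗ[ℝ] ℝ :=
  (MvPolynomial.aeval p : MvPolynomial (Fin f) ℝ →ₐ[ℝ] ℝ).toLinearMap.comp
    (restrictTotalDegree (Fin f) ℝ d).subtype

theorem evlF_apply (d : ℕ) (p : Fin f → ℝ) (g : restrictTotalDegree (Fin f) ℝ d) :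
    evlF f d p g = eval p (g : MvPolynomial (Fin f) ℝ) := by
  simp [evlF, MvPolynomial.aeval_eq_eval]

theorem two_pow_lt' (hf : 0 < f) (j : ℕ) : 2 ^ j < (2 * 2 ^ (j / f) + 1) ^ f := by
  have h1 : j ≤ f * (j / f) + (f - 1) := by
    have h2 := Nat.div_add_mod j f
    have h3 := Nat.mod_lt j hf
    omega
  calc 2 ^ j ≤ 2 ^ (f * (j/f) + (f - 1)) := Nat.pow_le_pow_right (by norm_num) h1
    _ ≤ 2 ^ (f * (j/f) + f) := Nat.pow_le_pow_right (by norm_num) (by omega)
    _ = (2 * 2 ^ (j/f)) ^ f := by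
        rw [pow_add, mul_pow, mul_comm f, pow_mul, mul_comm]
    _ < (2 * 2 ^ (j/f) + 1) ^ f := Nat.pow_lt_pow_left (by omega) (by omega)

theorem sum_deg_le' (hf : 0 < f) (m : ℕ) :
    ∑ j ∈ range (f * m), f * (2 * 2 ^ (j / f)) ≤ 2 * f ^ 2 * 2 ^ m := by
  have h : ∀ m : ℕ, ∑ j ∈ range (f * m), f * (2 * 2 ^ (j / f)) + 2 * f ^ 2 =
      2 * f ^ 2 * 2 ^ m := by
    intro m
    induction m with
    | zero => simp
    | succ m ih =>
      have h1 : ∀ x ∈ range f, f * (2 * 2 ^ ((f * m + x) / f)) = f * (2 * 2 ^ m) := by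
        intro x hx
        have : (f * m + x) / f = m := by
          rw [Nat.mul_add_div hf, Nat.div_eq_of_lt (mem_range.1 hx), add_zero]
        rw [this]
      have h4 : ∑ j ∈ range (f * (m + 1)), f * (2 * 2 ^ (j / f)) =
          ∑ j ∈ range (f * m), f * (2 * 2 ^ (j / f)) + f * (f * (2 * 2 ^ m)) := by
        rw [mul_add, mul_one, sum_range_add, sum_congr rfl h1, sum_const, card_range,
          smul_eq_mul]
      have h5 : 2 * f ^ 2 * 2 ^ (m + 1) = 2 * f ^ 2 * 2 ^ m + f * (f * (2 * 2 ^ m)) := by ring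
      rw [h4, h5, ← ih]
      ring
  have := h m
  omega

open scoped Classical in
/-- **Polynomial partitioning in `R^f`.** -/
theorem poly_partition_dim (hf : 0 < f) {α : Type*} (pts : α → Fin f → ℝ) (F : Finset α)
    (m : ℕ) :
    ∃ g : ℕ → MvPolynomial (Fin f) ℝ, (∀ j, g j ≠ 0) ∧
      (∑ j ∈ range (f * m), (g j).totalDegree ≤ 2 * f ^ 2 * 2 ^ m) ∧
      ∀ s : ℕ → Bool,
        2 ^ (f * m) * #{a ∈ F | ∀ j < f * m, Vale.Agent.P041.SE.Sg (s j) (eval (pts a) (g j))}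
          ≤ #F := by
  obtain ⟨g, hg0, hg⟩ := Vale.Agent.P041.SE.partition_general
    (V := fun j => restrictTotalDegree (Fin f) ℝ (f * (2 * 2 ^ (j/f))))
    (fun j a => evlF f _ (pts a)) F
    (fun j => lt_of_lt_of_le (two_pow_lt' hf j) (finrank_restrict_ge f _))
  refine ⟨fun j => (g j : MvPolynomial (Fin f) ℝ), fun j h => hg0 j (Subtype.ext h), ?_, ?_⟩
  · refine le_trans (sum_le_sum (fun j _ => ?_)) (sum_deg_le' hf m)
    exact (mem_restrictTotalDegree (Fin f) _ _).1 (g j).2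
  · intro s
    have h := hg (f * m) s
    simpa only [evlF_apply] using h

end Vale.Agent.P054.W
end

section

/-! Theorem PL (planar type): `CoreStmt` from `WallStmt` (polynomial partitioning of `ℝ⁶`). -/

namespace Vale.Agent.P054.PL

open MvPolynomial Finset

/-! ### iterated derivatives -/

open scoped Classical in
/-- iterated derivatives of order at most `k` -/
noncomputable def ders {d : ℕ} : ℕ → MvPolynomial (Fin d) ℝ → Finset (MvPolynomial (Fin d) ℝ)
  | 0, f => {f}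
  | k + 1, f => insert f (univ.biUnion fun i => ders k (pderiv i f))

theorem card_ders_le {d : ℕ} (k : ℕ) (f : MvPolynomial (Fin d) ℝ) :
    #(ders k f) ≤ (d + 1) ^ k := by
  classical
  induction k generalizing f with
  | zero => simp [ders]
  | succ k ih =>
    rw [ders]
    refine (card_insert_le _ _).trans ?_
    have h1 : #(univ.biUnion fun i => ders k (pderiv i f)) ≤ d * (d + 1) ^ k := by
      refine card_biUnion_le.trans ((sum_le_sum fun i _ => ih _).trans ?_)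
      simp
    have h2 : 1 ≤ (d + 1) ^ k := Nat.one_le_pow _ _ (by omega)
    calc #(univ.biUnion fun i => ders k (pderiv i f)) + 1 ≤ d * (d + 1) ^ k + (d + 1) ^ k :=
          Nat.add_le_add h1 h2
      _ = (d + 1) ^ (k + 1) := by ring

theorem totalDegree_of_mem_ders {d : ℕ} (k D : ℕ) (f : MvPolynomial (Fin d) ℝ)
    (hf : f.totalDegree ≤ D) : ∀ h ∈ ders k f, h.totalDegree ≤ D := by
  classical
  induction k generalizing f with
  | zero =>
    intro h hh
    rw [ders, mem_singleton] at hh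
    rwa [hh]
  | succ k ih =>
    intro h hh
    rw [ders, mem_insert, mem_biUnion] at hh
    rcases hh with hh | ⟨i, _, hh⟩
    · rwa [hh]
    · exact ih _ ((W.totalDegree_pderiv_le i f).trans hf) h hh

theorem totalDegree_pderiv_lt {d : ℕ} (i : Fin d) (f : MvPolynomial (Fin d) ℝ) (D : ℕ)
    (hf : f.totalDegree ≤ D + 1) : (pderiv i f).totalDegree ≤ D := by
  rw [totalDegree]
  refine Finset.sup_le fun m hm => ?_
  have h := le_totalDegree (W.mem_support_pderiv hm)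
  rw [Finsupp.sum_add_index' (fun _ => rfl) (fun _ _ _ => rfl), Finsupp.sum_single_index rfl] at h
  exact Nat.le_of_succ_le_succ (h.trans hf)

theorem eq_C_of_pderiv {d : ℕ} (f : MvPolynomial (Fin d) ℝ) (h : ∀ i, pderiv i f = 0) :
    f = C (coeff 0 f) := by
  classical
  ext m
  rw [coeff_C]
  by_cases hm : m = 0
  · subst hm; simp
  · rw [if_neg (Ne.symm hm)]
    obtain ⟨i, hi⟩ : ∃ i, m i ≠ 0 := by
      by_contra hcon
      push Not at hcon
      exact hm (Finsupp.ext hcon)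
    have hle : Finsupp.single i 1 ≤ m := Finsupp.single_le_iff.mpr (Nat.one_le_iff_ne_zero.mpr hi)
    obtain ⟨m', rfl⟩ : ∃ m', m = m' + Finsupp.single i 1 :=
      ⟨m - Finsupp.single i 1, (tsub_add_cancel_of_le hle).symm⟩
    have h1 := coeff_pderiv (i := i) f m'
    rw [h i, coeff_zero] at h1
    have h2 : ((m' i : ℝ) + 1) ≠ 0 := by positivity
    rcases mul_eq_zero.mp h1.symm with h3 | h3
    · exact h3
    · exact absurd h3 h2

theorem exists_mem_ders {d : ℕ} (x : Fin d → ℝ) (D : ℕ) (f : MvPolynomial (Fin d) ℝ)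
    (hf0 : f ≠ 0) (hf : f.totalDegree ≤ D) (hx : eval x f = 0) :
    ∃ h ∈ ders D f, eval x h = 0 ∧ ∃ i, eval x (pderiv i h) ≠ 0 := by
  classical
  induction D generalizing f with
  | zero =>
    exfalso
    have h1 := totalDegree_eq_zero_iff_eq_C.mp (Nat.le_zero.mp hf)
    rw [h1, eval_C] at hx
    rw [hx, C_0] at h1
    exact hf0 h1
  | succ D ih =>
    by_cases hi : ∃ i, eval x (pderiv i f) ≠ 0
    · exact ⟨f, by rw [ders]; exact mem_insert_self _ _, hx, hi⟩
    · push Not at hi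
      obtain ⟨i, hi0⟩ : ∃ i, pderiv i f ≠ 0 := by
        by_contra hcon
        push Not at hcon
        have h1 := eq_C_of_pderiv f hcon
        rw [h1, eval_C] at hx
        rw [hx, C_0] at h1
        exact hf0 h1
      obtain ⟨h, hh, h1, h2⟩ := ih (pderiv i f) hi0 (totalDegree_pderiv_lt i f D hf) (hi i)
      exact ⟨h, by
        rw [ders]
        exact mem_insert_of_mem (mem_biUnion.mpr ⟨i, mem_univ i, hh⟩), h1, h2⟩

/-! ### cells -/

/-- sign cell membership -/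
def InCell {ι : Type} (f : ι → MvPolynomial (Fin 6) ℝ) (σ : ι → Bool) (x : Fin 6 → ℝ) : Prop :=
  ∀ j, eval x (f j) ≠ 0 ∧ (σ j = true ↔ 0 < eval x (f j))

open scoped Classical in
theorem cell_partition6 (m : ℕ) (G : Finset (V3 × V3)) :
    ∃ f : Fin (6 * m) → MvPolynomial (Fin 6) ℝ,
      (∀ j, f j ≠ 0) ∧ ∑ j, (f j).totalDegree ≤ 72 * 2 ^ m ∧
      ∀ σ : Fin (6 * m) → Bool,
        2 ^ (6 * m) * #(G.filter fun p => InCell f σ (pv p)) ≤ #G := by
  obtain ⟨f, hf0, hdeg, hf⟩ := W.poly_partition_dim (f := 6) (by norm_num) pv G m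
  refine ⟨fun j => f j, fun j => hf0 j, ?_, ?_⟩
  · rw [← Fin.sum_univ_eq_sum_range (fun j => (f j).totalDegree)] at hdeg
    exact hdeg
  · intro σ
    have h := hf (fun j => if h : j < 6 * m then σ ⟨j, h⟩ else true)
    refine le_trans (Nat.mul_le_mul_left _ (card_le_card ?_)) h
    intro i hi
    rw [mem_filter] at hi ⊢
    refine ⟨hi.1, fun j hj => ?_⟩
    have h2 := hi.2 ⟨j, hj⟩
    simp only [hj, dif_pos]
    unfold Vale.Agent.P041.SE.Sg
    by_cases h3 : σ ⟨j, hj⟩ = true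
    · rw [if_pos h3]
      exact h2.2.1 h3
    · rw [if_neg h3]
      have h4 : ¬ 0 < eval (pv i) (f j) := fun h5 => h3 (h2.2.2 h5)
      exact lt_of_le_of_ne (not_lt.1 h4) h2.1

theorem degree_aux (a b c : ℝ) (i j : Fin 3) :
    (C a - (X i * C b - X j * C c) : MvPolynomial (Fin 3) ℝ).totalDegree ≤ 1 := by
  have h1 : ∀ (i : Fin 3) (b : ℝ), (X i * C b : MvPolynomial (Fin 3) ℝ).totalDegree ≤ 1 := by
    intro i b
    refine (totalDegree_mul _ _).trans ?_
    rw [totalDegree_X, totalDegree_C]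
  refine (totalDegree_sub _ _).trans (max_le ?_ ?_)
  · rw [totalDegree_C]; exact Nat.zero_le _
  · exact (totalDegree_sub _ _).trans (max_le (h1 i b) (h1 j c))

theorem degree_Lq (q : V3 × V3) (i : Fin 6) : (Lq q i).totalDegree ≤ 1 := by
  fin_cases i
  · exact (totalDegree_X (R := ℝ) (0 : Fin 3)).le
  · exact (totalDegree_X (R := ℝ) (1 : Fin 3)).le
  · exact (totalDegree_X (R := ℝ) (2 : Fin 3)).le
  · exact degree_aux _ _ _ _ _
  · exact degree_aux _ _ _ _ _
  · exact degree_aux _ _ _ _ _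

theorem eval_Lq {p q : V3 × V3} (h : Mt p q) : (fun i => eval p.1 (Lq q i)) = pv p := by
  have h0 := congrFun h 0
  have h1 := congrFun h 1
  have h2 := congrFun h 2
  simp [cross_apply] at h0 h1 h2
  funext i
  fin_cases i
  · simp [Lq, pv]
  · simp [Lq, pv]
  · simp [Lq, pv]
  · simp [Lq, pv]; linarith
  · simp [Lq, pv]; linarith
  · simp [Lq, pv]; linarith

open scoped Classical in
/-- the pairs of `S` whose flat enters the cell -/
noncomputable def Sc {ι : Type} (f : ι → MvPolynomial (Fin 6) ℝ) (S : Finset (V3 × V3))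
    (σ : ι → Bool) : Finset (V3 × V3) :=
  S.filter fun q => ∃ y : Fin 3 → ℝ, InCell f σ (fun i => eval y (Lq q i))

open scoped Classical in
theorem sum_Sc_le {ι : Type} [Fintype ι] (f : ι → MvPolynomial (Fin 6) ℝ) (D : ℕ)
    (hD : ∑ j, (f j).totalDegree ≤ D) (S : Finset (V3 × V3)) :
    ∑ σ : ι → Bool, #(Sc f S σ) ≤ (2 * D + 1) ^ 3 * #S := by
  have h1 : ∑ σ : ι → Bool, #(Sc f S σ) =
      ∑ q ∈ S, #(univ.filter fun σ : ι → Bool =>
        ∃ y : Fin 3 → ℝ, InCell f σ (fun i => eval y (Lq q i))) := by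
    simp only [Sc, card_filter]
    rw [sum_comm]
  rw [h1, mul_comm]
  refine (sum_le_card_nsmul _ _ ((2 * D + 1) ^ 3) fun q _ => ?_).trans (le_of_eq (by simp))
  have h2 := W.card_cells_param_le f (Lq q) 1 (degree_Lq q) D hD
    (univ.filter fun σ : ι → Bool =>
      ∃ y : Fin 3 → ℝ, InCell f σ (fun i => eval y (Lq q i)))
    (fun c hc => (mem_filter.mp hc).2)
  simpa using h2

open scoped Classical in
theorem Ms_Sc {ι : Type} (f : ι → MvPolynomial (Fin 6) ℝ) (S : Finset (V3 × V3))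
    (σ : ι → Bool) (p : V3 × V3) (hp : InCell f σ (pv p)) : Ms (Sc f S σ) p = Ms S p := by
  ext q
  simp only [Ms, Sc, mem_filter]
  constructor
  · rintro ⟨⟨h1, _⟩, h2⟩
    exact ⟨h1, h2⟩
  · rintro ⟨h1, h2⟩
    refine ⟨⟨h1, p.1, ?_⟩, h2⟩
    rw [eval_Lq h2]
    exact hp

theorem Good_congr {S S' : Finset (V3 × V3)} {K : ℕ} {p : V3 × V3} (h : Ms S' p = Ms S p)
    (hg : Good S K p) : Good S' K p := by
  refine ⟨fun x b hb => ?_, ?_⟩
  · rw [h]; exact hg.rho x b hb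
  · rw [h]; exact hg.plane

/-! ### real powers -/

theorem power_step (e C g g' gs ss N B' M : ℝ) (he : 0 < e) (hC : 0 < C) (hgs : 0 < gs)
    (hss : 0 ≤ ss) (hg' : 0 ≤ g') (hN : 0 ≤ N) (hB : 0 ≤ B') (hM : 0 < M)
    (h1 : gs ≤ C * ss ^ (2 + e)) (h2 : ss * g' ≤ B' * N * gs) (h3 : M * gs ≤ g)
    (h4 : g ≤ 2 * g') (h5 : (2 : ℝ) ^ (2 + e) * B' ^ (2 + e) ≤ M ^ (1 + e)) :
    g ≤ C * N ^ (2 + e) := by
  have hg : 0 < g := lt_of_lt_of_le (mul_pos hM hgs) h3
  have he2 : 0 < 2 + e := by linarith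
  have he1 : 0 < 1 + e := by linarith
  have k1 : gs * g' ^ (2 + e) ≤ C * (ss * g') ^ (2 + e) := by
    rw [Real.mul_rpow hss hg', ← mul_assoc]
    exact mul_le_mul_of_nonneg_right h1 (Real.rpow_nonneg hg' _)
  have k2 : (ss * g') ^ (2 + e) ≤ (B' * N) ^ (2 + e) * gs ^ (2 + e) := by
    rw [← Real.mul_rpow (mul_nonneg hB hN) hgs.le]
    exact Real.rpow_le_rpow (mul_nonneg hss hg') h2 he2.le
  have k3 : gs ^ (2 + e) = gs ^ (1 + e) * gs := by
    rw [show 2 + e = (1 + e) + 1 by ring, Real.rpow_add_one hgs.ne']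
  have k4 : g ^ (2 + e) = g ^ (1 + e) * g := by
    rw [show 2 + e = (1 + e) + 1 by ring, Real.rpow_add_one hg.ne']
  have k5 : g' ^ (2 + e) ≤ C * (B' * N) ^ (2 + e) * gs ^ (1 + e) := by
    have : gs * g' ^ (2 + e) ≤ gs * (C * (B' * N) ^ (2 + e) * gs ^ (1 + e)) := by
      calc gs * g' ^ (2 + e) ≤ C * (ss * g') ^ (2 + e) := k1
        _ ≤ C * ((B' * N) ^ (2 + e) * gs ^ (2 + e)) := mul_le_mul_of_nonneg_left k2 hC.le
        _ = gs * (C * (B' * N) ^ (2 + e) * gs ^ (1 + e)) := by rw [k3]; ring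
    exact le_of_mul_le_mul_left this hgs
  have k6 : M ^ (1 + e) * gs ^ (1 + e) ≤ g ^ (1 + e) := by
    rw [← Real.mul_rpow hM.le hgs.le]
    exact Real.rpow_le_rpow (mul_nonneg hM.le hgs.le) h3 he1.le
  have k7 : g ^ (2 + e) ≤ 2 ^ (2 + e) * g' ^ (2 + e) := by
    rw [← Real.mul_rpow (by norm_num) hg']
    exact Real.rpow_le_rpow hg.le h4 he2.le
  have k8 : (B' * N) ^ (2 + e) = B' ^ (2 + e) * N ^ (2 + e) := Real.mul_rpow hB hN
  have hNp : 0 ≤ N ^ (2 + e) := Real.rpow_nonneg hN _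
  have hgsp : 0 ≤ gs ^ (1 + e) := Real.rpow_nonneg hgs.le _
  have hgp : 0 < g ^ (1 + e) := Real.rpow_pos_of_pos hg _
  have h2p : (0 : ℝ) ≤ 2 ^ (2 + e) := Real.rpow_nonneg (by norm_num) _
  have k9 : g ^ (1 + e) * g ≤ g ^ (1 + e) * (C * N ^ (2 + e)) := by
    calc g ^ (1 + e) * g = g ^ (2 + e) := k4.symm
      _ ≤ 2 ^ (2 + e) * g' ^ (2 + e) := k7
      _ ≤ 2 ^ (2 + e) * (C * (B' * N) ^ (2 + e) * gs ^ (1 + e)) :=
          mul_le_mul_of_nonneg_left k5 h2p
      _ = (C * N ^ (2 + e)) * ((2 ^ (2 + e) * B' ^ (2 + e)) * gs ^ (1 + e)) := by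
          rw [k8]; ring
      _ ≤ (C * N ^ (2 + e)) * (M ^ (1 + e) * gs ^ (1 + e)) :=
          mul_le_mul_of_nonneg_left (mul_le_mul_of_nonneg_right h5 hgsp)
            (mul_nonneg hC.le hNp)
      _ ≤ (C * N ^ (2 + e)) * g ^ (1 + e) :=
          mul_le_mul_of_nonneg_left k6 (mul_nonneg hC.le hNp)
      _ = g ^ (1 + e) * (C * N ^ (2 + e)) := by ring
  exact le_of_mul_le_mul_left k9 hgp

theorem exists_m (e : ℝ) (he : 0 < e) : ∃ m : ℕ, 1 ≤ m ∧
    (2 : ℝ) ^ (2 + e) * (((2 * (72 * 2 ^ m) + 1 : ℕ) : ℝ) ^ 3) ^ (2 + e) ≤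
      ((2 : ℝ) ^ (6 * m)) ^ (1 + e) := by
  have h8 : (1 : ℝ) < (8 : ℝ) ^ e := Real.one_lt_rpow (by norm_num) he
  obtain ⟨m, hm⟩ := pow_unbounded_of_one_lt
    ((2 : ℝ) ^ (2 + e) * ((145 : ℝ) ^ 3) ^ (2 + e)) h8
  have he2 : 0 < 2 + e := by linarith
  have hc1 : (1 : ℝ) ≤ (2 : ℝ) ^ (2 + e) * ((145 : ℝ) ^ 3) ^ (2 + e) := by
    have h1 : (1 : ℝ) ≤ (2 : ℝ) ^ (2 + e) := Real.one_le_rpow (by norm_num) he2.le
    have h2 : (1 : ℝ) ≤ ((145 : ℝ) ^ 3) ^ (2 + e) := Real.one_le_rpow (by norm_num) he2.le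
    linarith only [mul_nonneg (sub_nonneg.2 h1) (sub_nonneg.2 h2), h2, h1]
  refine ⟨m, ?_, ?_⟩
  · by_contra hcon
    have : m = 0 := by omega
    subst this
    rw [pow_zero] at hm
    linarith
  · have h1 : ((2 * (72 * 2 ^ m) + 1 : ℕ) : ℝ) ^ 3 ≤ (145 : ℝ) ^ 3 * 8 ^ m := by
      have h2 : ((2 * (72 * 2 ^ m) + 1 : ℕ) : ℝ) ≤ 145 * 2 ^ m := by
        push_cast
        have : (1 : ℝ) ≤ 2 ^ m := one_le_pow₀ (by norm_num)
        linarith
      have h3 : (145 : ℝ) ^ 3 * 8 ^ m = (145 * 2 ^ m) ^ 3 := by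
        rw [mul_pow, ← pow_mul, mul_comm m 3, pow_mul]; norm_num
      rw [h3]
      exact pow_le_pow_left₀ (by positivity) h2 3
    have h4 : (((2 * (72 * 2 ^ m) + 1 : ℕ) : ℝ) ^ 3) ^ (2 + e) ≤
        ((145 : ℝ) ^ 3) ^ (2 + e) * ((8 : ℝ) ^ m) ^ (2 + e) := by
      rw [← Real.mul_rpow (by positivity) (by positivity)]
      exact Real.rpow_le_rpow (by positivity) h1 he2.le
    have h5 : ((2 : ℝ) ^ (6 * m)) ^ (1 + e) = ((8 : ℝ) ^ e) ^ m * ((8 : ℝ) ^ m) ^ (2 + e) := by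
      have h6 : (2 : ℝ) ^ (6 * m) = ((8 : ℝ) ^ m) ^ (2 : ℝ) := by
        rw [Real.rpow_two, ← pow_mul, show (8 : ℝ) = 2 ^ 3 by norm_num, ← pow_mul]
        congr 1
        ring
      have h7 : ((8 : ℝ) ^ e) ^ m = ((8 : ℝ) ^ m) ^ e := by
        rw [← Real.rpow_natCast, ← Real.rpow_natCast, ← Real.rpow_mul (by norm_num),
          ← Real.rpow_mul (by norm_num), mul_comm]
      have h8p : (0 : ℝ) < (8 : ℝ) ^ m := by positivity
      rw [h6, h7, ← Real.rpow_mul h8p.le, ← Real.rpow_add h8p]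
      congr 1
      ring
    rw [h5]
    calc (2 : ℝ) ^ (2 + e) * (((2 * (72 * 2 ^ m) + 1 : ℕ) : ℝ) ^ 3) ^ (2 + e)
        ≤ (2 : ℝ) ^ (2 + e) * (((145 : ℝ) ^ 3) ^ (2 + e) * ((8 : ℝ) ^ m) ^ (2 + e)) :=
          mul_le_mul_of_nonneg_left h4 (by positivity)
      _ = ((2 : ℝ) ^ (2 + e) * ((145 : ℝ) ^ 3) ^ (2 + e)) * ((8 : ℝ) ^ m) ^ (2 + e) := by ring
      _ ≤ ((8 : ℝ) ^ e) ^ m * ((8 : ℝ) ^ m) ^ (2 + e) :=
          mul_le_mul_of_nonneg_right hm.le (by positivity)

/-! ### walls -/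

theorem Fib_subset {S G G' : Finset (V3 × V3)} {B : ℕ} (h : G' ⊆ G) (hF : Fib S G B) :
    Fib S G' B := by
  classical
  intro q0 hq0 n hn δ
  refine (card_le_card ?_).trans (hF q0 hq0 n hn δ)
  intro p hp
  obtain ⟨h1, h2⟩ := mem_filter.mp hp
  exact mem_filter.mpr ⟨h h1, h2⟩

open scoped Classical in
theorem wall_total (hW : WallStmt) (m D : ℕ) (f : Fin (6 * m) → MvPolynomial (Fin 6) ℝ)
    (hf0 : ∀ j, f j ≠ 0) (hfD : ∀ j, (f j).totalDegree ≤ D) (S G : Finset (V3 × V3)) (B : ℕ)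
    (hG : ∀ p ∈ G, Good S (D ^ 2 + 2) p) (hF : Fib S G B)
    (hw : ∀ p ∈ G, ∃ j, eval (pv p) (f j) = 0) :
    #G ≤ (6 * m * 7 ^ D) * (D * #S ^ 2 + B * (D * #S)) := by
  set H : Finset (MvPolynomial (Fin 6) ℝ) := univ.biUnion fun j => ders D (f j) with hH
  have hHc : #H ≤ 6 * m * 7 ^ D := by
    refine card_biUnion_le.trans ((sum_le_sum fun j _ => card_ders_le D (f j)).trans ?_)
    simp
  have hsub : G ⊆ H.biUnion fun h =>
      G.filter fun p => eval (pv p) h = 0 ∧ ∃ i, eval (pv p) (pderiv i h) ≠ 0 := by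
    intro p hp
    obtain ⟨j, hj⟩ := hw p hp
    obtain ⟨h, hh, h1, h2⟩ := exists_mem_ders (pv p) D (f j) (hf0 j) (hfD j) hj
    exact mem_biUnion.mpr ⟨h, mem_biUnion.mpr ⟨j, mem_univ j, hh⟩,
      mem_filter.mpr ⟨hp, h1, h2⟩⟩
  calc #G ≤ #(H.biUnion fun h =>
        G.filter fun p => eval (pv p) h = 0 ∧ ∃ i, eval (pv p) (pderiv i h) ≠ 0) :=
        card_le_card hsub
    _ ≤ ∑ h ∈ H, #(G.filter fun p => eval (pv p) h = 0 ∧ ∃ i, eval (pv p) (pderiv i h) ≠ 0) :=
        card_biUnion_le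
    _ ≤ ∑ _h ∈ H, (D * #S ^ 2 + B * (D * #S)) := by
        refine sum_le_sum fun h hh => ?_
        obtain ⟨j, _, hj⟩ := mem_biUnion.mp hh
        exact hW D h (totalDegree_of_mem_ders D D (f j) (hfD j) h hj) S _ B
          (fun p hp => hG p (mem_filter.mp hp).1) (Fib_subset (filter_subset _ _) hF)
          (fun p hp => (mem_filter.mp hp).2)
    _ = #H * (D * #S ^ 2 + B * (D * #S)) := by rw [sum_const, smul_eq_mul]
    _ ≤ _ := Nat.mul_le_mul_right _ hHc

/-! ### pigeonhole over the cells -/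

open scoped Classical in
theorem exists_cell {ι : Type} [Fintype ι] (f : ι → MvPolynomial (Fin 6) ℝ) (D : ℕ)
    (hD : ∑ j, (f j).totalDegree ≤ D) (S G : Finset (V3 × V3))
    (G' : Finset (V3 × V3)) (hG' : ∀ p, p ∈ G' ↔ p ∈ G ∧ ∀ j, eval (pv p) (f j) ≠ 0)
    (hne : G'.Nonempty) :
    ∃ σ : ι → Bool, 0 < #(G.filter fun p => InCell f σ (pv p)) ∧
      #(Sc f S σ) * #G' ≤ (2 * D + 1) ^ 3 * #S * #(G.filter fun p => InCell f σ (pv p)) := by
  let sg : V3 × V3 → (ι → Bool) := fun p j => decide (0 < eval (pv p) (f j))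
  have hcell : ∀ σ, (G'.filter fun p => sg p = σ) = G.filter fun p => InCell f σ (pv p) := by
    intro σ
    ext p
    rw [mem_filter, mem_filter, hG']
    constructor
    · rintro ⟨⟨h1, h2⟩, rfl⟩
      exact ⟨h1, fun j => ⟨h2 j, by simp [sg]⟩⟩
    · rintro ⟨h1, h2⟩
      refine ⟨⟨h1, fun j => (h2 j).1⟩, ?_⟩
      funext j
      have := (h2 j).2
      simp only [sg]
      rw [Bool.eq_iff_iff, decide_eq_true_iff]
      exact this.symm
  have hsum : ∑ σ ∈ G'.image sg, #(G.filter fun p => InCell f σ (pv p)) = #G' := by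
    rw [card_eq_sum_card_image sg G']
    exact sum_congr rfl fun σ _ => by rw [hcell]
  have hle : ∑ σ ∈ G'.image sg, #(Sc f S σ) * #G' ≤
      ∑ σ ∈ G'.image sg, (2 * D + 1) ^ 3 * #S * #(G.filter fun p => InCell f σ (pv p)) := by
    rw [← sum_mul, ← mul_sum, hsum]
    refine Nat.mul_le_mul_right _ ?_
    exact (sum_le_sum_of_subset (subset_univ _)).trans (sum_Sc_le f D hD S)
  obtain ⟨σ, hσ, h1⟩ := exists_le_of_sum_le (hne.image sg) hle
  refine ⟨σ, ?_, h1⟩
  obtain ⟨p, hp, hpσ⟩ := mem_image.mp hσ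
  refine card_pos.mpr ⟨p, ?_⟩
  rw [← hcell]
  exact mem_filter.mpr ⟨hp, hpσ⟩

open scoped Classical in
theorem core_of_wall (hW : WallStmt) : CoreStmt := by
  intro ε hε
  obtain ⟨m, hm1, hm⟩ := exists_m ε hε
  set D : ℕ := 72 * 2 ^ m with hD
  refine ⟨D ^ 2 + 2, fun B => ?_⟩
  set C : ℝ := 2 * ((6 * m * 7 ^ D : ℕ) : ℝ) * (D * (1 + B)) + 1 with hC
  have hC0 : 0 < C := by positivity
  refine ⟨C, hC0, ?_⟩
  have main : ∀ (n : ℕ) (S G : Finset (V3 × V3)), #G ≤ n → (∀ p ∈ G, Good S (D ^ 2 + 2) p) →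
      Fib S G B → (#G : ℝ) ≤ C * (#S : ℝ) ^ (2 + ε) := by
    intro n
    induction n using Nat.strong_induction_on with
    | _ n ih =>
      intro S G hn hGood hF
      rcases G.eq_empty_or_nonempty with h0 | hGne
      · rw [h0, card_empty, Nat.cast_zero]
        positivity
      have hS1 : 1 ≤ #S := by
        obtain ⟨p, hp⟩ := hGne
        have h1 := (hGood p hp).rho 0 (fun _ => 1) (by
          intro h
          have := congrFun h 0
          simp at this)
        have h2 : #((Ms S p).filter fun q => crossProduct (q.1 - 0) (fun _ => 1) ≠ 0) ≤ #S :=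
          card_le_card ((filter_subset _ _).trans (filter_subset _ _))
        omega
      obtain ⟨f, hf0, hdeg, hcell⟩ := cell_partition6 m G
      set G' := G.filter fun p => ∀ j, eval (pv p) (f j) ≠ 0 with hG'
      set Wl := G.filter fun p => ¬ ∀ j, eval (pv p) (f j) ≠ 0 with hWl
      have hsplit : #G' + #Wl = #G := card_filter_add_card_filter_not _
      by_cases hA : #G ≤ 2 * #G'
      · have hGpos := card_pos.mpr hGne
        have hG'ne : G'.Nonempty := card_pos.mp (by omega)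
        obtain ⟨σ, hσ1, hσ2⟩ := exists_cell f D hdeg S G G' (fun p => by rw [hG', mem_filter]) hG'ne
        set Gs := G.filter fun p => InCell f σ (pv p) with hGs
        have h3 : 2 ^ (6 * m) * #Gs ≤ #G := hcell σ
        have hlt : #Gs < n := by
          have h4 : 2 ^ 1 ≤ 2 ^ (6 * m) := Nat.pow_le_pow_right (by norm_num) (by omega)
          have h5 : 2 * #Gs ≤ 2 ^ (6 * m) * #Gs := Nat.mul_le_mul_right _ h4
          omega
        have hMs : ∀ p ∈ Gs, Ms (Sc f S σ) p = Ms S p := fun p hp =>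
          Ms_Sc f S σ p (mem_filter.mp hp).2
        have hih := ih (#Gs) hlt (Sc f S σ) Gs le_rfl
          (fun p hp => Good_congr (hMs p hp) (hGood p (mem_filter.mp hp).1))
          (fun q0 hq0 nn hnn δ => by
            refine (card_le_card ?_).trans (hF q0 (mem_filter.mp hq0).1 nn hnn δ)
            intro p hp
            obtain ⟨h6, h7⟩ := mem_filter.mp hp
            rw [hMs p h6] at h7
            exact mem_filter.mpr ⟨(mem_filter.mp h6).1, h7⟩)
        refine power_step ε C _ (#G') (#Gs) (#(Sc f S σ)) (#S)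
          (((2 * D + 1 : ℕ) : ℝ) ^ 3) ((2 : ℝ) ^ (6 * m)) hε hC0 (by exact_mod_cast hσ1)
          (by (clear * -; positivity)) (by positivity) (by (clear * - hS1; positivity)) (by positivity) (by positivity)
          hih ?_ ?_ ?_ hm
        · exact_mod_cast hσ2
        · exact_mod_cast h3
        · exact_mod_cast hA
      · have hB : #G ≤ 2 * #Wl := by omega
        have hfD : ∀ j, (f j).totalDegree ≤ D := fun j =>
          (single_le_sum (f := fun j => (f j).totalDegree) (fun _ _ => Nat.zero_le _)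
            (mem_univ j)).trans hdeg
        have h1 := wall_total hW m D f hf0 hfD S Wl B
          (fun p hp => hGood p (mem_filter.mp hp).1) (Fib_subset (filter_subset _ _) hF)
          (fun p hp => by
            have := (mem_filter.mp hp).2
            push Not at this
            exact this)
        have h2 : #G ≤ 2 * ((6 * m * 7 ^ D) * (D * (1 + B) * #S ^ 2)) := by
          refine hB.trans (Nat.mul_le_mul_left 2 (h1.trans (Nat.mul_le_mul_left _ ?_)))
          have h3 : #S ≤ #S ^ 2 := Nat.le_self_pow two_ne_zero _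
          have h4 : B * (D * #S) ≤ B * (D * #S ^ 2) :=
            Nat.mul_le_mul_left _ (Nat.mul_le_mul_left _ h3)
          calc D * #S ^ 2 + B * (D * #S) ≤ D * #S ^ 2 + B * (D * #S ^ 2) :=
                Nat.add_le_add_left h4 _
            _ = D * (1 + B) * #S ^ 2 := by ring
        have h3 : (#G : ℝ) ≤ 2 * (((6 * m * 7 ^ D : ℕ) : ℝ) * (D * (1 + B) * (#S : ℝ) ^ 2)) := by
          exact_mod_cast h2
        have hS1' : (1 : ℝ) ≤ (#S : ℝ) := by exact_mod_cast hS1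
        have h4 : (#S : ℝ) ^ 2 ≤ (#S : ℝ) ^ (2 + ε) := by
          rw [← Real.rpow_two]
          exact Real.rpow_le_rpow_of_exponent_le hS1' (by linarith only [hε])
        have h5 : 0 ≤ (#S : ℝ) ^ (2 + ε) := by (clear * - hS1; positivity)
        calc (#G : ℝ) ≤ 2 * (((6 * m * 7 ^ D : ℕ) : ℝ) * (D * (1 + B) * (#S : ℝ) ^ 2)) := h3
          _ = (2 * ((6 * m * 7 ^ D : ℕ) : ℝ) * (D * (1 + B))) * (#S : ℝ) ^ 2 := by ring
          _ ≤ (2 * ((6 * m * 7 ^ D : ℕ) : ℝ) * (D * (1 + B))) * (#S : ℝ) ^ (2 + ε) :=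
              mul_le_mul_of_nonneg_left h4 (by positivity)
          _ ≤ C * (#S : ℝ) ^ (2 + ε) := by
              rw [hC, add_mul, one_mul]
              linarith only [h5]
  exact fun S G h1 h2 => main _ S G le_rfl h1 h2

end Vale.Agent.P054.PL
end

section

/-! Theorem PL, unconditional. -/

namespace Vale.Agent.P054.PL

theorem wall : WallStmt := wallStmt planeStmt planesStmt lineStmt dirStmt

theorem core : CoreStmt := core_of_wall wall

theorem planar : Vale.Agent.P054.R.PlanarStmt := planarStmt core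

end Vale.Agent.P054.PL
end

section

/-! Block L2, leaf WALLRED, case of a plane (helper611). -/

set_option linter.all false
set_option autoImplicit false

namespace Vale.Agent.P054.L3

open Finset MvPolynomial
open Vale.Agent.P054.L2 (V3 sqd lpt lineSet trk ONF coord emb InFlat OnFlat onFlat_line coord_lpt line_in_flat lines_through_2d)

private theorem wtw_par (w w' : Fin 2 → ℝ) (hw : w ≠ 0) (hw' : w' ≠ 0)
    (h : w 0 * w' 1 - w 1 * w' 0 = 0) : ∃ c : ℝ, c ≠ 0 ∧ w' = c • w := by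
  by_cases h0 : w 0 = 0
  · have h1 : w 1 ≠ 0 := by
      intro h1
      apply hw
      funext j
      fin_cases j
      · exact h0
      · exact h1
    have e0 : w' 0 = 0 := by
      rw [h0, zero_mul, zero_sub, neg_eq_zero] at h
      exact (mul_eq_zero.1 h).resolve_left h1
    have e : w' = (w' 1 / w 1) • w := by
      funext j
      fin_cases j
      · simp [e0, h0]
      · simp [div_mul_cancel₀, h1]
    refine ⟨w' 1 / w 1, ?_, e⟩
    intro hc
    rw [hc, zero_smul] at e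
    exact hw' e
  · have e : w' = (w' 0 / w 0) • w := by
      funext j
      fin_cases j
      · simp [div_mul_cancel₀, h0]
      · show w' 1 = w' 0 / w 0 * w 1
        field_simp
        linarith
    refine ⟨w' 0 / w 0, ?_, e⟩
    intro hc
    rw [hc, zero_smul] at e
    exact hw' e

private theorem wtw_line {f : ℕ} (o : V3) (e : Fin f → V3) (p v x : V3)
    (h : ∀ t, emb o e (coord o e (lpt p v t)) = lpt p v t) (hx : x ∈ lineSet p v) :
    lineSet p v = Set.range (fun t : ℝ =>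
      emb o e (coord o e x + t • (fun i => ∑ k, v k * e i k : Fin f → ℝ))) := by
  obtain ⟨t0, rfl⟩ := hx
  ext z
  constructor
  · rintro ⟨s, rfl⟩
    refine ⟨s - t0, ?_⟩
    show emb o e (coord o e (lpt p v t0) + (s - t0) • _) = lpt p v s
    rw [← h s, coord_lpt, coord_lpt, add_assoc, ← add_smul]
    congr 3
    ring
  · rintro ⟨s, rfl⟩
    refine ⟨s + t0, ?_⟩
    show lpt p v (s + t0) = emb o e (coord o e (lpt p v t0) + s • _)
    rw [← h (s + t0), coord_lpt, coord_lpt, add_assoc, ← add_smul]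
    congr 3
    ring

private theorem wtw_range {f : ℕ} (o : V3) (e : Fin f → V3) (y w w' : Fin f → ℝ) (c : ℝ)
    (hc : c ≠ 0) (h : w' = c • w) :
    Set.range (fun t : ℝ => emb o e (y + t • w')) = Set.range (fun t : ℝ => emb o e (y + t • w)) := by
  subst h
  ext z
  constructor
  · rintro ⟨t, rfl⟩
    exact ⟨t * c, by simp [smul_smul]⟩
  · rintro ⟨t, rfl⟩
    exact ⟨t / c, by simp [smul_smul, div_mul_cancel₀ _ hc]⟩

/-- case of a plane -/
theorem wall_red_two (K : ℕ) (hK : 2 ≤ K) (B e₀ : ℝ) (ε : ℝ) (hε : 0 < ε) (f : Fin 4 → ℕ) (i : Fin 4) (C : ℝ) (hC : 0 ≤ C)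
    (hcl : Claim K B e₀ (Function.update f i 1) ε C) (d : ℕ) {ι : Type} (D : L2D K B e₀ ι)
    (hflat : ∀ j, j ≠ i → OnFlat (f j) (D.X j)) (o : V3) (e : Fin 2 → V3)
    (hX : InFlat o e (D.X i)) (F : MvPolynomial (Fin 2) ℝ) (hF : F ≠ 0) (hd : F.totalDegree ≤ d)
    (hG : ∀ g ∈ D.G, ∀ t : ℝ, eval (coord o e (lpt (D.p i g) (D.v i g) t)) F = 0) :
    D.wt ≤ C * d * (D.N : ℝ) ^ (1 + ε) := by
  classical
  set G' : Finset ι := D.G.filter (fun g => K ≤ (D.T 0 g).card ∧ K ≤ (D.T 1 g).card) with hG'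
  have hsub : G' ⊆ D.G := Finset.filter_subset _ _
  set D' : L2D K B e₀ ι := D.restrict G' hsub D.X D.T (fun _ _ _ => Finset.Subset.refl _)
    (fun j g hg t ht => D.hX j g (hsub hg) t ht) with hD'
  have hwt : D.wt = D'.wt := by
    show ∑ g ∈ D.G, (psi K (D.T 0 g).card (D.T 1 g).card : ℝ) =
      ∑ g ∈ G', (psi K (D.T 0 g).card (D.T 1 g).card : ℝ)
    symm
    refine Finset.sum_subset hsub ?_
    intro g hg hg'
    have : ¬ (K ≤ (D.T 0 g).card ∧ K ≤ (D.T 1 g).card) := by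
      intro h
      exact hg' (Finset.mem_filter.2 ⟨hg, h⟩)
    simp [psi, this]
  have hN : D.N = D'.N := rfl
  rw [hwt, hN]
  refine line_red K B e₀ ε hε f i C hC hcl d D' hflat ?_
  intro x hx
  -- facts on one line
  have key : ∀ g ∈ G', (∀ t, emb o e (coord o e (lpt (D.p i g) (D.v i g) t)) =
      lpt (D.p i g) (D.v i g) t) ∧
      (fun j => ∑ k, D.v i g k * e j k : Fin 2 → ℝ) ≠ 0 := by
    intro g hg
    have h2 : 2 ≤ (D.T (trk i) g).card := by
      have := (Finset.mem_filter.1 hg).2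
      rcases Fin.exists_fin_two.1 ⟨trk i, rfl⟩ with h | h
      · rw [h]; exact le_trans hK this.1
      · rw [h]; exact le_trans hK this.2
    obtain ⟨t1, ht1, t2, ht2, hne⟩ := Finset.one_lt_card.1 (lt_of_lt_of_le one_lt_two h2)
    exact line_in_flat o e hX.1 _ _ (D.hv i g (hsub hg)) t1 t2 hne
      (hX.2 _ (D.hX i g (hsub hg) t1 ht1)) (hX.2 _ (D.hX i g (hsub hg) t2 ht2))
  set Ls := (D'.G.image (fun g => lineSet (D'.p i g) (D'.v i g))).filter (fun l => x ∈ l) with hLs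
  have hch : ∀ l ∈ Ls, ∃ g ∈ G', lineSet (D.p i g) (D.v i g) = l ∧ x ∈ l := by
    intro l hl
    rw [hLs, Finset.mem_filter, Finset.mem_image] at hl
    obtain ⟨⟨g, hg, h⟩, hx⟩ := hl
    exact ⟨g, hg, h, hx⟩
  rcases Ls.eq_empty_or_nonempty with h0 | ⟨l0, hl0⟩
  · rw [h0]
    simp
  haveI : Nonempty ι := ⟨(hch l0 hl0).choose⟩
  choose! g hgG hgl hgx using hch
  have hrange : ∀ l ∈ Ls, l = Set.range (fun t : ℝ =>
      emb o e (coord o e x + t • (fun j => ∑ k, D.v i (g l) k * e j k : Fin 2 → ℝ))) := by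
    intro l hl
    have hx' : x ∈ lineSet (D.p i (g l)) (D.v i (g l)) := by
      rw [hgl l hl]
      exact hgx l hl
    rw [← wtw_line o e _ _ x (key (g l) (hgG l hl)).1 hx', hgl l hl]
  set W : Finset (Fin 2 → ℝ) :=
    Ls.image (fun l => (fun j => ∑ k, D.v i (g l) k * e j k : Fin 2 → ℝ)) with hW
  have hdet : ∀ l ∈ Ls, ∀ l' ∈ Ls, l ≠ l' →
      (fun j => ∑ k, D.v i (g l) k * e j k : Fin 2 → ℝ) 0 *
        (fun j => ∑ k, D.v i (g l') k * e j k : Fin 2 → ℝ) 1 -
      (fun j => ∑ k, D.v i (g l) k * e j k : Fin 2 → ℝ) 1 *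
        (fun j => ∑ k, D.v i (g l') k * e j k : Fin 2 → ℝ) 0 ≠ 0 := by
    intro l hl l' hl' hne h
    obtain ⟨c, hc, h'⟩ := wtw_par _ _ (key _ (hgG l hl)).2 (key _ (hgG l' hl')).2 h
    apply hne
    rw [hrange l hl, hrange l' hl', wtw_range o e (coord o e x) _ _ c hc h']
  have hinj : Set.InjOn (fun l => (fun j => ∑ k, D.v i (g l) k * e j k : Fin 2 → ℝ)) (Ls : Set _) := by
    intro l hl l' hl' h
    by_contra hne
    apply hdet l hl l' hl' hne
    have h0 := congrFun h 0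
    have h1 := congrFun h 1
    simp only at h0 h1 ⊢
    rw [h0, h1]
    ring
  have hcard : W.card = Ls.card := Finset.card_image_of_injOn hinj
  rw [← hcard]
  refine lines_through_2d F hF d hd (coord o e x) W ?_ ?_ ?_
  · intro w hw
    obtain ⟨l, hl, rfl⟩ := Finset.mem_image.1 hw
    exact (key _ (hgG l hl)).2
  · intro w hw w' hw' hne
    obtain ⟨l, hl, rfl⟩ := Finset.mem_image.1 hw
    obtain ⟨l', hl', rfl⟩ := Finset.mem_image.1 hw'
    exact hdet l hl l' hl' (fun h => hne (by rw [h]))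
  · intro w hw t
    obtain ⟨l, hl, rfl⟩ := Finset.mem_image.1 hw
    have hx' : x ∈ lineSet (D.p i (g l)) (D.v i (g l)) := by
      rw [hgl l hl]
      exact hgx l hl
    obtain ⟨t0, ht0⟩ := hx'
    have h := hG (g l) (hsub (hgG l hl)) (t0 + t)
    rw [← ht0, coord_lpt, add_assoc, ← add_smul, ← coord_lpt]
    exact h

end Vale.Agent.P054.L3
end

section

/-! Block L3, leaf WALLRED (see L2/WallRed.lean for the proofs). -/

set_option linter.all false
set_option autoImplicit false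

namespace Vale.Agent.P054.L3

open Finset MvPolynomial
open Vale.Agent.P054.L2 (V3 sqd lpt lineSet trk ONF coord emb InFlat OnFlat)

/-- case of a line -/
theorem wall_red_one (K : ℕ) (hK : 2 ≤ K) (B e₀ : ℝ) {ι : Type} (D : L2D K B e₀ ι) (i : Fin 4) (o : V3) (e : Fin 1 → V3)
    (hX : InFlat o e (D.X i)) (F : MvPolynomial (Fin 1) ℝ) (hF : F ≠ 0)
    (hG : ∀ g ∈ D.G, ∀ t : ℝ, eval (coord o e (lpt (D.p i g) (D.v i g) t)) F = 0) :
    D.wt = 0 := by
  have h0 : ∀ g ∈ D.G, (psi K (D.T 0 g).card (D.T 1 g).card : ℝ) = 0 := by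
    intro g hg
    have hno : ¬ (K ≤ (D.T 0 g).card ∧ K ≤ (D.T 1 g).card) := by
      intro hc
      have h2 : 2 ≤ (D.T (trk i) g).card := by
        rcases Fin.exists_fin_two.1 ⟨trk i, rfl⟩ with h | h
        · rw [h]; exact hK.trans hc.1
        · rw [h]; exact hK.trans hc.2
      obtain ⟨t1, ht1, t2, ht2, hne⟩ := Finset.one_lt_card.1 (lt_of_lt_of_le one_lt_two h2)
      have hl := Vale.Agent.P054.L2.line_in_flat o e hX.1 _ _ (D.hv i g hg) t1 t2 hne
        (hX.2 _ (D.hX i g hg t1 ht1)) (hX.2 _ (D.hX i g hg t2 ht2))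
      set w : Fin 1 → ℝ := fun j => ∑ k, D.v i g k * e j k with hw
      have hw0 : w 0 ≠ 0 := by
        intro h
        apply hl.2
        funext j
        rw [Subsingleton.elim j 0]
        exact h
      apply hF
      refine MvPolynomial.funext fun y => ?_
      rw [map_zero]
      have h := hG g hg ((y 0 - coord o e (D.p i g) 0) / w 0)
      rw [Vale.Agent.P054.L2.coord_lpt] at h
      have hy : coord o e (D.p i g) + ((y 0 - coord o e (D.p i g) 0) / w 0) • w = y := by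
        funext j
        rw [Subsingleton.elim j 0]
        simp only [Pi.add_apply, Pi.smul_apply, smul_eq_mul]
        rw [div_mul_cancel₀ _ hw0]
        ring
      rw [hy] at h
      exact h
    simp [psi, hno]
  exact Finset.sum_eq_zero h0

theorem wall_red_mono (K : ℕ) (B e₀ : ℝ) (f : Fin 4 → ℕ) (ε C C' : ℝ) (h : C ≤ C')
    (hC : Claim K B e₀ f ε C) : Claim K B e₀ f ε C' := fun ι D hD =>
  (hC ι D hD).trans (mul_le_mul_of_nonneg_right h (Real.rpow_nonneg (Nat.cast_nonneg _) _))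

/-- all cases -/
theorem wall_red (K : ℕ) (hK : 2 ≤ K) (B e₀ : ℝ) (ε : ℝ) (hε : 0 < ε) (f : Fin 4 → ℕ)
    (hf : ∀ j, 1 ≤ f j ∧ f j ≤ 3)
    (i : Fin 4) (hlow : LowClaims K B e₀ f ε)
    (hbase : BaseClaim K B e₀ ε)
    (d n : ℕ) (hn : f i = n) : ∃ C' : ℝ, 0 ≤ C' ∧ ∀ (ι : Type) (D : L2D K B e₀ ι)
      (hflat : ∀ j, j ≠ i → OnFlat (f j) (D.X j))
      (o : V3) (e : Fin n → V3) (hX : InFlat o e (D.X i))
      (F : MvPolynomial (Fin n) ℝ) (hF : F ≠ 0) (hd : F.totalDegree ≤ d)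
      (hG : ∀ g ∈ D.G, ∀ t : ℝ, eval (coord o e (lpt (D.p i g) (D.v i g) t)) F = 0),
      D.wt ≤ C' * (D.N : ℝ) ^ (1 + ε) := by
  have hlow' : ∀ m : ℕ, 1 ≤ m → m < n → ∃ C : ℝ, 0 ≤ C ∧ Claim K B e₀ (Function.update f i m) ε C := by
    intro m hm hmn
    refine hlow (Function.update f i m) ?_ ?_
    · intro j
      by_cases hj : j = i
      · subst hj
        rw [Function.update_self]
        exact ⟨hm, by omega⟩
      · rw [Function.update_of_ne hj]
        exact ⟨(hf j).1, le_refl _⟩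
    · intro h
      have h1 := congrFun h i
      rw [Function.update_self] at h1
      omega
  have h1n : 1 ≤ n := hn ▸ (hf i).1
  have hn3 : n ≤ 3 := hn ▸ (hf i).2
  have hn123 : n = 1 ∨ n = 2 ∨ n = 3 := by omega
  rcases hn123 with rfl | rfl | rfl
  · refine ⟨0, le_refl _, ?_⟩
    intro ι D hflat o e hX F hF hd hG
    rw [wall_red_one K hK B e₀ D i o e hX F hF hG, zero_mul]
  · obtain ⟨C, hC, hcl⟩ := hlow' 1 le_rfl one_lt_two
    refine ⟨C * d, mul_nonneg hC (Nat.cast_nonneg _), ?_⟩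
    intro ι D hflat o e hX F hF hd hG
    exact wall_red_two K hK B e₀ ε hε f i C hC hcl d D hflat o e hX F hF hd hG
  · obtain ⟨C1, hC1, hcl1⟩ := hlow' 1 le_rfl (by norm_num)
    obtain ⟨C2, hC2, hcl2⟩ := hlow' 2 one_le_two (by norm_num)
    obtain ⟨C', hC', h⟩ := wall_red_three K hK B e₀ ε hε f (fun j => (hf j).1) i (max C1 C2)
      (hC1.trans (le_max_left _ _)) (wall_red_mono K B e₀ _ ε C1 _ (le_max_left _ _) hcl1)
      (wall_red_mono K B e₀ _ ε C2 _ (le_max_right _ _) hcl2) hbase d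
    refine ⟨C', hC', ?_⟩
    intro ι D hflat o e hX F hF hd hG
    obtain ⟨F', hF', hdeg, hev⟩ := Vale.Agent.P054.L2.exists_pullback o e hX.1 F hF
    exact h ι D hflat F' hF' (hdeg.trans hd) fun g hg t => by rw [hev]; exact hG g hg t


end Vale.Agent.P054.L3
end

section

/-! Block L3, leaf BASE. `g` with few points on one of the two lines.
Proof. By symmetry (`(T 0)` small or `(T 1)` small; two halves of `G`) let `#(T 0 g) < K'`, both
`≥ K` (otherwise `psi = 0`). `psi ≤ K'^2 * #(T 1 g)`. For every `j ≥ 1` `samplingK` with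
`U = X 2 ×ˢ X 3`,
`A g = (T 1 g).image (t ↦ (lpt (p 2 g) (v 2 g) t, lpt (p 3 g) (v 3 g) t))` (injective because
`v ≠ 0`), `k = max K j`, `b = B * (#(X 0) * #(X 1))^(1+e₀)` (from `D.hJ` with
`S₁ = X 0 ×ˢ X 1`) gives `#{g : j ≤ #(T 1 g)} j ≤ 6 K B N^(1+e₀)`. Summing over `j ≤ N`,
`∑ #(T 1 g) ≤ 6 K B N^(1+e₀) (1 + log N) ≤ C N^(1+ε)`. -/

set_option linter.all false
set_option autoImplicit false

namespace Vale.Agent.P054.L3

open Finset
open Vale.Agent.P054.L2 (V3 sqd lpt lineSet trk ONF coord emb InFlat OnFlat)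

private lemma bs_inj (p q v w : V3) (hv : v ≠ 0) :
    Function.Injective (fun t : ℝ => (lpt p v t, lpt q w t)) := by
  intro s t h
  have h1 : lpt p v s = lpt p v t := (Prod.mk.inj h).1
  obtain ⟨i, hi⟩ : ∃ i, v i ≠ 0 := by
    by_contra hcon
    push Not at hcon
    exact hv (funext hcon)
  have h2 := congrFun h1 i
  simp only [lpt, Pi.add_apply, Pi.smul_apply, smul_eq_mul, add_right_inj] at h2
  exact mul_right_cancel₀ hi h2

private lemma bs_inter {α Ω : Type} (i1 i3 : DecidableEq Ω) (T : Finset α) (f : α → Ω)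
    (S : Finset Ω) (i2 : DecidablePred (fun t => f t ∈ S)) :
    (@Inter.inter (Finset Ω) (@Finset.instInter Ω i3) (@Finset.image α Ω i1 f T) S).card ≤
      (T.filter (fun t => f t ∈ S)).card := by
  have h : i1 = i3 := Subsingleton.elim _ _
  subst h
  have : T.image f ∩ S ⊆ (T.filter (fun t => f t ∈ S)).image f := by
    intro q hq
    rw [Finset.mem_inter, Finset.mem_image] at hq
    obtain ⟨⟨t, ht, rfl⟩, hS⟩ := hq
    exact Finset.mem_image.2 ⟨t, Finset.mem_filter.2 ⟨ht, hS⟩, rfl⟩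
  exact (Finset.card_le_card this).trans Finset.card_image_le

open scoped Classical in
private lemma bs_sum {Ω ι : Type} (U : Finset Ω) (G : Finset ι) (A : ι → Finset Ω)
    (hAU : ∀ g ∈ G, A g ⊆ U) (K : ℕ) (hK : 1 ≤ K) (hA : ∀ g ∈ G, K ≤ (A g).card)
    (b e₀ : ℝ) (hb0 : 0 ≤ b) (he : 0 ≤ e₀)
    (hb : ∀ S : Finset Ω, ((G.filter (fun g => K ≤ (A g ∩ S).card)).card : ℝ) ≤
      b * (S.card : ℝ) ^ (1 + e₀)) :
    ∑ g ∈ G, ((A g).card : ℝ) ≤
      (6 * K * b * (U.card : ℝ) ^ (1 + e₀)) * (1 + Real.log U.card) := by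
  set Q : ℝ := 6 * K * b * (U.card : ℝ) ^ (1 + e₀) with hQ
  have hQ0 : 0 ≤ Q := by
    have := Real.rpow_nonneg (Nat.cast_nonneg (α := ℝ) U.card) (1 + e₀)
    positivity
  have hstep : ∀ i : ℕ, ((G.filter (fun g => i + 1 ≤ (A g).card)).card : ℝ) ≤
      Q * ((i + 1 : ℕ) : ℝ)⁻¹ := by
    intro i
    have h := samplingK U (G.filter (fun g => i + 1 ≤ (A g).card)) A
      (fun g hg => hAU g (Finset.mem_filter.1 hg).1) K hK (max (i + 1) K) (le_max_right _ _)
      (fun g hg => max_le (Finset.mem_filter.1 hg).2 (hA g (Finset.mem_filter.1 hg).1))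
      b e₀ hb0 he (fun S => by
        refine le_trans (Nat.cast_le.2 (Finset.card_le_card ?_)) (hb S)
        intro g hg
        rw [Finset.mem_filter] at hg ⊢
        exact ⟨(Finset.mem_filter.1 hg.1).1, hg.2⟩)
    rw [← hQ] at h
    have hi0 : (0 : ℝ) < ((i + 1 : ℕ) : ℝ) := by positivity
    rw [← div_eq_mul_inv, le_div_iff₀ hi0]
    refine le_trans (mul_le_mul_of_nonneg_left ?_ (Nat.cast_nonneg _)) h
    exact Nat.cast_le.2 (le_max_left _ _)
  have hcard : ∀ g ∈ G, ((A g).card : ℝ) =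
      ∑ i ∈ Finset.range U.card, (if i + 1 ≤ (A g).card then (1 : ℝ) else 0) := by
    intro g hg
    rw [Finset.sum_boole]
    congr 1
    have hle : (A g).card ≤ U.card := Finset.card_le_card (hAU g hg)
    have : (Finset.range U.card).filter (fun i => i + 1 ≤ (A g).card)
        = Finset.range (A g).card := by
      ext i
      simp only [Finset.mem_filter, Finset.mem_range]
      omega
    rw [this, Finset.card_range]
  rw [Finset.sum_congr rfl hcard, Finset.sum_comm]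
  have h1 : ∀ i ∈ Finset.range U.card,
      ∑ g ∈ G, (if i + 1 ≤ (A g).card then (1 : ℝ) else 0) ≤ Q * ((i + 1 : ℕ) : ℝ)⁻¹ := by
    intro i _
    rw [Finset.sum_boole]
    exact hstep i
  refine (Finset.sum_le_sum h1).trans ?_
  rw [← Finset.mul_sum]
  refine mul_le_mul_of_nonneg_left ?_ hQ0
  have h2 := harmonic_le_one_add_log U.card
  rw [harmonic] at h2
  push_cast at h2 ⊢
  exact h2

private lemma bs_psi (K K' x y : ℕ) (hx : x < K') :
    psi K x y ≤ if K ≤ x ∧ K ≤ y then K' ^ 2 * y else 0 := by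
  unfold psi
  split_ifs with h
  · have h1 : x * y * min x y ≤ K' * y * K' :=
      Nat.mul_le_mul (Nat.mul_le_mul hx.le le_rfl) ((min_le_left _ _).trans hx.le)
    calc x * y * min x y ≤ K' * y * K' := h1
      _ = K' ^ 2 * y := by ring
  · exact le_rfl

private lemma bs_psi' (K K' x y : ℕ) (hy : y < K') :
    psi K x y ≤ if K ≤ x ∧ K ≤ y then K' ^ 2 * x else 0 := by
  unfold psi
  split_ifs with h
  · have h1 : x * y * min x y ≤ x * K' * K' :=
      Nat.mul_le_mul (Nat.mul_le_mul le_rfl hy.le) ((min_le_right _ _).trans hy.le)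
    calc x * y * min x y ≤ x * K' * K' := h1
      _ = K' ^ 2 * x := by ring
  · exact le_rfl

open scoped Classical in
/-- the elements of `G` with both cardinalities at least `K` -/
private noncomputable def bs_big {K : ℕ} {B e₀ : ℝ} {ι : Type} (D : L2D K B e₀ ι) : Finset ι :=
  D.G.filter (fun g => K ≤ (D.T 0 g).card ∧ K ≤ (D.T 1 g).card)

private lemma bs_sub {K : ℕ} {B e₀ : ℝ} {ι : Type} (D : L2D K B e₀ ι) {g : ι} (hg : g ∈ D.G) :
    (∀ t ∈ D.T 0 g, (lpt (D.p 0 g) (D.v 0 g) t, lpt (D.p 1 g) (D.v 1 g) t) ∈ D.X 0 ×ˢ D.X 1) ∧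
    (∀ t ∈ D.T 1 g, (lpt (D.p 2 g) (D.v 2 g) t, lpt (D.p 3 g) (D.v 3 g) t) ∈ D.X 2 ×ˢ D.X 3) := by
  have e0 : trk 0 = 0 := rfl
  have e1 : trk 1 = 0 := rfl
  have e2 : trk 2 = 1 := rfl
  have e3 : trk 3 = 1 := rfl
  constructor
  · intro t ht
    rw [Finset.mem_product]
    exact ⟨D.hX 0 g hg t (by rw [e0]; exact ht), D.hX 1 g hg t (by rw [e1]; exact ht)⟩
  · intro t ht
    rw [Finset.mem_product]
    exact ⟨D.hX 2 g hg t (by rw [e2]; exact ht), D.hX 3 g hg t (by rw [e3]; exact ht)⟩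

private lemma bs_side1 {K : ℕ} (hK : 2 ≤ K) {B e₀ : ℝ} (hB : 0 ≤ B) (he : 0 ≤ e₀) {ι : Type}
    (D : L2D K B e₀ ι) :
    ∑ g ∈ bs_big D, ((D.T 1 g).card : ℝ) ≤
      (6 * K * (B * (((D.X 0).card * (D.X 1).card : ℕ) : ℝ) ^ (1 + e₀)) *
        (((D.X 2).card * (D.X 3).card : ℕ) : ℝ) ^ (1 + e₀)) *
        (1 + Real.log (((D.X 2).card * (D.X 3).card : ℕ) : ℝ)) := by
  classical
  have hG : ∀ g ∈ bs_big D, g ∈ D.G ∧ K ≤ (D.T 0 g).card ∧ K ≤ (D.T 1 g).card := by
    intro g hg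
    unfold bs_big at hg
    exact Finset.mem_filter.1 hg
  have h := bs_sum (D.X 2 ×ˢ D.X 3) (bs_big D)
    (fun g => (D.T 1 g).image
      (fun t => (lpt (D.p 2 g) (D.v 2 g) t, lpt (D.p 3 g) (D.v 3 g) t)))
    (by
      intro g hg
      intro q hq
      rw [Finset.mem_image] at hq
      obtain ⟨t, ht, rfl⟩ := hq
      exact (bs_sub D (hG g hg).1).2 t ht)
    K (by omega)
    (by
      intro g hg
      rw [Finset.card_image_of_injective _ (bs_inj _ _ _ _ (D.hv 2 g (hG g hg).1))]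
      exact (hG g hg).2.2)
    (B * (((D.X 0).card * (D.X 1).card : ℕ) : ℝ) ^ (1 + e₀)) e₀
    (by positivity) he
    (by
      intro S
      have hJ := D.hJ (D.X 0 ×ˢ D.X 1) S
      rw [Finset.card_product] at hJ
      have e1 : ((((D.X 0).card * (D.X 1).card) * S.card : ℕ) : ℝ) ^ (1 + e₀)
          = (((D.X 0).card * (D.X 1).card : ℕ) : ℝ) ^ (1 + e₀) * (S.card : ℝ) ^ (1 + e₀) := by
        rw [Nat.cast_mul ((D.X 0).card * (D.X 1).card) S.card]
        exact Real.mul_rpow (Nat.cast_nonneg _) (Nat.cast_nonneg _)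
      rw [e1] at hJ
      rw [mul_assoc]
      refine le_trans (Nat.cast_le.2 (Finset.card_le_card ?_)) hJ
      intro g hg
      rw [Finset.mem_filter] at hg ⊢
      obtain ⟨hg1, hg2⟩ := hg
      refine ⟨(hG g hg1).1, ?_, ?_⟩
      · rw [Finset.filter_true_of_mem (bs_sub D (hG g hg1).1).1]
        exact (hG g hg1).2.1
      · exact le_trans hg2 (bs_inter _ _ (D.T 1 g)
          (fun t => (lpt (D.p 2 g) (D.v 2 g) t, lpt (D.p 3 g) (D.v 3 g) t)) S _))
  rw [Finset.card_product] at h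
  refine le_trans (le_of_eq ?_) h
  refine Finset.sum_congr rfl fun g hg => ?_
  rw [Finset.card_image_of_injective _ (bs_inj _ _ _ _ (D.hv 2 g (hG g hg).1))]

private lemma bs_side0 {K : ℕ} (hK : 2 ≤ K) {B e₀ : ℝ} (hB : 0 ≤ B) (he : 0 ≤ e₀) {ι : Type}
    (D : L2D K B e₀ ι) :
    ∑ g ∈ bs_big D, ((D.T 0 g).card : ℝ) ≤
      (6 * K * (B * (((D.X 2).card * (D.X 3).card : ℕ) : ℝ) ^ (1 + e₀)) *
        (((D.X 0).card * (D.X 1).card : ℕ) : ℝ) ^ (1 + e₀)) *
        (1 + Real.log (((D.X 0).card * (D.X 1).card : ℕ) : ℝ)) := by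
  classical
  have hG : ∀ g ∈ bs_big D, g ∈ D.G ∧ K ≤ (D.T 0 g).card ∧ K ≤ (D.T 1 g).card := by
    intro g hg
    unfold bs_big at hg
    exact Finset.mem_filter.1 hg
  have h := bs_sum (D.X 0 ×ˢ D.X 1) (bs_big D)
    (fun g => (D.T 0 g).image
      (fun t => (lpt (D.p 0 g) (D.v 0 g) t, lpt (D.p 1 g) (D.v 1 g) t)))
    (by
      intro g hg
      intro q hq
      rw [Finset.mem_image] at hq
      obtain ⟨t, ht, rfl⟩ := hq
      exact (bs_sub D (hG g hg).1).1 t ht)
    K (by omega)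
    (by
      intro g hg
      rw [Finset.card_image_of_injective _ (bs_inj _ _ _ _ (D.hv 0 g (hG g hg).1))]
      exact (hG g hg).2.1)
    (B * (((D.X 2).card * (D.X 3).card : ℕ) : ℝ) ^ (1 + e₀)) e₀
    (by positivity) he
    (by
      intro S
      have hJ := D.hJ S (D.X 2 ×ˢ D.X 3)
      rw [Finset.card_product] at hJ
      have e1 : ((S.card * ((D.X 2).card * (D.X 3).card) : ℕ) : ℝ) ^ (1 + e₀)
          = (((D.X 2).card * (D.X 3).card : ℕ) : ℝ) ^ (1 + e₀) * (S.card : ℝ) ^ (1 + e₀) := by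
        rw [Nat.cast_mul S.card ((D.X 2).card * (D.X 3).card), mul_comm (S.card : ℝ)]
        exact Real.mul_rpow (Nat.cast_nonneg _) (Nat.cast_nonneg _)
      rw [e1] at hJ
      rw [mul_assoc]
      refine le_trans (Nat.cast_le.2 (Finset.card_le_card ?_)) hJ
      intro g hg
      rw [Finset.mem_filter] at hg ⊢
      obtain ⟨hg1, hg2⟩ := hg
      refine ⟨(hG g hg1).1, ?_, ?_⟩
      · exact le_trans hg2 (bs_inter _ _ (D.T 0 g)
          (fun t => (lpt (D.p 0 g) (D.v 0 g) t, lpt (D.p 1 g) (D.v 1 g) t)) S _)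
      · rw [Finset.filter_true_of_mem (bs_sub D (hG g hg1).1).2]
        exact (hG g hg1).2.2)
  rw [Finset.card_product] at h
  refine le_trans (le_of_eq ?_) h
  refine Finset.sum_congr rfl fun g hg => ?_
  rw [Finset.card_image_of_injective _ (bs_inj _ _ _ _ (D.hv 0 g (hG g hg).1))]

private lemma bs_num (a c : ℕ) (ha : 1 ≤ a) (hc : 1 ≤ c) (K : ℕ) (B e₀ ε : ℝ) (hB : 0 ≤ B)
    (he : 0 ≤ e₀) (hε : e₀ < ε) :
    (6 * K * (B * (a : ℝ) ^ (1 + e₀)) * (c : ℝ) ^ (1 + e₀)) * (1 + Real.log (c : ℝ)) ≤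
      (6 * K * B * (1 + 1 / (ε - e₀))) * ((a * c : ℕ) : ℝ) ^ (1 + ε) := by
  have hδ : 0 < ε - e₀ := by linarith
  have ha0 : (0 : ℝ) < a := by exact_mod_cast ha
  have hc0 : (0 : ℝ) < c := by exact_mod_cast hc
  have hN0 : (0 : ℝ) < ((a * c : ℕ) : ℝ) := by
    rw [Nat.cast_mul]
    positivity
  have hN1 : (1 : ℝ) ≤ ((a * c : ℕ) : ℝ) := by
    exact_mod_cast Nat.mul_pos ha hc
  have h1 : (a : ℝ) ^ (1 + e₀) * (c : ℝ) ^ (1 + e₀) = ((a * c : ℕ) : ℝ) ^ (1 + e₀) := by
    rw [Nat.cast_mul, Real.mul_rpow ha0.le hc0.le]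
  have h2 : 1 + Real.log (c : ℝ) ≤ (1 + 1 / (ε - e₀)) * ((a * c : ℕ) : ℝ) ^ (ε - e₀) := by
    have h3 : Real.log (c : ℝ) ≤ (c : ℝ) ^ (ε - e₀) / (ε - e₀) :=
      Real.log_le_rpow_div hc0.le hδ
    have hcN : (c : ℝ) ≤ ((a * c : ℕ) : ℝ) := by
      exact_mod_cast Nat.le_mul_of_pos_left c ha
    have h4 : (c : ℝ) ^ (ε - e₀) ≤ ((a * c : ℕ) : ℝ) ^ (ε - e₀) :=
      Real.rpow_le_rpow hc0.le hcN hδ.le
    have h5 : (1 : ℝ) ≤ ((a * c : ℕ) : ℝ) ^ (ε - e₀) := Real.one_le_rpow hN1 hδ.le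
    have h6 : (c : ℝ) ^ (ε - e₀) / (ε - e₀) ≤ ((a * c : ℕ) : ℝ) ^ (ε - e₀) / (ε - e₀) :=
      div_le_div_of_nonneg_right h4 hδ.le
    calc 1 + Real.log (c : ℝ) ≤ ((a * c : ℕ) : ℝ) ^ (ε - e₀) +
          ((a * c : ℕ) : ℝ) ^ (ε - e₀) / (ε - e₀) := by linarith
      _ = (1 + 1 / (ε - e₀)) * ((a * c : ℕ) : ℝ) ^ (ε - e₀) := by ring
  have h7 : ((a * c : ℕ) : ℝ) ^ (1 + ε)
      = ((a * c : ℕ) : ℝ) ^ (1 + e₀) * ((a * c : ℕ) : ℝ) ^ (ε - e₀) := by
    rw [← Real.rpow_add hN0]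
    congr 1
    ring
  have h8 : 0 ≤ 6 * K * B * ((a * c : ℕ) : ℝ) ^ (1 + e₀) := by positivity
  calc (6 * K * (B * (a : ℝ) ^ (1 + e₀)) * (c : ℝ) ^ (1 + e₀)) * (1 + Real.log (c : ℝ))
      = (6 * K * B * ((a : ℝ) ^ (1 + e₀) * (c : ℝ) ^ (1 + e₀))) * (1 + Real.log (c : ℝ)) := by
        ring
    _ = (6 * K * B * ((a * c : ℕ) : ℝ) ^ (1 + e₀)) * (1 + Real.log (c : ℝ)) := by rw [h1]
    _ ≤ (6 * K * B * ((a * c : ℕ) : ℝ) ^ (1 + e₀)) *
          ((1 + 1 / (ε - e₀)) * ((a * c : ℕ) : ℝ) ^ (ε - e₀)) :=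
        mul_le_mul_of_nonneg_left h2 h8
    _ = _ := by
        rw [h7]
        ring

theorem base (K : ℕ) (hK : 2 ≤ K) (B e₀ : ℝ) (hB : 0 ≤ B) (he : 0 ≤ e₀) (ε : ℝ) (hε : e₀ < ε) :
    BaseClaim K B e₀ ε := by
  classical
  intro K'
  have hδ : 0 < ε - e₀ := by linarith
  set c₁ : ℝ := 6 * K * B * (1 + 1 / (ε - e₀)) with hc₁
  have hc₁0 : 0 ≤ c₁ := by positivity
  refine ⟨2 * (K' ^ 2 * c₁), by positivity, ?_⟩
  intro ι D hsmall
  have hNr : 0 ≤ (D.N : ℝ) ^ (1 + ε) := Real.rpow_nonneg (Nat.cast_nonneg _) _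
  -- reduce the sum to the big elements
  have hle : D.wt ≤ ∑ g ∈ bs_big D, ((K' : ℝ) ^ 2 * ((D.T 0 g).card : ℝ) +
      (K' : ℝ) ^ 2 * ((D.T 1 g).card : ℝ)) := by
    unfold L2D.wt bs_big
    rw [Finset.sum_filter]
    refine Finset.sum_le_sum fun g hg => ?_
    rcases hsmall g hg with h | h
    · have h1 := bs_psi K K' (D.T 0 g).card (D.T 1 g).card h
      split_ifs at h1 ⊢ with h2
      · have h3 : (psi K (D.T 0 g).card (D.T 1 g).card : ℝ) ≤ (K' : ℝ) ^ 2 * (D.T 1 g).card := by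
          exact_mod_cast h1
        have h4 : 0 ≤ (K' : ℝ) ^ 2 * ((D.T 0 g).card : ℝ) := by (clear * -; positivity)
        linarith
      · exact_mod_cast h1
    · have h1 := bs_psi' K K' (D.T 0 g).card (D.T 1 g).card h
      split_ifs at h1 ⊢ with h2
      · have h3 : (psi K (D.T 0 g).card (D.T 1 g).card : ℝ) ≤ (K' : ℝ) ^ 2 * (D.T 0 g).card := by
          exact_mod_cast h1
        have h4 : 0 ≤ (K' : ℝ) ^ 2 * ((D.T 1 g).card : ℝ) := by positivity
        linarith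
      · exact_mod_cast h1
  rcases (bs_big D).eq_empty_or_nonempty with hemp | ⟨g, hg⟩
  · rw [hemp, Finset.sum_empty] at hle
    exact hle.trans (by (clear * - hK hB hε; positivity))
  -- all `X i` are nonempty
  have hg' : g ∈ D.G ∧ K ≤ (D.T 0 g).card ∧ K ≤ (D.T 1 g).card := by
    unfold bs_big at hg
    exact Finset.mem_filter.1 hg
  obtain ⟨t, ht⟩ : (D.T 0 g).Nonempty := Finset.card_pos.1 (by omega)
  obtain ⟨s, hs⟩ : (D.T 1 g).Nonempty := Finset.card_pos.1 (by omega)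
  have hp0 := Finset.mem_product.1 ((bs_sub D hg'.1).1 t ht)
  have hp1 := Finset.mem_product.1 ((bs_sub D hg'.1).2 s hs)
  have hx0 : 1 ≤ (D.X 0).card := Finset.card_pos.2 ⟨_, hp0.1⟩
  have hx1 : 1 ≤ (D.X 1).card := Finset.card_pos.2 ⟨_, hp0.2⟩
  have hx2 : 1 ≤ (D.X 2).card := Finset.card_pos.2 ⟨_, hp1.1⟩
  have hx3 : 1 ≤ (D.X 3).card := Finset.card_pos.2 ⟨_, hp1.2⟩
  have h01 : 1 ≤ (D.X 0).card * (D.X 1).card := Nat.mul_pos hx0 hx1
  have h23 : 1 ≤ (D.X 2).card * (D.X 3).card := Nat.mul_pos hx2 hx3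
  have hN : D.N = ((D.X 0).card * (D.X 1).card) * ((D.X 2).card * (D.X 3).card) := by
    unfold L2D.N
    rw [Fin.prod_univ_four]
    ring
  have hN' : D.N = ((D.X 2).card * (D.X 3).card) * ((D.X 0).card * (D.X 1).card) := by
    rw [hN]
    ring
  have hs1 := (bs_side1 hK hB he D).trans
    (bs_num _ _ h01 h23 K B e₀ ε hB he hε)
  have hs0 := (bs_side0 hK hB he D).trans
    (bs_num _ _ h23 h01 K B e₀ ε hB he hε)
  rw [← hN, ← hc₁] at hs1
  rw [← hN', ← hc₁] at hs0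
  rw [Finset.sum_add_distrib, ← Finset.mul_sum, ← Finset.mul_sum] at hle
  have hK'0 : (0 : ℝ) ≤ (K' : ℝ) ^ 2 := by positivity
  calc D.wt ≤ _ := hle
    _ ≤ (K' : ℝ) ^ 2 * (c₁ * (D.N : ℝ) ^ (1 + ε)) + (K' : ℝ) ^ 2 * (c₁ * (D.N : ℝ) ^ (1 + ε)) :=
        add_le_add (mul_le_mul_of_nonneg_left hs0 hK'0) (mul_le_mul_of_nonneg_left hs1 hK'0)
    _ = 2 * (K' ^ 2 * c₁) * (D.N : ℝ) ^ (1 + ε) := by ring

end Vale.Agent.P054.L3
end

section

/-! Block L2, STEP, part A: choice of `m`, the cells. -/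

set_option linter.all false
set_option autoImplicit false

namespace Vale.Agent.P054.L2

open Finset MvPolynomial

theorem choose_m (ε : ℝ) (hε : 0 < ε) (F : ℕ) (hF : 1 ≤ F) : ∃ m : ℕ, 1 ≤ m ∧
    (((64 * (2 * (72 * 2 ^ m) + 1) * ((10 * 81 ^ (F - 1)) * (72 * 2 ^ m) ^ (F - 1)) : ℕ)) : ℝ)
      ≤ (1 / 2) * (((2 ^ (m * F) : ℕ) : ℝ)) ^ (1 + ε) := by
  set K1 : ℝ := 64 * 145 * (10 * 81 ^ (F - 1)) * 72 ^ (F - 1) with hK1
  have h2 : (1 : ℝ) < (2 : ℝ) ^ ε := Real.one_lt_rpow (by norm_num) hε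
  obtain ⟨n, hn⟩ := pow_unbounded_of_one_lt (2 * K1) h2
  refine ⟨n + 1, by omega, ?_⟩
  set m := n + 1 with hm
  have hm1 : 1 ≤ m := by omega
  have hpos : (0 : ℝ) < ((2 ^ (m * F) : ℕ) : ℝ) := by positivity
  have hK0 : 0 ≤ K1 := by positivity
  have e1 : (((64 * (2 * (72 * 2 ^ m) + 1) * ((10 * 81 ^ (F - 1)) * (72 * 2 ^ m) ^ (F - 1)) : ℕ)) : ℝ)
      ≤ K1 * ((2 ^ (m * F) : ℕ) : ℝ) := by
    push_cast
    have h3 : (1 : ℝ) ≤ 2 ^ m := one_le_pow₀ (by norm_num)
    have h4 : (2 : ℝ) * (72 * 2 ^ m) + 1 ≤ 145 * 2 ^ m := by linarith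
    have h5 : (2 : ℝ) ^ (m * F) = 2 ^ m * (2 ^ m) ^ (F - 1) := by
      rw [← pow_succ', Nat.sub_add_cancel hF, pow_mul]
    rw [h5, mul_pow]
    calc (64 : ℝ) * (2 * (72 * 2 ^ m) + 1) * (10 * 81 ^ (F - 1) * (72 ^ (F - 1) * (2 ^ m) ^ (F - 1)))
        ≤ 64 * (145 * 2 ^ m) * (10 * 81 ^ (F - 1) * (72 ^ (F - 1) * (2 ^ m) ^ (F - 1))) := by
          gcongr
      _ = K1 * (2 ^ m * (2 ^ m) ^ (F - 1)) := by rw [hK1]; ring
  refine le_trans e1 ?_
  rw [Real.rpow_add hpos, Real.rpow_one]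
  have e2 : 2 * K1 ≤ (((2 ^ (m * F) : ℕ) : ℝ)) ^ ε := by
    push_cast
    have e3 : ((2 : ℝ) ^ (m * F)) ^ ε = ((2 : ℝ) ^ ε) ^ (m * F) := by
      rw [← Real.rpow_natCast, ← Real.rpow_mul (by norm_num), mul_comm _ ε,
        Real.rpow_mul (by norm_num), Real.rpow_natCast]
    rw [e3]
    refine le_trans hn.le ?_
    refine pow_le_pow_right₀ h2.le ?_
    calc n ≤ m * 1 := by omega
      _ ≤ m * F := Nat.mul_le_mul_left _ hF
  calc K1 * ((2 ^ (m * F) : ℕ) : ℝ) = (1 / 2) * (((2 ^ (m * F) : ℕ) : ℝ) * (2 * K1)) := by ring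
    _ ≤ (1 / 2) * (((2 ^ (m * F) : ℕ) : ℝ) * (((2 ^ (m * F) : ℕ) : ℝ)) ^ ε) := by gcongr

/-- `x` is in the open cell with sign vector `σ` -/
def InCell {f : ℕ} {J : Type} (o : V3) (e : Fin f → V3)
    (q : J → MvPolynomial (Fin f) ℝ) (σ : J → Bool) (x : V3) : Prop :=
  ∀ j, eval (coord o e x) (q j) ≠ 0 ∧ (σ j = true ↔ 0 < eval (coord o e x) (q j))

open scoped Classical in
/-- the open cell with sign vector `σ` -/
noncomputable def cell {f : ℕ} {J : Type} (o : V3) (e : Fin f → V3) (X : Finset V3)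
    (q : J → MvPolynomial (Fin f) ℝ) (σ : J → Bool) : Finset V3 :=
  X.filter (InCell o e q σ)

theorem exists_cells {f : ℕ} (hf : 1 ≤ f) (hf3 : f ≤ 3) (o : V3) (e : Fin f → V3)
    (X : Finset V3) (m : ℕ) : ∃ q : Fin (f * m) → MvPolynomial (Fin f) ℝ,
      (∀ j, q j ≠ 0) ∧ ∑ j, (q j).totalDegree ≤ 18 * 2 ^ m ∧
      ∀ σ : Fin (f * m) → Bool, 2 ^ (f * m) * (cell o e X q σ).card ≤ X.card := by
  classical
  obtain ⟨g, hg0, hdeg, hg⟩ := Vale.Agent.P054.W.poly_partition_dim (f := f) hf (coord o e) X m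
  refine ⟨fun j => g j, fun j => hg0 j, ?_, ?_⟩
  · rw [← Fin.sum_univ_eq_sum_range (fun j => (g j).totalDegree)] at hdeg
    refine le_trans hdeg ?_
    have : f ^ 2 ≤ 3 ^ 2 := Nat.pow_le_pow_left hf3 2
    nlinarith [Nat.pos_of_ne_zero (show (2:ℕ) ^ m ≠ 0 by positivity)]
  · intro σ
    have h := hg (fun j => if h : j < f * m then σ ⟨j, h⟩ else true)
    refine le_trans (Nat.mul_le_mul_left _ (Finset.card_le_card ?_)) h
    intro x hx
    unfold cell at hx
    rw [mem_filter] at hx ⊢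
    refine ⟨hx.1, fun j hj => ?_⟩
    have h2 : eval (coord o e x) (g j) ≠ 0 ∧ (σ ⟨j, hj⟩ = true ↔ 0 < eval (coord o e x) (g j)) :=
      hx.2 ⟨j, hj⟩
    simp only [hj, dif_pos]
    unfold Vale.Agent.P041.SE.Sg
    by_cases h3 : σ ⟨j, hj⟩ = true
    · rw [if_pos h3]
      exact h2.2.1 h3
    · rw [if_neg h3]
      have h4 : ¬ 0 < eval (coord o e x) (g j) := fun h5 => h3 (h2.2.2 h5)
      exact lt_of_le_of_ne (not_lt.1 h4) h2.1

end Vale.Agent.P054.L2
end

section

/-! Block L2, leaf PIECES (pure combinatorics).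
Proof. `a = #A`, `b = #B`. Heavy pieces: `a ≤ 4 V x` where `x` = size of the piece. The light pieces
of `A'` contain together at most `V * a/(4V) = a/4` points, so the heavy ones contain `≥ a/4`;
same for `B'`. A heavy piece has `x ≥ a/(4V) ≥ 2` points. For two heavy pieces
`psi x y = x y min(x,y) ≥ x y min(a,b)/(4V)`. Summing: `≥ (a/4)(b/4) min(a,b)/(4V)`. -/

set_option linter.all false
set_option autoImplicit false

namespace Vale.Agent.P054.L2

open Finset

/-- the heavy pieces contain a quarter of the points -/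
theorem heavy_sum {α κ : Type*} [DecidableEq κ] (A A' : Finset α) (c : α → κ)
    (hA2 : A.card ≤ 2 * A'.card) (V : ℕ) (hV : 1 ≤ V) (hcA : (A'.image c).card ≤ V) :
    A.card ≤ 4 * ∑ k ∈ (A'.image c).filter
      (fun k => A.card ≤ 4 * V * (A'.filter (fun a => c a = k)).card),
        (A'.filter (fun a => c a = k)).card := by
  set x : κ → ℕ := fun k => (A'.filter (fun a => c a = k)).card with hx
  set P : κ → Prop := fun k => A.card ≤ 4 * V * x k with hP
  have h1 : ∑ k ∈ A'.image c, x k = A'.card :=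
    (Finset.card_eq_sum_card_image c A').symm
  have h2 : (∑ k ∈ (A'.image c).filter P, x k) +
      ∑ k ∈ (A'.image c).filter (fun k => ¬ P k), x k = ∑ k ∈ A'.image c, x k :=
    Finset.sum_filter_add_sum_filter_not _ _ _
  have h3 : 4 * V * ∑ k ∈ (A'.image c).filter (fun k => ¬ P k), x k ≤ V * A.card := by
    rw [Finset.mul_sum]
    calc ∑ k ∈ (A'.image c).filter (fun k => ¬ P k), 4 * V * x k
        ≤ ∑ k ∈ (A'.image c).filter (fun k => ¬ P k), A.card :=
          Finset.sum_le_sum fun k hk => by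
            have := (Finset.mem_filter.1 hk).2
            exact (not_le.1 this).le
      _ = ((A'.image c).filter (fun k => ¬ P k)).card * A.card := by
          rw [Finset.sum_const, smul_eq_mul]
      _ ≤ V * A.card := Nat.mul_le_mul_right _ ((Finset.card_filter_le _ _).trans hcA)
  have h4 : 4 * ∑ k ∈ (A'.image c).filter (fun k => ¬ P k), x k ≤ A.card := by
    have h5 : V * (4 * ∑ k ∈ (A'.image c).filter (fun k => ¬ P k), x k) ≤ V * A.card := by
      calc V * (4 * ∑ k ∈ (A'.image c).filter (fun k => ¬ P k), x k)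
          = 4 * V * ∑ k ∈ (A'.image c).filter (fun k => ¬ P k), x k := by ring
        _ ≤ _ := h3
    exact Nat.le_of_mul_le_mul_left h5 hV
  change A.card ≤ 4 * ∑ k ∈ (A'.image c).filter P, x k
  omega

theorem psi_pieces {α β κ κ' : Type*} [DecidableEq κ] [DecidableEq κ']
    (A A' : Finset α) (B B' : Finset β) (c : α → κ) (c' : β → κ')
    (hA' : A' ⊆ A) (hB' : B' ⊆ B) (hA2 : A.card ≤ 2 * A'.card) (hB2 : B.card ≤ 2 * B'.card)
    (V : ℕ) (hV : 1 ≤ V) (hcA : (A'.image c).card ≤ V) (hcB : (B'.image c').card ≤ V)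
    (hA : 8 * V ≤ A.card) (hB : 8 * V ≤ B.card) :
    psi A.card B.card ≤ 64 * V * ∑ k ∈ A'.image c, ∑ l ∈ B'.image c',
      psi (A'.filter (fun a => c a = k)).card (B'.filter (fun b => c' b = l)).card := by
  set x : κ → ℕ := fun k => (A'.filter (fun a => c a = k)).card with hx
  set y : κ' → ℕ := fun l => (B'.filter (fun b => c' b = l)).card with hy
  set a := A.card with ha
  set b := B.card with hb
  have hXA := heavy_sum A A' c hA2 V hV hcA
  have hXB := heavy_sum B B' c' hB2 V hV hcB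
  set H := (A'.image c).filter (fun k => a ≤ 4 * V * x k) with hH
  set H' := (B'.image c').filter (fun l => b ≤ 4 * V * y l) with hH'
  have hsub : ∑ k ∈ H, ∑ l ∈ H', psi (x k) (y l) ≤
      ∑ k ∈ A'.image c, ∑ l ∈ B'.image c', psi (x k) (y l) := by
    refine le_trans (Finset.sum_le_sum fun k _ =>
      Finset.sum_le_sum_of_subset (Finset.filter_subset _ _)) ?_
    exact Finset.sum_le_sum_of_subset (Finset.filter_subset _ _)
  have hpt : ∀ k ∈ H, ∀ l ∈ H', x k * y l * min a b ≤ 4 * V * psi (x k) (y l) := by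
    intro k hk l hl
    have h1 : a ≤ 4 * V * x k := (Finset.mem_filter.1 hk).2
    have h2 : b ≤ 4 * V * y l := (Finset.mem_filter.1 hl).2
    have h3 : 2 ≤ x k := by
      by_contra h
      have h4 : x k ≤ 1 := by omega
      have h5 : 4 * V * x k ≤ 4 * V * 1 := Nat.mul_le_mul_left _ h4
      omega
    have h4 : 2 ≤ y l := by
      by_contra h
      have h4 : y l ≤ 1 := by omega
      have h5 : 4 * V * y l ≤ 4 * V * 1 := Nat.mul_le_mul_left _ h4
      omega
    have h5 : min a b ≤ 4 * V * min (x k) (y l) := by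
      rcases le_total (x k) (y l) with h | h
      · rw [min_eq_left h]
        exact (min_le_left _ _).trans h1
      · rw [min_eq_right h]
        exact (min_le_right _ _).trans h2
    unfold psi
    rw [if_pos ⟨h3, h4⟩]
    calc x k * y l * min a b ≤ x k * y l * (4 * V * min (x k) (y l)) :=
          Nat.mul_le_mul_left _ h5
      _ = 4 * V * (x k * y l * min (x k) (y l)) := by ring
  have hsum : (∑ k ∈ H, x k) * (∑ l ∈ H', y l) * min a b ≤
      4 * V * ∑ k ∈ H, ∑ l ∈ H', psi (x k) (y l) := by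
    rw [Finset.sum_mul_sum, Finset.sum_mul, Finset.mul_sum]
    refine Finset.sum_le_sum fun k hk => ?_
    rw [Finset.sum_mul, Finset.mul_sum]
    exact Finset.sum_le_sum fun l hl => hpt k hk l hl
  have hA2' : a * b ≤ 16 * ((∑ k ∈ H, x k) * (∑ l ∈ H', y l)) := by
    calc a * b ≤ (4 * ∑ k ∈ H, x k) * (4 * ∑ l ∈ H', y l) := Nat.mul_le_mul hXA hXB
      _ = _ := by ring
  have hpsi : psi a b ≤ a * b * min a b := by
    unfold psi
    split_ifs
    · exact le_rfl
    · exact Nat.zero_le _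
  calc psi a b ≤ a * b * min a b := hpsi
    _ ≤ 16 * ((∑ k ∈ H, x k) * (∑ l ∈ H', y l)) * min a b := Nat.mul_le_mul_right _ hA2'
    _ = 16 * ((∑ k ∈ H, x k) * (∑ l ∈ H', y l) * min a b) := by ring
    _ ≤ 16 * (4 * V * ∑ k ∈ H, ∑ l ∈ H', psi (x k) (y l)) := Nat.mul_le_mul_left _ hsum
    _ ≤ 16 * (4 * V * ∑ k ∈ A'.image c, ∑ l ∈ B'.image c', psi (x k) (y l)) :=
        Nat.mul_le_mul_left _ (Nat.mul_le_mul_left _ hsub)
    _ = 64 * V * ∑ k ∈ A'.image c, ∑ l ∈ B'.image c', psi (x k) (y l) := by ring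

/-- `psi` is monotone -/
theorem psi_mono {x x' y y' : ℕ} (hx : x ≤ x') (hy : y ≤ y') : psi x y ≤ psi x' y' := by
  unfold psi
  split_ifs with h1 h2
  · exact Nat.mul_le_mul (Nat.mul_le_mul hx hy) (min_le_min hx hy)
  · exact absurd ⟨h1.1.trans hx, h1.2.trans hy⟩ h2
  · exact Nat.zero_le _
  · exact Nat.zero_le _

/-- losing a constant factor in one argument; `x` is replaced by `x'` with `x ≤ M x'` -/
theorem psi_scale {x x' y M : ℕ} (hM : 1 ≤ M) (hx : x ≤ M * x') (hx' : 2 ≤ x') :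
    psi x y ≤ M ^ 2 * psi x' y := by
  unfold psi
  split_ifs with h1 h2
  · have h3 : min x y ≤ M * min x' y := by
      rcases le_total x' y with h | h
      · rw [min_eq_left h]
        exact (min_le_left _ _).trans hx
      · rw [min_eq_right h]
        exact (min_le_right _ _).trans (Nat.le_mul_of_pos_left _ hM)
    calc x * y * min x y ≤ M * x' * y * (M * min x' y) :=
          Nat.mul_le_mul (Nat.mul_le_mul_right _ hx) h3
      _ = M ^ 2 * (x' * y * min x' y) := by ring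
  · exact absurd ⟨hx', h1.2⟩ h2
  · exact Nat.zero_le _
  · exact Nat.zero_le _

theorem psi_comm (x y : ℕ) : psi x y = psi y x := by
  unfold psi
  rw [min_comm x y, mul_comm x y]
  split_ifs with h1 h2 h3
  · rfl
  · exact absurd ⟨h1.2, h1.1⟩ h2
  · exact absurd ⟨h3.2, h3.1⟩ h1
  · rfl

end Vale.Agent.P054.L2
end

section

/-! Block L2, STEP, part B: the good elements. -/

set_option linter.all false
set_option autoImplicit false

namespace Vale.Agent.P054.L2

open Finset MvPolynomial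

open scoped Classical in
/-- restriction of the data to the cells `τ` -/
noncomputable def piece {B : ℕ} {ι : Type} (D : L2D B ι) {f : Fin 4 → ℕ} {J : Fin 4 → Type}
    (o : Fin 4 → V3) (e : ∀ i, Fin (f i) → V3) (q : ∀ i, J i → MvPolynomial (Fin (f i)) ℝ)
    (τ : ∀ i, J i → Bool) : L2D B ι :=
  D.restrict D.G (subset_refl _) (fun i => cell (o i) (e i) (D.X i) (q i) (τ i))
    (fun k g => (D.T k g).filter (fun t => ∀ i, trk i = k →
      InCell (o i) (e i) (q i) (τ i) (lpt (D.p i g) (D.v i g) t)))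
    (fun k g hg => filter_subset _ _)
    (fun i g hg t ht => by
      rw [mem_filter] at ht
      unfold cell
      rw [mem_filter]
      exact ⟨D.hX i g hg t ht.1, ht.2 i rfl⟩)

/-- sign vector of a point -/
noncomputable def sgn {f : ℕ} {J : Type} (o : V3) (e : Fin f → V3)
    (q : J → MvPolynomial (Fin f) ℝ) (x : V3) : J → Bool :=
  fun j => decide (0 < eval (coord o e x) (q j))

theorem sgn_lpt {f : ℕ} {J : Type} (o : V3) (e : Fin f → V3)
    (q : J → MvPolynomial (Fin f) ℝ) (p v : V3) (t : ℝ) : sgn o e q (lpt p v t) =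
      fun j => decide (0 < eval (coord o e p + t • fun i => ∑ k, v k * e i k) (q j)) := by
  funext j
  unfold sgn
  rw [coord_lpt]

theorem inCell_sgn {f : ℕ} {J : Type} (o : V3) (e : Fin f → V3)
    (q : J → MvPolynomial (Fin f) ℝ) (x : V3) (h : ∀ j, eval (coord o e x) (q j) ≠ 0) :
    InCell o e q (sgn o e q x) x := by
  intro j
  refine ⟨h j, ?_⟩
  unfold sgn
  exact decide_eq_true_iff

open scoped Classical in
/-- few parameters hit a wall -/
theorem nonwall_card {B : ℕ} {ι : Type} (D : L2D B ι) {f : Fin 4 → ℕ} {J : Fin 4 → Type}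
    [∀ i, Fintype (J i)]
    (o : Fin 4 → V3) (e : ∀ i, Fin (f i) → V3) (q : ∀ i, J i → MvPolynomial (Fin (f i)) ℝ)
    (d : ℕ) (hd : ∑ i, ∑ j, (q i j).totalDegree ≤ d) (k : Fin 2) (g : ι)
    (hg : ∀ i j, ∃ t : ℝ, eval (coord (o i) (e i) (lpt (D.p i g) (D.v i g) t)) (q i j) ≠ 0) :
    (D.T k g).card ≤ ((D.T k g).filter (fun t => ∀ i, trk i = k → ∀ j,
      eval (coord (o i) (e i) (lpt (D.p i g) (D.v i g) t)) (q i j) ≠ 0)).card + d := by
  set P : ℝ → Prop := fun t => ∀ i, trk i = k → ∀ j,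
      eval (coord (o i) (e i) (lpt (D.p i g) (D.v i g) t)) (q i j) ≠ 0 with hP
  have h1 : (D.T k g).card = ((D.T k g).filter P).card + ((D.T k g).filter (fun t => ¬ P t)).card :=
    (Finset.card_filter_add_card_filter_not P).symm
  rw [h1]
  refine Nat.add_le_add_left ?_ _
  have h2 : (D.T k g).filter (fun t => ¬ P t) ⊆ (Finset.univ : Finset (Σ i, J i)).biUnion
      (fun a => (D.T k g).filter (fun t =>
        eval (coord (o a.1) (e a.1) (lpt (D.p a.1 g) (D.v a.1 g) t)) (q a.1 a.2) = 0)) := by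
    intro t ht
    rw [mem_filter] at ht
    have h3 := ht.2
    simp only [hP, not_forall, not_not, exists_prop] at h3
    obtain ⟨i, hi, j, hj⟩ := h3
    rw [mem_biUnion]
    exact ⟨⟨i, j⟩, mem_univ _, mem_filter.2 ⟨ht.1, hj⟩⟩
  refine le_trans (card_le_card h2) (le_trans card_biUnion_le ?_)
  refine le_trans (le_trans (Finset.sum_le_sum (f := fun a : (Σ i, J i) => _)
    (g := fun a : (Σ i, J i) => (q a.1 a.2).totalDegree) ?_) (le_of_eq ?_)) hd
  · intro a _
    by_contra hlt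
    push Not at hlt
    obtain ⟨t, ht⟩ := hg a.1 a.2
    apply ht
    have h4 := few_zeros (q a.1 a.2) _ le_rfl (coord (o a.1) (e a.1) (D.p a.1 g))
      (fun i => ∑ k, D.v a.1 g k * e a.1 i k) _ ?_ hlt t
    · rw [coord_lpt]; exact h4
    · intro t ht
      rw [mem_filter] at ht
      rw [← coord_lpt]; exact ht.2
  · rw [← Finset.univ_sigma_univ, Finset.sum_sigma]

/-- two pairs of sign vectors as one quadruple -/
def mk4 {J : Fin 4 → Type} (κ : (J 0 → Bool) × (J 1 → Bool)) (l : (J 2 → Bool) × (J 3 → Bool)) :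
    ∀ i, J i → Bool := fun i => match i with
  | 0 => κ.1
  | 1 => κ.2
  | 2 => l.1
  | 3 => l.2

theorem mk4_inj {J : Fin 4 → Type} {κ κ' : (J 0 → Bool) × (J 1 → Bool)}
    {l l' : (J 2 → Bool) × (J 3 → Bool)} (h : mk4 κ l = mk4 κ' l') : κ = κ' ∧ l = l' := by
  have h0 : κ.1 = κ'.1 := congrFun h 0
  have h1 : κ.2 = κ'.2 := congrFun h 1
  have h2 : l.1 = l'.1 := congrFun h 2
  have h3 : l.2 = l'.2 := congrFun h 3
  exact ⟨Prod.ext h0 h1, Prod.ext h2 h3⟩

open scoped Classical in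
theorem good_bound {B : ℕ} {ι : Type} (D : L2D B ι) (f : Fin 4 → ℕ) (hf : ∀ i, 1 ≤ f i)
    (J : Fin 4 → Type) [∀ i, Fintype (J i)]
    (o : Fin 4 → V3) (e : ∀ i, Fin (f i) → V3) (hfl : ∀ i, InFlat (o i) (e i) (D.X i))
    (q : ∀ i, J i → MvPolynomial (Fin (f i)) ℝ)
    (d : ℕ) (hd1 : 1 ≤ d) (hd : ∑ i, ∑ j, (q i j).totalDegree ≤ d)
    (hT : ∀ k, ∀ g ∈ D.G, 8 * (2 * d + 1) ≤ (D.T k g).card)
    (hg : ∀ g ∈ D.G, ∀ i j, ∃ t : ℝ,
      eval (coord (o i) (e i) (lpt (D.p i g) (D.v i g) t)) (q i j) ≠ 0)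
    (W : ℝ) (hW0 : 0 ≤ W) (hW : ∀ τ : ∀ i, J i → Bool, (piece D o e q τ).wt ≤ W) :
    D.wt ≤ ((64 * (2 * d + 1) * ((10 * 81 ^ (∑ i, f i - 1)) * d ^ (∑ i, f i - 1)) : ℕ) : ℝ) * W := by
  -- realisable quadruples
  set Q : Finset (∀ i, J i → Bool) := Finset.univ.filter (fun c => ∃ y : ∀ i, Fin (f i) → ℝ,
      (∀ i j, eval (y i) (q i j) ≠ 0 ∧ (c i j = true ↔ 0 < eval (y i) (q i j))) ∧
      sqd (emb (o 0) (e 0) (y 0)) (emb (o 2) (e 2) (y 2)) =
        sqd (emb (o 1) (e 1) (y 1)) (emb (o 3) (e 3) (y 3))) with hQdef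
  have hQ : Q.card ≤ (10 * 81 ^ (∑ i, f i - 1)) * d ^ (∑ i, f i - 1) := by
    refine realis f hf o e (fun i => (hfl i).1) J q d hd1 hd Q ?_
    intro c hc
    exact (mem_filter.1 hc).2
  -- the bound for one element
  have hone : ∀ g ∈ D.G, psi (D.T 0 g).card (D.T 1 g).card ≤
      64 * (2 * d + 1) * ∑ τ ∈ Q, psi ((piece D o e q τ).T 0 g).card
        ((piece D o e q τ).T 1 g).card := by
    intro g hgG
    set x : Fin 4 → ℝ → V3 := fun i t => lpt (D.p i g) (D.v i g) t with hx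
    set T' : Fin 2 → Finset ℝ := fun k => (D.T k g).filter (fun t => ∀ i, trk i = k → ∀ j,
      eval (coord (o i) (e i) (x i t)) (q i j) ≠ 0) with hT'
    have hcard : ∀ k, (D.T k g).card ≤ 2 * (T' k).card := by
      intro k
      have h1 := nonwall_card D o e q d hd k g (hg g hgG)
      have h2 := hT k g hgG
      have h3 : (D.T k g).card ≤ (T' k).card + d := h1
      omega
    set c0 : ℝ → (J 0 → Bool) × (J 1 → Bool) := fun t =>
      (sgn (o 0) (e 0) (q 0) (x 0 t), sgn (o 1) (e 1) (q 1) (x 1 t)) with hc0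
    set c1 : ℝ → (J 2 → Bool) × (J 3 → Bool) := fun t =>
      (sgn (o 2) (e 2) (q 2) (x 2 t), sgn (o 3) (e 3) (q 3) (x 3 t)) with hc1
    have hsum : ∑ i, ∑ j, (q i j).totalDegree = ∑ j, (q 0 j).totalDegree +
        ∑ j, (q 1 j).totalDegree + ∑ j, (q 2 j).totalDegree + ∑ j, (q 3 j).totalDegree := by
      rw [Fin.sum_univ_four]
    have hc0card : ((T' 0).image c0).card ≤ 2 * d + 1 := by
      have h := crossing (q 0) (q 1) d (by omega) (coord (o 0) (e 0) (D.p 0 g))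
        (fun i => ∑ k, D.v 0 g k * e 0 i k) (coord (o 1) (e 1) (D.p 1 g))
        (fun i => ∑ k, D.v 1 g k * e 1 i k) (T' 0) ?_
      · refine le_trans (le_of_eq ?_) h
        congr 1
        refine Finset.image_congr ?_
        intro t ht
        exact Prod.ext (sgn_lpt _ _ _ _ _ _) (sgn_lpt _ _ _ _ _ _)
      · intro t ht
        have h2 := (mem_filter.1 ht).2
        simp only [hx, coord_lpt] at h2
        exact ⟨h2 0 rfl, h2 1 rfl⟩
    have hc1card : ((T' 1).image c1).card ≤ 2 * d + 1 := by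
      have h := crossing (q 2) (q 3) d (by omega) (coord (o 2) (e 2) (D.p 2 g))
        (fun i => ∑ k, D.v 2 g k * e 2 i k) (coord (o 3) (e 3) (D.p 3 g))
        (fun i => ∑ k, D.v 3 g k * e 3 i k) (T' 1) ?_
      · refine le_trans (le_of_eq ?_) h
        congr 1
        refine Finset.image_congr ?_
        intro t ht
        exact Prod.ext (sgn_lpt _ _ _ _ _ _) (sgn_lpt _ _ _ _ _ _)
      · intro t ht
        have h2 := (mem_filter.1 ht).2
        simp only [hx, coord_lpt] at h2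
        exact ⟨h2 2 rfl, h2 3 rfl⟩
    have hps := psi_pieces (D.T 0 g) (T' 0) (D.T 1 g) (T' 1) c0 c1 (filter_subset _ _)
      (filter_subset _ _) (hcard 0) (hcard 1) (2 * d + 1) (by omega) hc0card hc1card
      (hT 0 g hgG) (hT 1 g hgG)
    refine le_trans hps (Nat.mul_le_mul_left _ ?_)
    rw [← Finset.sum_product']
    -- compare with the sum over Q
    have hle : ∀ z ∈ (T' 0).image c0 ×ˢ (T' 1).image c1,
        psi ((T' 0).filter (fun a => c0 a = z.1)).card ((T' 1).filter (fun b => c1 b = z.2)).card ≤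
        psi ((piece D o e q (mk4 z.1 z.2)).T 0 g).card ((piece D o e q (mk4 z.1 z.2)).T 1 g).card := by
      intro z hz
      refine psi_mono (card_le_card ?_) (card_le_card ?_)
      · intro t ht
        rw [mem_filter] at ht
        obtain ⟨ht1, ht2⟩ := ht
        rw [hT', mem_filter] at ht1
        change t ∈ (D.T 0 g).filter _
        rw [mem_filter]
        refine ⟨ht1.1, ?_⟩
        intro i hi
        have h3 := inCell_sgn (o i) (e i) (q i) (x i t) (ht1.2 i hi)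
        have h4 : mk4 z.1 z.2 i = sgn (o i) (e i) (q i) (x i t) := by
          fin_cases i
          · exact (congrArg Prod.fst ht2).symm
          · exact (congrArg Prod.snd ht2).symm
          · exact absurd hi (by decide)
          · exact absurd hi (by decide)
        rw [h4]
        exact h3
      · intro t ht
        rw [mem_filter] at ht
        obtain ⟨ht1, ht2⟩ := ht
        rw [hT', mem_filter] at ht1
        change t ∈ (D.T 1 g).filter _
        rw [mem_filter]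
        refine ⟨ht1.1, ?_⟩
        intro i hi
        have h3 := inCell_sgn (o i) (e i) (q i) (x i t) (ht1.2 i hi)
        have h4 : mk4 z.1 z.2 i = sgn (o i) (e i) (q i) (x i t) := by
          fin_cases i
          · exact absurd hi (by decide)
          · exact absurd hi (by decide)
          · exact (congrArg Prod.fst ht2).symm
          · exact (congrArg Prod.snd ht2).symm
        rw [h4]
        exact h3
    refine le_trans (Finset.sum_le_sum hle) ?_
    have hinj : Set.InjOn (fun z : ((J 0 → Bool) × (J 1 → Bool)) × ((J 2 → Bool) × (J 3 → Bool)) =>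
        mk4 z.1 z.2) ((T' 0).image c0 ×ˢ (T' 1).image c1 : Finset _) := by
      intro z _ z' _ h
      obtain ⟨h1, h2⟩ := mk4_inj h
      exact Prod.ext h1 h2
    rw [← Finset.sum_image (f := fun τ => psi ((piece D o e q τ).T 0 g).card
      ((piece D o e q τ).T 1 g).card) hinj]
    refine Finset.sum_le_sum_of_subset ?_
    intro τ hτ
    rw [mem_image] at hτ
    obtain ⟨z, hz, rfl⟩ := hτ
    rw [mem_product, mem_image, mem_image] at hz
    obtain ⟨⟨t, ht, htz⟩, ⟨s, hs, hsz⟩⟩ := hz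
    rw [hT', mem_filter] at ht hs
    rw [hQdef, mem_filter]
    refine ⟨mem_univ _, fun i => coord (o i) (e i) (x i (if trk i = 0 then t else s)), ?_, ?_⟩
    · intro i
      have hnon : ∀ j, eval (coord (o i) (e i) (x i (if trk i = 0 then t else s))) (q i j) ≠ 0 := by
        by_cases hi : trk i = 0
        · rw [if_pos hi]; exact ht.2 i hi
        · rw [if_neg hi]
          refine hs.2 i ?_
          have : trk i = 0 ∨ trk i = 1 := by
            unfold trk; split_ifs <;> simp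
          exact this.resolve_left hi
      have h3 := inCell_sgn (o i) (e i) (q i) _ hnon
      have h4 : mk4 z.1 z.2 i = sgn (o i) (e i) (q i) (x i (if trk i = 0 then t else s)) := by
        fin_cases i
        · exact (congrArg Prod.fst htz).symm
        · exact (congrArg Prod.snd htz).symm
        · exact (congrArg Prod.fst hsz).symm
        · exact (congrArg Prod.snd hsz).symm
      rw [h4]
      exact h3
    · have hx0 : emb (o 0) (e 0) (coord (o 0) (e 0) (x 0 t)) = x 0 t :=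
        (hfl 0).2 _ (D.hX 0 g hgG t ht.1)
      have hx1 : emb (o 1) (e 1) (coord (o 1) (e 1) (x 1 t)) = x 1 t :=
        (hfl 1).2 _ (D.hX 1 g hgG t ht.1)
      have hx2 : emb (o 2) (e 2) (coord (o 2) (e 2) (x 2 s)) = x 2 s :=
        (hfl 2).2 _ (D.hX 2 g hgG s hs.1)
      have hx3 : emb (o 3) (e 3) (coord (o 3) (e 3) (x 3 s)) = x 3 s :=
        (hfl 3).2 _ (D.hX 3 g hgG s hs.1)
      have e0 : (if trk 0 = 0 then t else s) = t := if_pos rfl
      have e1 : (if trk 1 = 0 then t else s) = t := if_pos rfl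
      have e2 : (if trk 2 = 0 then t else s) = s := if_neg (by decide)
      have e3 : (if trk 3 = 0 then t else s) = s := if_neg (by decide)
      simp only [e0, e1, e2, e3]
      rw [hx0, hx1, hx2, hx3]
      exact D.hiso g hgG t ht.1 s hs.1
  -- sum over all elements
  have h1 : D.wt ≤ ∑ g ∈ D.G, (64 * (2 * d + 1) : ℕ) * ∑ τ ∈ Q,
      (psi ((piece D o e q τ).T 0 g).card ((piece D o e q τ).T 1 g).card : ℝ) := by
    unfold L2D.wt
    refine Finset.sum_le_sum (fun g hgG => ?_)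
    exact_mod_cast hone g hgG
  refine le_trans h1 ?_
  rw [← Finset.mul_sum, Finset.sum_comm]
  have h2 : ∑ τ ∈ Q, ∑ g ∈ D.G,
      (psi ((piece D o e q τ).T 0 g).card ((piece D o e q τ).T 1 g).card : ℝ) ≤ Q.card * W := by
    rw [← nsmul_eq_mul]
    refine Finset.sum_le_card_nsmul _ _ _ (fun τ _ => ?_)
    exact hW τ
  calc ((64 * (2 * d + 1) : ℕ) : ℝ) * ∑ τ ∈ Q, ∑ g ∈ D.G,
        (psi ((piece D o e q τ).T 0 g).card ((piece D o e q τ).T 1 g).card : ℝ)
      ≤ ((64 * (2 * d + 1) : ℕ) : ℝ) * (Q.card * W) := by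
        refine mul_le_mul_of_nonneg_left h2 (by positivity)
    _ ≤ ((64 * (2 * d + 1) : ℕ) : ℝ) *
        ((((10 * 81 ^ (∑ i, f i - 1)) * d ^ (∑ i, f i - 1) : ℕ) : ℝ) * W) := by
        refine mul_le_mul_of_nonneg_left (mul_le_mul_of_nonneg_right ?_ hW0) (by positivity)
        exact_mod_cast hQ
    _ = _ := by push_cast; ring

end Vale.Agent.P054.L2
end

section

/-! Block L2, STEP, part C: the good elements with the induction hypothesis. -/

set_option linter.all false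
set_option autoImplicit false

namespace Vale.Agent.P054.L2

open Finset MvPolynomial

theorem rpow_aux (a C N P ε : ℝ) (hC : 0 ≤ C) (hN : 0 ≤ N) (hP : 0 < P)
    (ha : a ≤ (1 / 2) * P ^ (1 + ε)) :
    a * (C * (N / P) ^ (1 + ε)) ≤ (1 / 2) * (C * N ^ (1 + ε)) := by
  have h4 : 0 < P ^ (1 + ε) := Real.rpow_pos_of_pos hP _
  have h3 : (0:ℝ) ≤ C * (N / P) ^ (1 + ε) :=
    mul_nonneg hC (Real.rpow_nonneg (div_nonneg hN hP.le) _)
  refine le_trans (mul_le_mul_of_nonneg_right ha h3) ?_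
  rw [Real.div_rpow hN hP.le]
  refine le_of_eq ?_
  field_simp

theorem piece_N {B : ℕ} {ι : Type} (D : L2D B ι) (f : Fin 4 → ℕ) (m : ℕ)
    (o : Fin 4 → V3) (e : ∀ i, Fin (f i) → V3)
    (q : ∀ i, Fin (f i * m) → MvPolynomial (Fin (f i)) ℝ)
    (hqc : ∀ i, ∀ σ : Fin (f i * m) → Bool,
      2 ^ (f i * m) * (cell (o i) (e i) (D.X i) (q i) σ).card ≤ (D.X i).card)
    (τ : ∀ i, Fin (f i * m) → Bool) :
    2 ^ (m * ∑ i, f i) * (piece D o e q τ).N ≤ D.N := by
  have h6 : (piece D o e q τ).N = ∏ i, (cell (o i) (e i) (D.X i) (q i) (τ i)).card := rfl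
  have h7 : D.N = ∏ i, (D.X i).card := rfl
  have h8 : 2 ^ (m * ∑ i, f i) = ∏ i, 2 ^ (f i * m) := by
    rw [Finset.prod_pow_eq_pow_sum, Finset.mul_sum]
    congr 1
    exact Finset.sum_congr rfl (fun i _ => mul_comm _ _)
  rw [h6, h7, h8, ← Finset.prod_mul_distrib]
  exact Finset.prod_le_prod' (fun i _ => hqc i (τ i))

theorem cell_subset {f : ℕ} {J : Type} (o : V3) (e : Fin f → V3) (X : Finset V3)
    (q : J → MvPolynomial (Fin f) ℝ) (σ : J → Bool) : cell o e X q σ ⊆ X := by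
  classical
  intro x hx
  unfold cell at hx
  exact (mem_filter.1 hx).1

theorem good_ih {B : ℕ} {ι : Type} (D : L2D B ι) (f : Fin 4 → ℕ) (hf : ∀ i, 1 ≤ f i) (m : ℕ)
    (hm1 : 1 ≤ m) (o : Fin 4 → V3) (e : ∀ i, Fin (f i) → V3)
    (hfl : ∀ i, InFlat (o i) (e i) (D.X i))
    (q : ∀ i, Fin (f i * m) → MvPolynomial (Fin (f i)) ℝ)
    (hqc : ∀ i, ∀ σ : Fin (f i * m) → Bool,
      2 ^ (f i * m) * (cell (o i) (e i) (D.X i) (q i) σ).card ≤ (D.X i).card)
    (d : ℕ) (hd1 : 1 ≤ d) (hd : ∑ i, ∑ j, (q i j).totalDegree ≤ d)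
    (hT : ∀ k, ∀ g ∈ D.G, 8 * (2 * d + 1) ≤ (D.T k g).card)
    (hg : ∀ g ∈ D.G, ∀ i j, ∃ t : ℝ,
      eval (coord (o i) (e i) (lpt (D.p i g) (D.v i g) t)) (q i j) ≠ 0)
    (ε C : ℝ) (hε : 0 < ε) (hC : 0 ≤ C)
    (hm : (((64 * (2 * d + 1) * ((10 * 81 ^ (∑ i, f i - 1)) * d ^ (∑ i, f i - 1)) : ℕ)) : ℝ)
      ≤ (1 / 2) * (((2 ^ (m * ∑ i, f i) : ℕ) : ℝ)) ^ (1 + ε))
    (hN : 0 < D.N)
    (ih : ∀ E : L2D B ι, E.N < D.N → (∀ i, OnFlat (f i) (E.X i)) → E.wt ≤ C * (E.N : ℝ) ^ (1 + ε)) :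
    D.wt ≤ (1 / 2) * (C * (D.N : ℝ) ^ (1 + ε)) := by
  have hPwpos : (0 : ℝ) < ((2 ^ (m * ∑ i, f i) : ℕ) : ℝ) := by positivity
  have hN0 : (0 : ℝ) ≤ (D.N : ℝ) := Nat.cast_nonneg _
  have hF1 : 1 ≤ ∑ i, f i := by
    rw [Fin.sum_univ_four]
    have := hf 0
    omega
  refine le_trans (good_bound D f hf (fun i => Fin (f i * m)) o e hfl q d hd1 hd hT hg
    (C * ((D.N : ℝ) / ((2 ^ (m * ∑ i, f i) : ℕ) : ℝ)) ^ (1 + ε))
    (mul_nonneg hC (Real.rpow_nonneg (div_nonneg hN0 hPwpos.le) _)) ?_)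
    (rpow_aux _ _ _ _ _ hC hN0 hPwpos hm)
  intro τ
  have hEN := piece_N D f m o e q hqc τ
  have hlt : (piece D o e q τ).N < D.N := by
    have h9 : 2 ≤ 2 ^ (m * ∑ i, f i) := by
      calc 2 = 2 ^ 1 := by norm_num
        _ ≤ 2 ^ (m * ∑ i, f i) := Nat.pow_le_pow_right (by norm_num)
          (Nat.mul_pos hm1 hF1)
    have h10 : 2 * (piece D o e q τ).N ≤ 2 ^ (m * ∑ i, f i) * (piece D o e q τ).N :=
      Nat.mul_le_mul_right _ h9
    omega
  have h11 := ih _ hlt (fun i => OnFlat.mono ⟨o i, e i, hfl i⟩ (cell_subset _ _ _ _ _))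
  refine le_trans h11 (mul_le_mul_of_nonneg_left ?_ hC)
  refine Real.rpow_le_rpow (Nat.cast_nonneg _) ?_ (by linarith only [hε])
  rw [le_div_iff₀ hPwpos, mul_comm]
  exact_mod_cast hEN

/-- restriction to fewer `g` -/
def L2D.sub {B : ℕ} {ι : Type} (D : L2D B ι) (G' : Finset ι) (hG : G' ⊆ D.G) : L2D B ι :=
  D.restrict G' hG D.X D.T (fun k g hg => subset_refl _) (fun i g hg t ht => D.hX i g (hG hg) t ht)

theorem wt_nonneg {B : ℕ} {ι : Type} (D : L2D B ι) : 0 ≤ D.wt :=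
  Finset.sum_nonneg (fun _ _ => Nat.cast_nonneg _)

theorem wt_zero {B : ℕ} {ι : Type} (D : L2D B ι) (hN : D.N = 0) : D.wt = 0 := by
  unfold L2D.N at hN
  rw [Finset.prod_eq_zero_iff] at hN
  obtain ⟨i, _, hi⟩ := hN
  rw [Finset.card_eq_zero] at hi
  unfold L2D.wt
  refine Finset.sum_eq_zero (fun g hg => ?_)
  have hT : D.T (trk i) g = ∅ := by
    rw [Finset.eq_empty_iff_forall_notMem]
    intro t ht
    have := D.hX i g hg t ht
    rw [hi] at this
    exact absurd this (Finset.notMem_empty _)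
  have h2 : trk i = 0 ∨ trk i = 1 := by
    unfold trk; split_ifs <;> simp
  rcases h2 with h | h
  · rw [h] at hT
    rw [hT]; simp [psi]
  · rw [h] at hT
    rw [hT]; simp [psi]

open scoped Classical in
/-- splitting of the total weight -/
theorem wt_split {B : ℕ} {ι : Type} (D : L2D B ι) (PA PG : ι → Prop) {I : Type} [Fintype I]
    (PW : I → ι → Prop) (h : ∀ g ∈ D.G, PA g ∨ (∃ i, PW i g) ∨ PG g) :
    D.wt ≤ (D.sub (D.G.filter PA) (filter_subset _ _)).wt +
      (∑ i, (D.sub (D.G.filter (PW i)) (filter_subset _ _)).wt) +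
      (D.sub (D.G.filter PG) (filter_subset _ _)).wt := by
  have e1 : ∀ (P : ι → Prop), (D.sub (D.G.filter P) (filter_subset _ _)).wt =
      ∑ g ∈ D.G, if P g then (psi (D.T 0 g).card (D.T 1 g).card : ℝ) else 0 :=
    fun P => Finset.sum_filter _ _
  have e2 : (∑ i, (D.sub (D.G.filter (PW i)) (filter_subset _ _)).wt) =
      ∑ g ∈ D.G, ∑ i, if PW i g then (psi (D.T 0 g).card (D.T 1 g).card : ℝ) else 0 := by
    rw [Finset.sum_comm]
    exact Finset.sum_congr rfl (fun i _ => e1 _)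
  rw [e1, e2, e1, ← Finset.sum_add_distrib, ← Finset.sum_add_distrib]
  unfold L2D.wt
  refine Finset.sum_le_sum (fun g hg => ?_)
  have hw0 : (0:ℝ) ≤ (psi (D.T 0 g).card (D.T 1 g).card : ℝ) := Nat.cast_nonneg _
  generalize (psi (D.T 0 g).card (D.T 1 g).card : ℝ) = w at hw0 ⊢
  have hnn : ∀ P : Prop, (0:ℝ) ≤ if P then w else 0 := by
    intro P
    split_ifs
    · exact hw0
    · exact le_rfl
  have hsum0 : (0:ℝ) ≤ ∑ i, if PW i g then w else 0 :=
    Finset.sum_nonneg (fun i _ => hnn _)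
  have hA := hnn (PA g)
  have hG := hnn (PG g)
  rcases h g hg with h1 | ⟨i, h1⟩ | h1
  · rw [if_pos h1]
    linarith
  · have h3 : w ≤ ∑ i, if PW i g then w else 0 := by
      refine le_trans ?_ (Finset.single_le_sum (f := fun i => if PW i g then w else 0)
        (fun i _ => hnn _) (Finset.mem_univ i))
      simp only [h1, if_true, le_refl]
    linarith
  · rw [if_pos h1]
    linarith

theorem wt_split' {B : ℕ} {ι : Type} (D : L2D B ι) (PA PG : ι → Prop) {I : Type} [Fintype I]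
    (PW : I → ι → Prop) (h : ∀ g ∈ D.G, PA g ∨ (∃ i, PW i g) ∨ PG g) :
    ∃ (GA : Finset ι) (hA : GA ⊆ D.G) (GG : Finset ι) (hG : GG ⊆ D.G) (GW : I → Finset ι)
      (hW : ∀ i, GW i ⊆ D.G), (∀ g ∈ GA, PA g) ∧ (∀ g ∈ GG, PG g) ∧ (∀ i, ∀ g ∈ GW i, PW i g) ∧
      D.wt ≤ (D.sub GA hA).wt + (∑ i, (D.sub (GW i) (hW i)).wt) + (D.sub GG hG).wt := by
  classical
  refine ⟨_, filter_subset (fun g => PA g) _, _, filter_subset (fun g => PG g) _, _,
    fun i => filter_subset (fun g => PW i g) _, fun g hg => (mem_filter.1 hg).2,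
    fun g hg => (mem_filter.1 hg).2, fun i g hg => (mem_filter.1 hg).2, ?_⟩
  have := wt_split D PA PG PW h
  convert this

end Vale.Agent.P054.L2
end

section

/-! Block L2, STEP, part B: the good elements. -/

set_option linter.all false
set_option autoImplicit false

namespace Vale.Agent.P054.L3

open Finset MvPolynomial
open Vale.Agent.P054.L2 (V3 sqd lpt lineSet trk ONF coord emb InFlat OnFlat InCell cell sgn sgn_lpt inCell_sgn few_zeros coord_lpt crossing realis mk4 mk4_inj)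

open scoped Classical in
/-- restriction of the data to the cells `τ` -/
noncomputable def piece {K : ℕ} {B e₀ : ℝ} {ι : Type} (D : L2D K B e₀ ι) {f : Fin 4 → ℕ} {J : Fin 4 → Type}
    (o : Fin 4 → V3) (e : ∀ i, Fin (f i) → V3) (q : ∀ i, J i → MvPolynomial (Fin (f i)) ℝ)
    (τ : ∀ i, J i → Bool) : L2D K B e₀ ι :=
  D.restrict D.G (subset_refl _) (fun i => cell (o i) (e i) (D.X i) (q i) (τ i))
    (fun k g => (D.T k g).filter (fun t => ∀ i, trk i = k →
      InCell (o i) (e i) (q i) (τ i) (lpt (D.p i g) (D.v i g) t)))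
    (fun k g hg => filter_subset _ _)
    (fun i g hg t ht => by
      rw [mem_filter] at ht
      unfold cell
      rw [mem_filter]
      exact ⟨D.hX i g hg t ht.1, ht.2 i rfl⟩)

open scoped Classical in
/-- few parameters hit a wall -/
theorem nonwall_card {K : ℕ} {B e₀ : ℝ} {ι : Type} (D : L2D K B e₀ ι) {f : Fin 4 → ℕ} {J : Fin 4 → Type}
    [∀ i, Fintype (J i)]
    (o : Fin 4 → V3) (e : ∀ i, Fin (f i) → V3) (q : ∀ i, J i → MvPolynomial (Fin (f i)) ℝ)
    (d : ℕ) (hd : ∑ i, ∑ j, (q i j).totalDegree ≤ d) (k : Fin 2) (g : ι)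
    (hg : ∀ i j, ∃ t : ℝ, eval (coord (o i) (e i) (lpt (D.p i g) (D.v i g) t)) (q i j) ≠ 0) :
    (D.T k g).card ≤ ((D.T k g).filter (fun t => ∀ i, trk i = k → ∀ j,
      eval (coord (o i) (e i) (lpt (D.p i g) (D.v i g) t)) (q i j) ≠ 0)).card + d := by
  set P : ℝ → Prop := fun t => ∀ i, trk i = k → ∀ j,
      eval (coord (o i) (e i) (lpt (D.p i g) (D.v i g) t)) (q i j) ≠ 0 with hP
  have h1 : (D.T k g).card = ((D.T k g).filter P).card + ((D.T k g).filter (fun t => ¬ P t)).card :=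
    (Finset.card_filter_add_card_filter_not P).symm
  rw [h1]
  refine Nat.add_le_add_left ?_ _
  have h2 : (D.T k g).filter (fun t => ¬ P t) ⊆ (Finset.univ : Finset (Σ i, J i)).biUnion
      (fun a => (D.T k g).filter (fun t =>
        eval (coord (o a.1) (e a.1) (lpt (D.p a.1 g) (D.v a.1 g) t)) (q a.1 a.2) = 0)) := by
    intro t ht
    rw [mem_filter] at ht
    have h3 := ht.2
    simp only [hP, not_forall, not_not, exists_prop] at h3
    obtain ⟨i, hi, j, hj⟩ := h3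
    rw [mem_biUnion]
    exact ⟨⟨i, j⟩, mem_univ _, mem_filter.2 ⟨ht.1, hj⟩⟩
  refine le_trans (card_le_card h2) (le_trans card_biUnion_le ?_)
  refine le_trans (le_trans (Finset.sum_le_sum (f := fun a : (Σ i, J i) => _)
    (g := fun a : (Σ i, J i) => (q a.1 a.2).totalDegree) ?_) (le_of_eq ?_)) hd
  · intro a _
    by_contra hlt
    push Not at hlt
    obtain ⟨t, ht⟩ := hg a.1 a.2
    apply ht
    have h4 := few_zeros (q a.1 a.2) _ le_rfl (coord (o a.1) (e a.1) (D.p a.1 g))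
      (fun i => ∑ k, D.v a.1 g k * e a.1 i k) _ ?_ hlt t
    · rw [coord_lpt]; exact h4
    · intro t ht
      rw [mem_filter] at ht
      rw [← coord_lpt]; exact ht.2
  · rw [← Finset.univ_sigma_univ, Finset.sum_sigma]

open scoped Classical in
theorem good_bound {K : ℕ} (hK : 2 ≤ K) {B e₀ : ℝ} {ι : Type} (D : L2D K B e₀ ι) (f : Fin 4 → ℕ) (hf : ∀ i, 1 ≤ f i)
    (J : Fin 4 → Type) [∀ i, Fintype (J i)]
    (o : Fin 4 → V3) (e : ∀ i, Fin (f i) → V3) (hfl : ∀ i, InFlat (o i) (e i) (D.X i))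
    (q : ∀ i, J i → MvPolynomial (Fin (f i)) ℝ)
    (d : ℕ) (hd1 : 1 ≤ d) (hd : ∑ i, ∑ j, (q i j).totalDegree ≤ d)
    (hT : ∀ k, ∀ g ∈ D.G, 4 * (2 * d + 1) * K ≤ (D.T k g).card)
    (hg : ∀ g ∈ D.G, ∀ i j, ∃ t : ℝ,
      eval (coord (o i) (e i) (lpt (D.p i g) (D.v i g) t)) (q i j) ≠ 0)
    (W : ℝ) (hW0 : 0 ≤ W) (hW : ∀ τ : ∀ i, J i → Bool, (piece D o e q τ).wt ≤ W) :
    D.wt ≤ ((64 * (2 * d + 1) * ((10 * 81 ^ (∑ i, f i - 1)) * d ^ (∑ i, f i - 1)) : ℕ) : ℝ) * W := by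
  -- realisable quadruples
  set Q : Finset (∀ i, J i → Bool) := Finset.univ.filter (fun c => ∃ y : ∀ i, Fin (f i) → ℝ,
      (∀ i j, eval (y i) (q i j) ≠ 0 ∧ (c i j = true ↔ 0 < eval (y i) (q i j))) ∧
      sqd (emb (o 0) (e 0) (y 0)) (emb (o 2) (e 2) (y 2)) =
        sqd (emb (o 1) (e 1) (y 1)) (emb (o 3) (e 3) (y 3))) with hQdef
  have hQ : Q.card ≤ (10 * 81 ^ (∑ i, f i - 1)) * d ^ (∑ i, f i - 1) := by
    refine realis f hf o e (fun i => (hfl i).1) J q d hd1 hd Q ?_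
    intro c hc
    exact (mem_filter.1 hc).2
  -- the bound for one element
  have hone : ∀ g ∈ D.G, psi K (D.T 0 g).card (D.T 1 g).card ≤
      64 * (2 * d + 1) * ∑ τ ∈ Q, psi K ((piece D o e q τ).T 0 g).card
        ((piece D o e q τ).T 1 g).card := by
    intro g hgG
    set x : Fin 4 → ℝ → V3 := fun i t => lpt (D.p i g) (D.v i g) t with hx
    set T' : Fin 2 → Finset ℝ := fun k => (D.T k g).filter (fun t => ∀ i, trk i = k → ∀ j,
      eval (coord (o i) (e i) (x i t)) (q i j) ≠ 0) with hT'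
    have hcard : ∀ k, (D.T k g).card ≤ 2 * (T' k).card := by
      intro k
      have h1 := nonwall_card D o e q d hd k g (hg g hgG)
      have h2 := hT k g hgG
      have h3 : (D.T k g).card ≤ (T' k).card + d := h1
      have h4 : 4 * (2 * d + 1) * 2 ≤ 4 * (2 * d + 1) * K := Nat.mul_le_mul_left _ hK
      omega
    set c0 : ℝ → (J 0 → Bool) × (J 1 → Bool) := fun t =>
      (sgn (o 0) (e 0) (q 0) (x 0 t), sgn (o 1) (e 1) (q 1) (x 1 t)) with hc0
    set c1 : ℝ → (J 2 → Bool) × (J 3 → Bool) := fun t =>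
      (sgn (o 2) (e 2) (q 2) (x 2 t), sgn (o 3) (e 3) (q 3) (x 3 t)) with hc1
    have hsum : ∑ i, ∑ j, (q i j).totalDegree = ∑ j, (q 0 j).totalDegree +
        ∑ j, (q 1 j).totalDegree + ∑ j, (q 2 j).totalDegree + ∑ j, (q 3 j).totalDegree := by
      rw [Fin.sum_univ_four]
    have hc0card : ((T' 0).image c0).card ≤ 2 * d + 1 := by
      have h := crossing (q 0) (q 1) d (by omega) (coord (o 0) (e 0) (D.p 0 g))
        (fun i => ∑ k, D.v 0 g k * e 0 i k) (coord (o 1) (e 1) (D.p 1 g))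
        (fun i => ∑ k, D.v 1 g k * e 1 i k) (T' 0) ?_
      · refine le_trans (le_of_eq ?_) h
        congr 1
        refine Finset.image_congr ?_
        intro t ht
        exact Prod.ext (sgn_lpt _ _ _ _ _ _) (sgn_lpt _ _ _ _ _ _)
      · intro t ht
        have h2 := (mem_filter.1 ht).2
        simp only [hx, coord_lpt] at h2
        exact ⟨h2 0 rfl, h2 1 rfl⟩
    have hc1card : ((T' 1).image c1).card ≤ 2 * d + 1 := by
      have h := crossing (q 2) (q 3) d (by omega) (coord (o 2) (e 2) (D.p 2 g))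
        (fun i => ∑ k, D.v 2 g k * e 2 i k) (coord (o 3) (e 3) (D.p 3 g))
        (fun i => ∑ k, D.v 3 g k * e 3 i k) (T' 1) ?_
      · refine le_trans (le_of_eq ?_) h
        congr 1
        refine Finset.image_congr ?_
        intro t ht
        exact Prod.ext (sgn_lpt _ _ _ _ _ _) (sgn_lpt _ _ _ _ _ _)
      · intro t ht
        have h2 := (mem_filter.1 ht).2
        simp only [hx, coord_lpt] at h2
        exact ⟨h2 2 rfl, h2 3 rfl⟩
    have hps := psi_pieces K hK (D.T 0 g) (T' 0) (D.T 1 g) (T' 1) c0 c1 (filter_subset _ _)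
      (filter_subset _ _) (hcard 0) (hcard 1) (2 * d + 1) (by omega) hc0card hc1card
      (hT 0 g hgG) (hT 1 g hgG)
    refine le_trans hps (Nat.mul_le_mul_left _ ?_)
    rw [← Finset.sum_product']
    -- compare with the sum over Q
    have hle : ∀ z ∈ (T' 0).image c0 ×ˢ (T' 1).image c1,
        psi K ((T' 0).filter (fun a => c0 a = z.1)).card ((T' 1).filter (fun b => c1 b = z.2)).card ≤
        psi K ((piece D o e q (mk4 z.1 z.2)).T 0 g).card ((piece D o e q (mk4 z.1 z.2)).T 1 g).card := by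
      intro z hz
      refine psi_mono K (card_le_card ?_) (card_le_card ?_)
      · intro t ht
        rw [mem_filter] at ht
        obtain ⟨ht1, ht2⟩ := ht
        rw [hT', mem_filter] at ht1
        change t ∈ (D.T 0 g).filter _
        rw [mem_filter]
        refine ⟨ht1.1, ?_⟩
        intro i hi
        have h3 := inCell_sgn (o i) (e i) (q i) (x i t) (ht1.2 i hi)
        have h4 : mk4 z.1 z.2 i = sgn (o i) (e i) (q i) (x i t) := by
          fin_cases i
          · exact (congrArg Prod.fst ht2).symm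
          · exact (congrArg Prod.snd ht2).symm
          · exact absurd hi (by decide)
          · exact absurd hi (by decide)
        rw [h4]
        exact h3
      · intro t ht
        rw [mem_filter] at ht
        obtain ⟨ht1, ht2⟩ := ht
        rw [hT', mem_filter] at ht1
        change t ∈ (D.T 1 g).filter _
        rw [mem_filter]
        refine ⟨ht1.1, ?_⟩
        intro i hi
        have h3 := inCell_sgn (o i) (e i) (q i) (x i t) (ht1.2 i hi)
        have h4 : mk4 z.1 z.2 i = sgn (o i) (e i) (q i) (x i t) := by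
          fin_cases i
          · exact absurd hi (by decide)
          · exact absurd hi (by decide)
          · exact (congrArg Prod.fst ht2).symm
          · exact (congrArg Prod.snd ht2).symm
        rw [h4]
        exact h3
    refine le_trans (Finset.sum_le_sum hle) ?_
    have hinj : Set.InjOn (fun z : ((J 0 → Bool) × (J 1 → Bool)) × ((J 2 → Bool) × (J 3 → Bool)) =>
        mk4 z.1 z.2) ((T' 0).image c0 ×ˢ (T' 1).image c1 : Finset _) := by
      intro z _ z' _ h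
      obtain ⟨h1, h2⟩ := mk4_inj h
      exact Prod.ext h1 h2
    rw [← Finset.sum_image (f := fun τ => psi K ((piece D o e q τ).T 0 g).card
      ((piece D o e q τ).T 1 g).card) hinj]
    refine Finset.sum_le_sum_of_subset ?_
    intro τ hτ
    rw [mem_image] at hτ
    obtain ⟨z, hz, rfl⟩ := hτ
    rw [mem_product, mem_image, mem_image] at hz
    obtain ⟨⟨t, ht, htz⟩, ⟨s, hs, hsz⟩⟩ := hz
    rw [hT', mem_filter] at ht hs
    rw [hQdef, mem_filter]
    refine ⟨mem_univ _, fun i => coord (o i) (e i) (x i (if trk i = 0 then t else s)), ?_, ?_⟩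
    · intro i
      have hnon : ∀ j, eval (coord (o i) (e i) (x i (if trk i = 0 then t else s))) (q i j) ≠ 0 := by
        by_cases hi : trk i = 0
        · rw [if_pos hi]; exact ht.2 i hi
        · rw [if_neg hi]
          refine hs.2 i ?_
          have : trk i = 0 ∨ trk i = 1 := by
            unfold trk; split_ifs <;> simp
          exact this.resolve_left hi
      have h3 := inCell_sgn (o i) (e i) (q i) _ hnon
      have h4 : mk4 z.1 z.2 i = sgn (o i) (e i) (q i) (x i (if trk i = 0 then t else s)) := by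
        fin_cases i
        · exact (congrArg Prod.fst htz).symm
        · exact (congrArg Prod.snd htz).symm
        · exact (congrArg Prod.fst hsz).symm
        · exact (congrArg Prod.snd hsz).symm
      rw [h4]
      exact h3
    · have hx0 : emb (o 0) (e 0) (coord (o 0) (e 0) (x 0 t)) = x 0 t :=
        (hfl 0).2 _ (D.hX 0 g hgG t ht.1)
      have hx1 : emb (o 1) (e 1) (coord (o 1) (e 1) (x 1 t)) = x 1 t :=
        (hfl 1).2 _ (D.hX 1 g hgG t ht.1)
      have hx2 : emb (o 2) (e 2) (coord (o 2) (e 2) (x 2 s)) = x 2 s :=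
        (hfl 2).2 _ (D.hX 2 g hgG s hs.1)
      have hx3 : emb (o 3) (e 3) (coord (o 3) (e 3) (x 3 s)) = x 3 s :=
        (hfl 3).2 _ (D.hX 3 g hgG s hs.1)
      have e0 : (if trk 0 = 0 then t else s) = t := if_pos rfl
      have e1 : (if trk 1 = 0 then t else s) = t := if_pos rfl
      have e2 : (if trk 2 = 0 then t else s) = s := if_neg (by decide)
      have e3 : (if trk 3 = 0 then t else s) = s := if_neg (by decide)
      simp only [e0, e1, e2, e3]
      rw [hx0, hx1, hx2, hx3]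
      exact D.hiso g hgG t ht.1 s hs.1
  -- sum over all elements
  have h1 : D.wt ≤ ∑ g ∈ D.G, (64 * (2 * d + 1) : ℕ) * ∑ τ ∈ Q,
      (psi K ((piece D o e q τ).T 0 g).card ((piece D o e q τ).T 1 g).card : ℝ) := by
    unfold L2D.wt
    refine Finset.sum_le_sum (fun g hgG => ?_)
    exact_mod_cast hone g hgG
  refine le_trans h1 ?_
  rw [← Finset.mul_sum, Finset.sum_comm]
  have h2 : ∑ τ ∈ Q, ∑ g ∈ D.G,
      (psi K ((piece D o e q τ).T 0 g).card ((piece D o e q τ).T 1 g).card : ℝ) ≤ Q.card * W := by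
    rw [← nsmul_eq_mul]
    refine Finset.sum_le_card_nsmul _ _ _ (fun τ _ => ?_)
    exact hW τ
  calc ((64 * (2 * d + 1) : ℕ) : ℝ) * ∑ τ ∈ Q, ∑ g ∈ D.G,
        (psi K ((piece D o e q τ).T 0 g).card ((piece D o e q τ).T 1 g).card : ℝ)
      ≤ ((64 * (2 * d + 1) : ℕ) : ℝ) * (Q.card * W) := by
        refine mul_le_mul_of_nonneg_left h2 (by positivity)
    _ ≤ ((64 * (2 * d + 1) : ℕ) : ℝ) *
        ((((10 * 81 ^ (∑ i, f i - 1)) * d ^ (∑ i, f i - 1) : ℕ) : ℝ) * W) := by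
        refine mul_le_mul_of_nonneg_left (mul_le_mul_of_nonneg_right ?_ hW0) (by positivity)
        exact_mod_cast hQ
    _ = _ := by push_cast; ring

end Vale.Agent.P054.L3
end

section

/-! Block L2, STEP, part C: the good elements with the induction hypothesis. -/

set_option linter.all false
set_option autoImplicit false

namespace Vale.Agent.P054.L3

open Finset MvPolynomial
open Vale.Agent.P054.L2 (V3 sqd lpt lineSet trk ONF coord emb InFlat OnFlat InCell cell OnFlat.mono cell_subset rpow_aux)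

theorem piece_N {K : ℕ} {B e₀ : ℝ} {ι : Type} (D : L2D K B e₀ ι) (f : Fin 4 → ℕ) (m : ℕ)
    (o : Fin 4 → V3) (e : ∀ i, Fin (f i) → V3)
    (q : ∀ i, Fin (f i * m) → MvPolynomial (Fin (f i)) ℝ)
    (hqc : ∀ i, ∀ σ : Fin (f i * m) → Bool,
      2 ^ (f i * m) * (cell (o i) (e i) (D.X i) (q i) σ).card ≤ (D.X i).card)
    (τ : ∀ i, Fin (f i * m) → Bool) :
    2 ^ (m * ∑ i, f i) * (piece D o e q τ).N ≤ D.N := by
  have h6 : (piece D o e q τ).N = ∏ i, (cell (o i) (e i) (D.X i) (q i) (τ i)).card := rfl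
  have h7 : D.N = ∏ i, (D.X i).card := rfl
  have h8 : 2 ^ (m * ∑ i, f i) = ∏ i, 2 ^ (f i * m) := by
    rw [Finset.prod_pow_eq_pow_sum, Finset.mul_sum]
    congr 1
    exact Finset.sum_congr rfl (fun i _ => mul_comm _ _)
  rw [h6, h7, h8, ← Finset.prod_mul_distrib]
  exact Finset.prod_le_prod' (fun i _ => hqc i (τ i))

theorem good_ih {K : ℕ} (hK : 2 ≤ K) {B e₀ : ℝ} {ι : Type} (D : L2D K B e₀ ι) (f : Fin 4 → ℕ) (hf : ∀ i, 1 ≤ f i) (m : ℕ)
    (hm1 : 1 ≤ m) (o : Fin 4 → V3) (e : ∀ i, Fin (f i) → V3)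
    (hfl : ∀ i, InFlat (o i) (e i) (D.X i))
    (q : ∀ i, Fin (f i * m) → MvPolynomial (Fin (f i)) ℝ)
    (hqc : ∀ i, ∀ σ : Fin (f i * m) → Bool,
      2 ^ (f i * m) * (cell (o i) (e i) (D.X i) (q i) σ).card ≤ (D.X i).card)
    (d : ℕ) (hd1 : 1 ≤ d) (hd : ∑ i, ∑ j, (q i j).totalDegree ≤ d)
    (hT : ∀ k, ∀ g ∈ D.G, 4 * (2 * d + 1) * K ≤ (D.T k g).card)
    (hg : ∀ g ∈ D.G, ∀ i j, ∃ t : ℝ,
      eval (coord (o i) (e i) (lpt (D.p i g) (D.v i g) t)) (q i j) ≠ 0)
    (ε C : ℝ) (hε : 0 < ε) (hC : 0 ≤ C)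
    (hm : (((64 * (2 * d + 1) * ((10 * 81 ^ (∑ i, f i - 1)) * d ^ (∑ i, f i - 1)) : ℕ)) : ℝ)
      ≤ (1 / 2) * (((2 ^ (m * ∑ i, f i) : ℕ) : ℝ)) ^ (1 + ε))
    (hN : 0 < D.N)
    (ih : ∀ E : L2D K B e₀ ι, E.N < D.N → (∀ i, OnFlat (f i) (E.X i)) → E.wt ≤ C * (E.N : ℝ) ^ (1 + ε)) :
    D.wt ≤ (1 / 2) * (C * (D.N : ℝ) ^ (1 + ε)) := by
  have hPwpos : (0 : ℝ) < ((2 ^ (m * ∑ i, f i) : ℕ) : ℝ) := by positivity
  have hN0 : (0 : ℝ) ≤ (D.N : ℝ) := Nat.cast_nonneg _
  have hF1 : 1 ≤ ∑ i, f i := by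
    rw [Fin.sum_univ_four]
    have := hf 0
    omega
  refine le_trans (good_bound hK D f hf (fun i => Fin (f i * m)) o e hfl q d hd1 hd hT hg
    (C * ((D.N : ℝ) / ((2 ^ (m * ∑ i, f i) : ℕ) : ℝ)) ^ (1 + ε))
    (mul_nonneg hC (Real.rpow_nonneg (div_nonneg hN0 hPwpos.le) _)) ?_)
    (rpow_aux _ _ _ _ _ hC hN0 hPwpos hm)
  intro τ
  have hEN := piece_N D f m o e q hqc τ
  have hlt : (piece D o e q τ).N < D.N := by
    have h9 : 2 ≤ 2 ^ (m * ∑ i, f i) := by
      calc 2 = 2 ^ 1 := by norm_num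
        _ ≤ 2 ^ (m * ∑ i, f i) := Nat.pow_le_pow_right (by norm_num)
          (Nat.mul_pos hm1 hF1)
    have h10 : 2 * (piece D o e q τ).N ≤ 2 ^ (m * ∑ i, f i) * (piece D o e q τ).N :=
      Nat.mul_le_mul_right _ h9
    omega
  have h11 := ih _ hlt (fun i => OnFlat.mono ⟨o i, e i, hfl i⟩ (cell_subset _ _ _ _ _))
  refine le_trans h11 (mul_le_mul_of_nonneg_left ?_ hC)
  refine Real.rpow_le_rpow (Nat.cast_nonneg _) ?_ (by linarith only [hε])
  rw [le_div_iff₀ hPwpos, mul_comm]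
  exact_mod_cast hEN

/-- restriction to fewer `g` -/
def L2D.sub {K : ℕ} {B e₀ : ℝ} {ι : Type} (D : L2D K B e₀ ι) (G' : Finset ι) (hG : G' ⊆ D.G) : L2D K B e₀ ι :=
  D.restrict G' hG D.X D.T (fun k g hg => subset_refl _) (fun i g hg t ht => D.hX i g (hG hg) t ht)

theorem wt_nonneg {K : ℕ} {B e₀ : ℝ} {ι : Type} (D : L2D K B e₀ ι) : 0 ≤ D.wt :=
  Finset.sum_nonneg (fun _ _ => Nat.cast_nonneg _)

theorem wt_zero {K : ℕ} (hK : 2 ≤ K) {B e₀ : ℝ} {ι : Type} (D : L2D K B e₀ ι) (hN : D.N = 0) : D.wt = 0 := by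
  unfold L2D.N at hN
  rw [Finset.prod_eq_zero_iff] at hN
  obtain ⟨i, _, hi⟩ := hN
  rw [Finset.card_eq_zero] at hi
  unfold L2D.wt
  refine Finset.sum_eq_zero (fun g hg => ?_)
  have hT : D.T (trk i) g = ∅ := by
    rw [Finset.eq_empty_iff_forall_notMem]
    intro t ht
    have := D.hX i g hg t ht
    rw [hi] at this
    exact absurd this (Finset.notMem_empty _)
  have h2 : trk i = 0 ∨ trk i = 1 := by
    unfold trk; split_ifs <;> simp
  rcases h2 with h | h
  · rw [h] at hT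
    rw [hT]
    have h9 : ¬ K ≤ 0 := by omega
    simp [psi, h9]
  · rw [h] at hT
    rw [hT]
    have h9 : ¬ K ≤ 0 := by omega
    simp [psi, h9]

open scoped Classical in
/-- splitting of the total weight -/
theorem wt_split {K : ℕ} {B e₀ : ℝ} {ι : Type} (D : L2D K B e₀ ι) (PA PG : ι → Prop) {I : Type} [Fintype I]
    (PW : I → ι → Prop) (h : ∀ g ∈ D.G, PA g ∨ (∃ i, PW i g) ∨ PG g) :
    D.wt ≤ (D.sub (D.G.filter PA) (filter_subset _ _)).wt +
      (∑ i, (D.sub (D.G.filter (PW i)) (filter_subset _ _)).wt) +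
      (D.sub (D.G.filter PG) (filter_subset _ _)).wt := by
  have e1 : ∀ (P : ι → Prop), (D.sub (D.G.filter P) (filter_subset _ _)).wt =
      ∑ g ∈ D.G, if P g then (psi K (D.T 0 g).card (D.T 1 g).card : ℝ) else 0 :=
    fun P => Finset.sum_filter _ _
  have e2 : (∑ i, (D.sub (D.G.filter (PW i)) (filter_subset _ _)).wt) =
      ∑ g ∈ D.G, ∑ i, if PW i g then (psi K (D.T 0 g).card (D.T 1 g).card : ℝ) else 0 := by
    rw [Finset.sum_comm]
    exact Finset.sum_congr rfl (fun i _ => e1 _)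
  rw [e1, e2, e1, ← Finset.sum_add_distrib, ← Finset.sum_add_distrib]
  unfold L2D.wt
  refine Finset.sum_le_sum (fun g hg => ?_)
  have hw0 : (0:ℝ) ≤ (psi K (D.T 0 g).card (D.T 1 g).card : ℝ) := Nat.cast_nonneg _
  generalize (psi K (D.T 0 g).card (D.T 1 g).card : ℝ) = w at hw0 ⊢
  have hnn : ∀ P : Prop, (0:ℝ) ≤ if P then w else 0 := by
    intro P
    split_ifs
    · exact hw0
    · exact le_rfl
  have hsum0 : (0:ℝ) ≤ ∑ i, if PW i g then w else 0 :=
    Finset.sum_nonneg (fun i _ => hnn _)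
  have hA := hnn (PA g)
  have hG := hnn (PG g)
  rcases h g hg with h1 | ⟨i, h1⟩ | h1
  · rw [if_pos h1]
    linarith
  · have h3 : w ≤ ∑ i, if PW i g then w else 0 := by
      refine le_trans ?_ (Finset.single_le_sum (f := fun i => if PW i g then w else 0)
        (fun i _ => hnn _) (Finset.mem_univ i))
      simp only [h1, if_true, le_refl]
    linarith
  · rw [if_pos h1]
    linarith

theorem wt_split' {K : ℕ} {B e₀ : ℝ} {ι : Type} (D : L2D K B e₀ ι) (PA PG : ι → Prop) {I : Type} [Fintype I]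
    (PW : I → ι → Prop) (h : ∀ g ∈ D.G, PA g ∨ (∃ i, PW i g) ∨ PG g) :
    ∃ (GA : Finset ι) (hA : GA ⊆ D.G) (GG : Finset ι) (hG : GG ⊆ D.G) (GW : I → Finset ι)
      (hW : ∀ i, GW i ⊆ D.G), (∀ g ∈ GA, PA g) ∧ (∀ g ∈ GG, PG g) ∧ (∀ i, ∀ g ∈ GW i, PW i g) ∧
      D.wt ≤ (D.sub GA hA).wt + (∑ i, (D.sub (GW i) (hW i)).wt) + (D.sub GG hG).wt := by
  classical
  refine ⟨_, filter_subset (fun g => PA g) _, _, filter_subset (fun g => PG g) _, _,
    fun i => filter_subset (fun g => PW i g) _, fun g hg => (mem_filter.1 hg).2,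
    fun g hg => (mem_filter.1 hg).2, fun i g hg => (mem_filter.1 hg).2, ?_⟩
  have := wt_split D PA PG PW h
  convert this

end Vale.Agent.P054.L3
end

section

/-! Block L2, STEP (helper413): one level of the partition + strong induction on `D.N`. -/

set_option linter.all false
set_option autoImplicit false

namespace Vale.Agent.P054.L3

open Finset MvPolynomial
open Vale.Agent.P054.L2 (V3 sqd lpt lineSet trk ONF coord emb InFlat OnFlat choose_m exists_cells)

theorem step (K : ℕ) (hK : 2 ≤ K) (B e₀ : ℝ) (ε : ℝ) (hε : 0 < ε) (f : Fin 4 → ℕ) (hf : ∀ j, 1 ≤ f j ∧ f j ≤ 3)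
    (hbase : BaseClaim K B e₀ ε)
    (hlow : LowClaims K B e₀ f ε) : ∃ C : ℝ, 0 ≤ C ∧ Claim K B e₀ f ε C := by
  classical
  have hF1 : 1 ≤ ∑ i, f i := by
    rw [Fin.sum_univ_four]
    have := (hf 0).1
    omega
  obtain ⟨m, hm1, hm⟩ := choose_m ε hε (∑ i, f i) hF1
  obtain ⟨d, hd⟩ : ∃ d, d = 72 * 2 ^ m := ⟨_, rfl⟩
  rw [← hd] at hm
  have hd1 : 1 ≤ d := by
    have : 1 ≤ 2 ^ m := Nat.one_le_two_pow
    omega
  obtain ⟨Cb, hCb0, hCb⟩ := hbase (4 * (2 * d + 1) * K)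
  have hw := fun i : Fin 4 => wall_red K hK B e₀ ε hε f hf i hlow hbase d (f i) rfl
  choose Cw hCw0 hCw using hw
  have hS0 : (0:ℝ) ≤ ∑ a : (Σ i : Fin 4, Fin (f i * m)), Cw a.1 :=
    Finset.sum_nonneg (fun a _ => hCw0 a.1)
  refine ⟨2 * (Cb + ∑ a : (Σ i : Fin 4, Fin (f i * m)), Cw a.1), by linarith only [hS0, hCb0], ?_⟩
  generalize hS : (∑ a : (Σ i : Fin 4, Fin (f i * m)), Cw a.1) = S at hS0 ⊢
  have hC0 : 0 ≤ 2 * (Cb + S) := by linarith
  have key : ∀ n : ℕ, ∀ (ι : Type) (D : L2D K B e₀ ι), D.N = n → (∀ i, OnFlat (f i) (D.X i)) →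
      D.wt ≤ 2 * (Cb + S) * (D.N : ℝ) ^ (1 + ε) := by
    intro n
    induction n using Nat.strong_induction_on with
    | _ n ih =>
      intro ι D hn hflat
      by_cases hN0 : D.N = 0
      · rw [wt_zero hK D hN0]
        exact mul_nonneg hC0 (Real.rpow_nonneg (Nat.cast_nonneg _) _)
      have hNpos : 0 < D.N := Nat.pos_of_ne_zero hN0
      choose o e hfl using hflat
      have hcells := fun i : Fin 4 => exists_cells (hf i).1 (hf i).2 (o i) (e i) (D.X i) m
      choose q hq0 hqd hqc using hcells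
      have hdeg : ∑ i, ∑ j, (q i j).totalDegree ≤ d := by
        calc ∑ i, ∑ j, (q i j).totalDegree ≤ ∑ i : Fin 4, 18 * 2 ^ m :=
              Finset.sum_le_sum (fun i _ => hqd i)
          _ = d := by rw [Finset.sum_const, Finset.card_univ, Fintype.card_fin, hd, smul_eq_mul]; ring
      have hdij : ∀ i j, (q i j).totalDegree ≤ d := by
        intro i j
        refine le_trans ?_ hdeg
        refine le_trans ?_ (Finset.single_le_sum (f := fun i => ∑ j, (q i j).totalDegree)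
          (fun _ _ => Nat.zero_le _) (Finset.mem_univ i))
        exact Finset.single_le_sum (f := fun j => (q i j).totalDegree)
          (fun _ _ => Nat.zero_le _) (Finset.mem_univ j)
      obtain ⟨GA, hGA, GG, hGG, GW, hGW, hPA, hPG, hPW, hsplit⟩ := wt_split' D
        (fun g => (D.T 0 g).card < 4 * (2 * d + 1) * K ∨ (D.T 1 g).card < 4 * (2 * d + 1) * K)
        (fun g => (4 * (2 * d + 1) * K ≤ (D.T 0 g).card ∧ 4 * (2 * d + 1) * K ≤ (D.T 1 g).card) ∧
          ∀ i j, ∃ t : ℝ, eval (coord (o i) (e i) (lpt (D.p i g) (D.v i g) t)) (q i j) ≠ 0)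
        (fun (a : Σ i : Fin 4, Fin (f i * m)) g => ∀ t : ℝ,
          eval (coord (o a.1) (e a.1) (lpt (D.p a.1 g) (D.v a.1 g) t)) (q a.1 a.2) = 0) (by
        intro g hg
        by_cases h1 : (D.T 0 g).card < 4 * (2 * d + 1) * K ∨ (D.T 1 g).card < 4 * (2 * d + 1) * K
        · exact Or.inl h1
        · by_cases h2 : ∃ (a : Σ i : Fin 4, Fin (f i * m)), ∀ t : ℝ,
            eval (coord (o a.1) (e a.1) (lpt (D.p a.1 g) (D.v a.1 g) t)) (q a.1 a.2) = 0
          · exact Or.inr (Or.inl h2)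
          · refine Or.inr (Or.inr ⟨?_, ?_⟩)
            · rw [not_or, not_lt, not_lt] at h1
              exact h1
            · intro i j
              by_contra h3
              apply h2
              refine ⟨⟨i, j⟩, fun t => ?_⟩
              by_contra h4
              exact h3 ⟨t, h4⟩)
      have hA : ∀ (G' : Finset ι) (hG' : G' ⊆ D.G), (∀ g ∈ G', (D.T 0 g).card < 4 * (2 * d + 1) * K ∨
          (D.T 1 g).card < 4 * (2 * d + 1) * K) → (D.sub G' hG').wt ≤ Cb * (D.N : ℝ) ^ (1 + ε) :=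
        fun G' hG' h => hCb ι (D.sub G' hG') h
      have hW : ∀ (a : (Σ i : Fin 4, Fin (f i * m))) (G' : Finset ι) (hG' : G' ⊆ D.G),
          (∀ g ∈ G', ∀ t : ℝ,
            eval (coord (o a.1) (e a.1) (lpt (D.p a.1 g) (D.v a.1 g) t)) (q a.1 a.2) = 0) →
          (D.sub G' hG').wt ≤ Cw a.1 * (D.N : ℝ) ^ (1 + ε) := by
        intro a G' hG' h
        exact hCw a.1 ι (D.sub G' hG')
          (fun j _ => ⟨o j, e j, hfl j⟩) (o a.1) (e a.1) (hfl a.1) (q a.1 a.2) (hq0 a.1 a.2)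
          (hdij a.1 a.2) h
      have hGd : ∀ (G' : Finset ι) (hG' : G' ⊆ D.G), (∀ g ∈ G',
          (4 * (2 * d + 1) * K ≤ (D.T 0 g).card ∧ 4 * (2 * d + 1) * K ≤ (D.T 1 g).card) ∧
          ∀ i j, ∃ t : ℝ, eval (coord (o i) (e i) (lpt (D.p i g) (D.v i g) t)) (q i j) ≠ 0) →
          (D.sub G' hG').wt ≤ 1 / 2 * (2 * (Cb + S) * (D.N : ℝ) ^ (1 + ε)) := by
        intro G' hG' h
        exact good_ih hK (D.sub G' hG') f (fun i => (hf i).1) m hm1 o e hfl q hqc d hd1 hdeg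
          (fun k g hg => by
            have h5 := (h g hg).1
            fin_cases k
            · exact h5.1
            · exact h5.2)
          (fun g hg => (h g hg).2) ε (2 * (Cb + S)) hε hC0 hm hNpos
          (fun E hE hEf => ih E.N (lt_of_lt_of_eq hE hn) ι E rfl hEf)
      refine le_trans hsplit ?_
      refine le_trans (add_le_add (add_le_add (hA _ _ hPA)
        (Finset.sum_le_sum (fun a _ => hW a _ _ (hPW a))))
        (hGd _ _ hPG)) (le_of_eq ?_)
      rw [← Finset.sum_mul, hS]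
      ring
  intro ι D hflat
  exact key _ ι D rfl hflat

end Vale.Agent.P054.L3
end

section

/-! Block L3, output: the two lines lemma with threshold `K` and base exponent `1 + e₀`. -/

set_option linter.all false
set_option autoImplicit false

namespace Vale.Agent.P054.L3

open Finset MvPolynomial
open Vale.Agent.P054.L2 (V3 sqd lpt lineSet trk ONF coord emb InFlat OnFlat onFlat_three)

theorem claims (K : ℕ) (hK : 2 ≤ K) (B e₀ : ℝ) (ε : ℝ) (hε : 0 < ε) (hbase : BaseClaim K B e₀ ε)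
    (n : ℕ) : ∀ f : Fin 4 → ℕ,
    (∀ j, 1 ≤ f j ∧ f j ≤ 3) → ∑ j, f j = n → ∃ C : ℝ, 0 ≤ C ∧ Claim K B e₀ f ε C := by
  induction n using Nat.strong_induction_on with
  | _ n ih =>
    intro f hf hn
    refine step K hK B e₀ ε hε f hf hbase ?_
    intro f' hf' hne
    refine ih (∑ j, f' j) ?_ f' (fun j => ⟨(hf' j).1, le_trans (hf' j).2 (hf j).2⟩) rfl
    rw [← hn]
    refine lt_of_le_of_ne (Finset.sum_le_sum (fun j _ => (hf' j).2)) ?_
    intro h
    apply hne
    funext j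
    exact (Finset.sum_eq_sum_iff_of_le (fun j _ => (hf' j).2)).1 h j (Finset.mem_univ j)

/-- **Two lines lemma.** -/
theorem two_lines (K : ℕ) (hK : 2 ≤ K) (B e₀ : ℝ) (hB : 0 ≤ B) (he : 0 ≤ e₀) (ε : ℝ)
    (hε : e₀ < ε) : ∃ C : ℝ, 0 ≤ C ∧
    ∀ (ι : Type) (D : L2D K B e₀ ι), D.wt ≤ C * (D.N : ℝ) ^ (1 + ε) := by
  obtain ⟨C, hC, h⟩ := claims K hK B e₀ ε (lt_of_le_of_lt he hε) (base K hK B e₀ hB he ε hε) _
    (fun _ => 3) (fun _ => by norm_num) rfl
  exact ⟨C, hC, fun ι D => h ι D (fun i => onFlat_three _)⟩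

end Vale.Agent.P054.L3
end

section

/-! Block L3, interface for isometries `g = (Q, v)`. -/

set_option linter.all false
set_option autoImplicit false

namespace Vale.Agent.P054.L3

open Finset MvPolynomial Matrix
open Vale.Agent.P054.L2 (V3 sqd lpt lineSet trk ONF coord emb InFlat OnFlat)

/-- isometries as pairs -/
abbrev Mot := Matrix (Fin 3) (Fin 3) ℝ × (Fin 3 → ℝ)

/-- parameter of a point on a line -/
noncomputable def prm (p v a : V3) : ℝ := (∑ k, (a k - p k) * v k) / (∑ k, v k * v k)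

theorem prm_lpt (p v : V3) (hv : v ≠ 0) (t : ℝ) : prm p v (lpt p v t) = t := by
  have h : (∑ k, v k * v k) ≠ 0 := by
    intro h
    apply hv
    funext k
    have := (Finset.sum_eq_zero_iff_of_nonneg (fun k _ => mul_self_nonneg (v k))).1 h k (mem_univ k)
    simpa using this
  unfold prm lpt
  rw [div_eq_iff h, Finset.mul_sum]
  refine Finset.sum_congr rfl (fun k _ => ?_)
  simp only [Pi.add_apply, Pi.smul_apply, smul_eq_mul]
  ring

theorem sqd_mot (g : Mot) (hg : g.1ᵀ * g.1 = 1) (a b : V3) :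
    sqd (g.1.mulVec a + g.2) (g.1.mulVec b + g.2) = sqd a b := by
  unfold sqd
  have h1 : ∀ x : V3, (∑ k, (x k) ^ 2) = x ⬝ᵥ x := by
    intro x
    unfold dotProduct
    exact Finset.sum_congr rfl (fun k _ => by ring)
  have h2 : (∑ k, ((g.1.mulVec a + g.2) k - (g.1.mulVec b + g.2) k) ^ 2) =
      (g.1.mulVec (a - b)) ⬝ᵥ (g.1.mulVec (a - b)) := by
    rw [← h1]
    refine Finset.sum_congr rfl (fun k _ => ?_)
    rw [Matrix.mulVec_sub]
    simp only [Pi.add_apply, Pi.sub_apply]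
    ring
  have h3 : (∑ k, (a k - b k) ^ 2) = (a - b) ⬝ᵥ (a - b) := by
    rw [← h1]
    exact Finset.sum_congr rfl (fun k _ => rfl)
  rw [h2, h3, Matrix.dotProduct_mulVec, ← Matrix.mulVec_transpose, Matrix.mulVec_mulVec, hg,
    Matrix.one_mulVec]

theorem mot_lpt (g : Mot) (p v : V3) (t : ℝ) :
    lpt (g.1.mulVec p + g.2) (g.1.mulVec v) t = g.1.mulVec (lpt p v t) + g.2 := by
  unfold lpt
  rw [Matrix.mulVec_add, Matrix.mulVec_smul]
  abel

theorem mot_ne (g : Mot) (hg : g.1ᵀ * g.1 = 1) (v : V3) (hv : v ≠ 0) : g.1.mulVec v ≠ 0 := by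
  intro h
  apply hv
  have : g.1ᵀ.mulVec (g.1.mulVec v) = v := by
    rw [Matrix.mulVec_mulVec, hg, Matrix.one_mulVec]
  rw [h, Matrix.mulVec_zero] at this
  exact this.symm

open scoped Classical in
/-- matched points on a line -/
noncomputable def mtl (X Y : Finset V3) (g : Mot) (p v : V3) : Finset V3 :=
  X.filter (fun a => a ∈ lineSet p v ∧ g.1.mulVec a + g.2 ∈ Y)

open scoped Classical in
/-- matched pairs of `S` on a line -/
noncomputable def mps (S : Finset (V3 × V3)) (g : Mot) (p v : V3) : Finset (V3 × V3) :=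
  S.filter (fun s => s.1 ∈ lineSet p v ∧ g.1.mulVec s.1 + g.2 = s.2)

theorem card_prm (X Y : Finset V3) (g : Mot) (p v : V3) (hv : v ≠ 0) :
    ((mtl X Y g p v).image (prm p v)).card = (mtl X Y g p v).card := by
  classical
  refine Finset.card_image_of_injOn ?_
  intro a ha b hb hab
  have ha' : a ∈ lineSet p v := (mem_filter.1 ha).2.1
  have hb' : b ∈ lineSet p v := (mem_filter.1 hb).2.1
  obtain ⟨t, rfl⟩ := ha'
  obtain ⟨s, rfl⟩ := hb'
  rw [prm_lpt p v hv, prm_lpt p v hv] at hab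
  rw [hab]

theorem mem_prm {X Y : Finset V3} {g : Mot} {p v : V3} (hv : v ≠ 0) {t : ℝ}
    (ht : t ∈ (mtl X Y g p v).image (prm p v)) :
    lpt p v t ∈ X ∧ g.1.mulVec (lpt p v t) + g.2 ∈ Y := by
  classical
  rw [mem_image] at ht
  obtain ⟨a, ha, rfl⟩ := ht
  have h := (mem_filter.1 ha)
  obtain ⟨h1, h2, h3⟩ := h
  obtain ⟨t, rfl⟩ := h2
  rw [prm_lpt p v hv]
  exact ⟨h1, h3⟩

open scoped Classical in
theorem card_filter_le_mps (S : Finset (V3 × V3)) (g : Mot) (p v : V3) (hv : v ≠ 0)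
    (T : Finset ℝ) :
    (T.filter (fun t => (lpt p v t, lpt (g.1.mulVec p + g.2) (g.1.mulVec v) t) ∈ S)).card ≤
      (mps S g p v).card := by
  refine Finset.card_le_card_of_injOn
    (fun t => (lpt p v t, lpt (g.1.mulVec p + g.2) (g.1.mulVec v) t)) ?_ ?_
  · intro t ht
    have h := (mem_filter.1 ht).2
    unfold mps
    rw [mem_coe, mem_filter]
    exact ⟨h, ⟨t, rfl⟩, (mot_lpt g p v t).symm⟩
  · intro t ht s hs hts
    have h := congrArg Prod.fst hts
    simp only at h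
    have h2 := congrArg (prm p v) h
    rwa [prm_lpt p v hv, prm_lpt p v hv] at h2

open scoped Classical in
/-- **Two lines lemma for isometries.** -/
theorem two_lines_iso (K : ℕ) (hK : 2 ≤ K) (B e₀ : ℝ) (hB : 0 ≤ B) (he : 0 ≤ e₀) (ε : ℝ)
    (hε : e₀ < ε) : ∃ C : ℝ, 0 ≤ C ∧
    ∀ (X₁ Y₁ X₂ Y₂ : Finset V3) (G : Finset Mot) (p₁ v₁ p₂ v₂ : Mot → V3),
      (∀ g ∈ G, g.1ᵀ * g.1 = 1) → (∀ g ∈ G, v₁ g ≠ 0) → (∀ g ∈ G, v₂ g ≠ 0) →
      (∀ S₁ S₂ : Finset (V3 × V3),
        ((G.filter (fun g => K ≤ (mps S₁ g (p₁ g) (v₁ g)).card ∧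
          K ≤ (mps S₂ g (p₂ g) (v₂ g)).card)).card : ℝ) ≤
            B * ((S₁.card * S₂.card : ℕ) : ℝ) ^ (1 + e₀)) →
      ∑ g ∈ G, (psi K (mtl X₁ Y₁ g (p₁ g) (v₁ g)).card (mtl X₂ Y₂ g (p₂ g) (v₂ g)).card : ℝ) ≤
        C * ((X₁.card * Y₁.card * X₂.card * Y₂.card : ℕ) : ℝ) ^ (1 + ε) := by
  obtain ⟨C, hC, h⟩ := two_lines K hK B e₀ hB he ε hε
  refine ⟨C, hC, ?_⟩
  intro X₁ Y₁ X₂ Y₂ G p₁ v₁ p₂ v₂ horth hv₁ hv₂ hJ
  let D : L2D K B e₀ Mot :=
    { G := G
      X := ![X₁, Y₁, X₂, Y₂]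
      p := ![p₁, fun g => g.1.mulVec (p₁ g) + g.2, p₂, fun g => g.1.mulVec (p₂ g) + g.2]
      v := ![v₁, fun g => g.1.mulVec (v₁ g), v₂, fun g => g.1.mulVec (v₂ g)]
      T := ![fun g => (mtl X₁ Y₁ g (p₁ g) (v₁ g)).image (prm (p₁ g) (v₁ g)),
        fun g => (mtl X₂ Y₂ g (p₂ g) (v₂ g)).image (prm (p₂ g) (v₂ g))]
      hv := by
        intro i g hg
        fin_cases i
        · exact hv₁ g hg
        · exact mot_ne g (horth g hg) _ (hv₁ g hg)
        · exact hv₂ g hg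
        · exact mot_ne g (horth g hg) _ (hv₂ g hg)
      hX := by
        intro i g hg t ht
        fin_cases i
        · exact (mem_prm (hv₁ g hg) ht).1
        · change lpt (g.1.mulVec (p₁ g) + g.2) (g.1.mulVec (v₁ g)) t ∈ Y₁
          rw [mot_lpt]
          exact (mem_prm (hv₁ g hg) ht).2
        · exact (mem_prm (hv₂ g hg) ht).1
        · change lpt (g.1.mulVec (p₂ g) + g.2) (g.1.mulVec (v₂ g)) t ∈ Y₂
          rw [mot_lpt]
          exact (mem_prm (hv₂ g hg) ht).2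
      hiso := by
        intro g hg t ht s hs
        change sqd (lpt (p₁ g) (v₁ g) t) (lpt (p₂ g) (v₂ g) s) =
          sqd (lpt (g.1.mulVec (p₁ g) + g.2) (g.1.mulVec (v₁ g)) t)
            (lpt (g.1.mulVec (p₂ g) + g.2) (g.1.mulVec (v₂ g)) s)
        rw [mot_lpt, mot_lpt, sqd_mot g (horth g hg)]
      hJ := by
        intro S₁ S₂
        refine le_trans (Nat.cast_le.2 (Finset.card_le_card ?_)) (hJ S₁ S₂)
        intro g hg
        rw [mem_filter] at hg ⊢
        refine ⟨hg.1, le_trans hg.2.1 ?_, le_trans hg.2.2 ?_⟩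
        · exact card_filter_le_mps S₁ g (p₁ g) (v₁ g) (hv₁ g hg.1) _
        · exact card_filter_le_mps S₂ g (p₂ g) (v₂ g) (hv₂ g hg.1) _ }
  have h2 := h Mot D
  have h3 : D.wt = ∑ g ∈ G, (psi K (mtl X₁ Y₁ g (p₁ g) (v₁ g)).card
      (mtl X₂ Y₂ g (p₂ g) (v₂ g)).card : ℝ) := by
    change ∑ g ∈ G, (psi K ((mtl X₁ Y₁ g (p₁ g) (v₁ g)).image (prm (p₁ g) (v₁ g))).card
      ((mtl X₂ Y₂ g (p₂ g) (v₂ g)).image (prm (p₂ g) (v₂ g))).card : ℝ) = _
    refine Finset.sum_congr rfl (fun g hg => ?_)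
    rw [card_prm _ _ _ _ _ (hv₁ g hg), card_prm _ _ _ _ _ (hv₂ g hg)]
  have h4 : D.N = X₁.card * Y₁.card * X₂.card * Y₂.card := by
    change ∏ i, ((![X₁, Y₁, X₂, Y₂] : Fin 4 → Finset V3) i).card = _
    rw [Fin.prod_univ_four]
    rfl
  rw [h3, h4] at h2
  exact h2

end Vale.Agent.P054.L3
end

section

/-! P054, TwoStmt: elementary geometry. -/

set_option linter.all false
set_option autoImplicit false

namespace Vale.Agent.P054.Two

open Finset Matrix
open Vale.Agent.P054.R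

/-- the two descriptions of a line -/
theorem onL_iff (x b a : V3) (hb : b ≠ 0) : OnL x b a ↔ a ∈ Vale.Agent.P054.L2.lineSet x b := by
  unfold OnL Vale.Agent.P054.L2.lineSet Vale.Agent.P054.L2.lpt
  constructor
  · intro h
    rw [cross_apply] at h
    have h0 : (a 1 - x 1) * b 2 - (a 2 - x 2) * b 1 = 0 := congrFun h 0
    have h1 : (a 2 - x 2) * b 0 - (a 0 - x 0) * b 2 = 0 := congrFun h 1
    have h2 : (a 0 - x 0) * b 1 - (a 1 - x 1) * b 0 = 0 := congrFun h 2
    have hb' : b 0 ≠ 0 ∨ b 1 ≠ 0 ∨ b 2 ≠ 0 := by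
      by_contra hc
      push Not at hc
      apply hb
      funext i
      fin_cases i
      · exact hc.1
      · exact hc.2.1
      · exact hc.2.2
    rcases hb' with h3 | h3 | h3
    · refine ⟨(a 0 - x 0) / b 0, ?_⟩
      funext i
      fin_cases i
      · simp; field_simp; ring
      · simp; field_simp; linarith
      · simp; field_simp; linarith
    · refine ⟨(a 1 - x 1) / b 1, ?_⟩
      funext i
      fin_cases i
      · simp; field_simp; linarith
      · simp; field_simp; ring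
      · simp; field_simp; linarith
    · refine ⟨(a 2 - x 2) / b 2, ?_⟩
      funext i
      fin_cases i
      · simp; field_simp; linarith
      · simp; field_simp; linarith
      · simp; field_simp; ring
  · rintro ⟨t, rfl⟩
    rw [add_sub_cancel_left, map_smul, LinearMap.smul_apply, cross_self, smul_zero]

/-- four points that are in no common plane are affinely independent -/
theorem affInd_of_noPlane (p : Fin 4 → V3)
    (h : ∀ (n : V3) (d : ℝ), n ≠ 0 → ∃ i, ¬ OnP n d (p i)) : AffineIndependent ℝ p := by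
  rw [affineIndependent_iff_linearIndependent_vsub ℝ p 0]
  by_contra hli
  -- the three difference vectors are dependent: a common normal vector
  let A : Matrix (Fin 3) (Fin 3) ℝ := Matrix.of ![p 1 - p 0, p 2 - p 0, p 3 - p 0]
  have hdet : A.det = 0 := by
    by_contra hd
    apply hli
    have hrows : LinearIndependent ℝ (fun i => A i) :=
      Matrix.linearIndependent_rows_of_det_ne_zero hd
    let e : {x : Fin 4 // x ≠ 0} → Fin 3 := fun x => ⟨x.1.val - 1, by
      have h1 := x.1.isLt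
      have h2 : x.1.val ≠ 0 := fun h => x.2 (Fin.ext h)
      omega⟩
    have he : Function.Injective e := by
      intro x y hxy
      have h2 : x.1.val ≠ 0 := fun h => x.2 (Fin.ext h)
      have h3 : y.1.val ≠ 0 := fun h => y.2 (Fin.ext h)
      have h4 : x.1.val - 1 = y.1.val - 1 := congrArg Fin.val hxy
      apply Subtype.ext
      apply Fin.ext
      omega
    have h5 := hrows.comp e he
    have h6 : ((fun i => A i) ∘ e) = fun i : {x : Fin 4 // x ≠ 0} => p i.1 -ᵥ p 0 := by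
      funext x
      obtain ⟨x, hx⟩ := x
      fin_cases x
      · exact absurd rfl hx
      · rfl
      · rfl
      · rfl
    rw [h6] at h5
    exact h5
  obtain ⟨n, hn, hAn⟩ := Matrix.exists_mulVec_eq_zero_iff.2 hdet
  obtain ⟨i, hi⟩ := h n (n ⬝ᵥ p 0) hn
  apply hi
  unfold OnP
  have h1 : n ⬝ᵥ (p i - p 0) = 0 := by
    fin_cases i
    · simp
    · have := congrFun hAn 0
      simp only [Matrix.mulVec, A, Matrix.of_apply, Pi.zero_apply] at this
      rw [dotProduct_comm]; exact this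
    · have := congrFun hAn 1
      simp only [Matrix.mulVec, A, Matrix.of_apply, Pi.zero_apply] at this
      rw [dotProduct_comm]; exact this
    · have := congrFun hAn 2
      simp only [Matrix.mulVec, A, Matrix.of_apply, Pi.zero_apply] at this
      rw [dotProduct_comm]; exact this
  rw [dotProduct_sub, sub_eq_zero] at h1
  exact h1

open scoped Classical in
/-- two points with different first coordinates out of two matched pairs -/
theorem two_of_mpl {S : Finset (V3 × V3)} {g : Iso} {x b : V3} (h : 2 ≤ (mpl S g x b).card) :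
    ∃ s ∈ S, ∃ s' ∈ S, s.1 ≠ s'.1 ∧ OnL x b s.1 ∧ OnL x b s'.1 ∧ act g s.1 = s.2 ∧
      act g s'.1 = s'.2 := by
  obtain ⟨s, hs, s', hs', hne⟩ := Finset.one_lt_card.1 (lt_of_lt_of_le one_lt_two h)
  unfold mpl at hs hs'
  rw [mem_filter] at hs hs'
  refine ⟨s, hs.1, s', hs'.1, ?_, hs.2.1, hs'.2.1, hs.2.2, hs'.2.2⟩
  intro h1
  apply hne
  refine Prod.ext h1 ?_
  rw [← hs.2.2, ← hs'.2.2, h1]

/-- skew lines -/
theorem joint_of_skew {S1 S2 : Finset (V3 × V3)} {g : Iso} (hg : Orth g) {x1 b1 x2 b2 : V3}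
    (hb1 : b1 ≠ 0) (hb2 : b2 ≠ 0)
    (h1 : 2 ≤ (mpl S1 g x1 b1).card) (h2 : 2 ≤ (mpl S2 g x2 b2).card)
    (hno : ¬ ∃ (n : V3) (d : ℝ), n ≠ 0 ∧ LinP x1 b1 n d ∧ LinP x2 b2 n d) : JointE S1 S2 g := by
  obtain ⟨s, hs, s', hs', hne, ho, ho', ha, ha'⟩ := two_of_mpl h1
  obtain ⟨u, hu, u', hu', hneu, hou, hou', hau, hau'⟩ := two_of_mpl h2
  refine ⟨hg, ![s, s', u, u'], hs, hs', hu, hu', ?_, ?_⟩
  · intro i
    fin_cases i
    · exact ha
    · exact ha'
    · exact hau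
    · exact hau'
  · refine affInd_of_noPlane _ ?_
    intro n d hn
    by_contra hc
    push Not at hc
    apply hno
    refine ⟨n, d, hn, LinP_of_two hb1 hne ho ho' (hc 0) (hc 1), LinP_of_two hb2 hneu hou hou' (hc 2) (hc 3)⟩

/-- coplanar lines and a matched point off the plane -/
theorem joint_of_off {S1 S2 : Finset (V3 × V3)} {g : Iso} (hg : Orth g) {x1 b1 x2 b2 : V3}
    (hb1 : b1 ≠ 0) (hb2 : b2 ≠ 0) (hdiff : DiffL x1 b1 x2 b2)
    (h1 : 2 ≤ (mpl S1 g x1 b1).card) (h2 : 2 ≤ (mpl S2 g x2 b2).card)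
    {n : V3} {d : ℝ} (hn : n ≠ 0) (hL1 : LinP x1 b1 n d) (hL2 : LinP x2 b2 n d)
    (hoff : ∃ s ∈ S1 ∪ S2, act g s.1 = s.2 ∧ ¬ OnP n d s.1) : JointE S1 S2 g := by
  classical
  obtain ⟨s, hs, s', hs', hne, ho, ho', ha, ha'⟩ := two_of_mpl h1
  obtain ⟨u, hu, u', hu', hneu, hou, hou', hau, hau'⟩ := two_of_mpl h2
  obtain ⟨z, hz, haz, hzoff⟩ := hoff
  -- a point of line 1 off line 2
  have hA : ∃ a ∈ S1, OnL x1 b1 a.1 ∧ act g a.1 = a.2 ∧ ¬ OnL x2 b2 a.1 := by
    by_contra hc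
    push Not at hc
    have e1 := hc s hs ho ha
    have e2 := hc s' hs' ho' ha'
    exact hne (DiffL_inter hb1 hb2 hdiff ho e1 ho' e2)
  have hB : ∃ a ∈ S2, OnL x2 b2 a.1 ∧ act g a.1 = a.2 ∧ ¬ OnL x1 b1 a.1 := by
    by_contra hc
    push Not at hc
    have e1 := hc u hu hou hau
    have e2 := hc u' hu' hou' hau'
    exact hneu (DiffL_inter hb1 hb2 hdiff e1 hou e2 hou')
  obtain ⟨a, haS, haL, haa, haoff⟩ := hA
  obtain ⟨c, hcS, hcL, hca, hcoff⟩ := hB
  -- a plane through a line and a point off the line of the plane `(n, d)` is the plane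
  have key : ∀ (x b : V3) (y y' w z : V3), b ≠ 0 → LinP x b n d → y ≠ y' → OnL x b y → OnL x b y' →
      OnP n d w → ¬ OnL x b w → ¬ OnP n d z →
      ∀ (n' : V3) (d' : ℝ), n' ≠ 0 → ¬ (OnP n' d' y ∧ OnP n' d' y' ∧ OnP n' d' w ∧ OnP n' d' z) := by
    intro x b y y' w z hb hL hyy hy hy' hw hwoff hzz n' d' hn' ⟨k1, k2, k3, k4⟩
    have hcr : crossProduct (y' - y) (w - y) ≠ 0 := by
      intro hcr
      apply hwoff
      have hdir : y' - y ≠ 0 := sub_ne_zero.2 (Ne.symm hyy)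
      have e1 : OnL y (y' - y) w := by
        unfold OnL
        rw [← cross_anticomm, hcr, neg_zero]
      rw [onL_iff _ _ _ hdir] at e1
      obtain ⟨t, rfl⟩ := e1
      rw [onL_iff _ _ _ hb] at hy hy' ⊢
      obtain ⟨r, rfl⟩ := hy
      obtain ⟨r', rfl⟩ := hy'
      refine ⟨r + t * (r' - r), ?_⟩
      unfold Vale.Agent.P054.L2.lpt
      funext i
      simp only [Pi.add_apply, Pi.smul_apply, Pi.sub_apply, smul_eq_mul]
      ring
    have h5 := plane_eq_of_three hn hn' hcr (LinP_OnP hb hL hy) (LinP_OnP hb hL hy') hw k1 k2 k3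
    exact hzz ((h5 z).2 k4)
  rw [mem_union] at hz
  rcases hz with hz | hz
  · refine ⟨hg, ![z, a, u, u'], hz, haS, hu, hu', ?_, ?_⟩
    · intro i
      fin_cases i
      · exact haz
      · exact haa
      · exact hau
      · exact hau'
    · refine affInd_of_noPlane _ ?_
      intro n' d' hn'
      by_contra hc
      push Not at hc
      exact key x2 b2 u.1 u'.1 a.1 z.1 hb2 hL2 hneu hou hou' (LinP_OnP hb1 hL1 haL) haoff hzoff n' d' hn'
        ⟨hc 2, hc 3, hc 1, hc 0⟩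
  · refine ⟨hg, ![s, s', z, c], hs, hs', hz, hcS, ?_, ?_⟩
    · intro i
      fin_cases i
      · exact ha
      · exact ha'
      · exact haz
      · exact hca
    · refine affInd_of_noPlane _ ?_
      intro n' d' hn'
      by_contra hc
      push Not at hc
      exact key x1 b1 s.1 s'.1 c.1 z.1 hb1 hL1 hne ho ho' (LinP_OnP hb2 hL2 hcL) hcoff hzoff n' d' hn'
        ⟨hc 0, hc 1, hc 3, hc 2⟩

end Vale.Agent.P054.Two
end

section

/-! P054, TwoStmt: the fibres of the partner map (comparable case). -/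

set_option linter.all false
set_option autoImplicit false

namespace Vale.Agent.P054.Two

open Finset Matrix
open Vale.Agent.P054.R

/-- a set with two different lines with `k` points each has `rho ≥ k - 1` -/
theorem rho_two_lines (S : Finset V3) (k : ℕ) {x1 b1 x2 b2 : V3} (hb1 : b1 ≠ 0) (hb2 : b2 ≠ 0)
    (hdiff : DiffL x1 b1 x2 b2) (h1 : k ≤ on S x1 b1) (h2 : k ≤ on S x2 b2) : k ≤ rho S + 1 := by
  classical
  obtain ⟨x, b, hb, hx⟩ := rho_spec S
  rw [← hx]
  -- the line `(x, b)` differs from one of the two lines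
  have key : ∀ (x' b' : V3), b' ≠ 0 → DiffL x b x' b' → on S x' b' ≤ off S x b + 1 := by
    intro x' b' hb' hd
    have hsub : S.filter (fun a => OnL x' b' a) ⊆
        S.filter (fun a => ¬ OnL x b a) ∪ S.filter (fun a => OnL x b a ∧ OnL x' b' a) := by
      intro a ha
      rw [mem_filter] at ha
      rw [mem_union, mem_filter, mem_filter]
      by_cases h : OnL x b a
      · exact Or.inr ⟨ha.1, h, ha.2⟩
      · exact Or.inl ⟨ha.1, h⟩
    have hone : (S.filter (fun a => OnL x b a ∧ OnL x' b' a)).card ≤ 1 := by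
      rw [Finset.card_le_one]
      intro a ha c hc
      rw [mem_filter] at ha hc
      exact DiffL_inter hb hb' hd ha.2.1 ha.2.2 hc.2.1 hc.2.2
    have h3 := Finset.card_le_card hsub
    have h4 := Finset.card_union_le (S.filter (fun a => ¬ OnL x b a))
      (S.filter (fun a => OnL x b a ∧ OnL x' b' a))
    unfold on off
    omega
  by_cases hd : DiffL x b x1 b1
  · exact le_trans h1 (key x1 b1 hb1 hd)
  · have hd2 : DiffL x b x2 b2 := by
      unfold DiffL at hd hdiff ⊢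
      rw [not_not] at hd
      intro h
      apply hdiff
      intro a
      rw [← hd a, h a]
    exact le_trans h2 (key x2 b2 hb2 hd2)

open scoped Classical in
/-- fibres of the partner map -/
theorem fibre_bound (K3 : ℕ) (X Y : Finset V3) (G : Finset Iso) (k : Iso → ℕ)
    (n : Iso → V3) (d : Iso → ℝ) (x1 b1 x2 b2 : Iso → V3)
    (hG : ∀ g ∈ G, 4 ≤ k g ∧ n g ≠ 0 ∧ b1 g ≠ 0 ∧ b2 g ≠ 0 ∧ DiffL (x1 g) (b1 g) (x2 g) (b2 g) ∧
      LinP (x1 g) (b1 g) (n g) (d g) ∧ LinP (x2 g) (b2 g) (n g) (d g) ∧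
      k g ≤ on (M g X Y) (x1 g) (b1 g) ∧ k g ≤ on (M g X Y) (x2 g) (b2 g) ∧
      rho (M (prt g (n g) (d g)) X Y) ≤ K3 * k g) (h : Iso) :
    (G.filter (fun g => prt g (n g) (d g) = h)).card ≤ 32 * K3 ^ 3 := by
  set F := G.filter (fun g => prt g (n g) (d g) = h) with hF
  rcases F.eq_empty_or_nonempty with hE | hne
  · rw [hE]; simp
  have hsec := sections (M h X Y) Iso F n d (fun g hg => (hG g (mem_filter.1 hg).1).2.1) ?_ ?_
  · -- lower bound for the sections
    have hlow : ∀ g ∈ F, rho (M h X Y) ≤ 2 * K3 * rho ((M h X Y).filter (OnP (n g) (d g))) ∧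
        2 ≤ rho ((M h X Y).filter (OnP (n g) (d g))) := by
      intro g hg
      obtain ⟨hgG, hgh⟩ := mem_filter.1 hg
      obtain ⟨hk, hn, hb1, hb2, hdiff, hL1, hL2, h1, h2, h3⟩ := hG g hgG
      have hon : ∀ x b : V3, b ≠ 0 → LinP x b (n g) (d g) →
          on (M g X Y) x b ≤ on ((M h X Y).filter (OnP (n g) (d g))) x b := by
        intro x b hb hL
        unfold on
        refine Finset.card_le_card ?_
        intro a ha
        rw [mem_filter] at ha
        have hp := LinP_OnP hb hL ha.2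
        rw [mem_filter, mem_filter]
        refine ⟨⟨?_, hp⟩, ha.2⟩
        rw [← hgh]
        exact (M_prt_plane g hn X Y hp).2 ha.1
      have h4 := rho_two_lines ((M h X Y).filter (OnP (n g) (d g))) (k g) hb1 hb2 hdiff
        (le_trans h1 (hon _ _ hb1 hL1)) (le_trans h2 (hon _ _ hb2 hL2))
      rw [hgh] at h3
      refine ⟨?_, by omega⟩
      calc rho (M h X Y) ≤ K3 * k g := h3
        _ ≤ K3 * (2 * rho ((M h X Y).filter (OnP (n g) (d g)))) := Nat.mul_le_mul_left _ (by omega)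
        _ = 2 * K3 * rho ((M h X Y).filter (OnP (n g) (d g))) := by ring
    obtain ⟨g0, hg0⟩ := hne
    have hpos : 0 < rho (M h X Y) := by
      have h5 := (hlow g0 hg0).2
      have h6 : rho ((M h X Y).filter (OnP (n g0) (d g0))) ≤ rho (M h X Y) :=
        rho_mono (filter_subset _ _)
      omega
    have hsum : F.card * rho (M h X Y) ^ 3 ≤ 8 * K3 ^ 3 * (4 * rho (M h X Y) ^ 3) := by
      calc F.card * rho (M h X Y) ^ 3 = ∑ g ∈ F, rho (M h X Y) ^ 3 := by
            rw [Finset.sum_const, smul_eq_mul]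
        _ ≤ ∑ g ∈ F, 8 * K3 ^ 3 * (rho ((M h X Y).filter (OnP (n g) (d g)))) ^ 3 := by
            refine Finset.sum_le_sum (fun g hg => ?_)
            calc rho (M h X Y) ^ 3
                ≤ (2 * K3 * rho ((M h X Y).filter (OnP (n g) (d g)))) ^ 3 :=
                  Nat.pow_le_pow_left (hlow g hg).1 3
              _ = 8 * K3 ^ 3 * (rho ((M h X Y).filter (OnP (n g) (d g)))) ^ 3 := by ring
        _ = 8 * K3 ^ 3 * ∑ g ∈ F, (rho ((M h X Y).filter (OnP (n g) (d g)))) ^ 3 := by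
            rw [Finset.mul_sum]
        _ ≤ 8 * K3 ^ 3 * (4 * rho (M h X Y) ^ 3) := Nat.mul_le_mul_left _ hsec
    have h7 : F.card * rho (M h X Y) ^ 3 ≤ (32 * K3 ^ 3) * rho (M h X Y) ^ 3 := by
      refine le_trans hsum (le_of_eq ?_)
      ring
    exact Nat.le_of_mul_le_mul_right h7 (by positivity)
  · intro g hg g' hg' hne' hpl
    apply hne'
    obtain ⟨hgG, hgh⟩ := mem_filter.1 hg
    obtain ⟨hgG', hgh'⟩ := mem_filter.1 hg'
    have hn := (hG g hgG).2.1
    have hn' := (hG g' hgG').2.1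
    calc g = prt (prt g (n g) (d g)) (n g) (d g) := (prt_prt g _ _ hn).symm
      _ = prt h (n g) (d g) := by rw [hgh]
      _ = prt h (n g') (d g') := prt_congr h hn hn' hpl
      _ = prt (prt g' (n g') (d g')) (n g') (d g') := by rw [hgh']
      _ = g' := prt_prt g' _ _ hn'
  · intro g hg
    obtain ⟨hgG, hgh⟩ := mem_filter.1 hg
    obtain ⟨hk, hn, hb1, hb2, hdiff, hL1, hL2, h1, h2, h3⟩ := hG g hgG
    have hon : ∀ x b : V3, b ≠ 0 → LinP x b (n g) (d g) →
        on (M g X Y) x b ≤ on ((M h X Y).filter (OnP (n g) (d g))) x b := by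
      intro x b hb hL
      unfold on
      refine Finset.card_le_card ?_
      intro a ha
      rw [mem_filter] at ha
      have hp := LinP_OnP hb hL ha.2
      rw [mem_filter, mem_filter]
      refine ⟨⟨?_, hp⟩, ha.2⟩
      rw [← hgh]
      exact (M_prt_plane g hn X Y hp).2 ha.1
    have h4 := rho_two_lines ((M h X Y).filter (OnP (n g) (d g))) (k g) hb1 hb2 hdiff
      (le_trans h1 (hon _ _ hb1 hL1)) (le_trans h2 (hon _ _ hb2 hL2))
    omega

end Vale.Agent.P054.Two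
end

section

/-! P054: `TwoStmt` from the two lines lemma (L3), theorem J and the bipartite planar count. -/

set_option linter.all false
set_option autoImplicit false

namespace Vale.Agent.P054.Two

open Finset Matrix
open Vale.Agent.P054.R
open Vale.Agent.P054.L3 (mtl mps psi two_lines_iso)

theorem mps_eq (S : Finset (V3 × V3)) (g : Iso) (x b : V3) (hb : b ≠ 0) :
    mps S g x b = mpl S g x b := by
  classical
  unfold mps mpl act
  refine Finset.filter_congr (fun s _ => ?_)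
  rw [onL_iff x b s.1 hb]

theorem mtl_card (X Y : Finset V3) (g : Iso) (x b : V3) (hb : b ≠ 0) :
    (mtl X Y g x b).card = on (M g X Y) x b := by
  classical
  unfold mtl on M act
  rw [Finset.filter_filter]
  congr 1
  refine Finset.filter_congr (fun s _ => ?_)
  rw [onL_iff x b s hb, and_comm]

theorem le_rpow_self (N : ℕ) (e : ℝ) (he : 0 ≤ e) : (N : ℝ) ≤ (N : ℝ) ^ (1 + e) := by
  rcases Nat.eq_zero_or_pos N with h | h
  · rw [h]
    simp only [Nat.cast_zero]
    exact Real.rpow_nonneg le_rfl _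
  · have h1 : (1 : ℝ) ≤ N := by exact_mod_cast h
    calc (N : ℝ) = (N : ℝ) ^ (1 : ℝ) := (Real.rpow_one _).symm
      _ ≤ (N : ℝ) ^ (1 + e) := Real.rpow_le_rpow_of_exponent_le h1 (by linarith)

open scoped Classical in
/-- the base hypothesis of the two lines lemma -/
theorem base_hyp (e₀ : ℝ) (he : 0 ≤ e₀) (K : ℕ) (hK : 2 ≤ K) (C1 : ℝ) (hC1 : 0 < C1) (K3 : ℕ)
    (hBip : ∀ (S1 S2 : Finset (V3 × V3)) (G : Finset Iso) (n : Iso → V3) (d : Iso → ℝ)
      (x1 b1 x2 b2 : Iso → V3),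
      (∀ g ∈ G, Orth g ∧ n g ≠ 0 ∧ b1 g ≠ 0 ∧ b2 g ≠ 0 ∧ DiffL (x1 g) (b1 g) (x2 g) (b2 g) ∧
        LinP (x1 g) (b1 g) (n g) (d g) ∧ LinP (x2 g) (b2 g) (n g) (d g) ∧
        K ≤ (mpl S1 g (x1 g) (b1 g)).card ∧ K ≤ (mpl S2 g (x2 g) (b2 g)).card ∧
        ∀ s ∈ S1 ∪ S2, act g s.1 = s.2 → OnP (n g) (d g) s.1) →
      (∀ h : Iso, (G.filter (fun g => prt g (n g) (d g) = h)).card ≤ 32 * K3 ^ 3) →
      (G.card : ℝ) ≤ C1 * ((S1.card : ℝ) * S2.card) ^ (1 + e₀))
    (X Y : Finset V3) (G : Finset Iso) (horth : ∀ g ∈ G, Orth g)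
    (k : Iso → ℕ) (x1 b1 x2 b2 : Iso → V3)
    (hG : ∀ g ∈ G, 4 ≤ k g ∧ b1 g ≠ 0 ∧ b2 g ≠ 0 ∧ DiffL (x1 g) (b1 g) (x2 g) (b2 g) ∧
      k g ≤ on (M g X Y) (x1 g) (b1 g) ∧ k g ≤ on (M g X Y) (x2 g) (b2 g) ∧
      ∀ (n : V3) (d : ℝ), n ≠ 0 → LinP (x1 g) (b1 g) n d → LinP (x2 g) (b2 g) n d →
        rho (M (prt g n d) X Y) ≤ K3 * k g)
    (S1 S2 : Finset (V3 × V3)) :
    ((G.filter (fun g => K ≤ (mps S1 g (x1 g) (b1 g)).card ∧
      K ≤ (mps S2 g (x2 g) (b2 g)).card)).card : ℝ) ≤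
      (20 + C1) * ((S1.card * S2.card : ℕ) : ℝ) ^ (1 + e₀) := by
  set F := G.filter (fun g => K ≤ (mps S1 g (x1 g) (b1 g)).card ∧
      K ≤ (mps S2 g (x2 g) (b2 g)).card) with hF
  -- facts
  have hF1 : ∀ g ∈ F, g ∈ G ∧ K ≤ (mpl S1 g (x1 g) (b1 g)).card ∧
      K ≤ (mpl S2 g (x2 g) (b2 g)).card := by
    intro g hg
    obtain ⟨hgG, h1, h2⟩ := mem_filter.1 hg
    obtain ⟨_, hb1, hb2, _⟩ := hG g hgG
    rw [mps_eq _ _ _ _ hb1] at h1
    rw [mps_eq _ _ _ _ hb2] at h2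
    exact ⟨hgG, h1, h2⟩
  set cop : Iso → Prop := fun g => ∃ (n : V3) (d : ℝ), n ≠ 0 ∧ LinP (x1 g) (b1 g) n d ∧
    LinP (x2 g) (b2 g) n d with hcop
  have hch : ∀ g : Iso, ∃ (n : V3) (d : ℝ), cop g → (n ≠ 0 ∧ LinP (x1 g) (b1 g) n d ∧
    LinP (x2 g) (b2 g) n d) := by
    intro g
    by_cases h : cop g
    · obtain ⟨n, d, h'⟩ := h
      exact ⟨n, d, fun _ => h'⟩
    · exact ⟨0, 0, fun h' => absurd h' h⟩
  choose n d hnd using hch
  set PO : Iso → Prop := fun g => ∃ s ∈ S1 ∪ S2, act g s.1 = s.2 ∧ ¬ OnP (n g) (d g) s.1 with hPO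
  set F1 := F.filter (fun g => ¬ cop g) with hF1d
  set F2 := F.filter (fun g => cop g ∧ PO g) with hF2d
  set F3 := F.filter (fun g => cop g ∧ ¬ PO g) with hF3d
  have hcov : F ⊆ F1 ∪ F2 ∪ F3 := by
    intro g hg
    rw [mem_union, mem_union]
    by_cases h1 : cop g
    · by_cases h2 : PO g
      · exact Or.inl (Or.inr (mem_filter.2 ⟨hg, h1, h2⟩))
      · exact Or.inr (mem_filter.2 ⟨hg, h1, h2⟩)
    · exact Or.inl (Or.inl (mem_filter.2 ⟨hg, h1⟩))
  have hcard : F.card ≤ F1.card + F2.card + F3.card :=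
    le_trans (card_le_card hcov) (le_trans (card_union_le _ _)
      (Nat.add_le_add_right (card_union_le _ _) _))
  have c1 : F1.card ≤ 10 * (S1.card * S2.card) := by
    refine jointE_card S1 S2 F1 ?_
    intro g hg
    obtain ⟨hgF, hnc⟩ := mem_filter.1 hg
    obtain ⟨hgG, h1, h2⟩ := hF1 g hgF
    obtain ⟨_, hb1, hb2, hdiff, _⟩ := hG g hgG
    exact joint_of_skew (horth g hgG) hb1 hb2 (le_trans hK h1) (le_trans hK h2) hnc
  have c2 : F2.card ≤ 10 * (S1.card * S2.card) := by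
    refine jointE_card S1 S2 F2 ?_
    intro g hg
    obtain ⟨hgF, hc, hp⟩ := mem_filter.1 hg
    obtain ⟨hgG, h1, h2⟩ := hF1 g hgF
    obtain ⟨_, hb1, hb2, hdiff, _⟩ := hG g hgG
    obtain ⟨hn, hL1, hL2⟩ := hnd g hc
    exact joint_of_off (horth g hgG) hb1 hb2 hdiff (le_trans hK h1) (le_trans hK h2) hn hL1 hL2 hp
  have c3 : (F3.card : ℝ) ≤ C1 * ((S1.card : ℝ) * S2.card) ^ (1 + e₀) := by
    refine hBip S1 S2 F3 n d x1 b1 x2 b2 ?_ ?_
    · intro g hg
      obtain ⟨hgF, hc, hp⟩ := mem_filter.1 hg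
      obtain ⟨hgG, h1, h2⟩ := hF1 g hgF
      obtain ⟨_, hb1, hb2, hdiff, _⟩ := hG g hgG
      obtain ⟨hn, hL1, hL2⟩ := hnd g hc
      refine ⟨horth g hgG, hn, hb1, hb2, hdiff, hL1, hL2, h1, h2, ?_⟩
      intro s hs hgs
      by_contra hno
      exact hp ⟨s, hs, hgs, hno⟩
    · intro h
      refine fibre_bound K3 X Y F3 k n d x1 b1 x2 b2 ?_ h
      intro g hg
      obtain ⟨hgF, hc, hp⟩ := mem_filter.1 hg
      obtain ⟨hgG, h1, h2⟩ := hF1 g hgF
      obtain ⟨hk, hb1, hb2, hdiff, ho1, ho2, hcmp⟩ := hG g hgG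
      obtain ⟨hn, hL1, hL2⟩ := hnd g hc
      exact ⟨hk, hn, hb1, hb2, hdiff, hL1, hL2, ho1, ho2, hcmp _ _ hn hL1 hL2⟩
  have hN : ((S1.card * S2.card : ℕ) : ℝ) ≤ ((S1.card * S2.card : ℕ) : ℝ) ^ (1 + e₀) :=
    le_rpow_self _ _ he
  have hcast : (S1.card : ℝ) * S2.card = ((S1.card * S2.card : ℕ) : ℝ) := by push_cast; ring
  rw [hcast] at c3
  have c1' : (F1.card : ℝ) ≤ 10 * ((S1.card * S2.card : ℕ) : ℝ) := by exact_mod_cast c1
  have c2' : (F2.card : ℝ) ≤ 10 * ((S1.card * S2.card : ℕ) : ℝ) := by exact_mod_cast c2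
  have hcard' : (F.card : ℝ) ≤ F1.card + F2.card + F3.card := by exact_mod_cast hcard
  linarith only [hcard', c2', c1', hN, c3]

theorem two (hBip : BipStmt) : TwoStmt := by
  classical
  intro ε hε K3
  obtain ⟨K, hK, hB⟩ := hBip (ε / 4) (by positivity)
  obtain ⟨C1, hC1, hB'⟩ := hB (32 * K3 ^ 3)
  obtain ⟨C, hC0, hL⟩ := two_lines_iso K hK (20 + C1) (ε / 4) (by positivity) (by positivity)
    (ε / 2) (by linarith)
  refine ⟨max K 4, C + 1, by positivity, ?_⟩
  intro X Y G horth k x1 b1 x2 b2 hG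
  have h := hL X Y X Y G x1 b1 x2 b2 horth (fun g hg => (hG g hg).2.1) (fun g hg => (hG g hg).2.2.1)
    (fun S1 S2 => base_hyp (ε / 4) (by positivity) K hK C1 hC1 K3 hB' X Y G horth k x1 b1 x2 b2
      (fun g hg => by
        obtain ⟨hk, h⟩ := hG g hg
        exact ⟨le_trans (le_max_right _ _) hk, h⟩) S1 S2)
  have h2 : ∑ g ∈ G, ((k g : ℕ) : ℝ) ^ 3 ≤
      ∑ g ∈ G, (psi K (mtl X Y g (x1 g) (b1 g)).card (mtl X Y g (x2 g) (b2 g)).card : ℝ) := by
    refine Finset.sum_le_sum (fun g hg => ?_)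
    obtain ⟨hk, hb1, hb2, hdiff, ho1, ho2, _⟩ := hG g hg
    rw [mtl_card _ _ _ _ _ hb1, mtl_card _ _ _ _ _ hb2]
    have hkK : K ≤ k g := le_trans (le_max_left _ _) hk
    unfold psi
    rw [if_pos ⟨le_trans hkK ho1, le_trans hkK ho2⟩]
    have h3 : (k g) ^ 3 ≤ on (M g X Y) (x1 g) (b1 g) * on (M g X Y) (x2 g) (b2 g) *
        min (on (M g X Y) (x1 g) (b1 g)) (on (M g X Y) (x2 g) (b2 g)) := by
      calc (k g) ^ 3 = k g * k g * k g := by ring
        _ ≤ _ := Nat.mul_le_mul (Nat.mul_le_mul ho1 ho2) (le_min ho1 ho2)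
    exact_mod_cast h3
  refine le_trans h2 (le_trans h ?_)
  have h4 : ((X.card * Y.card * X.card * Y.card : ℕ) : ℝ) ^ (1 + ε / 2) =
      ((X.card : ℝ) * Y.card) ^ (2 + ε) := by
    have h5 : ((X.card * Y.card * X.card * Y.card : ℕ) : ℝ) = ((X.card : ℝ) * Y.card) ^ (2 : ℝ) := by
      push_cast
      rw [Real.rpow_two]
      ring
    rw [h5, ← Real.rpow_mul (by (clear * -; positivity))]
    congr 1
    ring
  rw [h4]
  have h6 : 0 ≤ ((X.card : ℝ) * Y.card) ^ (2 + ε) := Real.rpow_nonneg (by (clear * -; positivity)) _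
  linarith only [h6]

end Vale.Agent.P054.Two
end

section

/-! Theorem PL-BIP: polynomial partitioning of `ℝ⁶`, both sets of pairs shrink. -/

namespace Vale.Agent.P054.PL

open MvPolynomial Finset

open scoped Classical in
theorem Sc_union {ι : Type} (f : ι → MvPolynomial (Fin 6) ℝ) (S1 S2 : Finset (V3 × V3))
    (σ : ι → Bool) : Sc f S1 σ ∪ Sc f S2 σ = Sc f (S1 ∪ S2) σ := by
  unfold Sc
  rw [filter_union]

open scoped Classical in
theorem GoodB_congr {S1 S2 S1' S2' : Finset (V3 × V3)} {K : ℕ} {p : V3 × V3}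
    (h1 : Ms S1' p = Ms S1 p) (h2 : Ms S2' p = Ms S2 p)
    (h : Ms (S1' ∪ S2') p = Ms (S1 ∪ S2) p) (hg : GoodB S1 S2 K p) : GoodB S1' S2' K p := by
  refine ⟨?_, ?_⟩
  · rw [h1, h2]; exact hg.lines
  · rw [h]; exact hg.plane

open scoped Classical in
theorem wall_total_bip (hW : WallBipStmt) (m D : ℕ) (f : Fin (6 * m) → MvPolynomial (Fin 6) ℝ)
    (hf0 : ∀ j, f j ≠ 0) (hfD : ∀ j, (f j).totalDegree ≤ D) (S1 S2 G : Finset (V3 × V3)) (B : ℕ)
    (hG : ∀ p ∈ G, GoodB S1 S2 (D + 3) p) (hF : Fib (S1 ∪ S2) G B)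
    (hw : ∀ p ∈ G, ∃ j, eval (pv p) (f j) = 0) :
    #G ≤ (6 * m * 7 ^ D) * (D * (#S1 * #S2) + B * (D * #(S1 ∪ S2))) := by
  set H : Finset (MvPolynomial (Fin 6) ℝ) := univ.biUnion fun j => ders D (f j) with hH
  have hHc : #H ≤ 6 * m * 7 ^ D := by
    refine card_biUnion_le.trans ((sum_le_sum fun j _ => card_ders_le D (f j)).trans ?_)
    simp
  have hsub : G ⊆ H.biUnion fun h =>
      G.filter fun p => eval (pv p) h = 0 ∧ ∃ i, eval (pv p) (pderiv i h) ≠ 0 := by
    intro p hp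
    obtain ⟨j, hj⟩ := hw p hp
    obtain ⟨h, hh, h1, h2⟩ := exists_mem_ders (pv p) D (f j) (hf0 j) (hfD j) hj
    exact mem_biUnion.mpr ⟨h, mem_biUnion.mpr ⟨j, mem_univ j, hh⟩,
      mem_filter.mpr ⟨hp, h1, h2⟩⟩
  calc #G ≤ #(H.biUnion fun h =>
        G.filter fun p => eval (pv p) h = 0 ∧ ∃ i, eval (pv p) (pderiv i h) ≠ 0) :=
        card_le_card hsub
    _ ≤ ∑ h ∈ H, #(G.filter fun p => eval (pv p) h = 0 ∧ ∃ i, eval (pv p) (pderiv i h) ≠ 0) :=
        card_biUnion_le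
    _ ≤ ∑ _h ∈ H, (D * (#S1 * #S2) + B * (D * #(S1 ∪ S2))) := by
        refine sum_le_sum fun h hh => ?_
        obtain ⟨j, _, hj⟩ := mem_biUnion.mp hh
        exact hW D h (totalDegree_of_mem_ders D D (f j) (hfD j) h hj) S1 S2 _ B
          (fun p hp => hG p (mem_filter.mp hp).1) (Fib_subset (filter_subset _ _) hF)
          (fun p hp => (mem_filter.mp hp).2)
    _ = #H * (D * (#S1 * #S2) + B * (D * #(S1 ∪ S2))) := by rw [sum_const, smul_eq_mul]
    _ ≤ _ := Nat.mul_le_mul_right _ hHc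

open scoped Classical in
theorem exists_cell_bip {ι : Type} [Fintype ι] (f : ι → MvPolynomial (Fin 6) ℝ) (D : ℕ)
    (hD : ∑ j, (f j).totalDegree ≤ D) (S1 S2 G : Finset (V3 × V3))
    (G' : Finset (V3 × V3)) (hG' : ∀ p, p ∈ G' ↔ p ∈ G ∧ ∀ j, eval (pv p) (f j) ≠ 0)
    (hne : G'.Nonempty) :
    ∃ σ : ι → Bool, 0 < #(G.filter fun p => InCell f σ (pv p)) ∧
      (#(Sc f S1 σ) * #S2 + #(Sc f S2 σ) * #S1) * #G' ≤
        2 * ((2 * D + 1) ^ 3 * (#S1 * #S2)) * #(G.filter fun p => InCell f σ (pv p)) := by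
  let sg : V3 × V3 → (ι → Bool) := fun p j => decide (0 < eval (pv p) (f j))
  have hcell : ∀ σ, (G'.filter fun p => sg p = σ) = G.filter fun p => InCell f σ (pv p) := by
    intro σ
    ext p
    rw [mem_filter, mem_filter, hG']
    constructor
    · rintro ⟨⟨h1, h2⟩, rfl⟩
      exact ⟨h1, fun j => ⟨h2 j, by simp [sg]⟩⟩
    · rintro ⟨h1, h2⟩
      refine ⟨⟨h1, fun j => (h2 j).1⟩, ?_⟩
      funext j
      have := (h2 j).2
      simp only [sg]
      rw [Bool.eq_iff_iff, decide_eq_true_iff]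
      exact this.symm
  have hsum : ∑ σ ∈ G'.image sg, #(G.filter fun p => InCell f σ (pv p)) = #G' := by
    rw [card_eq_sum_card_image sg G']
    exact sum_congr rfl fun σ _ => by rw [hcell]
  have hle : ∑ σ ∈ G'.image sg, (#(Sc f S1 σ) * #S2 + #(Sc f S2 σ) * #S1) * #G' ≤
      ∑ σ ∈ G'.image sg, 2 * ((2 * D + 1) ^ 3 * (#S1 * #S2)) *
        #(G.filter fun p => InCell f σ (pv p)) := by
    rw [← sum_mul, ← mul_sum, hsum]
    refine Nat.mul_le_mul_right _ ?_
    rw [sum_add_distrib, ← sum_mul, ← sum_mul]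
    have h1 := (sum_le_sum_of_subset (f := fun σ => #(Sc f S1 σ))
      (subset_univ (G'.image sg))).trans (sum_Sc_le f D hD S1)
    have h2 := (sum_le_sum_of_subset (f := fun σ => #(Sc f S2 σ))
      (subset_univ (G'.image sg))).trans (sum_Sc_le f D hD S2)
    calc (∑ σ ∈ G'.image sg, #(Sc f S1 σ)) * #S2 + (∑ σ ∈ G'.image sg, #(Sc f S2 σ)) * #S1
        ≤ ((2 * D + 1) ^ 3 * #S1) * #S2 + ((2 * D + 1) ^ 3 * #S2) * #S1 :=
          Nat.add_le_add (Nat.mul_le_mul_right _ h1) (Nat.mul_le_mul_right _ h2)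
      _ = 2 * ((2 * D + 1) ^ 3 * (#S1 * #S2)) := by ring
  obtain ⟨σ, hσ, h1⟩ := exists_le_of_sum_le (hne.image sg) hle
  refine ⟨σ, ?_, h1⟩
  obtain ⟨p, hp, hpσ⟩ := mem_image.mp hσ
  refine card_pos.mpr ⟨p, ?_⟩
  rw [← hcell]
  exact mem_filter.mpr ⟨hp, hpσ⟩

/-- arithmetic-geometric mean -/
theorem am_gm_aux (a b s t g g' B : ℝ) (ha : 0 ≤ a) (hb : 0 ≤ b) (hs : 0 < s) (ht : 0 < t)
    (hg' : 0 ≤ g')
    (h : (a * t + b * s) * g' ≤ 2 * (B * (s * t)) * g) :
    Real.sqrt (a * b) * g' ≤ B * Real.sqrt (s * t) * g := by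
  have hst : 0 < s * t := mul_pos hs ht
  have h1 : 2 * (Real.sqrt (a * b) * Real.sqrt (s * t)) ≤ a * t + b * s := by
    have h2 : Real.sqrt (a * b) * Real.sqrt (s * t) = Real.sqrt (a * t) * Real.sqrt (b * s) := by
      rw [← Real.sqrt_mul (mul_nonneg ha hb), ← Real.sqrt_mul (mul_nonneg ha ht.le)]
      congr 1
      ring
    rw [h2]
    linarith only [Real.sq_sqrt (mul_nonneg hb hs.le), Real.sq_sqrt (mul_nonneg ha ht.le), sq_nonneg (Real.sqrt (a * t) - Real.sqrt (b * s))]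
  have h3 : 0 < Real.sqrt (s * t) := Real.sqrt_pos.mpr hst
  have h4 : Real.sqrt (s * t) * Real.sqrt (s * t) = s * t := Real.mul_self_sqrt hst.le
  have h5 : Real.sqrt (s * t) * (Real.sqrt (a * b) * g') ≤
      Real.sqrt (s * t) * (B * Real.sqrt (s * t) * g) := by
    have h6 := mul_le_mul_of_nonneg_right h1 hg'
    have h7 : Real.sqrt (s * t) * (B * Real.sqrt (s * t) * g) = B * (s * t) * g := by
      calc Real.sqrt (s * t) * (B * Real.sqrt (s * t) * g)
          = B * (Real.sqrt (s * t) * Real.sqrt (s * t)) * g := by ring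
        _ = B * (s * t) * g := by rw [h4]
    rw [h7]
    linarith
  exact le_of_mul_le_mul_left h5 h3

theorem sqrt_rpow_aux (x e : ℝ) (hx : 0 ≤ x) :
    Real.sqrt x ^ (2 + 2 * e) = x ^ (1 + e) := by
  rw [Real.sqrt_eq_rpow, ← Real.rpow_mul hx]
  congr 1
  ring

open scoped Classical in
theorem coreBip_of_wall (hW : WallBipStmt) : CoreBipStmt := by
  intro ε hε
  obtain ⟨m, hm1, hm⟩ := exists_m (2 * ε) (by positivity)
  set D : ℕ := 72 * 2 ^ m with hD
  refine ⟨D + 3, fun B => ?_⟩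
  set C : ℝ := 2 * ((6 * m * 7 ^ D : ℕ) : ℝ) * (D * (1 + 2 * B)) + 1 with hC
  have hC0 : 0 < C := by positivity
  refine ⟨C, hC0, ?_⟩
  have main : ∀ (n : ℕ) (S1 S2 G : Finset (V3 × V3)), #G ≤ n →
      (∀ p ∈ G, GoodB S1 S2 (D + 3) p) →
      Fib (S1 ∪ S2) G B → (#G : ℝ) ≤ C * ((#S1 : ℝ) * (#S2 : ℝ)) ^ (1 + ε) := by
    intro n
    induction n using Nat.strong_induction_on with
    | _ n ih =>
      intro S1 S2 G hn hGood hF
      rcases G.eq_empty_or_nonempty with h0 | hGne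
      · rw [h0, card_empty, Nat.cast_zero]
        (clear * - hm1; positivity)
      have hS : 1 ≤ #S1 ∧ 1 ≤ #S2 := by
        obtain ⟨p, hp⟩ := hGne
        obtain ⟨x1, b1, x2, b2, _, _, h1, h2, _⟩ := (hGood p hp).lines
        have h3 : #((Ms S1 p).filter fun q => crossProduct (q.1 - x1) b1 = 0) ≤ #S1 :=
          card_le_card ((filter_subset _ _).trans (filter_subset _ _))
        have h4 : #((Ms S2 p).filter fun q => crossProduct (q.1 - x2) b2 = 0) ≤ #S2 :=
          card_le_card ((filter_subset _ _).trans (filter_subset _ _))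
        omega
      obtain ⟨hS1, hS2⟩ := hS
      obtain ⟨f, hf0, hdeg, hcell⟩ := cell_partition6 m G
      set G' := G.filter fun p => ∀ j, eval (pv p) (f j) ≠ 0 with hG'
      set Wl := G.filter fun p => ¬ ∀ j, eval (pv p) (f j) ≠ 0 with hWl
      have hsplit : #G' + #Wl = #G := card_filter_add_card_filter_not _
      by_cases hA : #G ≤ 2 * #G'
      · have hGpos := card_pos.mpr hGne
        have hG'ne : G'.Nonempty := card_pos.mp (by omega)
        obtain ⟨σ, hσ1, hσ2⟩ := exists_cell_bip f D hdeg S1 S2 G G'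
          (fun p => by rw [hG', mem_filter]) hG'ne
        set Gs := G.filter fun p => InCell f σ (pv p) with hGs
        have h3 : 2 ^ (6 * m) * #Gs ≤ #G := hcell σ
        have hlt : #Gs < n := by
          have h4 : 2 ^ 1 ≤ 2 ^ (6 * m) := Nat.pow_le_pow_right (by norm_num) (by omega)
          have h5 : 2 * #Gs ≤ 2 ^ (6 * m) * #Gs := Nat.mul_le_mul_right _ h4
          omega
        have hMs : ∀ S : Finset (V3 × V3), ∀ p ∈ Gs, Ms (Sc f S σ) p = Ms S p := fun S p hp =>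
          Ms_Sc f S σ p (mem_filter.mp hp).2
        have hMsU : ∀ p ∈ Gs, Ms (Sc f S1 σ ∪ Sc f S2 σ) p = Ms (S1 ∪ S2) p := fun p hp => by
          rw [Sc_union]; exact hMs _ p hp
        have hih := ih (#Gs) hlt (Sc f S1 σ) (Sc f S2 σ) Gs le_rfl
          (fun p hp => GoodB_congr (hMs S1 p hp) (hMs S2 p hp) (hMsU p hp)
            (hGood p (mem_filter.mp hp).1))
          (fun q0 hq0 nn hnn δ => by
            have hq0' : q0 ∈ S1 ∪ S2 := by
              rw [Sc_union] at hq0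
              exact (mem_filter.mp hq0).1
            refine (card_le_card ?_).trans (hF q0 hq0' nn hnn δ)
            intro p hp
            obtain ⟨h6, h7⟩ := mem_filter.mp hp
            rw [hMsU p h6] at h7
            exact mem_filter.mpr ⟨(mem_filter.mp h6).1, h7⟩)
        have hih' : (#Gs : ℝ) ≤
            C * Real.sqrt ((#(Sc f S1 σ) : ℝ) * (#(Sc f S2 σ) : ℝ)) ^ (2 + 2 * ε) := by
          rw [sqrt_rpow_aux _ _ (by (clear * -; positivity))]
          exact hih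
        have hfin := power_step (2 * ε) C (#G) (#G') (#Gs)
          (Real.sqrt ((#(Sc f S1 σ) : ℝ) * (#(Sc f S2 σ) : ℝ)))
          (Real.sqrt ((#S1 : ℝ) * (#S2 : ℝ)))
          (((2 * D + 1 : ℕ) : ℝ) ^ 3) ((2 : ℝ) ^ (6 * m)) (by positivity) hC0
          (by exact_mod_cast hσ1)
          (by (clear * -; positivity)) (by positivity) (by (clear * - hS1 hS2; positivity)) (by positivity) (by positivity)
          hih' ?_ (by exact_mod_cast h3) (by exact_mod_cast hA) hm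
        · rwa [sqrt_rpow_aux _ _ (by (clear * - hS1 hS2; positivity))] at hfin
        · refine am_gm_aux _ _ _ _ _ _ _ (by (clear * -; positivity)) (by (clear * -; positivity))
            (by exact_mod_cast hS1) (by exact_mod_cast hS2) (by positivity) ?_
          exact_mod_cast hσ2
      · have hB : #G ≤ 2 * #Wl := by omega
        have hfD : ∀ j, (f j).totalDegree ≤ D := fun j =>
          (single_le_sum (f := fun j => (f j).totalDegree) (fun _ _ => Nat.zero_le _)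
            (mem_univ j)).trans hdeg
        have h1 := wall_total_bip hW m D f hf0 hfD S1 S2 Wl B
          (fun p hp => hGood p (mem_filter.mp hp).1) (Fib_subset (filter_subset _ _) hF)
          (fun p hp => by
            have := (mem_filter.mp hp).2
            push Not at this
            exact this)
        have h2 : #G ≤ 2 * ((6 * m * 7 ^ D) * (D * (1 + 2 * B) * (#S1 * #S2))) := by
          refine hB.trans (Nat.mul_le_mul_left 2 (h1.trans (Nat.mul_le_mul_left _ ?_)))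
          have h3 : #(S1 ∪ S2) ≤ 2 * (#S1 * #S2) := by
            refine (card_union_le _ _).trans ?_
            have h5 : #S1 ≤ #S1 * #S2 := Nat.le_mul_of_pos_right _ (by omega)
            have h6 : #S2 ≤ #S1 * #S2 := Nat.le_mul_of_pos_left _ (by omega)
            omega
          have h4 : B * (D * #(S1 ∪ S2)) ≤ B * (D * (2 * (#S1 * #S2))) :=
            Nat.mul_le_mul_left _ (Nat.mul_le_mul_left _ h3)
          calc D * (#S1 * #S2) + B * (D * #(S1 ∪ S2))
              ≤ D * (#S1 * #S2) + B * (D * (2 * (#S1 * #S2))) := Nat.add_le_add_left h4 _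
            _ = D * (1 + 2 * B) * (#S1 * #S2) := by ring
        have h3 : (#G : ℝ) ≤ 2 * (((6 * m * 7 ^ D : ℕ) : ℝ) *
            (D * (1 + 2 * B) * ((#S1 : ℝ) * (#S2 : ℝ)))) := by
          exact_mod_cast h2
        have hS1' : (1 : ℝ) ≤ (#S1 : ℝ) * (#S2 : ℝ) := by
          have h5 : 1 ≤ #S1 * #S2 := Nat.mul_pos hS1 hS2
          exact_mod_cast h5
        have h4 : (#S1 : ℝ) * (#S2 : ℝ) ≤ ((#S1 : ℝ) * (#S2 : ℝ)) ^ (1 + ε) := by
          conv_lhs => rw [← Real.rpow_one ((#S1 : ℝ) * (#S2 : ℝ))]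
          exact Real.rpow_le_rpow_of_exponent_le hS1' (by linarith only [hε])
        have h5 : 0 ≤ ((#S1 : ℝ) * (#S2 : ℝ)) ^ (1 + ε) := by (clear * - hS1 hS2; positivity)
        calc (#G : ℝ) ≤ 2 * (((6 * m * 7 ^ D : ℕ) : ℝ) *
              (D * (1 + 2 * B) * ((#S1 : ℝ) * (#S2 : ℝ)))) := h3
          _ = (2 * ((6 * m * 7 ^ D : ℕ) : ℝ) * (D * (1 + 2 * B))) * ((#S1 : ℝ) * (#S2 : ℝ)) := by
              ring
          _ ≤ (2 * ((6 * m * 7 ^ D : ℕ) : ℝ) * (D * (1 + 2 * B))) *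
              ((#S1 : ℝ) * (#S2 : ℝ)) ^ (1 + ε) :=
              mul_le_mul_of_nonneg_left h4 (by positivity)
          _ ≤ C * ((#S1 : ℝ) * (#S2 : ℝ)) ^ (1 + ε) := by
              rw [hC, add_mul, one_mul]
              linarith
  exact fun S1 S2 G h1 h2 => main _ S1 S2 G le_rfl h1 h2

/-- **Theorem PL-BIP** -/
theorem coreBip : CoreBipStmt := coreBip_of_wall (wallBipStmt planeStmt planesStmt lineStmt)

end Vale.Agent.P054.PL
end

section

/-! P054, TwoStmt: the bipartite planar count in isometry form. -/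

set_option linter.all false
set_option autoImplicit false

namespace Vale.Agent.P054.Two

open Finset Matrix
open Vale.Agent.P054.R
open Vale.Agent.P054.PL (Mt Ms mem_Ms Fib GoodB TR HMr HM_e HM_orth HM_det HM_TR cay mt_cay
  orth_mul_t iso_unique prt_eq_of_three par_of_cross off_line lines_eq CoreBipStmt coreBip)

theorem par_iff {b1 b2 c : V3} (h : crossProduct b1 b2 = 0) (h1 : b1 ≠ 0) (h2 : b2 ≠ 0) :
    crossProduct c b1 = 0 ↔ crossProduct c b2 = 0 := by
  obtain ⟨l, hl⟩ : ∃ l : ℝ, b1 = l • b2 := ⟨_, par_of_cross h h2⟩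
  have hl0 : l ≠ 0 := by
    intro hc
    rw [hc, zero_smul] at hl
    exact h1 hl
  rw [hl, map_smul]
  exact ⟨fun h => (smul_eq_zero.1 h).resolve_left hl0, fun h => by rw [h, smul_zero]⟩

theorem diff_of_DiffL {x1 b1 x2 b2 : V3} (h1 : b1 ≠ 0) (h2 : b2 ≠ 0)
    (h : DiffL x1 b1 x2 b2) : ¬ (crossProduct b1 b2 = 0 ∧ crossProduct (x2 - x1) b1 = 0) := by
  rintro ⟨h3, h4⟩
  apply h
  intro a
  unfold OnL
  have h5 : a - x1 = (a - x2) + (x2 - x1) := by abel
  rw [h5, map_add, LinearMap.add_apply, h4, add_zero]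
  exact par_iff h3 h1 h2

/-- three noncollinear matched points -/
theorem three_pts {S1 S2 : Finset (V3 × V3)} {g : Iso} {x1 b1 x2 b2 : V3} (h1 : b1 ≠ 0)
    (h2 : b2 ≠ 0) (h : DiffL x1 b1 x2 b2) (hc1 : 2 ≤ (mpl S1 g x1 b1).card)
    (hc2 : 2 ≤ (mpl S2 g x2 b2).card) :
    ∃ q1 q2 q3 : V3 × V3, (q1 ∈ S1 ∧ q2 ∈ S1 ∧ q3 ∈ S2) ∧ act g q1.1 = q1.2 ∧ act g q2.1 = q2.2 ∧
      act g q3.1 = q3.2 ∧ crossProduct (q2.1 - q1.1) (q3.1 - q1.1) ≠ 0 := by
  classical
  have hd := diff_of_DiffL h1 h2 h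
  obtain ⟨q1, hq1, q2, hq2, h12⟩ := Finset.one_lt_card.1 hc1
  obtain ⟨q3, hq3, q4, hq4, h34⟩ := Finset.one_lt_card.1 hc2
  unfold mpl at hq1 hq2 hq3 hq4
  rw [mem_filter] at hq1 hq2 hq3 hq4
  have h12' : q1.1 ≠ q2.1 := fun he => h12 (Prod.ext he (by rw [← hq1.2.2, ← hq2.2.2, he]))
  have h34' : q3.1 ≠ q4.1 := fun he => h34 (Prod.ext he (by rw [← hq3.2.2, ← hq4.2.2, he]))
  by_cases h3 : OnL x1 b1 q3.1
  · have h4 : ¬ OnL x1 b1 q4.1 := fun h4 =>
      hd (lines_eq h1 h2 h3 h4 hq3.2.1 hq4.2.1 h34')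
    exact ⟨q1, q2, q4, ⟨hq1.1, hq2.1, hq4.1⟩, hq1.2.2, hq2.2.2, hq4.2.2,
      fun hc => h4 (off_line h1 hq1.2.1 hq2.2.1 h12' hc)⟩
  · exact ⟨q1, q2, q3, ⟨hq1.1, hq2.1, hq3.1⟩, hq1.2.2, hq2.2.2, hq3.2.2,
      fun hc => h3 (off_line h1 hq1.2.1 hq2.2.1 h12' hc)⟩

open scoped Classical in
/-- one orientation -/
theorem bip_sign (ε : ℝ) (K B : ℕ) (hK : 2 ≤ K) (C : ℝ)
    (hC : ∀ (S1 S2 G : Finset (V3 × V3)), (∀ p ∈ G, GoodB S1 S2 K p) → Fib (S1 ∪ S2) G B →
      (G.card : ℝ) ≤ C * ((S1.card : ℝ) * (S2.card : ℝ)) ^ (1 + ε))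
    (s : ℝ) (hs : s * s = 1)
    (S1 S2 : Finset (V3 × V3)) (G : Finset Iso) (n : Iso → V3) (d : Iso → ℝ)
    (x1 b1 x2 b2 : Iso → V3) (hdet : ∀ g ∈ G, g.1.det = s)
    (hG : ∀ g ∈ G, Orth g ∧ n g ≠ 0 ∧ b1 g ≠ 0 ∧ b2 g ≠ 0 ∧ DiffL (x1 g) (b1 g) (x2 g) (b2 g) ∧
      K ≤ (mpl S1 g (x1 g) (b1 g)).card ∧ K ≤ (mpl S2 g (x2 g) (b2 g)).card ∧
      ∀ s ∈ S1 ∪ S2, act g s.1 = s.2 → OnP (n g) (d g) s.1)
    (hB : ∀ h : Iso, (G.filter (fun g => prt g (n g) (d g) = h)).card ≤ B) :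
    (G.card : ℝ) ≤ C * ((S1.card : ℝ) * S2.card) ^ (1 + ε) := by
  obtain ⟨Q0, ho, hd, hne⟩ := J.exists_generic (G.image (fun g => s • g.1)) (by
    intro Q hQ
    obtain ⟨g, hg, rfl⟩ := Finset.mem_image.1 hQ
    refine ⟨?_, ?_⟩
    · rw [Matrix.transpose_smul, Matrix.smul_mul, Matrix.mul_smul, smul_smul, hs, one_smul]
      exact (hG g hg).1
    · rw [Matrix.det_smul, hdet g hg, Fintype.card_fin]
      have : s ^ 3 * s = (s * s) * (s * s) := by ring
      rw [this, hs, one_mul])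
  set U : Matrix (Fin 3) (Fin 3) ℝ := s • Q0 with hU
  have hUo : Uᵀ * U = 1 := by
    rw [hU, Matrix.transpose_smul, Matrix.smul_mul, Matrix.mul_smul, smul_smul, hs, one_smul, ho]
  have hUd : U.det = s := by
    rw [hU, Matrix.det_smul, hd, Fintype.card_fin]
    have : s ^ 3 * 1 = (s * s) * s := by ring
    rw [this, hs, one_mul]
  have hUinj : ∀ v w : V3, U.mulVec v = U.mulVec w → v = w := by
    intro v w h
    have h1 := congrArg (fun u => Uᵀ.mulVec u) h
    simpa [Matrix.mulVec_mulVec, hUo] using h1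
  set tw : Iso → Iso := fun g => (U * g.1, U.mulVec g.2) with htw
  have htwo : ∀ g ∈ G, Orth (tw g) := by
    intro g hg
    have := (hG g hg).1
    unfold Orth at this ⊢
    change (U * g.1)ᵀ * (U * g.1) = 1
    rw [Matrix.transpose_mul, Matrix.mul_assoc, ← Matrix.mul_assoc Uᵀ, hUo, one_mul, this]
  have htwd : ∀ g ∈ G, (1 + (tw g).1).det ≠ 0 := by
    intro g hg
    have h1 := hne (s • g.1) (Finset.mem_image_of_mem _ hg)
    have h2 : (tw g).1 = Q0 * (s • g.1) := by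
      change U * g.1 = _
      rw [hU, Matrix.smul_mul, Matrix.mul_smul]
    rw [h2]
    exact h1
  have htwa : ∀ g : Iso, ∀ a : V3, act (tw g) a = U.mulVec (act g a) := by
    intro g a
    unfold act
    change (U * g.1).mulVec a + U.mulVec g.2 = _
    rw [← Matrix.mulVec_mulVec, Matrix.mulVec_add]
  set φ : Iso → V3 × V3 := fun g => cay (tw g) with hφ
  set ψ : V3 × V3 → V3 × V3 := fun q => (q.1, U.mulVec q.2) with hψ
  have hψi : Function.Injective ψ := by
    intro q q' h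
    have e1 : (ψ q).1 = (ψ q').1 := congrArg Prod.fst h
    have e2 : (ψ q).2 = (ψ q').2 := congrArg Prod.snd h
    change q.1 = q'.1 at e1
    change U.mulVec q.2 = U.mulVec q'.2 at e2
    exact Prod.ext e1 (hUinj _ _ e2)
  have hmt : ∀ g ∈ G, ∀ q : V3 × V3, Mt (φ g) (ψ q) ↔ act g q.1 = q.2 := by
    intro g hg q
    change Mt (cay (tw g)) (q.1, U.mulVec q.2) ↔ _
    rw [mt_cay (htwo g hg) (htwd g hg), htwa]
    exact ⟨fun h => hUinj _ _ h, fun h => by rw [h]⟩
  have hφi : Set.InjOn φ (G : Set Iso) := by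
    intro g hg g' hg' h
    have h1 : J.cyOm (tw g) = J.cyOm (tw g') := congrArg Prod.fst h
    have h2 : J.cyW (tw g) = J.cyW (tw g') := congrArg Prod.snd h
    have h3 : tw g = tw g' := J.cy_inj (htwo g hg) (htwd g hg) (htwo g' hg') (htwd g' hg') h1 h2
    have h4 : U * g.1 = U * g'.1 := congrArg Prod.fst h3
    have h5 : U.mulVec g.2 = U.mulVec g'.2 := congrArg Prod.snd h3
    refine Prod.ext ?_ (hUinj _ _ h5)
    have h6 := congrArg (fun M => Uᵀ * M) h4
    simpa [← Matrix.mul_assoc, hUo] using h6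
  -- apply the theorem
  have hmain := hC (S1.image ψ) (S2.image ψ) (G.image φ) ?_ ?_
  · rwa [Finset.card_image_of_injOn hφi, Finset.card_image_of_injective _ hψi,
      Finset.card_image_of_injective _ hψi] at hmain
  · -- GoodB
    intro p hp
    obtain ⟨g, hg, rfl⟩ := Finset.mem_image.1 hp
    obtain ⟨_, hn, hb1, hb2, hD, hc1, hc2, hpl⟩ := hG g hg
    have hkey : ∀ (S : Finset (V3 × V3)) (x b : V3), (mpl S g x b).card ≤
        ((Ms (S.image ψ) (φ g)).filter (fun q => crossProduct (q.1 - x) b = 0)).card := by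
      intro S x b
      rw [← Finset.card_image_of_injective (mpl S g x b) hψi]
      refine Finset.card_le_card ?_
      intro q' hq'
      obtain ⟨q, hq, rfl⟩ := Finset.mem_image.1 hq'
      unfold mpl at hq
      rw [mem_filter] at hq
      rw [mem_filter, mem_Ms]
      exact ⟨⟨Finset.mem_image_of_mem _ hq.1, (hmt g hg q).2 hq.2.2⟩, hq.2.1⟩
    refine ⟨⟨x1 g, b1 g, x2 g, b2 g, hb1, hb2, hc1.trans (hkey _ _ _), hc2.trans (hkey _ _ _),
      diff_of_DiffL hb1 hb2 hD⟩, n g, hn, ?_⟩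
    intro q hq q' hq'
    rw [mem_Ms, ← Finset.image_union] at hq hq'
    obtain ⟨⟨r, hr, rfl⟩, hm⟩ := And.imp_left Finset.mem_image.1 hq
    obtain ⟨⟨r', hr', rfl⟩, hm'⟩ := And.imp_left Finset.mem_image.1 hq'
    have e1 := hpl r hr ((hmt g hg r).1 hm)
    have e2 := hpl r' hr' ((hmt g hg r').1 hm')
    unfold OnP at e1 e2
    change n g ⬝ᵥ (r'.1 - r.1) = 0
    rw [dotProduct_sub, e1, e2, sub_self]
  · -- Fib
    intro q0' hq0' m hm δ
    rw [← Finset.image_union] at hq0'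
    obtain ⟨q0, hq0, rfl⟩ := Finset.mem_image.1 hq0'
    obtain ⟨r, hr⟩ := HM_e hm δ
    set H := Uᵀ * HMr m δ r with hH
    set h : Iso := (H, q0.2 - H.mulVec q0.1) with hh
    have hHo : Orth h := by
      change Hᵀ * H = 1
      rw [hH, Matrix.transpose_mul, Matrix.transpose_transpose, Matrix.mul_assoc,
        ← Matrix.mul_assoc U, orth_mul_t hUo, one_mul, HM_orth hr]
    have hHd : h.1.det = -s := by
      change H.det = -s
      rw [hH, Matrix.det_mul, Matrix.det_transpose, hUd, HM_det hr]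
      ring
    refine le_trans ?_ (hB h)
    rw [← Finset.card_image_of_injOn (hφi.mono (fun g hg => (Finset.mem_filter.1 hg).1) :
      Set.InjOn φ ((G.filter (fun g => prt g (n g) (d g) = h) : Finset Iso) : Set Iso))]
    refine Finset.card_le_card ?_
    intro p hp
    rw [mem_filter] at hp
    obtain ⟨hpG, hp0, hpT⟩ := hp
    obtain ⟨g, hg, rfl⟩ := Finset.mem_image.1 hpG
    refine Finset.mem_image_of_mem _ (Finset.mem_filter.2 ⟨hg, ?_⟩)
    obtain ⟨hor, hn, hb1, hb2, hD, hc1, hc2, hpl⟩ := hG g hg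
    have hact : ∀ q ∈ S1 ∪ S2, act g q.1 = q.2 → act g q.1 = act h q.1 := by
      intro q hq hgq
      have h1 : TR m δ (ψ q0) (ψ q) := by
        refine hpT (ψ q) ?_
        rw [mem_Ms, ← Finset.image_union]
        exact ⟨Finset.mem_image_of_mem _ hq, (hmt g hg q).2 hgq⟩
      have h2 : U.mulVec q.2 - U.mulVec q0.2 = (HMr m δ r).mulVec (q.1 - q0.1) :=
        HM_TR hr h1.1 h1.2
      have h3 : q.2 - q0.2 = H.mulVec (q.1 - q0.1) := by
        rw [hH, ← Matrix.mulVec_mulVec, ← h2, ← Matrix.mulVec_sub, Matrix.mulVec_mulVec, hUo,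
          Matrix.one_mulVec]
      rw [hgq]
      change q.2 = H.mulVec q.1 + (q0.2 - H.mulVec q0.1)
      rw [Matrix.mulVec_sub] at h3
      have : q.2 = (q.2 - q0.2) + q0.2 := by abel
      rw [this, h3]
      abel
    obtain ⟨q1, q2, q3, ⟨m1, m2, m3⟩, a1, a2, a3, hnc⟩ :=
      three_pts hb1 hb2 hD (hK.trans hc1) (hK.trans hc2)
    have u1 : q1 ∈ S1 ∪ S2 := Finset.mem_union_left _ m1
    have u2 : q2 ∈ S1 ∪ S2 := Finset.mem_union_left _ m2
    have u3 : q3 ∈ S1 ∪ S2 := Finset.mem_union_right _ m3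
    refine prt_eq_of_three hor hHo hn ?_ hnc (hpl q1 u1 a1) (hpl q2 u2 a2) (hpl q3 u3 a3)
      (hact q1 u1 a1) (hact q2 u2 a2) (hact q3 u3 a3)
    rw [hdet g hg, hHd]
    linarith

/-- **Bipartite planar count** for isometries. -/
theorem bip : BipStmt := by
  classical
  intro ε hε
  obtain ⟨K0, hK0⟩ := coreBip ε hε
  refine ⟨max K0 2, le_max_right _ _, fun B => ?_⟩
  obtain ⟨C, hC0, hC⟩ := hK0 B
  refine ⟨2 * C, by positivity, ?_⟩
  intro S1 S2 G n d x1 b1 x2 b2 hG hB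
  have hC' : ∀ (S1 S2 G : Finset (V3 × V3)), (∀ p ∈ G, GoodB S1 S2 (max K0 2) p) →
      Fib (S1 ∪ S2) G B → (G.card : ℝ) ≤ C * ((S1.card : ℝ) * (S2.card : ℝ)) ^ (1 + ε) := by
    intro S1 S2 G h1 h2
    refine hC S1 S2 G (fun p hp => ?_) h2
    obtain ⟨⟨y1, c1, y2, c2, e1, e2, e3, e4, e5⟩, e6⟩ := h1 p hp
    exact ⟨⟨y1, c1, y2, c2, e1, e2, (le_max_left _ _).trans e3, (le_max_left _ _).trans e4, e5⟩,
      e6⟩
  have hdet : ∀ g ∈ G, g.1.det = 1 ∨ g.1.det = -1 := by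
    intro g hg
    have h1 := (hG g hg).1
    unfold Orth at h1
    have h2 := congrArg Matrix.det h1
    rw [Matrix.det_mul, Matrix.det_transpose, Matrix.det_one] at h2
    exact mul_self_eq_one_iff.1 h2
  have hsplit : G = G.filter (fun g => g.1.det = 1) ∪ G.filter (fun g => g.1.det = -1) := by
    ext g
    rw [mem_union, mem_filter, mem_filter]
    constructor
    · intro hg
      rcases hdet g hg with h | h
      · exact Or.inl ⟨hg, h⟩
      · exact Or.inr ⟨hg, h⟩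
    · rintro (h | h)
      · exact h.1
      · exact h.1
  have hone : ∀ s : ℝ, s * s = 1 → ((G.filter (fun g => g.1.det = s)).card : ℝ) ≤
      C * ((S1.card : ℝ) * S2.card) ^ (1 + ε) := by
    intro s hs
    refine bip_sign ε (max K0 2) B (le_max_right _ _) C hC' s hs S1 S2 _ n d x1 b1 x2 b2
      (fun g hg => (mem_filter.1 hg).2) (fun g hg => ?_) (fun h => ?_)
    · obtain ⟨e1, e2, e3, e4, e5, _, _, e6, e7, e8⟩ := hG g (mem_filter.1 hg).1
      exact ⟨e1, e2, e3, e4, e5, e6, e7, e8⟩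
    · refine le_trans (Finset.card_le_card ?_) (hB h)
      exact Finset.filter_subset_filter _ (Finset.filter_subset _ _)
  have h1 := hone 1 (by norm_num)
  have h2 := hone (-1) (by norm_num)
  have h3 : (G.card : ℝ) ≤ ((G.filter (fun g => g.1.det = 1)).card : ℝ) +
      ((G.filter (fun g => g.1.det = -1)).card : ℝ) := by
    have h4 : G.card ≤ (G.filter (fun g => g.1.det = 1)).card +
        (G.filter (fun g => g.1.det = -1)).card := by
      conv_lhs => rw [hsplit]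
      exact Finset.card_union_le _ _
    exact_mod_cast h4
  linarith

end Vale.Agent.P054.Two
end

section

/-! P054: Theorem R, unconditional. -/

set_option linter.all false

namespace Vale.Agent.P054.R

theorem r_stmt : RStmt := rstmt Vale.Agent.P054.PL.planar (Vale.Agent.P054.Two.two Vale.Agent.P054.Two.bip)

end Vale.Agent.P054.R
end
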